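import Vale.Agent.P167.H192.TA.Geo
import Vale.Agent.P167.H135.Z.Up
import Vale.Agent.P167.H632.Prob

/-!
# P167, the range `0 < q < 1`: the arm of a killed site

`AZ e I z R`: an arm of colour `e` from the site `z` to distance `R`, in the squares of the box
`Bq z R` (the squares at distance at most `R` of the site `z`) which are not in `I`.
-/

namespace Vale.Agent.P167.N.ID

open Finset Relation
open Vale.Agent.P167
open Vale.Agent.P145.FB (PStep)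
open Vale.Agent.P167.FK
open Vale.Agent.P167.FKA (Loc)
open Vale.Agent.P167.H871 (IsC)
open Vale.Agent.P167.H632 (cs pr IncC nm_le le_nm)
open Vale.Agent.P167.H192.TA (Pw)

variable {e : Bool} {I J D D' : Finset (ℤ × ℤ)} {z s t v : ℤ × ℤ} {R R' : ℤ} {ω ω' : Cfg}
  {F G : Set (ℤ × ℤ)}

/-- **The arm of colour `e` from `z` to distance `R` off `I`.** -/
def AZ (e : Bool) (I : Finset (ℤ × ℤ)) (z : ℤ × ℤ) (R : ℤ) : Set Cfg :=
  {ω | ∃ s, R ≤ nm (s - z) ∧ Pw (cs e ω ∩ ↑(Bq z R \ I)) z s}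

theorem mem_Bz : v ∈ Bq z R ↔ (z.1 - R ≤ v.1 ∧ v.1 < z.1 + R) ∧ z.2 - R ≤ v.2 ∧ v.2 < z.2 + R := by
  simp only [Bq, Finset.mem_product, Finset.mem_Ico]

/-- The corners of the squares off the box are far. -/
theorem far_of_isC (hv : v ∉ Bq z R) (h : IsC v s) : R ≤ nm (s - z) := by
  rw [mem_Bz] at hv
  obtain ⟨h1, h2⟩ := h
  rw [le_nm]
  simp only [Prod.fst_sub, Prod.snd_sub]
  omega

/-- A far site is a corner of a square off the box. -/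
theorem isC_of_far (h : R ≤ nm (s - z)) : ∃ v ∉ Bq z R, IsC v s := by
  rw [le_nm] at h
  simp only [Prod.fst_sub, Prod.snd_sub] at h
  simp only [mem_Bz]
  have h' : R ≤ s.1 - z.1 ∨ R ≤ s.2 - z.2 ∨ s.1 - z.1 ≤ -R ∨ s.2 - z.2 ≤ -R := by omega
  rcases h' with h | h | h | h
  · exact ⟨(s.1, s.2), by dsimp only; omega, Or.inl rfl, Or.inl rfl⟩
  · exact ⟨(s.1, s.2), by dsimp only; omega, Or.inl rfl, Or.inl rfl⟩
  · exact ⟨(s.1 - 1, s.2), by dsimp only; omega, Or.inr (by ring), Or.inl rfl⟩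
  · exact ⟨(s.1, s.2 - 1), by dsimp only; omega, Or.inl rfl, Or.inr (by ring)⟩

/-- The corners of the squares of the box are near. -/
theorem near_of_isC (hv : v ∈ Bq z R) (h : IsC v s) : nm (s - z) ≤ R := by
  rw [mem_Bz] at hv
  obtain ⟨h1, h2⟩ := h
  rw [nm_le]
  simp only [Prod.fst_sub, Prod.snd_sub]
  omega

theorem step_isC (h : PStep F s t) :
    (min s.1 t.1, min s.2 t.2) ∈ F ∧ IsC (min s.1 t.1, min s.2 t.2) s ∧
      IsC (min s.1 t.1, min s.2 t.2) t := by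
  obtain ⟨h1, h2, h3⟩ := h
  refine ⟨h3, ⟨?_, ?_⟩, ⟨?_, ?_⟩⟩ <;> dsimp only <;> omega

theorem step_near (h : PStep F s t) (hF : F ⊆ (Bq z R : Set (ℤ × ℤ))) :
    nm (s - z) ≤ R ∧ nm (t - z) ≤ R := by
  obtain ⟨h1, h2, h3⟩ := step_isC h
  have h4 : (min s.1 t.1, min s.2 t.2) ∈ Bq z R := hF h1
  exact ⟨near_of_isC h4 h2, near_of_isC h4 h3⟩

theorem nm_self (z : ℤ × ℤ) : nm (z - z) = 0 := by simp [nm]

theorem pw_near (h : Pw F z s) (hR : 0 ≤ R) (hF : F ⊆ (Bq z R : Set (ℤ × ℤ))) :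
    nm (s - z) ≤ R := by
  induction h with
  | refl => rw [nm_self]; exact hR
  | tail _ h _ => exact (step_near h hF).2

theorem AZ_congr (h : ∀ v ∈ Bq z R \ I, ω v = ω' v) : ω ∈ AZ e I z R → ω' ∈ AZ e I z R := by
  rintro ⟨s, h1, h2⟩
  refine ⟨s, h1, Pw.mono ?_ h2⟩
  rintro v ⟨h3, h4⟩
  exact ⟨by rw [← h3]; exact (h v h4).symm, h4⟩

theorem AZ_iff (h : ∀ v ∈ Bq z R \ I, ω v = ω' v) : ω ∈ AZ e I z R ↔ ω' ∈ AZ e I z R :=
  ⟨AZ_congr h, AZ_congr fun v hv => (h v hv).symm⟩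

theorem AZ_loc : Loc (Bq z R \ I) ((AZ e I z R).indicator (1 : Cfg → ℝ)) := by
  intro ω ω' h
  have := AZ_iff (e := e) h
  by_cases h1 : ω ∈ AZ e I z R
  · rw [Set.indicator_of_mem h1, Set.indicator_of_mem (this.1 h1)]
    rfl
  · rw [Set.indicator_of_notMem h1, Set.indicator_of_notMem fun h2 => h1 (this.2 h2)]

theorem inc_AZ : IncC e (AZ e I z R) := by
  rintro ω ω' h ⟨s, h1, h2⟩
  refine ⟨s, h1, Pw.mono ?_ h2⟩
  rintro v ⟨h3, h4⟩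
  exact ⟨h v h3, h4⟩

/-- The first part of a path. -/
theorem pw_cut (h : Pw (G ∩ (Bq z R' : Set (ℤ × ℤ))) z s) (hs : R ≤ nm (s - z)) :
    ∃ s', R ≤ nm (s' - z) ∧ Pw (G ∩ (Bq z R : Set (ℤ × ℤ))) z s' := by
  have key : ∀ t, Pw (G ∩ (Bq z R' : Set (ℤ × ℤ))) z t →
      (∃ s', R ≤ nm (s' - z) ∧ Pw (G ∩ (Bq z R : Set (ℤ × ℤ))) z s') ∨
        Pw (G ∩ (Bq z R : Set (ℤ × ℤ))) z t := by
    intro t ht
    induction ht with
    | refl => exact Or.inr ReflTransGen.refl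
    | @tail a b _ hab ih =>
      rcases ih with h1 | h1
      · exact Or.inl h1
      · obtain ⟨h2, h3, h4⟩ := step_isC hab
        by_cases h5 : (min a.1 b.1, min a.2 b.2) ∈ Bq z R
        · exact Or.inr (h1.tail ⟨hab.1, hab.2.1, h2.1, h5⟩)
        · exact Or.inl ⟨a, far_of_isC h5 h3, h1⟩
  rcases key s h with h1 | h1
  · exact h1
  · exact ⟨s, hs, h1⟩

theorem AZ_anti (hR : R ≤ R') : AZ e I z R' ⊆ AZ e I z R := by
  rintro ω ⟨s, h1, h2⟩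
  have h3 : Pw ((cs e ω ∩ (I : Set (ℤ × ℤ))ᶜ) ∩ (Bq z R' : Set (ℤ × ℤ))) z s := by
    refine Pw.mono ?_ h2
    rintro v ⟨h3, h4⟩
    rw [mem_coe, mem_sdiff] at h4
    exact ⟨⟨h3, fun h => h4.2 (mem_coe.1 h)⟩, mem_coe.2 h4.1⟩
  obtain ⟨s', h4, h5⟩ := pw_cut h3 (hR.trans h1)
  refine ⟨s', h4, Pw.mono ?_ h5⟩
  rintro v ⟨⟨h6, h7⟩, h8⟩
  exact ⟨h6, mem_coe.2 (mem_sdiff.2 ⟨mem_coe.1 h8, fun h => h7 (mem_coe.2 h)⟩)⟩

/-- Only the part of `I` in the box counts. -/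
theorem AZ_I (h : ∀ v ∈ Bq z R, v ∈ I ↔ v ∈ J) : AZ e I z R = AZ e J z R := by
  have h1 : Bq z R \ I = Bq z R \ J := by
    ext v
    rw [mem_sdiff, mem_sdiff]
    constructor
    · rintro ⟨h1, h2⟩; exact ⟨h1, fun h3 => h2 ((h v h1).2 h3)⟩
    · rintro ⟨h1, h2⟩; exact ⟨h1, fun h3 => h2 ((h v h1).1 h3)⟩
  unfold AZ
  rw [h1]

end Vale.Agent.P167.N.ID
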