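import Vale.Agent.P167.N.ID.FrmT

/-!
# P167, block ID: the geometry of the two families of frames

* `frP_geoN`, `frD_geoN`: the geometry at one scale.
* `frP_geo`, `frD_geo`: the field `FrS.Geo`.
* `fr_dbox`: the domain is in the picture.
-/

set_option autoImplicit false

namespace Vale.Agent.P167.N.ID

open Finset Filter Topology
open Vale.Agent.P167.E6 (IsPolygon Encloses)
open Vale.Agent.P167.H825 (enl Box)
open Vale.Agent.P167.H825.Q (Bc)
open Vale.Agent.P167.H199 (mks mks_ok Gap exists_Gap)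
open Vale.Agent.P167.Enl (BGap exists_BGap gn_big nm_sub_comm)
open Vale.Agent.P167.H680.T (uI mem_uI)

variable {l : ℕ} {θ β : ℝ} {p : ZMod l → ℤ × ℤ} {S₀ : Finset (ℤ × ℤ)} {b : Box} {tp : ℝ} {bc : Bc}
  {n : ℕ} {g δ : ℝ} {ia : ℕ} {ta : ℝ}

/-- The junction is on the boundary. -/
theorem ka_le_poly {t : ℕ} (ht : t < n) (hbg : BGap l (mks p b tp) g bc) :
    bc.ka l n t ≤ l * n := by
  rcases bc with _ | _ | ⟨ia, ta⟩
  · exact le_rfl
  · exact Nat.zero_le _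
  · obtain ⟨k1, k2, k3, k4, -⟩ := hbg
    exact (Enl.kOf_lt k2 (Enl.dob_lt k3 k4 (by omega)) ht).le

/-- The frozen squares of a family of frames with given shapes. -/
theorem uI_of {ι : Type} [Fintype ι] {r : ι → Row} {s : ι → H825.Q.Row}
    (h : ∀ i, (r i).I = (s i).I) : (rowS θ).uI r = uI s := by
  unfold RSys.uI uI
  exact congrArg _ (funext h)

/-- **The geometry of the free and wired frames at one scale.** -/
theorem frP_geoN [NeZero l] (hc : 0 ≤ Real.cos θ) (hθ : 0 < θ) (hθ' : θ < Real.pi / 2)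
    (hβ : β = (θ - Real.pi) / 2 ∨ β = (Real.pi - 3 * θ) / 2) (hp : IsPolygon p)
    (hD : Encloses p S₀) (hN : Nrm p) (hQ : (mks p b tp).Ok) (hg : Gap (mks p b tp) l g)
    (hbg : BGap l (mks p b tp) g bc) (hδ : 0 < δ) (hδg : 4 * δ ≤ g) (hn : 16 ≤ δ * n) :
    (frP θ β p S₀ b tp bc).GeoN (rowS θ) (rowF hc) {true} θ β p S₀ (g / 16) δ n := by
  have hg0 : 0 < g := by linarith
  have hG := geoS_poly hp hD hQ hg hδ hδg hn hN
  have hI : ∀ x : Fin l × Fin 3, (rP θ β p b tp bc n ⌊δ * n⌋₊ x).I =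
      (shp p (mks p b tp) n ⌊δ * n⌋₊ x.1 x.2).I := fun x => frowJ_I
  have hU : (frP θ β p S₀ b tp bc).U (rowS θ) δ n =
      uI (fun x : Fin l × Fin ((mks p b tp).m + 1) => shp p (mks p b tp) n ⌊δ * n⌋₊ x.1 x.2) :=
    uI_of (θ := θ) (r := fun x : Fin l × Fin 3 => rP θ β p b tp bc n ⌊δ * n⌋₊ x) hI
  have ht : tP p n tp bc < n := tP_lt hQ hg hδg hn
  refine
    { val := frP_val hc hp hD hQ hθ hθ' hβ hg hbg hδ hδg (by linarith) (by linarith) hn
      sepr := fun i j hij u hu v hv => hG.sepr i j hij u (hI i ▸ hu) v (hI j ▸ hv)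
      hull := fun i j hij u hu v hv => hG.hull i j hij u (hI i ▸ hu) v (hI j ▸ hv)
      rbox := fun i u hu => hG.rbox i u (hI i ▸ hu)
      hbox := hG.hbox
      out := fun x => ?_
      seph := hG.seph
      tip := fun i k hk _ => ?_
      oth := fun i k hk hs x => ?_
      col := colP hp hD hQ hg hbg hδ hδg hn
      shp := fun x r R hr hR => by rw [hU]; exact hG.shp x r R hr hR
      dom := by rw [hU]; exact hG.dom
      hole := fun e he h' => hG.hole e he (by rw [hU] at h'; exact h')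
      base := ht
      junc := ka_le_poly ht hbg
      phs := frP_phs hp hD hN hQ (bc_ok hg0 hbg) hg hδ hδg hn
      cls := hG.cls
      clsD := hG.clsD
      tch := fun v hv w hw h => by rw [hU]; exact hG.tch v hv w hw h
      clc := clcP hp hQ hg hδ hδg hn
      dob := dobP hp hD hQ hg hbg hδ hδg hn }
  · obtain ⟨v, h1, h2⟩ := hG.out x
    refine ⟨v, h1, ?_⟩
    rw [nm_sub_comm]
    exact h2
  · obtain rfl := Finset.mem_singleton.1 hk
    exact rP_tip hp hQ hg hδ hδg hn i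
  · have hk' : k = false := by
      cases k
      · rfl
      · exact absurd (Finset.mem_singleton_self _) hk
    subst hk'
    exact rP_oth hp hD hQ hθ hθ' hβ hg hbg hδ hδg hn i (hs.resolve_left Bool.false_ne_true) x

/-- **The geometry of the Dobrushin frames at one scale.** -/
theorem frD_geoN [NeZero l] (hc : 0 ≤ Real.cos θ) (hθ : 0 < θ) (hθ' : θ < Real.pi / 2)
    (hβ : β = (θ - Real.pi) / 2 ∨ β = (Real.pi - 3 * θ) / 2) (H : DobN p S₀ b tp g δ n)
    (hbg : BGap l (mks p b tp) g (.dob ia ta)) :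
    (frD θ β p S₀ b tp ia ta).GeoN (rowS θ) (rowF hc) {true} θ β p S₀ (g / 16) δ n := by
  obtain ⟨b1, b3, b5, b6, b7⟩ := H.basic
  have hG := H.geoS
  have hI : ∀ x : IxD l, (rD θ β p b tp ia ta n ⌊δ * n⌋₊ x).I =
      (shD p b tp n ⌊δ * n⌋₊ x).I := fun x => rD_I x _
  have hU : (frD θ β p S₀ b tp ia ta).U (rowS θ) δ n = uI (shD p b tp n ⌊δ * n⌋₊) :=
    uI_of (θ := θ) (r := fun x : IxD l => rD θ β p b tp ia ta n ⌊δ * n⌋₊ x) hI
  have ht : tP p n tp (.dob ia ta) < n := tP_lt H.hQ H.hg H.hδg H.hn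
  refine
    { val := frD_val hc H hθ hθ' hβ hbg (by linarith) (by linarith)
      sepr := fun i j hij u hu v hv => hG.sepr i j hij u (hI i ▸ hu) v (hI j ▸ hv)
      hull := fun i j hij u hu v hv => hG.hull i j hij u (hI i ▸ hu) v (hI j ▸ hv)
      rbox := fun i u hu => hG.rbox i u (hI i ▸ hu)
      hbox := hG.hbox
      out := fun x => ?_
      seph := hG.seph
      tip := fun i k hk _ => ?_
      oth := fun i k hk hs x => ?_
      col := colD H hbg
      shp := fun x r R hr hR => by rw [hU]; exact hG.shp x r R hr hR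
      dom := by rw [hU]; exact hG.dom
      hole := fun e he h' => hG.hole e he (by rw [hU] at h'; exact h')
      base := ht
      junc := ka_le_poly ht hbg
      phs := frD_phs H (bc_ok b6 hbg)
      cls := hG.cls
      clsD := hG.clsD
      tch := fun v hv w hw h => by rw [hU]; exact hG.tch v hv w hw h
      clc := clcD H
      dob := dobD H hbg }
  · obtain ⟨v, h1, h2⟩ := hG.out x
    refine ⟨v, h1, ?_⟩
    rw [nm_sub_comm]
    exact h2
  · obtain rfl := Finset.mem_singleton.1 hk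
    exact rD_tip H i
  · have hk' : k = false := by
      cases k
      · rfl
      · exact absurd (Finset.mem_singleton_self _) hk
    subst hk'
    exact rD_oth H hθ hθ' hβ hbg i (hs.resolve_left Bool.false_ne_true) x

/-- **The geometry of the free and wired frames.** -/
theorem frP_geo [NeZero l] (hc : 0 ≤ Real.cos θ) (hθ : 0 < θ) (hθ' : θ < Real.pi / 2)
    (hβ : β = (θ - Real.pi) / 2 ∨ β = (Real.pi - 3 * θ) / 2) (hp : IsPolygon p)
    (hD : Encloses p S₀) (hN : Nrm p) (hb : b.Ok S₀) (h0 : 0 < tp) (h1 : tp < 1)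
    (ht : ∀ i : ℤ, ∀ y ∈ ({b.xl, b.xr, b.yb, b.yt} : Set ℝ), y ≠ i + tp ∧ y ≠ i - tp)
    (hbc : bc.Ok l (mks p b tp)) :
    (frP θ β p S₀ b tp bc).Geo (rowS θ) (rowF hc) {true} θ β p S₀ := by
  have hgen : H199.Gen b := ⟨hb.gx, hb.gy⟩
  have hl : 0 < l := Nat.pos_of_ne_zero (NeZero.ne l)
  have hQ := mks_ok p hgen h0 h1 ht
  obtain ⟨g1, hg1, hG⟩ := exists_Gap hQ l
  obtain ⟨g2, hg2, hB⟩ := exists_BGap hbc
  set g := min g1 g2 with hgdef
  have hg0 : 0 < g := lt_min hg1 hg2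
  have hG' : Gap (mks p b tp) l g := hG.mono (min_le_left _ _)
  have hB' : BGap l (mks p b tp) g bc := hB.mono (min_le_right _ _)
  have hg1 : g ≤ 1 := by
    have a1 := hG'.1 0 hl 0 (Nat.zero_le _)
    have a2 := Enl.theta_nonneg hQ 0 (j := 0) (by omega)
    have a3 := Enl.theta_le_one hQ 0 (j := 0 + 1) (by omega)
    linarith
  refine ⟨g / 16, by positivity, by linarith, g / 4, by positivity, fun δ hδ hδ' => ?_⟩
  filter_upwards [(tendsto_natCast_atTop_atTop.const_mul_atTop hδ).eventually_ge_atTop (16 : ℝ)]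
    with n hn
  exact frP_geoN hc hθ hθ' hβ hp hD hN hQ hG' hB' hδ (by linarith) hn

/-- **The geometry of the Dobrushin frames.** -/
theorem frD_geo [NeZero l] (hc : 0 ≤ Real.cos θ) (hθ : 0 < θ) (hθ' : θ < Real.pi / 2)
    (hβ : β = (θ - Real.pi) / 2 ∨ β = (Real.pi - 3 * θ) / 2) (hp : IsPolygon p)
    (hD : Encloses p S₀) (hN : Nrm p) (hb : b.Ok S₀) (h0 : 0 < tp) (h1 : tp < 1)
    (ht : ∀ i : ℤ, ∀ y ∈ ({b.xl, b.xr, b.yb, b.yt} : Set ℝ), y ≠ i + tp ∧ y ≠ i - tp)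
    (hbc : (Bc.dob ia ta).Ok l (mks p b tp)) :
    (frD θ β p S₀ b tp ia ta).Geo (rowS θ) (rowF hc) {true} θ β p S₀ := by
  obtain ⟨g1, hg1, hG, -, hH⟩ := exists_dobN hp hD hN hb h0 h1 ht
  obtain ⟨g2, hg2, hB⟩ := exists_BGap hbc
  have hg1' : g1 ≤ 1 := by
    have hl : 0 < l := Nat.pos_of_ne_zero (NeZero.ne l)
    have hQ := mks_ok p (⟨hb.gx, hb.gy⟩ : H199.Gen b) h0 h1 ht
    have a1 := hG.1 0 hl 0 (Nat.zero_le _)
    have a2 := Enl.theta_nonneg hQ 0 (j := 0) (by omega)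
    have a3 := Enl.theta_le_one hQ 0 (j := 0 + 1) (by omega)
    linarith
  set g := min g1 g2 with hgdef
  have hg0 : 0 < g := lt_min hg1 hg2
  have hgg : g ≤ g1 := min_le_left _ _
  have hB' : BGap l (mks p b tp) g (.dob ia ta) := hB.mono (min_le_right _ _)
  refine ⟨g / 16, by positivity, by linarith, g / 4, by positivity, fun δ hδ hδ' => ?_⟩
  filter_upwards [hH g hg0 hgg δ hδ (by linarith)] with n hn
  exact frD_geoN hc hθ hθ' hβ hn hB'

/-! ### the shape of the domain at the holes -/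

/-- **The shape of the domain at the holes**: free and wired frames. -/
theorem frP_shD [NeZero l] (hp : IsPolygon p)
    (hD : Encloses p S₀) (hN : Nrm p) (hb : b.Ok S₀) (h0 : 0 < tp) (h1 : tp < 1)
    (ht : ∀ i : ℤ, ∀ y ∈ ({b.xl, b.xr, b.yb, b.yt} : Set ℝ), y ≠ i + tp ∧ y ≠ i - tp) :
    ∃ g : ℝ, 0 < g ∧ ∃ δ₀ : ℝ, 0 < δ₀ ∧ ∀ δ : ℝ, 0 < δ → δ < δ₀ → ∀ᶠ n : ℕ in atTop,
      ∀ x (r R : ℤ), (⌊δ * n⌋₊ : ℤ) + 4 ≤ r → (R : ℝ) ≤ g * n →
        H635.Shp (enl S₀ n) ((frP θ β p S₀ b tp bc).h δ n x) r R := by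
  have hgen : H199.Gen b := ⟨hb.gx, hb.gy⟩
  have hQ := mks_ok p hgen h0 h1 ht
  obtain ⟨g, hg, hG⟩ := exists_Gap hQ l
  refine ⟨g / 16, by positivity, g / 4, by positivity, fun δ hδ hδ' => ?_⟩
  filter_upwards [(tendsto_natCast_atTop_atTop.const_mul_atTop hδ).eventually_ge_atTop (16 : ℝ)]
    with n hn
  exact (geoS_poly hp hD hQ hG hδ (by linarith) hn hN).shD

/-- **The shape of the domain at the holes**: Dobrushin frames. -/
theorem frD_shD [NeZero l] (hp : IsPolygon p)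
    (hD : Encloses p S₀) (hN : Nrm p) (hb : b.Ok S₀) (h0 : 0 < tp) (h1 : tp < 1)
    (ht : ∀ i : ℤ, ∀ y ∈ ({b.xl, b.xr, b.yb, b.yt} : Set ℝ), y ≠ i + tp ∧ y ≠ i - tp) :
    ∃ g : ℝ, 0 < g ∧ ∃ δ₀ : ℝ, 0 < δ₀ ∧ ∀ δ : ℝ, 0 < δ → δ < δ₀ → ∀ᶠ n : ℕ in atTop,
      ∀ x (r R : ℤ), (⌊δ * n⌋₊ : ℤ) + 4 ≤ r → (R : ℝ) ≤ g * n →
        H635.Shp (enl S₀ n) ((frD θ β p S₀ b tp ia ta).h δ n x) r R := by
  obtain ⟨g, hg, -, -, hH⟩ := exists_dobN hp hD hN hb h0 h1 ht
  refine ⟨g / 16, by positivity, g / 4, by positivity, fun δ hδ hδ' => ?_⟩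
  filter_upwards [hH g hg le_rfl δ hδ (by linarith)] with n hn
  exact hn.geoS.shD

/-! ### the domain is in the picture -/

theorem enl_box (hp : IsPolygon p) (hD : Encloses p S₀) (hN : Nrm p) (hn : 0 < n) {v : ℤ × ℤ}
    (hv : v ∈ enl S₀ n) : (nm v : ℝ) ≤ (bM p + 1) * n := by
  obtain ⟨⟨h1, h2⟩, h3, h4⟩ := enl_mem hp hD hN hn hv
  have h5 : nm v ≤ bM p * n + n := by
    rw [nm_le_iff]
    omega
  have h6 : (nm v : ℝ) ≤ bM p * n + n := by exact_mod_cast h5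
  linarith

/-- **The domain is in the picture**: free and wired frames. -/
theorem frP_dbox [NeZero l] (hp : IsPolygon p) (hD : Encloses p S₀) (hN : Nrm p) :
    ∀ᶠ n : ℕ in atTop, ∀ v ∈ enl S₀ n, (nm v : ℝ) ≤ (frP θ β p S₀ b tp bc).R * n := by
  filter_upwards [eventually_gt_atTop 0] with n hn v hv
  exact enl_box hp hD hN hn hv

/-- **The domain is in the picture**: Dobrushin frames. -/
theorem frD_dbox [NeZero l] (hp : IsPolygon p) (hD : Encloses p S₀) (hN : Nrm p) :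
    ∀ᶠ n : ℕ in atTop, ∀ v ∈ enl S₀ n, (nm v : ℝ) ≤ (frD θ β p S₀ b tp ia ta).R * n := by
  filter_upwards [eventually_gt_atTop 0] with n hn v hv
  exact enl_box hp hD hN hn hv

/-! ### the base and the junction -/

theorem frP_k [NeZero l] (n : ℕ) : (frP θ β p S₀ b tp bc).k n =
    bc.ka l n ((frP θ β p S₀ b tp bc).t n) := rfl

theorem frD_k [NeZero l] (n : ℕ) : (frD θ β p S₀ b tp ia ta).k n =
    (Bc.dob ia ta).ka l n ((frD θ β p S₀ b tp ia ta).t n) := rfl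

theorem frD_t [NeZero l] (n : ℕ) : (frD θ β p S₀ b tp ia ta).t n = ⌊tp * (n : ℝ)⌋₊ := rfl

theorem tP_near (h0 : 0 < tp) (n : ℕ) : |(tP p n tp bc : ℝ) - tp * n| ≤ 1 := by
  obtain ⟨h1, h2⟩ := tP_le p n tp bc
  have h3 : (⌊tp * n⌋₊ : ℝ) ≤ tp * n := Nat.floor_le (by positivity)
  have h4 : tp * n < ⌊tp * n⌋₊ + 1 := Nat.lt_floor_add_one _
  have h5 : (⌊tp * n⌋₊ : ℝ) ≤ tP p n tp bc := by exact_mod_cast h1
  have h6 : (tP p n tp bc : ℝ) ≤ ⌊tp * n⌋₊ + 1 := by exact_mod_cast h2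
  rw [abs_le]
  constructor <;> linarith

end Vale.Agent.P167.N.ID
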