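import Vale.Agent.P167.N.ID.PsCa
import Vale.Agent.P167.H276.Cells
import Vale.Agent.P167.N.ID.FrmG

/-!
# P167, block ID, (P2S): the chains of rectangles of the two families of frames
-/

set_option autoImplicit false

namespace Vale.Agent.P167.H433

open Finset Filter Vale.Agent.P167 Vale.Agent.P167.FK Vale.Agent.P167.N Vale.Agent.P167.N.BAR
  Vale.Agent.P167.N.ID
open Vale.Agent.P167.H825.Q (Bc)
open Vale.Agent.P167.H825 (Box enl pdir)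
open Vale.Agent.P167.E6 (IsPolygon Encloses dir face)
open Vale.Agent.P167.Enl (vp mem_enl_div fin4_cases)
open Vale.Agent.P167.H276 (cp_far cp_arc)

/-! ### numbers -/

theorem num {τ κ' ε : ℝ} (hτ : 0 < τ) (hτ1 : τ ≤ 1 / 4) (h0 : 0 < κ') (h1 : κ' < τ / 64)
    (hε : ε = min (4 * κ') (1 / 8)) : ∀ᶠ n : ℕ in atTop,
    (∀ t : ℤ, τ * n ≤ t → (t : ℝ) + τ * n ≤ n → Par n ((n : ℤ) / 8) ⌊4 * κ' * n⌋ ⌊τ / 2 * n⌋ t) ∧
      ⌊ε * n⌋ ≤ ⌊4 * κ' * n⌋ ∧ ⌊ε * n⌋ ≤ 2 * ((n : ℤ) / 8) ∧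
      2 * (n : ℤ) ≤ (⌈4 / ε⌉₊ : ℕ) * ⌊ε * n⌋ := by
  have hε0 : 0 < ε := by rw [hε]; positivity
  have hε1 : ε ≤ 4 * κ' := hε ▸ min_le_left _ _
  have hε2 : ε ≤ 1 / 8 := hε ▸ min_le_right _ _
  filter_upwards [eventually_ge_atTop (⌈2 / κ'⌉₊ + ⌈100 / τ⌉₊ + ⌈2 / ε⌉₊ + 20)] with n hn
  have a1 : 2 / κ' ≤ n := (Nat.le_ceil _).trans (by exact_mod_cast (by omega : ⌈2 / κ'⌉₊ ≤ n))
  have a2 : 100 / τ ≤ n := (Nat.le_ceil _).trans (by exact_mod_cast (by omega : ⌈100 / τ⌉₊ ≤ n))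
  have a3 : 2 / ε ≤ n := (Nat.le_ceil _).trans (by exact_mod_cast (by omega : ⌈2 / ε⌉₊ ≤ n))
  have a4 : 20 ≤ n := by omega
  have a4' : (20 : ℝ) ≤ n := by exact_mod_cast a4
  have b1 : 2 ≤ κ' * n := by rw [div_le_iff₀ h0] at a1; linarith
  have b2 : 100 ≤ τ * n := by rw [div_le_iff₀ hτ] at a2; linarith
  have b3 : 2 ≤ ε * n := by rw [div_le_iff₀ hε0] at a3; linarith
  have hn0 : (0 : ℝ) ≤ n := by linarith
  have b4 : κ' * n ≤ τ / 64 * n := mul_le_mul_of_nonneg_right h1.le hn0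
  have b5 : ε * n ≤ 4 * κ' * n := mul_le_mul_of_nonneg_right hε1 hn0
  have b6 : ε * n ≤ 1 / 8 * n := mul_le_mul_of_nonneg_right hε2 hn0
  have b7 : τ * n ≤ 1 / 4 * n := mul_le_mul_of_nonneg_right hτ1 hn0
  have m1 := Int.floor_le (4 * κ' * (n : ℝ))
  have m2 := Int.lt_floor_add_one (4 * κ' * (n : ℝ))
  have D1 := Int.floor_le (τ / 2 * (n : ℝ))
  have D2 := Int.lt_floor_add_one (τ / 2 * (n : ℝ))
  have e1 := Int.floor_le (ε * (n : ℝ))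
  have e2 := Int.lt_floor_add_one (ε * (n : ℝ))
  have w1 : 8 * ((n : ℤ) / 8) ≤ n := by omega
  have w2 : (n : ℤ) ≤ 8 * ((n : ℤ) / 8) + 7 := by omega
  have w1' : 8 * (((n : ℤ) / 8 : ℤ) : ℝ) ≤ n := by exact_mod_cast w1
  have w2' : (n : ℝ) ≤ 8 * (((n : ℤ) / 8 : ℤ) : ℝ) + 7 := by exact_mod_cast w2
  refine ⟨fun t t1 t2 => ⟨by omega, ?_, ?_, ?_, ?_, ?_⟩, Int.floor_le_floor b5, ?_, ?_⟩
  · have : ((2 : ℤ) : ℝ) ≤ 4 * κ' * n := by push_cast; linarith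
    exact Int.le_floor.2 this
  · have : ((3 * ⌊4 * κ' * (n : ℝ)⌋ + 4 : ℤ) : ℝ) ≤ (⌊τ / 2 * (n : ℝ)⌋ : ℤ) := by
      push_cast; linarith
    exact_mod_cast this
  · have : ((2 * (⌊τ / 2 * (n : ℝ)⌋ + (n : ℤ) / 8 + 2) : ℤ) : ℝ) ≤ ((n : ℤ) : ℝ) := by
      push_cast; linarith
    exact_mod_cast this
  · have : ((⌊τ / 2 * (n : ℝ)⌋ + 3 * ⌊4 * κ' * (n : ℝ)⌋ : ℤ) : ℝ) ≤ (t : ℝ) := by
      push_cast; linarith
    exact_mod_cast this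
  · have : ((t + ⌊τ / 2 * (n : ℝ)⌋ + 3 * ⌊4 * κ' * (n : ℝ)⌋ : ℤ) : ℝ) ≤ ((n : ℤ) : ℝ) := by
      push_cast; linarith
    exact_mod_cast this
  · have : ((⌊ε * (n : ℝ)⌋ : ℤ) : ℝ) ≤ ((2 * ((n : ℤ) / 8) : ℤ) : ℝ) := by
      push_cast; linarith
    exact_mod_cast this
  · have c1 : 4 / ε ≤ (⌈4 / ε⌉₊ : ℝ) := Nat.le_ceil _
    have c2 : ε / 2 * n ≤ (⌊ε * (n : ℝ)⌋ : ℝ) := by linarith
    have c3 : 4 / ε * (ε / 2 * n) ≤ (⌈4 / ε⌉₊ : ℝ) * (⌊ε * (n : ℝ)⌋ : ℝ) :=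
      mul_le_mul c1 c2 (by positivity) (by positivity)
    have c4 : 4 / ε * (ε / 2 * n) = 2 * n := by field_simp; ring
    rw [c4] at c3
    exact_mod_cast c3

/-! ### squares of cells off the domain -/

theorem div_cell {n a x : ℤ} (hn : 0 < n) (h1 : n * a ≤ x) (h2 : x < n * a + n) : x / n = a := by
  rw [Int.ediv_eq_iff_of_pos hn]
  constructor <;> linarith

section out

variable {S₀ : Finset (ℤ × ℤ)} {n : ℕ} {c v : ℤ × ℤ} {D : ℤ}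

theorem out_inC (hn : 0 < n) (hD0 : 0 ≤ D) (h : InC n c D v) (hc : c ∉ S₀) : v ∉ enl S₀ n := by
  obtain ⟨⟨h1, h2⟩, h3, h4⟩ := h
  rw [mem_enl_div hn, div_cell (a := c.1) (by exact_mod_cast hn) (by linarith) (by linarith),
    div_cell (a := c.2) (by exact_mod_cast hn) (by linarith) (by linarith)]
  exact hc

theorem out_segH (hn : 0 < n) (hD0 : 0 ≤ D) (hc : c ∉ S₀) (hc' : c + (1, 0) ∉ S₀)
    (h1 : n * c.1 + D ≤ v.1) (h2 : v.1 + D < n * c.1 + 2 * n) (h3 : n * c.2 + D ≤ v.2)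
    (h4 : v.2 + D < n * c.2 + n) : v ∉ enl S₀ n := by
  have hn' : (0 : ℤ) < n := by exact_mod_cast hn
  rw [mem_enl_div hn, div_cell (x := v.2) (a := c.2) hn' (by linarith) (by linarith)]
  by_cases h : v.1 < n * c.1 + n
  · rw [div_cell (a := c.1) hn' (by linarith) h]
    exact hc
  · rw [div_cell (a := c.1 + 1) hn' (by linarith) (by linarith)]
    have e : c + (1, 0) = (c.1 + 1, c.2) := by ext <;> simp
    rwa [e] at hc'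

theorem out_segV (hn : 0 < n) (hD0 : 0 ≤ D) (hc : c ∉ S₀) (hc' : c + (0, 1) ∉ S₀)
    (h1 : n * c.2 + D ≤ v.2) (h2 : v.2 + D < n * c.2 + 2 * n) (h3 : n * c.1 + D ≤ v.1)
    (h4 : v.1 + D < n * c.1 + n) : v ∉ enl S₀ n := by
  have hn' : (0 : ℤ) < n := by exact_mod_cast hn
  rw [mem_enl_div hn, div_cell (x := v.1) (a := c.1) hn' (by linarith) (by linarith)]
  by_cases h : v.2 < n * c.2 + n
  · rw [div_cell (a := c.2) hn' (by linarith) h]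
    exact hc
  · rw [div_cell (a := c.2 + 1) hn' (by linarith) (by linarith)]
    have e : c + (0, 1) = (c.1, c.2 + 1) := by ext <;> simp
    rwa [e] at hc'

theorem mem_Bq0 {R : ℤ} : v ∈ Bq 0 R ↔ (-R ≤ v.1 ∧ v.1 < R) ∧ -R ≤ v.2 ∧ v.2 < R := by
  unfold Bq
  rw [mem_product, mem_Ico, mem_Ico]
  simp

end out

section main

variable {l : ℕ} {p : ZMod l → ℤ × ℤ} {S₀ : Finset (ℤ × ℤ)} {tp : ℝ} {bc : Bc} {b : Box}
  {θ β : ℝ}

theorem Off.mono {n : ℕ} {D D' : ℤ} {v : ℤ × ℤ} (h : Off p n D v) (hD : D' ≤ D) : Off p n D' v :=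
  fun i hi σ hσ => hD.trans (h i hi σ hσ)

/-- A square far from all sides is not in the column at a site. -/
theorem Off.col {n i t : ℕ} {D m : ℤ} {v : ℤ × ℤ} (h : Off p n D v) (hi : i < l) (ht : t ≤ n)
    (hm : 3 * m + 1 < D) : v ∉ LQ (pdir p i) (lc (pdir p i) (vp p n i t) 0 1) (-m) m 0 (3 * m) := by
  intro hv
  have h1 := col_near hv
  have h2 := h i hi t ht
  omega

theorem mem_Fre {Φ : FrS Row} {δ : ℝ} {n : ℕ} {g m R₀ : ℤ} {r : Fin 4} {z v : ℤ × ℤ} :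
    v ∈ Fre Φ θ S₀ δ n g r z m R₀ ↔ v ∈ Fr0 Φ θ S₀ δ n g R₀ ∧ v ∉ LQ r z (-m) m 0 (3 * m) := by
  unfold Fre Fr0
  exact Finset.mem_sdiff

/-- The middle of a cell of the path. -/
theorem cell_in {n : ℕ} {D : ℤ} {R : ℕ} {A : Finset (ℤ × ℤ)} [NeZero l] (n0 : 0 < n) (D0 : 0 ≤ D)
    {c v : ℤ × ℤ} (hc : c ∉ S₀)
    (hR : (-(R : ℤ) + 3 ≤ c.1 ∧ c.1 + 3 ≤ R) ∧ -(R : ℤ) + 3 ≤ c.2 ∧ c.2 + 3 ≤ R)
    (key : ∀ v, v ∉ enl S₀ n → Off p n D v → v ∈ Bq 0 (R * n) → v ∈ A) (hv : InC n c D v) :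
    v ∈ A := by
  refine key v (out_inC n0 D0 hv hc) (off_inC hv) ?_
  obtain ⟨⟨r1, r2⟩, r3, r4⟩ := hR
  obtain ⟨⟨h3, h4⟩, h5, h6⟩ := hv
  have n0' : (0 : ℤ) < n := by exact_mod_cast n0
  have e1 := mul_le_mul_of_nonneg_left r1 n0'.le
  have e2 := mul_le_mul_of_nonneg_left r2 n0'.le
  have e3 := mul_le_mul_of_nonneg_left r3 n0'.le
  have e4 := mul_le_mul_of_nonneg_left r4 n0'.le
  rw [mem_Bq0]
  refine ⟨⟨?_, ?_⟩, ?_, ?_⟩ <;> linarith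

theorem bq_seg {n : ℕ} {D : ℤ} {R : ℕ} (n0 : 0 < n) (D0 : 0 ≤ D) {c v : ℤ × ℤ}
    (hR : (-(R : ℤ) + 3 ≤ c.1 ∧ c.1 + 3 ≤ R) ∧ -(R : ℤ) + 3 ≤ c.2 ∧ c.2 + 3 ≤ R)
    (h3 : n * c.1 + D ≤ v.1) (h4 : v.1 + D < n * c.1 + 2 * n) (h5 : n * c.2 + D ≤ v.2)
    (h6 : v.2 + D < n * c.2 + 2 * n) : v ∈ Bq 0 (R * n) := by
  obtain ⟨⟨r1, r2⟩, r3, r4⟩ := hR
  have n0' : (0 : ℤ) < n := by exact_mod_cast n0
  have e1 := mul_le_mul_of_nonneg_left r1 n0'.le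
  have e2 := mul_le_mul_of_nonneg_left r2 n0'.le
  have e3 := mul_le_mul_of_nonneg_left r3 n0'.le
  have e4 := mul_le_mul_of_nonneg_left r4 n0'.le
  rw [mem_Bq0]
  refine ⟨⟨?_, ?_⟩, ?_, ?_⟩ <;> linarith

/-- **A path of cells off the polygon gives a chain of rectangles.** -/
theorem path_out [NeZero l] (hp : IsPolygon p) (hD : Encloses p S₀) {A : Finset (ℤ × ℤ)}
    {c : ℕ → ℤ × ℤ} {k R n κ : ℕ} {w D s : ℤ} (hc : CP S₀ c k)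
    (hRc : ∀ i ≤ k, (-(R : ℤ) + 3 ≤ (c i).1 ∧ (c i).1 + 3 ≤ R) ∧ -(R : ℤ) + 3 ≤ (c i).2 ∧
      (c i).2 + 3 ≤ R) (n0 : 0 < n) (w0 : 0 ≤ w) (wD : 2 * (D + w + 2) ≤ n) (D0 : 0 ≤ D)
    (s2 : s ≤ 2 * w) (s3 : 2 * (n : ℤ) ≤ κ * s)
    (key : ∀ v, v ∉ enl S₀ n → Off p n D v → v ∈ Bq 0 (R * n) → v ∈ A) :
    ∃ L, Ch (sqc n w (c 0) false) L ∧ lst (sqc n w (c 0) false) L = sqc n w (c k) false ∧
      L.length ≤ 4 * k ∧ ∀ Y ∈ L, Y.Ok s κ A := by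
  have n0' : (0 : ℤ) < n := by exact_mod_cast n0
  refine path (D := D) hc w0 wD D0 s2 s3
    (fun i hi v hv => cell_in n0 D0 (hc.out i hi) (hRc i hi) key hv) ?_ ?_ k le_rfl
  · intro i hi c0 v h h3 h4 h5 h6
    have hc1 : c0 ∉ S₀ ∧ c0 + (1, 0) ∉ S₀ ∧ ((-(R : ℤ) + 3 ≤ c0.1 ∧ c0.1 + 3 ≤ R) ∧
        -(R : ℤ) + 3 ≤ c0.2 ∧ c0.2 + 3 ≤ R) := by
      rcases h with ⟨h7, h8⟩ | ⟨h7, h8⟩
      · rw [h8, h7]; exact ⟨hc.out i (by omega), hc.out (i + 1) (by omega), hRc i (by omega)⟩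
      · rw [h8, h7]; exact ⟨hc.out (i + 1) (by omega), hc.out i (by omega), hRc (i + 1) (by omega)⟩
    exact key v (out_segH n0 D0 hc1.1 hc1.2.1 h3 h4 h5 h6)
      (off_segH hp hD hc1.1 hc1.2.1 h3 h4 h5 h6) (bq_seg n0 D0 hc1.2.2 h3 h4 h5 (by linarith))
  · intro i hi c0 v h h3 h4 h5 h6
    have hc1 : c0 ∉ S₀ ∧ c0 + (0, 1) ∉ S₀ ∧ ((-(R : ℤ) + 3 ≤ c0.1 ∧ c0.1 + 3 ≤ R) ∧
        -(R : ℤ) + 3 ≤ c0.2 ∧ c0.2 + 3 ≤ R) := by
      rcases h with ⟨h7, h8⟩ | ⟨h7, h8⟩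
      · rw [h8, h7]; exact ⟨hc.out i (by omega), hc.out (i + 1) (by omega), hRc i (by omega)⟩
      · rw [h8, h7]; exact ⟨hc.out (i + 1) (by omega), hc.out i (by omega), hRc (i + 1) (by omega)⟩
    exact key v (out_segV n0 D0 hc1.1 hc1.2.1 h3 h4 h5 h6)
      (off_segV hp hD hc1.1 hc1.2.1 h3 h4 h5 h6) (bq_seg n0 D0 hc1.2.2 h5 (by linarith) h3 h4)

/-- The constant of the positions. -/
theorem exists_tau {tp : ℝ} (h0 : 0 < tp) (h1 : tp < 1) : ∃ τ : ℝ, 0 < τ ∧ τ ≤ 1 / 4 ∧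
    τ ≤ tp / 2 ∧ τ ≤ (1 - tp) / 2 := by
  refine ⟨min (min tp (1 - tp)) (1 / 4) / 2, ?_, ?_, ?_, ?_⟩
  · have := lt_min (lt_min h0 (sub_pos.2 h1)) (by norm_num : (0 : ℝ) < 1 / 4)
    linarith
  · linarith [min_le_right (min tp (1 - tp)) (1 / 4)]
  · linarith [(min_le_left (min tp (1 - tp)) (1 / 4)).trans (min_le_left tp (1 - tp))]
  · linarith [(min_le_left (min tp (1 - tp)) (1 / 4)).trans (min_le_right tp (1 - tp))]

/-- A bound for the cells of a path. -/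
theorem exists_R (c : ℕ → ℤ × ℤ) (k B : ℕ) : ∃ R : ℕ, B + 1 ≤ R ∧ ∀ i ≤ k,
    (-(R : ℤ) + 3 ≤ (c i).1 ∧ (c i).1 + 3 ≤ R) ∧ -(R : ℤ) + 3 ≤ (c i).2 ∧ (c i).2 + 3 ≤ R := by
  refine ⟨∑ i ∈ range (k + 1), ((c i).1.natAbs + (c i).2.natAbs) + B + 3, by omega,
    fun i hi => ?_⟩
  have := single_le_sum (f := fun i => (c i).1.natAbs + (c i).2.natAbs) (fun _ _ => Nat.zero_le _)
    (mem_range.2 (by omega : i < k + 1))
  omega

/-- The numbers of the frames, for a given `n`. -/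
theorem nums {τ κ' g g₁ : ℝ} {n : ℕ} (hκ0 : 0 < κ') (k2 : κ' < g₁ / 16)
    (g2 : g ≤ τ / 4) (n1 : 20 ≤ τ * n) :
    ⌊g * (n : ℝ)⌋ + 2 ≤ ⌊τ / 2 * (n : ℝ)⌋ ∧ 3 * ⌊4 * κ' * (n : ℝ)⌋ ≤ ⌊g₁ * (n : ℝ)⌋ := by
  have hn0 : (0 : ℝ) ≤ n := Nat.cast_nonneg n
  constructor
  · apply Int.le_floor.2
    push_cast
    have := Int.floor_le (g * (n : ℝ))
    nlinarith
  · apply Int.le_floor.2
    push_cast
    have := Int.floor_le (4 * κ' * (n : ℝ))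
    nlinarith

/-- The chain of the free and wired frames, for a given `n`. -/
theorem chP_n [NeZero l] {Φ : FrS Row} (hp : IsPolygon p) (hD : Encloses p S₀) {δ : ℝ}
    {n k R M κ t : ℕ} {m w D s g g₁ : ℤ} {c : ℕ → ℤ × ℤ} (hc : CP S₀ c k)
    (c0 : c 0 = Enl.op p 1 0 0) (ck : (M : ℤ) ≤ (c k).1)
    (hRc : ∀ i ≤ k, (-(R : ℤ) + 3 ≤ (c i).1 ∧ (c i).1 + 3 ≤ R) ∧ -(R : ℤ) + 3 ≤ (c i).2 ∧
      (c i).2 + 3 ≤ R) (n0 : 0 < n) (P : Par n w m D t) (htn : t ≤ n) (s1 : s ≤ m)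
    (s2 : s ≤ 2 * w) (s3 : 2 * (n : ℤ) ≤ κ * s) (hgD : g + 2 ≤ D) (hg3 : 3 * m ≤ g₁)
    (F1 : ∀ v ∈ Bq 0 (R * n), v ∉ enl S₀ n → Off p n (g + 2) v → v ∈ Fr0 Φ θ S₀ δ n g (R * n))
    (F2 : LQ (pdir p 0) (lc (pdir p 0) (vp p n 0 t) 0 1) (-g₁) g₁ 0 (n / 2) ⊆
      Fr0 Φ θ S₀ δ n g (R * n)) :
    Chn (pdir p 0) (lc (pdir p 0) (vp p n 0 t) 0 1) m (Fre Φ θ S₀ δ n g (pdir p 0)
      (lc (pdir p 0) (vp p n 0 t) 0 1) m (R * n)) (4 * k + 4) κ s {s | (M * n : ℤ) ≤ nm s} := by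
  have hl : 0 < l := Nat.pos_of_ne_zero (NeZero.ne l)
  have n0' : (0 : ℤ) < n := by exact_mod_cast n0
  have hP := P
  obtain ⟨w0, m1, D1, wD, T3, T4⟩ := P
  have key : ∀ v, v ∉ enl S₀ n → Off p n D v → v ∈ Bq 0 (R * n) →
      v ∈ Fre Φ θ S₀ δ n g (pdir p 0) (lc (pdir p 0) (vp p n 0 t) 0 1) m (R * n) := by
    intro v hv ho hB
    rw [mem_Fre]
    exact ⟨F1 v hB hv (ho.mono hgD), ho.col hl htn (by omega)⟩
  obtain ⟨V, L₁, hV, hL1, hL2, hL3, hL4⟩ := strip (p := p) (i := 0) (n := n) hP (a := 2 * m)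
    (b := 3 * m) (p0 := 2 * m) (Or.inl ⟨rfl, rfl⟩) (by omega) le_rfl s1 s2 s3
    (A := Fre Φ θ S₀ δ n g (pdir p 0) (lc (pdir p 0) (vp p n 0 t) 0 1) m (R * n))
    (fun v v1 v2 v3 v4 => by
      rw [mem_Fre]
      refine ⟨F2 (mem_LQ.2 ⟨⟨?_, ?_⟩, ?_, v4⟩), fun hv => ?_⟩
      · exact le_trans (by omega) v1
      · exact lt_of_lt_of_le v2 hg3
      · exact le_trans (by omega) v3
      · have := (mem_LQ.1 hv).1.2
        exact absurd (v1.trans_lt this) (by omega))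
    (fun v hv => cell_in n0 (by omega) (hc.out 0 (Nat.zero_le _)) (hRc 0 (Nat.zero_le _)) key
      (by rw [c0]; exact hv))
  obtain ⟨L₂, hP1, hP2, hP3, hP4⟩ := path_out hp hD hc hRc n0 w0 wD (by omega) s2 s3 key
  rw [c0] at hP1 hP2
  refine ⟨_, L₁ ++ L₂, true, mt_LR (by omega) (by omega) le_rfl hV, ch_app L₁ _ L₂ hL1 ?_,
    ?_, ?_, ?_⟩
  · rw [hL2]
    exact hP1
  · rw [List.length_append]
    omega
  · intro Y hY
    rw [List.mem_cons, List.mem_append] at hY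
    rcases hY with rfl | hY | hY
    · exact hL4 _ List.mem_cons_self
    · exact hL4 _ (List.mem_cons_of_mem _ hY)
    · exact hP4 _ hY
  · intro e s hs
    rw [lst_app, hL2, hP2] at hs
    obtain ⟨-, a1, -⟩ := hs
    simp only [sqc] at a1
    show (M * n : ℤ) ≤ nm s
    have b1 : (n : ℤ) * M ≤ n * (c k).1 := mul_le_mul_of_nonneg_left ck n0'.le
    have b2 : s.1 ≤ nm s := (le_abs_self _).trans (le_max_left _ _)
    have b3 : w + 2 ≤ (n : ℤ) / 2 := by omega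
    linarith

/-- **(GX) The chain of the free and wired frames.** -/
theorem chP [NeZero l] (hp : IsPolygon p) (hD : Encloses p S₀) (h0 : 0 < tp) (h1 : tp < 1)
    (hF : FreeP θ β p S₀ b tp bc) : ChP θ β p S₀ b tp bc := by
  obtain ⟨hF1, g₁, hg₁, hF2⟩ := hF
  obtain ⟨τ, t0, t3, t1, t2⟩ := exists_tau h0 h1
  have hl : 0 < l := Nat.pos_of_ne_zero (NeZero.ne l)
  refine ⟨min (τ / 64) (g₁ / 16), by positivity, fun κ' hκ0 hκ1 M => ?_⟩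
  have k1 : κ' < τ / 64 := hκ1.trans_le (min_le_left _ _)
  have k2 : κ' < g₁ / 16 := hκ1.trans_le (min_le_right _ _)
  obtain ⟨c, k, c0, hc, ck⟩ := cp_far hp hD hl (M : ℤ)
  obtain ⟨R, hR, hRc⟩ := exists_R c k (bM p)
  have hε0 : 0 < min (4 * κ') (1 / 8) := by positivity
  have g0 : 0 < min g₁ (τ / 4) := by positivity
  obtain ⟨δ₁, hδ₁, e1⟩ := hF1 (min g₁ (τ / 4)) R g0
  obtain ⟨δ₂, hδ₂, e2⟩ := hF2 (min g₁ (τ / 4)) R g0 (min_le_left _ _) (by exact_mod_cast hR)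
  refine ⟨4 * k + 4, ⌈4 / min (4 * κ') (1 / 8)⌉₊, min (4 * κ') (1 / 8), min g₁ (τ / 4), R,
    min δ₁ δ₂, hε0, g0, lt_min hδ₁ hδ₂, fun δ d0 d1 => ?_⟩
  filter_upwards [e1 δ d0 (d1.trans_le (min_le_left _ _)), e2 δ d0 (d1.trans_le (min_le_right _ _)),
    num t0 t3 hκ0 k1 rfl, eventually_ge_atTop (⌈20 / τ⌉₊ + 1)] with n F1 F2 hN hn
  obtain ⟨hPar, s1, s2, s3⟩ := hN
  have n0 : 0 < n := by omega
  have n1 : 20 ≤ τ * n := by
    have : 20 / τ ≤ n := (Nat.le_ceil _).trans (by exact_mod_cast (by omega : ⌈20 / τ⌉₊ ≤ n))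
    rw [div_le_iff₀ t0] at this
    linarith
  have hn0 : (0 : ℝ) ≤ n := Nat.cast_nonneg n
  have hT := abs_le.1 (tP_near (p := p) (bc := bc) h0 n)
  have q1 : τ * n ≤ tp / 2 * n := mul_le_mul_of_nonneg_right t1 hn0
  have q2 : τ * n ≤ (1 - tp) / 2 * n := mul_le_mul_of_nonneg_right t2 hn0
  have P := hPar (tP p n tp bc : ℕ) (by push_cast; linarith [hT.1]) (by push_cast; linarith [hT.2])
  have htn : tP p n tp bc ≤ n := by
    have : ((tP p n tp bc : ℕ) : ℝ) ≤ n := by linarith [hT.2]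
    exact_mod_cast this
  obtain ⟨hgD, hg3⟩ := nums (g := min g₁ (τ / 4)) hκ0 k2 (min_le_right _ _) n1
  have eR : ⌊(R : ℝ) * n⌋ = R * n := by
    rw [show (R : ℝ) * n = ((R * n : ℤ) : ℝ) by push_cast; ring, Int.floor_intCast]
  rw [eR] at F1 F2 ⊢
  exact chP_n hp hD hc c0 ck hRc n0 P htn s1 s2 s3 hgD hg3 F1 F2

/-! ### the Dobrushin frames -/

theorem mul_mono {n a b : ℤ} (hn : 0 < n) (h : a ≤ b) : n * a ≤ n * b :=
  mul_le_mul_of_nonneg_left h hn.le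

/-- The middle columns of a cell are far from the line of the spoke. -/
theorem spoke_cell {n D a x y : ℤ} (hn : 0 < n) (h1 : n * a + D ≤ x) (h2 : x + D < n * a + n) :
    D ≤ |x - n * y| := by
  rcases le_or_gt y a with h | h
  · have := mul_mono hn h
    exact le_trans (by linarith) (le_abs_self _)
  · have := mul_mono hn (show a + 1 ≤ y by omega)
    exact le_trans (by linarith) (neg_le_abs _)

/-- **A path of cells off the polygon and off the spoke gives a chain of rectangles.** -/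
theorem path_outD [NeZero l] (hp : IsPolygon p) (hD : Encloses p S₀) {A : Finset (ℤ × ℤ)}
    {c : ℕ → ℤ × ℤ} {k B n κ : ℕ} {w D s x y : ℤ} (hc : CP S₀ c k) (hx : NoX x y c k)
    (hRc : ∀ i ≤ k, (1 ≤ (c i).1 ∧ (c i).1 + 2 ≤ B) ∧ 1 ≤ (c i).2 ∧ (c i).2 + 2 ≤ B)
    (n0 : 0 < n) (w0 : 0 ≤ w) (wD : 2 * (D + w + 2) ≤ n) (D0 : 0 ≤ D)
    (s2 : s ≤ 2 * w) (s3 : 2 * (n : ℤ) ≤ κ * s)
    (key : ∀ v : ℤ × ℤ, v ∉ enl S₀ n → Off p n D v → (n ≤ v.1 ∧ v.1 + n ≤ B * n) →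
      (n ≤ v.2 ∧ v.2 + n ≤ B * n) → (D ≤ |v.1 - n * x| ∨ n * y + D ≤ v.2) → v ∈ A) :
    (∀ i ≤ k, ∀ v, InC n (c i) D v → v ∈ A) ∧
    ∃ L, Ch (sqc n w (c 0) false) L ∧ lst (sqc n w (c 0) false) L = sqc n w (c k) false ∧
      L.length ≤ 4 * k ∧ ∀ Y ∈ L, Y.Ok s κ A := by
  have n0' : (0 : ℤ) < n := by exact_mod_cast n0
  have kC : ∀ i ≤ k, ∀ v, InC n (c i) D v → v ∈ A := by
    intro i hi v hv
    obtain ⟨⟨r1, r2⟩, r3, r4⟩ := hRc i hi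
    have e1 := mul_mono n0' r1
    have e2 := mul_mono n0' r2
    have e3 := mul_mono n0' r3
    have e4 := mul_mono n0' r4
    have hv' := hv
    obtain ⟨⟨h3, h4⟩, h5, h6⟩ := hv
    exact key v (out_inC n0 D0 hv' (hc.out i hi)) (off_inC hv') ⟨by linarith, by linarith⟩
      ⟨by linarith, by linarith⟩ (Or.inl (spoke_cell n0' h3 h4))
  refine ⟨kC, path (D := D) hc w0 wD D0 s2 s3 kC ?_ ?_ k le_rfl⟩
  · intro i hi c0 v h h3 h4 h5 h6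
    have hc1 : (c0 ∉ S₀ ∧ c0 + (1, 0) ∉ S₀) ∧ (((1 ≤ c0.1 ∧ c0.1 + 3 ≤ B) ∧
        1 ≤ c0.2 ∧ c0.2 + 2 ≤ B) ∧ (c0.1 + 1 = x → y ≤ c0.2)) := by
      have q1 := hRc i (by omega)
      have q2 := hRc (i + 1) (by omega)
      have q3 := hx i hi
      rcases h with ⟨h7, h8⟩ | ⟨h7, h8⟩
      · rw [← h8] at q2
        rw [← h8, ← h7] at q3
        rw [← h7] at q1
        simp only [Prod.fst_add, Prod.snd_add, add_zero] at q2 q3
        refine ⟨by rw [h8, h7]; exact ⟨hc.out i (by omega), hc.out (i + 1) (by omega)⟩, ?_, ?_⟩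
        · omega
        · intro h9
          exact q3 (by omega) (by omega)
      · rw [← h8, ← h7] at q3
        rw [← h8] at q1
        rw [← h7] at q2
        simp only [Prod.fst_add, Prod.snd_add, add_zero] at q1 q3
        refine ⟨by rw [h8, h7]; exact ⟨hc.out (i + 1) (by omega), hc.out i (by omega)⟩, ?_, ?_⟩
        · omega
        · intro h9
          exact q3 (by omega) (by omega)
    obtain ⟨⟨hc1, hc2⟩, ⟨⟨r1, r2⟩, r3, r4⟩, hq⟩ := hc1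
    have e1 := mul_mono n0' r1
    have e2 := mul_mono n0' r2
    have e3 := mul_mono n0' r3
    have e4 := mul_mono n0' r4
    refine key v (out_segH n0 D0 hc1 hc2 h3 h4 h5 h6) (off_segH hp hD hc1 hc2 h3 h4 h5 h6)
      ⟨by linarith, by linarith⟩ ⟨by linarith, by linarith⟩ ?_
    rcases lt_trichotomy x (c0.1 + 1) with hlt | heq | hgt
    · have := mul_mono n0' (show x ≤ c0.1 by omega)
      exact Or.inl (le_trans (by linarith) (le_abs_self _))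
    · have := mul_mono n0' (hq heq.symm)
      exact Or.inr (by linarith)
    · have := mul_mono n0' (show c0.1 + 2 ≤ x by omega)
      exact Or.inl (le_trans (by linarith) (neg_le_abs _))
  · intro i hi c0 v h h3 h4 h5 h6
    have hc1 : (c0 ∉ S₀ ∧ c0 + (0, 1) ∉ S₀) ∧ ((1 ≤ c0.1 ∧ c0.1 + 2 ≤ B) ∧
        1 ≤ c0.2 ∧ c0.2 + 3 ≤ B) := by
      have q1 := hRc i (by omega)
      have q2 := hRc (i + 1) (by omega)
      rcases h with ⟨h7, h8⟩ | ⟨h7, h8⟩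
      · rw [← h8] at q2
        rw [← h7] at q1
        simp only [Prod.fst_add, Prod.snd_add, add_zero] at q2
        refine ⟨by rw [h8, h7]; exact ⟨hc.out i (by omega), hc.out (i + 1) (by omega)⟩, ?_⟩
        omega
      · rw [← h8] at q1
        rw [← h7] at q2
        simp only [Prod.fst_add, Prod.snd_add, add_zero] at q1
        refine ⟨by rw [h8, h7]; exact ⟨hc.out (i + 1) (by omega), hc.out i (by omega)⟩, ?_⟩
        omega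
    obtain ⟨⟨hc1, hc2⟩, ⟨r1, r2⟩, r3, r4⟩ := hc1
    have e1 := mul_mono n0' r1
    have e2 := mul_mono n0' r2
    have e3 := mul_mono n0' r3
    have e4 := mul_mono n0' r4
    exact key v (out_segV n0 D0 hc1 hc2 h3 h4 h5 h6) (off_segV hp hD hc1 hc2 h3 h4 h5 h6)
      ⟨by linarith, by linarith⟩ ⟨by linarith, by linarith⟩ (Or.inl (spoke_cell n0' h5 h6))

/-- The sites on the lower side of a strip. -/
theorem sd_LR {e a b p0 V : ℤ} {r : Fin 4} {z s : ℤ × ℤ}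
    (h : s ∈ Sd e (LR r z false a b p0 V) (decide (r = 0 ∨ r = 3))) :
    ∃ u, a ≤ u ∧ u ≤ b ∧ s = lc r z u p0 := by
  rcases fin4_cases r with rfl | rfl | rfl | rfl
  · obtain ⟨-, h1, h2, h3, h4, h5⟩ := h
    simp [LR] at h1 h2 h3 h4 h5
    exact ⟨z.1 - s.1, by omega, by omega, Prod.ext (by simp [lc]) (by simp [lc]; omega)⟩
  · obtain ⟨-, h1, h2, h3, h4, h5⟩ := h
    simp [LR] at h1 h2 h3 h4 h5
    exact ⟨z.2 - s.2, by omega, by omega, Prod.ext (by simp [lc]; omega) (by simp [lc])⟩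
  · obtain ⟨-, h1, h2, h3, h4, h5⟩ := h
    simp [LR] at h1 h2 h3 h4 h5
    exact ⟨s.1 - z.1, by omega, by omega, Prod.ext (by simp [lc]) (by simp [lc]; omega)⟩
  · obtain ⟨-, h1, h2, h3, h4, h5⟩ := h
    simp [LR] at h1 h2 h3 h4 h5
    exact ⟨s.2 - z.2, by omega, by omega, Prod.ext (by simp [lc]; omega) (by simp [lc])⟩

/-- The squares near a site are in the cell outside of the side. -/
theorem near_cell {n i B : ℕ} {t : ℤ} {v : ℤ × ℤ} (n0 : 0 < n)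
    (hc : (1 ≤ (Enl.op p 1 i 0).1 ∧ (Enl.op p 1 i 0).1 + 2 ≤ B) ∧ 1 ≤ (Enl.op p 1 i 0).2 ∧
      (Enl.op p 1 i 0).2 + 2 ≤ B)
    (h1 : t - n ≤ lu (pdir p i) (lc (pdir p i) (vp p n i t) 0 1) v)
    (h2 : lu (pdir p i) (lc (pdir p i) (vp p n i t) 0 1) v < t)
    (h3 : -1 ≤ lv (pdir p i) (lc (pdir p i) (vp p n i t) 0 1) v)
    (h4 : lv (pdir p i) (lc (pdir p i) (vp p n i t) 0 1) v + 1 < n) :
    (n ≤ v.1 ∧ v.1 + n ≤ B * n) ∧ (n ≤ v.2 ∧ v.2 + n ≤ B * n) := by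
  have n0' : (0 : ℤ) < n := by exact_mod_cast n0
  obtain ⟨⟨k3, k4⟩, k5, k6⟩ := inC_loc (D := 0) (by linarith) (by linarith) (by linarith)
    (by linarith : lv (pdir p i) (lc (pdir p i) (vp p n i t) 0 1) v + 0 + 1 < n)
  obtain ⟨⟨r1, r2⟩, r3, r4⟩ := hc
  have e1 := mul_mono n0' r1
  have e2 := mul_mono n0' r2
  have e3 := mul_mono n0' r3
  have e4 := mul_mono n0' r4
  exact ⟨⟨by linarith, by linarith⟩, by linarith, by linarith⟩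

/-- The chain of the Dobrushin frames, for a given `n`. -/
theorem chD_n [NeZero l] (hp : IsPolygon p) (hD : Encloses p S₀) {n k B κ t t' ia : ℕ}
    {m w D s g g₁ x y : ℤ} {c : ℕ → ℤ × ℤ} (hia : 0 < ia) (hil : ia < l) (hc : CP S₀ c k)
    (c0 : c 0 = Enl.op p 1 ia 0) (ck : c k = Enl.op p 1 0 0) (hx : NoX x y c k)
    (hRc : ∀ i ≤ k, (1 ≤ (c i).1 ∧ (c i).1 + 2 ≤ B) ∧ 1 ≤ (c i).2 ∧ (c i).2 + 2 ≤ B)
    (n0 : 0 < n) (P : Par n w m D t) (P' : Par n w m D t') (s1 : s ≤ m) (s2 : s ≤ 2 * w)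
    (s3 : 2 * (n : ℤ) ≤ κ * s) (hgD : g + 2 ≤ D) (hg3 : 3 * m ≤ g₁) {F A : Finset (ℤ × ℤ)}
    (F1 : ∀ v : ℤ × ℤ, (g + 2 ≤ v.1 ∧ v.1 + g + 2 ≤ B * n) → (g + 2 ≤ v.2 ∧ v.2 + g + 2 ≤ B * n) →
      v ∉ enl S₀ n → Off p n (g + 2) v → (g + 2 ≤ |v.1 - n * x| ∨ n * y + g + 2 ≤ v.2) → v ∈ F)
    (FA : LQ (pdir p ia) (lc (pdir p ia) (vp p n ia t) 0 1) (-g₁) g₁ 0 (n / 2) ⊆ F)
    (FB : LQ (pdir p 0) (lc (pdir p 0) (vp p n 0 t') 0 1) (-g₁) g₁ 0 (n / 2) ⊆ F)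
    (hA : ∀ v ∈ F, v ∉ LQ (pdir p ia) (lc (pdir p ia) (vp p n ia t) 0 1) (-m) m 0 (3 * m) →
      v ∉ Bq (lc (pdir p 0) (vp p n 0 t') 0 1) (m + 2) →
      ((g ≤ v.1 ∧ v.1 + g ≤ B * n) ∧ g ≤ v.2 ∧ v.2 + g ≤ B * n) → v ∈ A) (cl : Prop) :
    Chn (pdir p ia) (lc (pdir p ia) (vp p n ia t) 0 1) m A (4 * k + 7) κ s
      {s | ∃ u : ℤ, 2 * m ≤ |u| ∧ |u| ≤ 3 * m ∧ (0 < u ↔ cl) ∧
        s = lc (pdir p 0) (lc (pdir p 0) (vp p n 0 t') 0 1) u 0} := by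
  have hl : 0 < l := Nat.pos_of_ne_zero (NeZero.ne l)
  have n0' : (0 : ℤ) < n := by exact_mod_cast n0
  have hP := P
  have hP' := P'
  obtain ⟨w0, m1, D1, wD, T1, T2⟩ := P
  obtain ⟨-, -, -, -, T3, T4⟩ := P'
  have htn : t ≤ n := by omega
  have htn' : t' ≤ n := by omega
  have hc0 := hRc 0 (Nat.zero_le _)
  rw [c0] at hc0
  have hck := hRc k le_rfl
  rw [ck] at hck
  have key : ∀ v : ℤ × ℤ, v ∉ enl S₀ n → Off p n D v → (n ≤ v.1 ∧ v.1 + n ≤ B * n) →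
      (n ≤ v.2 ∧ v.2 + n ≤ B * n) → (D ≤ |v.1 - n * x| ∨ n * y + D ≤ v.2) → v ∈ A := by
    intro v hv ho h1 h2 h3
    refine hA v (F1 v ⟨by omega, by omega⟩ ⟨by omega, by omega⟩ hv (ho.mono hgD) ?_)
      (ho.col hil htn (by omega)) (fun hb => ?_) ⟨⟨by omega, by omega⟩, by omega, by omega⟩
    · exact h3.imp (fun h => hgD.trans h) (fun h => by linarith)
    · have h4 := box_near hb
      have h5 := ho 0 hl t' htn'
      omega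
  obtain ⟨kC, L₂, hP1, hP2, hP3, hP4⟩ := path_outD hp hD hc hx hRc n0 w0 wD (by omega) s2 s3 key
  -- the strip at `a`
  obtain ⟨V, L₁, hV, hL1, hL2, hL3, hL4⟩ := strip (p := p) (i := ia) (n := n) (A := A) hP
    (a := 2 * m) (b := 3 * m) (p0 := 2 * m) (Or.inl ⟨rfl, rfl⟩) (by omega) le_rfl s1 s2 s3
    (fun v v1 v2 v3 v4 => by
      refine hA v (FA (mem_LQ.2 ⟨⟨le_trans (by omega) v1, lt_of_lt_of_le v2 hg3⟩,
        le_trans (by omega) v3, v4⟩)) (fun hv => ?_) (fun hb => ?_) ?_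
      · have := (mem_LQ.1 hv).1.2
        exact absurd (v1.trans_lt this) (by omega)
      · have h4 := box_near hb
        have h5 := off_side hp hD hil hl hia.ne (t := (t : ℤ)) (D := D) (v := v) (n := n)
          (by omega) (by omega) (by omega) (by omega) htn'
        omega
      · obtain ⟨q1, q2⟩ := near_cell (v := v) (t := (t : ℤ)) n0 hc0 (by omega) (by omega)
          (by omega) (by omega)
        exact ⟨⟨by omega, by omega⟩, by omega, by omega⟩)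
    (fun v hv => kC 0 (Nat.zero_le _) v (by rw [c0]; exact hv))
  -- the strip at `b`
  obtain ⟨a', b', hab', hcl⟩ : ∃ a' b' : ℤ, ((a' = 2 * m ∧ b' = 3 * m) ∨
      (a' = -(3 * m) ∧ b' = -(2 * m))) ∧ ((a' = 2 * m ∧ cl) ∨ (a' = -(3 * m) ∧ ¬ cl)) := by
    by_cases h : cl
    · exact ⟨2 * m, 3 * m, Or.inl ⟨rfl, rfl⟩, Or.inl ⟨rfl, h⟩⟩
    · exact ⟨-(3 * m), -(2 * m), Or.inr ⟨rfl, rfl⟩, Or.inr ⟨rfl, h⟩⟩
  obtain ⟨V', L₃, hV', hM1, hM2, hM3, hM4⟩ := strip (p := p) (i := 0) (n := n) (A := A) hP'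
    (a := a') (b := b') (p0 := 0) hab' le_rfl (by omega) s1 s2 s3
    (fun v v1 v2 v3 v4 => by
      refine hA v (FB (mem_LQ.2 ⟨⟨by omega, by omega⟩, v3, v4⟩)) (fun hv => ?_) (fun hb => ?_) ?_
      · have h4 := col_near hv
        have h5 := off_side hp hD hl hil hia.ne' (t := (t' : ℤ)) (D := D) (v := v) (n := n)
          (by omega) (by omega) (by omega) (by omega) htn
        omega
      · have h4 := box_lu (r := pdir p 0) hb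
        omega
      · obtain ⟨q1, q2⟩ := near_cell (v := v) (t := (t' : ℤ)) n0 hck (by omega) (by omega)
          (by omega) (by omega)
        exact ⟨⟨by omega, by omega⟩, by omega, by omega⟩)
    (fun v hv => kC k le_rfl v (by rw [ck]; exact hv))
  obtain ⟨L₄, hR1, hR2, hR3, hR4⟩ := ch_rev L₃ _ hM1
  rw [hM2] at hR1 hR2
  rw [c0, ck] at hP2
  rw [c0] at hP1
  refine ⟨_, L₁ ++ (L₂ ++ L₄), decide (pdir p 0 = 0 ∨ pdir p 0 = 3),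
    mt_LR (by omega) (by omega) le_rfl hV, ch_app L₁ _ _ hL1 ?_, ?_, ?_, ?_⟩
  · rw [hL2]
    refine ch_app L₂ _ _ hP1 ?_
    rw [hP2]
    exact hR1
  · rw [List.length_append, List.length_append]
    omega
  · intro Y hY
    rw [List.mem_cons, List.mem_append, List.mem_append] at hY
    rcases hY with rfl | hY | hY | hY
    · exact hL4 _ List.mem_cons_self
    · exact hL4 _ (List.mem_cons_of_mem _ hY)
    · exact hP4 _ hY
    · exact hM4 _ (hR4 _ hY)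
  · intro e s hs
    rw [lst_app, lst_app, hL2, hP2, hR2] at hs
    obtain ⟨u, u1, u2, u3⟩ := sd_LR hs
    refine ⟨u, ?_, ?_, ?_, u3⟩
    · rcases hab' with ⟨h1, h2⟩ | ⟨h1, h2⟩
      · exact le_trans (by omega) (le_abs_self _)
      · exact le_trans (by omega) (neg_le_abs _)
    · rw [abs_le]
      omega
    · rcases hcl with ⟨h1, h2⟩ | ⟨h1, h2⟩
      · exact ⟨fun _ => h2, fun _ => by omega⟩
      · exact ⟨fun h => by omega, fun h => absurd h h2⟩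

/-- **(GR) The chain of the Dobrushin frames.** -/
theorem chD [NeZero l] {ia : ℕ} {ta : ℝ} (hp : IsPolygon p) (hD : Encloses p S₀) (hN : Nrm p)
    (h0 : 0 < tp) (h1 : tp < 1) (hia : 0 < ia) (hil : ia < l) (ha0 : 0 < ta) (ha1 : ta < 1)
    (hF : FreeD θ β p S₀ b tp ia ta) : ChD θ β p S₀ b tp ia ta := by
  obtain ⟨hF1, g₁, hg₁, hF2⟩ := hF
  obtain ⟨τ₁, t0, t3, t1, t2⟩ := exists_tau h0 h1
  obtain ⟨τ₂, r0, r3, r1, r2⟩ := exists_tau ha0 ha1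
  obtain ⟨τ, hτ⟩ : ∃ τ, τ = min τ₁ τ₂ := ⟨_, rfl⟩
  have z0 : 0 < τ := by rw [hτ]; exact lt_min t0 r0
  have z1 : τ ≤ τ₁ := hτ ▸ min_le_left _ _
  have z2 : τ ≤ τ₂ := hτ ▸ min_le_right _ _
  refine ⟨min (τ / 64) (g₁ / 16), by positivity, fun κ' hκ0 hκ1 => ?_⟩
  have k1 : κ' < τ / 64 := hκ1.trans_le (min_le_left _ _)
  have k2 : κ' < g₁ / 16 := hκ1.trans_le (min_le_right _ _)
  obtain ⟨c, k, c0, ck, hc, hx, hRc⟩ := cp_arc hp hD hN hia hil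
  have hε0 : 0 < min (4 * κ') (1 / 8) := by positivity
  have g0 : 0 < min g₁ (τ / 4) := by positivity
  obtain ⟨δ₁, hδ₁, e1⟩ := hF1 (min g₁ (τ / 4)) g0
  obtain ⟨δ₂, hδ₂, e2⟩ := hF2 (min g₁ (τ / 4)) g0 (min_le_left _ _)
  refine ⟨4 * k + 7, ⌈4 / min (4 * κ') (1 / 8)⌉₊, min (4 * κ') (1 / 8), min g₁ (τ / 4),
    min δ₁ δ₂, hε0, g0, lt_min hδ₁ hδ₂, fun δ d0 d1 => ?_⟩
  filter_upwards [e1 δ d0 (d1.trans_le (min_le_left _ _)), e2 δ d0 (d1.trans_le (min_le_right _ _)),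
    num z0 (z1.trans t3) hκ0 k1 rfl, eventually_ge_atTop (⌈20 / τ⌉₊ + 1)] with n F1 F2 hN hn
  obtain ⟨hPar, s1, s2, s3⟩ := hN
  have n0 : 0 < n := by omega
  have n1 : 20 ≤ τ * n := by
    have : 20 / τ ≤ n := (Nat.le_ceil _).trans (by exact_mod_cast (by omega : ⌈20 / τ⌉₊ ≤ n))
    rw [div_le_iff₀ z0] at this
    linarith
  have hn0 : (0 : ℝ) ≤ n := Nat.cast_nonneg n
  have pos : ∀ x : ℝ, 0 < x → τ ≤ x / 2 → τ ≤ (1 - x) / 2 →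
      Par n ((n : ℤ) / 8) ⌊4 * κ' * n⌋ ⌊τ / 2 * n⌋ (⌊x * (n : ℝ)⌋₊ : ℕ) := by
    intro x x0 x1 x2
    have q1 : τ * n ≤ x / 2 * n := mul_le_mul_of_nonneg_right x1 hn0
    have q2 : τ * n ≤ (1 - x) / 2 * n := mul_le_mul_of_nonneg_right x2 hn0
    have q3 : (⌊x * (n : ℝ)⌋₊ : ℝ) ≤ x * n := Nat.floor_le (by positivity)
    have q4 : x * (n : ℝ) < ⌊x * (n : ℝ)⌋₊ + 1 := Nat.lt_floor_add_one _
    exact hPar _ (by push_cast; linarith) (by push_cast; linarith)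
  obtain ⟨hgD, hg3⟩ := nums (g := min g₁ (τ / 4)) hκ0 k2 (min_le_right _ _) n1
  refine chD_n hp hD hia hil hc c0 ck hx hRc n0 (pos ta ha0 (z2.trans r1) (z2.trans r2))
    (pos tp h0 (z1.trans t1) (z1.trans t2)) s1 s2 s3 hgD hg3 F1 F2.1 F2.2
    (fun v v1 v2 v3 v4 => ?_) _
  unfold FreD
  rw [mem_filter, Finset.mem_sdiff, mem_Fre]
  exact ⟨⟨⟨v1, v2⟩, v3⟩, v4⟩

end main

end Vale.Agent.P167.H433
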