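import Vale.Agent.P167.N.ID.PsFrB

/-!
# P167, block ID, (P2S): the chain out of the box at the base of the box

* `ChX`: the chain of rectangles from the base of the box of a Dobrushin frame to far away, outside of
  the box; `chX_of`: it exists.
-/

set_option autoImplicit false

namespace Vale.Agent.P167.N.ID

open Finset Filter Topology
open Vale.Agent.P167.FK (Bq)
open Vale.Agent.P167.E6 (IsPolygon Encloses dir face region)
open Vale.Agent.P167.H825 (pdir ptau enl domP Box dirOf Marks FlowIn epos rnd bsite)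
open Vale.Agent.P167.H825.Q (srow Bc)
open Vale.Agent.P167.H662 (hsite)
open Vale.Agent.P167.H199 (mks Gap exists_Gap c0)
open Vale.Agent.P167.H433 (lc LR LQ Flat3 Fre FreD zP zA zB Chn)
open Vale.Agent.P167.Enl (BGap nm_tri nm_sub_comm nm_nonneg mem_Bq' frmQ)

variable {l : ℕ} {p : ZMod l → ℤ × ℤ} {S₀ : Finset (ℤ × ℤ)} {b : Box} {tp : ℝ} {bc : Bc}
  {ia : ℕ} {ta : ℝ} {θ β g δ : ℝ} {n : ℕ}

/-- **(GX) The chain of the Dobrushin frames**: from the base of the box to far away, outside of the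
box. -/
def ChX [NeZero l] (θ β : ℝ) (p : ZMod l → ℤ × ℤ) (S₀ : Finset (ℤ × ℤ)) (b : Box) (tp : ℝ) (ia : ℕ)
    (ta : ℝ) : Prop :=
  ∃ κ₁ : ℝ, 0 < κ₁ ∧ ∀ κ' : ℝ, 0 < κ' → κ' < κ₁ → ∀ M : ℕ, ∃ (N κ : ℕ) (ε g R₀ δ₀ : ℝ), 0 < ε ∧
    0 < g ∧ 0 < δ₀ ∧ ∀ δ : ℝ, 0 < δ → δ < δ₀ → ∀ᶠ n : ℕ in atTop,
    Chn (pdir pQ 0) (zBx p b n ia) ⌊4 * κ' * n⌋ (Fre (frD θ β p S₀ b tp ia ta) θ S₀ δ n ⌊g * n⌋
      (pdir pQ 0) (zBx p b n ia) ⌊4 * κ' * n⌋ ⌊R₀ * n⌋ \ enl {(0, 0)} (bM p * n)) N κ ⌊ε * n⌋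
      {s | (M * n : ℤ) ≤ nm s}

/-- The squares above the box are free. -/
theorem DobN.top [NeZero l] (H : DobN p S₀ b tp g δ n) {v : ℤ × ℤ} (hv : bM p * n < v.2) :
    v ∉ (frD θ β p S₀ b tp ia ta).U (rowS θ) δ n ∧ v ∉ enl S₀ n ∧ v ∉ enl {(0, 0)} (bM p * n) := by
  obtain ⟨b1, b3, b5, b6, b7⟩ := H.basic
  refine ⟨fun h => ?_, fun h => ?_, fun h => ?_⟩
  · rw [mem_UD] at h
    rcases h with h | h | h
    · obtain ⟨x, hx⟩ := DobN.frmP_row (tp := tp) h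
      have := H.rowP_mem hx
      omega
    · obtain ⟨x, hx⟩ := DobN.frmQ_row (tp := tp) h
      have := H.rowQ_mem' hx
      omega
    · have := spk_mem H.hp H.hN h
      omega
  · have := H.enl_in h
    omega
  · unfold enl at h
    rw [mem_biUnion] at h
    obtain ⟨w, hw, h⟩ := h
    rw [Finset.mem_singleton] at hw
    subst hw
    rw [mem_image] at h
    obtain ⟨a, ha, rfl⟩ := h
    rw [mem_product, mem_range, mem_range] at ha
    have h2 : (a.2 : ℤ) < (bM p * n : ℕ) := by exact_mod_cast ha.2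
    push_cast at h2
    simp only [mul_zero, zero_add] at hv
    omega

/-- The holes are in the closed box. -/
theorem DobN.h_le [NeZero l] (H : DobN p S₀ b tp g δ n) (x : HxD l) :
    ((frD θ β p S₀ b tp ia ta).h δ n x).2 ≤ bM p * n := by
  rcases x with x | x | x
  · have h : (hsite p (mks p b tp) n x).2 ≤ bM p * n := by
      have := H.hsP x
      omega
    exact h
  · have h : (hsite pQ (mksQ p b) (bM p * n) x).2 ≤ bM p * n := by
      have := H.hsQ' x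
      omega
    exact h
  · have h : (ftD p n).2 ≤ bM p * n := by
      have := ft_mem (n := n) H.hp H.hN
      have h2 : (0 : ℤ) ≤ bM p * n := by positivity
      omega
    exact h

/-- The rectangle above the box. -/
theorem DobN.rect [NeZero l] (H : DobN p S₀ b tp g δ n) {m G H₀ R₁ : ℤ} {v : ℤ × ℤ} (hm : 1 ≤ m)
    (hG : (G : ℝ) + 3 * m ≤ g / 16 * n) (hR : bM p * n + 1 + H₀ ≤ R₁) (hR' : bM p * n + 3 * m ≤ R₁)
    (h1 : (zBx p b n ia).1 + 2 * m ≤ v.1) (h2 : v.1 < (zBx p b n ia).1 + 3 * m)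
    (h3 : (zBx p b n ia).2 + 2 * m ≤ v.2) (h4 : v.2 < (zBx p b n ia).2 + H₀) :
    v ∈ Fre (frD θ β p S₀ b tp ia ta) θ S₀ δ n G (pdir pQ 0) (zBx p b n ia) m R₁ \
      enl {(0, 0)} (bM p * n) := by
  obtain ⟨z2, z1⟩ := zBx_co (p := p) (ia := ia) b n
  have hz0 : 0 ≤ (zBx p b n ia).1 ∧ (zBx p b n ia).1 ≤ bM p * n := by
    obtain ⟨c1, c2, c3, c4⟩ := H.box
    have ht := t_lt (l := 4) (t := tG pQ (bM p * n) (tqB (bQ b (bM p))) (cT p ia)) H.hQ' H.hg' c2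
      c3 (tG_le pQ (bM p * n) (tqB (bQ b (bM p))) (cT p ia)).2
    have ht' : (tG pQ (bM p * n) (tqB (bQ b (bM p))) (cT p ia) : ℤ) < (bM p * n : ℕ) := by
      exact_mod_cast ht
    push_cast at ht'
    omega
  obtain ⟨t1, t2, t3⟩ := H.top (θ := θ) (β := β) (ia := ia) (ta := ta) (v := v) (by omega)
  rw [Finset.mem_sdiff]
  refine ⟨?_, t3⟩
  unfold Fre
  rw [Finset.mem_sdiff, Finset.mem_sdiff, Finset.mem_sdiff, Finset.mem_sdiff]
  refine ⟨⟨⟨⟨?_, t1⟩, t2⟩, fun h => ?_⟩, fun h => ?_⟩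
  · rw [mem_Bz]
    simp only [Prod.fst_zero, Prod.snd_zero]
    omega
  · unfold FrS.hB at h
    rw [Finset.mem_biUnion] at h
    obtain ⟨x, -, h⟩ := h
    have h5 := farh_zQ (θ := θ) (β := β) (ia := ia) (ta := ta) H x
    have h6 := H.h_le (θ := θ) (β := β) (ia := ia) (ta := ta) x
    have h7 := mem_Bq' h
    rw [nm_le_iff] at h7
    simp only [Prod.fst_sub, Prod.snd_sub] at h7
    have h8 : G + 3 * m ≤ nm (zBx p b n ia - (frD θ β p S₀ b tp ia ta).h δ n x) := by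
      have : ((G + 3 * m : ℤ) : ℝ) ≤
        (nm (zBx p b n ia - (frD θ β p S₀ b tp ia ta).h δ n x) : ℝ) := by
        push_cast
        linarith
      exact_mod_cast this
    rw [le_nm_iff] at h8
    simp only [Prod.fst_sub, Prod.snd_sub] at h8
    omega
  · rw [pdir_pQ.1, mem_LQ0.2.2.1] at h
    omega

/-- **The chain out of the box.** -/
theorem chX_of [NeZero l] (hp : IsPolygon p) (hD : Encloses p S₀) (hN : Nrm p) (hb : b.Ok S₀)
    (h0 : 0 < tp) (h1 : tp < 1)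
    (ht : ∀ i : ℤ, ∀ y ∈ ({b.xl, b.xr, b.yb, b.yt} : Set ℝ), y ≠ i + tp ∧ y ≠ i - tp)
    (hbc : (Bc.dob ia ta).Ok l (mks p b tp)) : ChX θ β p S₀ b tp ia ta := by
  obtain ⟨g, hg, hg1, hH⟩ := dobN_of hp hD hN hb h0 h1 ht hbc
  refine ⟨g / 1000, by positivity, fun κ' hκ hκ1 M => ⟨1, ⌈((M : ℝ) + 1) / (2 * κ')⌉₊, 4 * κ',
    g / 64, bM p + M + 3, g / 4, by positivity, by positivity, by positivity,
    fun δ hδ hδg => ?_⟩⟩
  filter_upwards [hH g hg le_rfl δ hδ (by linarith),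
    (tendsto_natCast_atTop_atTop.const_mul_atTop hκ).eventually_ge_atTop (1 : ℝ)] with n hn hn1
  obtain ⟨H, -⟩ := hn
  obtain ⟨b1, b3, b5, b6, b7⟩ := H.basic
  obtain ⟨z2, z1⟩ := zBx_co (p := p) (ia := ia) b n
  have hn0 : (0 : ℝ) < n := by exact_mod_cast b5
  have m1 : (⌊4 * κ' * n⌋ : ℝ) ≤ 4 * κ' * n := Int.floor_le _
  have m2 : 4 * κ' * n < (⌊4 * κ' * n⌋ : ℝ) + 1 := Int.lt_floor_add_one _
  have hκn : κ' * n ≤ g / 1000 * n := mul_le_mul_of_nonneg_right hκ1.le hn0.le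
  have hgn1 : g * n ≤ 1 * n := mul_le_mul_of_nonneg_right hg1 hn0.le
  have hm1 : 1 ≤ ⌊4 * κ' * n⌋ := by
    rw [Int.le_floor]
    push_cast
    linarith
  have hm3 : 3 * ⌊4 * κ' * n⌋ ≤ n := by
    have : 3 * (⌊4 * κ' * n⌋ : ℝ) ≤ n := by linarith
    exact_mod_cast this
  have hG : ((⌊g / 64 * n⌋ : ℤ) : ℝ) + 3 * ((⌊4 * κ' * n⌋ : ℤ) : ℝ) ≤ g / 16 * n := by
    have := Int.floor_le (g / 64 * n)
    linarith
  have hR : ⌊((bM p : ℝ) + M + 3) * n⌋ = (bM p + M + 3) * n := by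
    rw [show ((bM p : ℝ) + M + 3) * n = (((bM p + M + 3) * n : ℤ) : ℝ) by push_cast; ring,
      Int.floor_intCast]
  have hkk : ((M : ℤ) + 1) * n ≤ ⌈((M : ℝ) + 1) / (2 * κ')⌉₊ * ⌊4 * κ' * n⌋ := by
    have h2 : ((M : ℝ) + 1) / (2 * κ') ≤ ⌈((M : ℝ) + 1) / (2 * κ')⌉₊ := Nat.le_ceil _
    have h3 : 2 * κ' * n ≤ (⌊4 * κ' * n⌋ : ℝ) := by linarith
    have h4 : ((M : ℝ) + 1) * n ≤ ⌈((M : ℝ) + 1) / (2 * κ')⌉₊ * ((⌊4 * κ' * n⌋ : ℤ) : ℝ) := by
      calc ((M : ℝ) + 1) * n = ((M : ℝ) + 1) / (2 * κ') * (2 * κ' * n) := by field_simp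
        _ ≤ ⌈((M : ℝ) + 1) / (2 * κ')⌉₊ * ((⌊4 * κ' * n⌋ : ℤ) : ℝ) :=
          mul_le_mul h2 h3 (by positivity) (Nat.cast_nonneg _)
    exact_mod_cast h4
  have hMn : (0 : ℤ) ≤ M * n := by positivity
  have hbn : (0 : ℤ) ≤ bM p * n := by positivity
  rw [hR]
  refine ⟨LR (pdir pQ 0) (zBx p b n ia) false (2 * ⌊4 * κ' * n⌋) (3 * ⌊4 * κ' * n⌋)
    (2 * ⌊4 * κ' * n⌋) ((M + 1) * n), [], true, ?_, trivial, le_rfl, ?_, ?_⟩
  · rw [pdir_pQ.1]
    left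
    refine ⟨rfl, rfl, ?_, ?_, ?_, ?_⟩
    · show (zBx p b n ia).1 + 0 ≤ (zBx p b n ia).1 + 2 * ⌊4 * κ' * n⌋
      omega
    · show (zBx p b n ia).1 + 3 * ⌊4 * κ' * n⌋ ≤ (zBx p b n ia).1 + 4 * ⌊4 * κ' * n⌋
      omega
    · exact le_rfl
    · show (zBx p b n ia).2 + 3 * ⌊4 * κ' * n⌋ ≤ (zBx p b n ia).2 + (M + 1) * n
      linarith
  · intro Y hY
    rw [List.mem_singleton] at hY
    subst hY
    rw [pdir_pQ.1]
    refine ⟨?_, ?_, ?_, ?_⟩
    · show (zBx p b n ia).1 + 2 * ⌊4 * κ' * n⌋ ≤ (zBx p b n ia).1 + 3 * ⌊4 * κ' * n⌋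
      omega
    · show (zBx p b n ia).2 + 2 * ⌊4 * κ' * n⌋ ≤ (zBx p b n ia).2 + (M + 1) * n
      linarith
    · show (if false = true then _ else _)
      rw [if_neg (by decide)]
      constructor
      · show ⌊4 * κ' * n⌋ ≤ (zBx p b n ia).1 + 3 * ⌊4 * κ' * n⌋ -
          ((zBx p b n ia).1 + 2 * ⌊4 * κ' * n⌋)
        omega
      · show (zBx p b n ia).2 + (M + 1) * n - ((zBx p b n ia).2 + 2 * ⌊4 * κ' * n⌋) ≤ _
        linarith
    · intro v h1 h2 h3 h4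
      have := H.rect (θ := θ) (β := β) (ia := ia) (ta := ta) (R₁ := (bM p + M + 3) * n) hm1 hG
        (by linarith) (by linarith) h1 h2 h3 h4
      rw [pdir_pQ.1] at this
      exact this
  · intro e s hs
    obtain ⟨-, -, -, -, -, h2⟩ := hs
    rw [pdir_pQ.1] at h2
    have h3 : s.2 = (zBx p b n ia).2 + (M + 1) * n := h2
    show (M * n : ℤ) ≤ nm s
    rw [le_nm_iff]
    right; right; left
    rw [h3, z2]
    linarith

end Vale.Agent.P167.N.ID
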