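import Vale.Agent.P167.H433.PsDef

/-!
# P167, block ID, (P2S): the interface between the chains and the frames: free squares

`Fr0`: the squares which are not frozen, not in the domain and not at the holes. `Off`: squares far
from the sides of the polygon. `FreeP`, `FreeD`: squares far from all sides (and from the spoke) are
free, and so are the squares outside of the side near the special sites.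
-/

set_option autoImplicit false

namespace Vale.Agent.P167.H433

open Finset Filter Vale.Agent.P167 Vale.Agent.P167.FK Vale.Agent.P167.N Vale.Agent.P167.N.BAR
  Vale.Agent.P167.N.ID
open Vale.Agent.P167.H825.Q (Bc)
open Vale.Agent.P167.H825 (Box enl pdir)
open Vale.Agent.P167.Enl (vp)

/-- The squares of the box `Bq 0 R₀` which are not frozen, not in the domain, not at the holes. -/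
noncomputable def Fr0 (Φ : FrS Row) (θ : ℝ) (S₀ : Finset (ℤ × ℤ)) (δ : ℝ) (n : ℕ) (g R₀ : ℤ) :
    Finset (ℤ × ℤ) :=
  ((Bq 0 R₀ \ Φ.U (rowS θ) δ n) \ enl S₀ n) \ Φ.hB δ n g

variable {l : ℕ} [NeZero l]

/-- The square is at distance at least `D` from the sides of the enlargement. -/
def Off (p : ZMod l → ℤ × ℤ) (n : ℕ) (D : ℤ) (v : ℤ × ℤ) : Prop :=
  ∀ i < l, ∀ σ : ℕ, σ ≤ n → D ≤ nm (v - vp p n i σ)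

/-- **Free squares, free and wired frames.** -/
def FreeP (θ β : ℝ) (p : ZMod l → ℤ × ℤ) (S₀ : Finset (ℤ × ℤ)) (b : Box) (tp : ℝ) (bc : Bc) :
    Prop :=
  (∀ g R₀ : ℝ, 0 < g → ∃ δ₀ : ℝ, 0 < δ₀ ∧ ∀ δ : ℝ, 0 < δ → δ < δ₀ → ∀ᶠ n : ℕ in atTop,
    ∀ v ∈ Bq 0 ⌊R₀ * n⌋, v ∉ enl S₀ n → Off p n (⌊g * n⌋ + 2) v →
      v ∈ Fr0 (frP θ β p S₀ b tp bc) θ S₀ δ n ⌊g * n⌋ ⌊R₀ * n⌋) ∧
  ∃ g₁ : ℝ, 0 < g₁ ∧ ∀ g R₀ : ℝ, 0 < g → g ≤ g₁ → (bM p : ℝ) + 1 ≤ R₀ →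
    ∃ δ₀ : ℝ, 0 < δ₀ ∧ ∀ δ : ℝ, 0 < δ → δ < δ₀ → ∀ᶠ n : ℕ in atTop,
      LQ (pdir p 0) (zP p n tp bc) (-⌊g₁ * n⌋) ⌊g₁ * n⌋ 0 (n / 2) ⊆
        Fr0 (frP θ β p S₀ b tp bc) θ S₀ δ n ⌊g * n⌋ ⌊R₀ * n⌋

/-- **Free squares, Dobrushin frames.** -/
def FreeD (θ β : ℝ) (p : ZMod l → ℤ × ℤ) (S₀ : Finset (ℤ × ℤ)) (b : Box) (tp : ℝ) (ia : ℕ)
    (ta : ℝ) : Prop :=
  (∀ g : ℝ, 0 < g → ∃ δ₀ : ℝ, 0 < δ₀ ∧ ∀ δ : ℝ, 0 < δ → δ < δ₀ → ∀ᶠ n : ℕ in atTop,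
    ∀ v : ℤ × ℤ, (⌊g * n⌋ + 2 ≤ v.1 ∧ v.1 + ⌊g * n⌋ + 2 ≤ bM p * n) →
      (⌊g * n⌋ + 2 ≤ v.2 ∧ v.2 + ⌊g * n⌋ + 2 ≤ bM p * n) → v ∉ enl S₀ n →
      Off p n (⌊g * n⌋ + 2) v →
      (⌊g * n⌋ + 2 ≤ |v.1 - n * (p (iT p)).1| ∨ n * (p (iT p)).2 + ⌊g * n⌋ + 2 ≤ v.2) →
      v ∈ Fr0 (frD θ β p S₀ b tp ia ta) θ S₀ δ n ⌊g * n⌋ (bM p * n)) ∧
  ∃ g₁ : ℝ, 0 < g₁ ∧ ∀ g : ℝ, 0 < g → g ≤ g₁ →
    ∃ δ₀ : ℝ, 0 < δ₀ ∧ ∀ δ : ℝ, 0 < δ → δ < δ₀ → ∀ᶠ n : ℕ in atTop,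
      LQ (pdir p ia) (zA p n ia ta) (-⌊g₁ * n⌋) ⌊g₁ * n⌋ 0 (n / 2) ⊆
        Fr0 (frD θ β p S₀ b tp ia ta) θ S₀ δ n ⌊g * n⌋ (bM p * n) ∧
      LQ (pdir p 0) (zB p n tp) (-⌊g₁ * n⌋) ⌊g₁ * n⌋ 0 (n / 2) ⊆
        Fr0 (frD θ β p S₀ b tp ia ta) θ S₀ δ n ⌊g * n⌋ (bM p * n)

end Vale.Agent.P167.H433
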