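import Vale.Agent.P167.N.ID.PsNear

/-!
# P167, block ID, (P2S): free squares next to the base and to the junction

`near_P`, `near_zA`, `near_zB`.
-/

set_option autoImplicit false

namespace Vale.Agent.P167.N.ID

open Finset
open Vale.Agent.P167.FK (Bq)
open Vale.Agent.P167.E6 (IsPolygon Encloses dir face)
open Vale.Agent.P167.H825 (pdir enl Box)
open Vale.Agent.P167.H825.Q (Bc)
open Vale.Agent.P167.H662 (hsite)
open Vale.Agent.P167.H199 (mks Gap)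
open Vale.Agent.P167.H433 (lc LR LQ Fre FreD zP zA zB)
open Vale.Agent.P167.Enl (sW eW vp mem_rowP op_near lt_n mem_Bq' pA pA_lt vp_pA BGap gn_big)

variable {l : ℕ} {p : ZMod l → ℤ × ℤ} {S₀ : Finset (ℤ × ℤ)} {b : Box} {tp : ℝ} {bc : Bc}
  {ia : ℕ} {ta : ℝ} {θ β g δ : ℝ} {n : ℕ}

theorem LQ_pos {r : Fin 4} {z v : ℤ × ℤ} {G H : ℤ} (hv : v ∈ LQ r z (-G) G 0 H) : 0 < G := by
  rw [mem_LQ] at hv
  rcases Enl.fin4_cases r with h | h | h | h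
  · have := (hv.1 h).1
    omega
  · have := (hv.2.1 h).2
    omega
  · have := (hv.2.2.1 h).1
    omega
  · have := (hv.2.2.2 h).2
    omega

/-- **The squares outside of a side, far from the marks.** -/
theorem near_core (hp : IsPolygon p) (hD : Encloses p S₀) (hQ : (mks p b tp).Ok) {d : ℕ}
    (hd : 1 ≤ d) {i₀ : ℕ} (hi₀ : i₀ < l) {t : ℕ} {G : ℤ} (ht : t < n)
    (hm : ∀ j ≤ 3, 2 * G + 2 ≤ |(t : ℤ) - ⌊(mks p b tp).θ i₀ j * n⌋₊|)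
    (hn2 : (n : ℤ) / 2 + G + 3 ≤ n) {v : ℤ × ℤ}
    (hv : v ∈ LQ (pdir p i₀) (lc (pdir p i₀) (vp p n i₀ t) 0 1) (-G) G 0 (n / 2)) :
    (∃ c, c = face (p i₀) (pdir p i₀ - 1) ∧ c ∉ S₀ ∧ (n * c.1 + 1 ≤ v.1 ∧ v.1 + 1 ≤ n * (c.1 + 1)) ∧
      n * c.2 + 1 ≤ v.2 ∧ v.2 + 1 ≤ n * (c.2 + 1)) ∧ v ∉ enl S₀ n ∧
    (∀ x : Fin l × Fin 3, v ∉ Enl.rowP p n x.1 (sW p n (mks p b tp) d x.1 x.2)
      (eW p n (mks p b tp) d x.1 x.2)) ∧
    ∀ x : Fin l × Fin 3, v ∉ Bq (hsite p (mks p b tp) n x) G := by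
  have hG := LQ_pos hv
  have h0 : 2 * G + 2 ≤ t := by
    have := hm 0 (by norm_num)
    rw [hQ.zero, zero_mul, Nat.floor_zero, Nat.cast_zero, sub_zero, abs_of_nonneg (by positivity)]
      at this
    exact this
  have h1 : 2 * G + 2 ≤ (n : ℤ) - t := by
    have := hm 3 le_rfl
    have e : (mks p b tp).θ i₀ 3 = 1 := hQ.one i₀
    rw [e, one_mul, Nat.floor_natCast, abs_of_nonpos (by omega)] at this
    omega
  obtain ⟨⟨c, hc, hcS, hcx, hcy⟩, ho, hs, hr⟩ := near_side hp hD hi₀ (K := G + 2) hv (by omega)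
    (by omega) (by omega) (by omega)
  refine ⟨⟨c, hc, hcS, hcx, hcy⟩, enl_cell hcS (by omega) (by omega) (by omega) (by omega),
    fun x hx => ?_, fun x hx => ?_⟩
  · by_cases hi : (x.1 : ℕ) = i₀
    · rw [hi] at hx
      exact hr _ _ hx
    · have hj : (x.2 : ℕ) ≤ (mks p b tp).m := by
        have := x.2.2
        show (x.2 : ℕ) ≤ 2
        omega
      obtain ⟨σ, h2, h3, h4⟩ := mem_rowP.1 hx
      have h5 := ho x.1 x.1.2 hi σ (lt_n hQ hd hj h2 h3).le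
      have h6 := op_near (p := p) (n := n) x.1 σ
      rw [← h4] at h6
      omega
  · have h2 := mem_Bq' hx
    have h3 : vp p n x.1 (pA n (mks p b tp) (l := l) x : ℤ) = hsite p (mks p b tp) n x :=
      vp_pA (p := p) (n := n) (Q := mks p b tp) x
    rw [← h3] at h2
    by_cases hi : (x.1 : ℕ) = i₀
    · rw [hi] at h2
      have h4 := hs (pA n (mks p b tp) (l := l) x)
      have h5 := hm x.2 (by omega)
      have h6 : (pA n (mks p b tp) (l := l) x : ℤ) = ⌊(mks p b tp).θ i₀ x.2 * n⌋₊ := by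
        rw [← hi]
        rfl
      rw [abs_sub_comm, h6] at h4
      rw [h6] at h2
      omega
    · have h4 := ho x.1 x.1.2 hi (pA n (mks p b tp) (l := l) x) (pA_lt hQ (by omega) x).le
      omega

/-- The positions of the marks. -/
theorem gap_num {G : ℤ} {θ' t' : ℝ} {t : ℕ} (hG : (G : ℝ) ≤ g / 16 * n) (hg : 64 ≤ g * n)
    (h0 : 0 ≤ θ') (h : g ≤ |θ' - t'|) (ht : |(t : ℝ) - t' * n| ≤ 1) :
    2 * G + 2 ≤ |(t : ℤ) - ⌊θ' * n⌋₊| := by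
  have hn0 : (0 : ℝ) ≤ n := Nat.cast_nonneg n
  have h1 : (⌊θ' * n⌋₊ : ℝ) ≤ θ' * n := Nat.floor_le (by positivity)
  have h2 : θ' * n < ⌊θ' * n⌋₊ + 1 := Nat.lt_floor_add_one _
  have h3 : g * n ≤ |θ' * n - t' * n| := by
    rw [← sub_mul, abs_mul, abs_of_nonneg hn0]
    exact mul_le_mul_of_nonneg_right h hn0
  have h4 : g * n - 2 ≤ |(t : ℝ) - ⌊θ' * n⌋₊| := by
    rw [abs_le] at ht
    rcases abs_cases (θ' * n - t' * n) with ⟨e1, -⟩ | ⟨e1, -⟩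
    · rw [e1] at h3
      have := neg_le_abs ((t : ℝ) - ⌊θ' * n⌋₊)
      linarith [ht.1, ht.2]
    · rw [e1] at h3
      have := le_abs_self ((t : ℝ) - ⌊θ' * n⌋₊)
      linarith [ht.1, ht.2]
  have h5 : (2 * G + 2 : ℝ) ≤ |(t : ℝ) - ⌊θ' * n⌋₊| := by linarith
  exact_mod_cast h5

theorem half_num {G : ℤ} (hG : (G : ℝ) ≤ g / 16 * n) (hg : 64 ≤ g * n) (hg1 : g ≤ 1) :
    (n : ℤ) / 2 + G + 3 ≤ n := by
  have hn0 : (0 : ℝ) ≤ n := Nat.cast_nonneg n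
  have h1 : g * n ≤ n := by nlinarith
  have h2 : (16 * G : ℝ) ≤ n := by linarith
  have h3 : (64 : ℝ) ≤ n := by linarith
  have h4 : 16 * G ≤ n := by exact_mod_cast h2
  have h5 : (64 : ℤ) ≤ n := by exact_mod_cast h3
  omega

theorem floor_near {x : ℝ} (h : 0 ≤ x) : |(⌊x⌋₊ : ℝ) - x| ≤ 1 := by
  have h1 : (⌊x⌋₊ : ℝ) ≤ x := Nat.floor_le h
  have h2 : x < ⌊x⌋₊ + 1 := Nat.lt_floor_add_one _
  rw [abs_le]
  constructor <;> linarith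

theorem mks_nonneg (hQ : (mks p b tp).Ok) (i : ℕ) {j : ℕ} (hj : j ≤ 3) :
    0 ≤ (mks p b tp).θ i j :=
  Enl.theta_nonneg hQ i (show j ≤ (mks p b tp).m + 1 from hj)

/-- **Free squares next to the base**: free and wired frames. -/
theorem near_P [NeZero l] (hp : IsPolygon p) (hD : Encloses p S₀) (hQ : (mks p b tp).Ok)
    (hg : Gap (mks p b tp) l g) (hδg : 4 * δ ≤ g) (hn : 16 ≤ δ * n) {G m R₀ : ℤ}
    (hG : (G : ℝ) ≤ g / 16 * n) {v : ℤ × ℤ}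
    (hv : v ∈ LQ (pdir p 0) (zP p n tp bc) (-G) G 0 (n / 2)) (hR : v ∈ Bq 0 R₀)
    (hm : v ∉ LQ (pdir p 0) (zP p n tp bc) (-m) m 0 (3 * m)) :
    v ∈ Fre (frP θ β p S₀ b tp bc) θ S₀ δ n G (pdir p 0) (zP p n tp bc) m R₀ := by
  have hl : 0 < l := Nat.pos_of_ne_zero (NeZero.ne l)
  obtain ⟨b1, b2, b3, b4, b5⟩ := gn_big hQ hg hδg hn hl
  have hd : 1 ≤ ⌊δ * n⌋₊ := by
    rw [Nat.one_le_floor_iff]
    linarith
  have ht : tP p n tp bc < n := tP_lt hQ hg hδg hn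
  have htp : 0 < tp := hQ.tp0
  obtain ⟨-, h1, h2, h3⟩ := near_core (d := ⌊δ * n⌋₊) hp hD hQ hd (i₀ := 0) hl (t := tP p n tp bc)
    (G := G) ht (fun j hj => gap_num hG b1 (mks_nonneg hQ 0 hj) (hg.2 j hj) (tP_near htp n))
    (half_num hG b1 b3) hv
  exact free_Pc h1 h2 h3 hR hm

/-- The squares of a cell at a vertex. -/
theorem cell_box [NeZero l] (hN : Nrm p) {i : ZMod l} {r : Fin 4} {c v : ℤ × ℤ}
    (hc : c = face (p i) r) (hx : n * c.1 + 1 ≤ v.1 ∧ v.1 + 1 ≤ n * (c.1 + 1))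
    (hy : n * c.2 + 1 ≤ v.2 ∧ v.2 + 1 ≤ n * (c.2 + 1)) :
    ((n + 1 : ℤ) ≤ v.1 ∧ v.1 + n + 1 ≤ bM p * n) ∧ (n + 1 : ℤ) ≤ v.2 ∧ v.2 + n + 1 ≤ bM p * n := by
  have h1 := hN i
  have h2 := le_bM p i
  have h3 : (1 ≤ c.1 ∧ c.1 + 2 ≤ bM p) ∧ 1 ≤ c.2 ∧ c.2 + 2 ≤ bM p := by
    rw [hc]
    obtain ⟨w, hw⟩ : ∃ w, w = p i := ⟨_, rfl⟩
    rw [← hw] at h1 h2 ⊢
    obtain ⟨x, y⟩ := w
    fin_cases r <;> simp [face] at h1 h2 ⊢ <;> omega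
  obtain ⟨⟨h4, h5⟩, h6, h7⟩ := h3
  have hn0 : (0 : ℤ) ≤ n := by positivity
  have e1 : (n : ℤ) * 1 ≤ n * c.1 := mul_le_mul_of_nonneg_left h4 hn0
  have e2 : (n : ℤ) * (c.1 + 2) ≤ n * bM p := mul_le_mul_of_nonneg_left h5 hn0
  have e3 : (n : ℤ) * 1 ≤ n * c.2 := mul_le_mul_of_nonneg_left h6 hn0
  have e4 : (n : ℤ) * (c.2 + 2) ≤ n * bM p := mul_le_mul_of_nonneg_left h7 hn0
  refine ⟨⟨?_, ?_⟩, ?_, ?_⟩ <;> nlinarith

theorem cell_ne {c v : ℤ × ℤ} (hx : n * c.1 + 1 ≤ v.1 ∧ v.1 + 1 ≤ n * (c.1 + 1)) (a : ℤ) :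
    v.1 ≠ n * a := by
  intro h
  rw [h] at hx
  have hn0 : (0 : ℤ) ≤ n := by positivity
  have h1 : c.1 < a := by
    by_contra hc
    have := mul_le_mul_of_nonneg_left (not_lt.1 hc) hn0
    linarith [hx.1]
  have h2 : a < c.1 + 1 := by
    by_contra hc
    have := mul_le_mul_of_nonneg_left (not_lt.1 hc) hn0
    linarith [hx.2]
  omega

/-- Free squares next to a side: Dobrushin frames. -/
theorem near_D [NeZero l] (H : DobN p S₀ b tp g δ n) {i₀ : ℕ} (hi₀ : i₀ < l) {t : ℕ} {t' : ℝ}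
    (ht : t < n) (ht' : |(t : ℝ) - t' * n| ≤ 1) (hg : ∀ j ≤ 3, g ≤ |(mks p b tp).θ i₀ j - t'|)
    {G m : ℤ} (hG : (G : ℝ) ≤ g / 16 * n) {v : ℤ × ℤ}
    (hv : v ∈ LQ (pdir p i₀) (lc (pdir p i₀) (vp p n i₀ t) 0 1) (-G) G 0 (n / 2))
    (hB : v ∉ Bq (zB p n tp) (m + 2)) (hm : v ∉ LQ (pdir p ia) (zA p n ia ta) (-m) m 0 (3 * m)) :
    v ∈ FreD θ β p S₀ b tp ia ta δ n G m := by
  obtain ⟨b1, b3, b5, b6, b7⟩ := H.basic
  have hd : 1 ≤ ⌊δ * n⌋₊ := by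
    rw [Nat.one_le_floor_iff]
    linarith [H.hn]
  obtain ⟨⟨c, hc, hcS, hx, hy⟩, h1, h2, h3⟩ := near_core (d := ⌊δ * n⌋₊) H.hp H.hD H.hQ hd hi₀
    ht (fun j hj => gap_num hG b1 (mks_nonneg H.hQ i₀ hj) (hg j hj) ht') (half_num hG b1 b3) hv
  have h4 := cell_box H.hN hc hx hy
  have h5 := half_num hG b1 b3
  refine free_Dc H (LQ_pos hv).le h1 h2 h3 ⟨by omega, by omega⟩ ⟨by omega, by omega⟩
    (fun h => absurd h (cell_ne hx _)) hB hm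

/-- **Free squares next to the junction**: Dobrushin frames. -/
theorem near_zA [NeZero l] (H : DobN p S₀ b tp g δ n) (hbg : BGap l (mks p b tp) g (.dob ia ta))
    {G m : ℤ} (hG : (G : ℝ) ≤ g / 16 * n) {v : ℤ × ℤ}
    (hv : v ∈ LQ (pdir p ia) (zA p n ia ta) (-G) G 0 (n / 2)) (hB : v ∉ Bq (zB p n tp) (m + 2))
    (hm : v ∉ LQ (pdir p ia) (zA p n ia ta) (-m) m 0 (3 * m)) :
    v ∈ FreD θ β p S₀ b tp ia ta δ n G m := by
  obtain ⟨k1, k2, k3, k4, k5⟩ := hbg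
  obtain ⟨b1, b3, b5, b6, b7⟩ := H.basic
  exact near_D H k2 (Enl.dob_lt k3 k4 b5) (floor_near (by positivity)) (fun j hj => k5 j hj) hG hv
    hB hm

/-- **Free squares next to the base**: Dobrushin frames. -/
theorem near_zB [NeZero l] (H : DobN p S₀ b tp g δ n) {G m : ℤ}
    (hG : (G : ℝ) ≤ g / 16 * n) {v : ℤ × ℤ}
    (hv : v ∈ LQ (pdir p 0) (zB p n tp) (-G) G 0 (n / 2)) (hB : v ∉ Bq (zB p n tp) (m + 2))
    (hm : v ∉ LQ (pdir p ia) (zA p n ia ta) (-m) m 0 (3 * m)) :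
    v ∈ FreD θ β p S₀ b tp ia ta δ n G m := by
  have hl : 0 < l := Nat.pos_of_ne_zero (NeZero.ne l)
  obtain ⟨b1, b3, b5, b6, b7⟩ := H.basic
  have htp : 0 < tp := H.hQ.tp0
  exact near_D H hl (Enl.dob_lt H.hQ.tp0 H.hQ.tp1 b5) (floor_near (by positivity))
    (fun j hj => H.hg.2 j hj) hG hv hB hm

end Vale.Agent.P167.N.ID
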