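import Vale.Agent.P167.N.ID.PsFrB
import Vale.Agent.P167.N.ID.PsNearB
import Vale.Agent.P167.N.ID.PsFd

/-!
# P167, block ID, (P2S): the interface of the free squares

`freeP_of : FreeP`, `freeD_of : FreeD`.
-/

set_option autoImplicit false

namespace Vale.Agent.P167.N.ID

open Finset Filter Topology
open Vale.Agent.P167.FK (Bq)
open Vale.Agent.P167.E6 (IsPolygon Encloses)
open Vale.Agent.P167.H825 (pdir enl Box)
open Vale.Agent.P167.H825.Q (Bc)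
open Vale.Agent.P167.H199 (mks)
open Vale.Agent.P167.H433 (lc LR LQ Fre FreD Fr0 FreeP FreeD zP zA zB)
open Vale.Agent.P167.Enl (BGap vp fin4_cases)

variable {l : ℕ} {p : ZMod l → ℤ × ℤ} {S₀ : Finset (ℤ × ℤ)} {b : Box} {tp : ℝ} {bc : Bc}
  {ia : ℕ} {ta : ℝ} {θ β g δ : ℝ} {n : ℕ}

theorem LQ_nil {r : Fin 4} {z v : ℤ × ℤ} {a b p q : ℤ} (h : b ≤ a) : v ∉ LQ r z a b p q := by
  obtain ⟨m0, m1, m2, m3⟩ := @mem_LQ0 z v a b p q
  intro hv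
  rcases fin4_cases r with rfl | rfl | rfl | rfl
  · have := m0.1 hv; omega
  · have := m1.1 hv; omega
  · have := m2.1 hv; omega
  · have := m3.1 hv; omega

theorem LQ_near {r : Fin 4} {z v : ℤ × ℤ} {G H K : ℤ} (hv : v ∈ LQ r z (-G) G 0 H) (h1 : G ≤ K)
    (h2 : H ≤ K) : nm (v - z) ≤ K := by
  obtain ⟨m0, m1, m2, m3⟩ := @mem_LQ0 z v (-G) G 0 H
  rw [nm_le_iff]
  simp only [Prod.fst_sub, Prod.snd_sub]
  rcases fin4_cases r with rfl | rfl | rfl | rfl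
  · have := m0.1 hv; omega
  · have := m1.1 hv; omega
  · have := m2.1 hv; omega
  · have := m3.1 hv; omega

theorem Bq_nil {z v : ℤ × ℤ} {R : ℤ} (h : R ≤ 0) : v ∉ Bq z R := by
  intro hv
  rw [mem_bq'] at hv
  omega

/-- From `Fre` to `Fr0`. -/
theorem fre_Fr0 {Φ : FrS Row} {G G' m R₀ R₁ : ℤ} {r : Fin 4} {z v : ℤ × ℤ}
    (h : v ∈ Fre Φ θ S₀ δ n G r z m R₀) (hG : G' ≤ G) (hR : v ∈ Bq 0 R₁) :
    v ∈ Fr0 Φ θ S₀ δ n G' R₁ := by
  unfold Fre at h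
  unfold Fr0
  simp only [Finset.mem_sdiff] at h ⊢
  refine ⟨⟨⟨hR, h.1.1.1.2⟩, h.1.1.2⟩, fun h' => h.1.2 ?_⟩
  unfold FrS.hB at h' ⊢
  obtain ⟨x, hx, hx'⟩ := mem_biUnion.1 h'
  refine mem_biUnion.2 ⟨x, hx, ?_⟩
  rw [mem_bq'] at hx' ⊢
  omega

/-- Squares next to a side are in the box. -/
theorem near_in (hp : IsPolygon p) (hN : Nrm p) {i t : ℕ} (ht : t ≤ n) {G : ℤ} (hG : G ≤ n)
    (hn : 8 ≤ n) {v : ℤ × ℤ}
    (hv : v ∈ LQ (pdir p i) (lc (pdir p i) (vp p n i t) 0 1) (-G) G 0 (n / 2)) :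
    (0 ≤ v.1 ∧ v.1 < bM p * n) ∧ 0 ≤ v.2 ∧ v.2 < bM p * n := by
  have h1 := vp_mem (n := n) hp hN (i := i) ht
  have h2 := lc_near (pdir p i) (vp p n i t)
  have h3 := LQ_near hv (K := n) hG (by omega)
  rw [nm_le_iff] at h2 h3
  simp only [Prod.fst_sub, Prod.snd_sub] at h2 h3
  omega

/-- **Free squares**: free and wired frames. -/
theorem freeP_of [NeZero l] (hp : IsPolygon p) (hD : Encloses p S₀) (hN : Nrm p) (hb : b.Ok S₀)
    (h0 : 0 < tp) (h1 : tp < 1)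
    (ht : ∀ i : ℤ, ∀ y ∈ ({b.xl, b.xr, b.yb, b.yt} : Set ℝ), y ≠ i + tp ∧ y ≠ i - tp)
    (hbc : bc.Ok l (mks p b tp)) : FreeP θ β p S₀ b tp bc := by
  obtain ⟨g₀, hg0, hg1, H⟩ := polN_of hp hD hN hb h0 h1 ht hbc
  refine ⟨fun g R₀ hg => ⟨g₀ / 4, by positivity, fun δ hδ hδ' => ?_⟩, g₀ / 16, by positivity,
    fun g R₀ hg hg' hR₀ => ⟨g₀ / 4, by positivity, fun δ hδ hδ' => ?_⟩⟩
  · filter_upwards [H g₀ hg0 le_rfl δ hδ (by linarith)] with n hn v hv hv' hf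
    have hG : 0 ≤ ⌊g * n⌋ := Int.floor_nonneg.2 (by positivity)
    have hd : 1 ≤ ⌊δ * n⌋₊ := by
      rw [Nat.one_le_floor_iff]
      linarith [hn.hn]
    exact fre_Fr0 (free_P (m := 0) hn.hQ hd hG hv' hf hv (LQ_nil (by norm_num))) le_rfl hv
  · filter_upwards [H g₀ hg0 le_rfl δ hδ (by linarith)] with n hn v hv
    obtain ⟨hl, b1, b2, b3, b4, b5⟩ := hn.num
    have hn0 : (0 : ℝ) ≤ n := Nat.cast_nonneg n
    have hGr : (⌊g₀ / 16 * n⌋ : ℝ) ≤ g₀ / 16 * n := Int.floor_le _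
    have hgn : g₀ * n ≤ 1 * n := mul_le_mul_of_nonneg_right b3 hn0
    have hGn : ⌊g₀ / 16 * n⌋ ≤ (n : ℤ) := by
      have : (⌊g₀ / 16 * n⌋ : ℝ) ≤ n := by linarith
      exact_mod_cast this
    have hn8 : 8 ≤ n := by
      have : (8 : ℝ) ≤ n := by linarith
      exact_mod_cast this
    have hin := near_in hp hN (tP_lt (bc := bc) hn.hQ hn.hg hn.hδg hn.hn).le hGn hn8 hv
    have hRn : (bM p * n : ℤ) ≤ ⌊R₀ * n⌋ := by
      rw [Int.le_floor]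
      push_cast
      have : ((bM p : ℝ) + 1) * n ≤ R₀ * n := mul_le_mul_of_nonneg_right hR₀ hn0
      linarith
    have hbox : v ∈ Bq 0 ⌊R₀ * n⌋ := by
      rw [mem_bq']
      simp only [Prod.fst_zero, Prod.snd_zero]
      omega
    have hgg : ⌊g * n⌋ ≤ ⌊g₀ / 16 * n⌋ := Int.floor_le_floor (mul_le_mul_of_nonneg_right hg' hn0)
    exact fre_Fr0 (near_P (m := 0) hn.hp hn.hD hn.hQ hn.hg hn.hδg hn.hn hGr hv hbox (LQ_nil (by norm_num))) hgg hbox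

/-- **Free squares**: Dobrushin frames. -/
theorem freeD_of [NeZero l] (hp : IsPolygon p) (hD : Encloses p S₀) (hN : Nrm p) (hb : b.Ok S₀)
    (h0 : 0 < tp) (h1 : tp < 1)
    (ht : ∀ i : ℤ, ∀ y ∈ ({b.xl, b.xr, b.yb, b.yt} : Set ℝ), y ≠ i + tp ∧ y ≠ i - tp)
    (hbc : (Bc.dob ia ta).Ok l (mks p b tp)) : FreeD θ β p S₀ b tp ia ta := by
  obtain ⟨g₀, hg0, hg1, H⟩ := dobN_of hp hD hN hb h0 h1 ht hbc
  have key : ∀ {δ : ℝ} {n : ℕ} {G G' m : ℤ} {v : ℤ × ℤ}, v ∈ FreD θ β p S₀ b tp ia ta δ n G m →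
      G' ≤ G → (0 ≤ v.1 ∧ v.1 < bM p * n) ∧ 0 ≤ v.2 ∧ v.2 < bM p * n →
      v ∈ Fr0 (frD θ β p S₀ b tp ia ta) θ S₀ δ n G' (bM p * n) := by
    intro δ n G G' m v hv hG hin
    unfold FreD at hv
    rw [Finset.mem_filter, Finset.mem_sdiff] at hv
    refine fre_Fr0 hv.1.1 hG ?_
    rw [mem_bq']
    simp only [Prod.fst_zero, Prod.snd_zero]
    omega
  refine ⟨fun g hg => ⟨g₀ / 4, by positivity, fun δ hδ hδ' => ?_⟩, g₀ / 16, by positivity,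
    fun g hg hg' => ⟨g₀ / 4, by positivity, fun δ hδ hδ' => ?_⟩⟩
  · filter_upwards [H g₀ hg0 le_rfl δ hδ (by linarith)] with n hn v hx hy hv hf hT
    have hG : 0 ≤ ⌊g * n⌋ := Int.floor_nonneg.2 (by positivity)
    refine key (free_frD (m := -2) hn.1 hG hv hf (by omega) (by omega) (fun h => ?_)
      (Bq_nil (by norm_num)) (LQ_nil (by norm_num))) le_rfl (by omega)
    rcases hT with h' | h'
    · exfalso
      rw [h, sub_self, abs_zero] at h'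
      omega
    · omega
  · filter_upwards [H g₀ hg0 le_rfl δ hδ (by linarith)] with n hn
    have HP := hn.1.pol hn.2
    obtain ⟨hl, b1, b2, b3, b4, b5⟩ := HP.num
    have hn0 : (0 : ℝ) ≤ n := Nat.cast_nonneg n
    have hGr : (⌊g₀ / 16 * n⌋ : ℝ) ≤ g₀ / 16 * n := Int.floor_le _
    have hgn : g₀ * n ≤ 1 * n := mul_le_mul_of_nonneg_right b3 hn0
    have hGn : ⌊g₀ / 16 * n⌋ ≤ (n : ℤ) := by
      have : (⌊g₀ / 16 * n⌋ : ℝ) ≤ n := by linarith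
      exact_mod_cast this
    have hn8 : 8 ≤ n := by
      have : (8 : ℝ) ≤ n := by linarith
      exact_mod_cast this
    have hgg : ⌊g * n⌋ ≤ ⌊g₀ / 16 * n⌋ := Int.floor_le_floor (mul_le_mul_of_nonneg_right hg' hn0)
    constructor
    · intro v hv
      exact key (near_zA (m := -2) hn.1 hn.2 hGr hv (Bq_nil (by norm_num)) (LQ_nil (by norm_num)))
        hgg (near_in hp hN (Enl.dob_lt hn.2.2.2.1 hn.2.2.2.2.1 b5).le hGn hn8 hv)
    · intro v hv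
      exact key (near_zB (m := -2) hn.1 hGr hv (Bq_nil (by norm_num)) (LQ_nil (by norm_num)))
        hgg (near_in hp hN (tP_lt (bc := .dob ia ta) hn.1.hQ hn.1.hg hn.1.hδg hn.1.hn).le hGn hn8 hv)

end Vale.Agent.P167.N.ID
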