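import Vale.Agent.P167.N.ID.StA

/-!
# P167, `q < 1`, START: `L2Sg` from its five parts

Every part has its own constants: `FrS.L2a`, `FrS.L2b`, `FrS.L2c`, `FrS.L2d`, `FrS.L2e`;
`FrS.l2sg_of`.
-/

set_option autoImplicit false

namespace Vale.Agent.P167.N.ID

open Finset Filter Topology

open Vale.Agent.P167 Vale.Agent.P167.N

open Vale.Agent.P167.FK

open Vale.Agent.P167.XDL (bS)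

open Vale.Agent.P167.H825 (enl)

open Vale.Agent.P167.H685 (LE mem_LE)

open Vale.Agent.P167.QX (fLp VisL)

open Vale.Agent.P167.H562.QM (MajA)

variable {X : Type} (RS : RSys X) {Kx : Type} [Fintype Kx] [DecidableEq Kx] (F : Fct RS Kx)
  (Kt : Finset Kx) (Φ : FrS X) (θ : ℝ) (S₀ : Finset (ℤ × ℤ))

/-- (a): the loops off the holes have nonnegative factors. -/
def FrS.L2a : Prop :=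
  ∃ δ₀ : ℝ, 0 < δ₀ ∧ ∀ δ : ℝ, 0 < δ → δ < δ₀ → ∀ᶠ n : ℕ in atTop, ∀ ω : Cfg, Good ω →
  Φ.Frz RS δ n ω → ∀ ℓ ∈ LE ω (bS (Φ.U RS δ n)),
    ¬ VisL (Φ.hB δ n ((⌊δ * (n : ℝ)⌋₊ : ℤ) + 4)) ℓ →
    0 ≤ fLp θ (Φ.U RS δ n) (Φ.ph RS δ n 0) ω ℓ

/-- (b): the loops near a hole which do not visit it have the factor one. -/
def FrS.L2b : Prop :=
  ∃ κ₁ δ₀ : ℝ, 0 < κ₁ ∧ 0 < δ₀ ∧ ∀ δ : ℝ, 0 < δ → δ < δ₀ → ∀ᶠ n : ℕ in atTop, ∀ ω : Cfg, Good ω →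
  Φ.Frz RS δ n ω → ∀ ℓ ∈ LE ω (bS (Φ.U RS δ n)),
    ¬ VisL (Φ.hB δ n ((⌊δ * (n : ℝ)⌋₊ : ℤ) + 4)) ℓ →
    (∃ x, ∀ v ∈ vs ℓ, v ∈ Bq (Φ.h δ n x) ⌊κ₁ * n⌋) →
    fLp θ (Φ.U RS δ n) (Φ.ph RS δ n 0) ω ℓ = 1

/-- (c): the product over the loops off the holes does not depend on the squares of the domain. -/
def FrS.L2c : Prop :=
  ∃ κ₁ δ₀ : ℝ, 0 < κ₁ ∧ 0 < δ₀ ∧ ∀ δ : ℝ, 0 < δ → δ < δ₀ → ∀ᶠ n : ℕ in atTop, ∀ ω : Cfg, Good ω →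
  Φ.Frz RS δ n ω → ∀ (R₃ : ℤ) (ω' : Cfg), (⌊δ * (n : ℝ)⌋₊ : ℤ) + 4 ≤ R₃ → Good ω' →
    Φ.Frz RS δ n ω' → Φ.Cnf δ n R₃ ⌊κ₁ * n⌋ ω → Φ.Cnf δ n R₃ ⌊κ₁ * n⌋ ω' →
    (∀ v ∉ enl S₀ n, v ∉ Φ.hB δ n R₃ → ω v = ω' v) →
    Φ.TO RS θ δ n R₃ ω = Φ.TO RS θ δ n R₃ ω'

/-- (d): the lower bound of the product over the loops at the holes. -/
def FrS.L2d : Prop :=
  ∃ κ₁ A δ₀ : ℝ, 0 < κ₁ ∧ 1 ≤ A ∧ 0 < δ₀ ∧ ∀ δ : ℝ, 0 < δ → δ < δ₀ → ∀ᶠ n : ℕ in atTop,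
  ∀ ω : Cfg, Good ω → Φ.Frz RS δ n ω → Φ.Cnf δ n ⌊4 * δ * n⌋ ⌊κ₁ * n⌋ ω →
    0 ≤ Φ.TB RS θ δ n ⌊4 * δ * n⌋ ω ∧
    ∀ N₁ : ℕ, MajA (Φ.hB δ n ⌊4 * δ * n⌋) (δ * n / 64) ω N₁ →
    Φ.TB RS θ δ n ⌊4 * δ * n⌋ ω ≠ 0 →
    Φ.Tt RS F Kt δ n ⌊δ * n / 16⌋ ω ≤ A ^ (N₁ + 1) * Φ.TB RS θ δ n ⌊4 * δ * n⌋ ω

/-- (e): the lower bound of the product over the loops off the holes. -/
def FrS.L2e : Prop :=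
  ∃ κ₁ : ℝ, 0 < κ₁ ∧ ∀ κ' : ℝ, 0 < κ' → κ' < κ₁ → ∃ A δ₀ : ℝ, 1 ≤ A ∧ 0 < δ₀ ∧
  ∀ δ : ℝ, 0 < δ → δ < δ₀ → ∀ᶠ n : ℕ in atTop, ∀ ω : Cfg, Good ω → Φ.Frz RS δ n ω →
  ∀ (R₃ : ℤ) (Z : Finset (ℤ × ℤ)) (N₂ : ℕ), (⌊δ * (n : ℝ)⌋₊ : ℤ) + 4 ≤ R₃ →
    Φ.Cnf δ n R₃ ⌊κ₁ * n⌋ ω → (∀ v : ℤ × ℤ, (nm v : ℝ) ≤ (Φ.R + 1) * n → v ∈ Z) →
    MajA Z (κ' * n) ω N₂ → Φ.TO RS θ δ n R₃ ω ≠ 0 →
    Φ.Tj RS F Kt δ n ⌊4 * κ' * n⌋ ω ≤ A ^ (N₂ + 1) * Φ.TO RS θ δ n R₃ ω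

variable {RS F Kt Φ θ S₀}

theorem bq_mono2 {x : ℤ × ℤ} {a b : ℤ} (hab : a ≤ b) : Bq x a ⊆ Bq x b := by
  unfold Bq
  intro v hv
  rw [mem_product, mem_Ico, mem_Ico] at hv ⊢
  omega

theorem FrS.Cnf.mono2 {δ : ℝ} {n : ℕ} {R R' R'' : ℤ} {ω : Cfg} (h : Φ.Cnf δ n R R' ω)
    (hR : R' ≤ R'') : Φ.Cnf δ n R R'' ω := by
  intro ℓ hℓ hv
  obtain ⟨x, hx⟩ := h ℓ hℓ hv
  exact ⟨x, fun v hv => bq_mono2 hR (hx v hv)⟩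

theorem FrS.hB_mono2 {δ : ℝ} {n : ℕ} {R R' : ℤ} (h : R ≤ R') : Φ.hB δ n R ⊆ Φ.hB δ n R' := by
  intro v hv
  unfold FrS.hB at hv ⊢
  rw [mem_biUnion] at hv ⊢
  obtain ⟨x, h1, h2⟩ := hv
  exact ⟨x, h1, bq_mono2 h h2⟩

/-- **`L2Sg` from its parts.** -/
theorem FrS.l2sg_of (ha : Φ.L2a RS θ) (hb : Φ.L2b RS θ) (hc : Φ.L2c RS θ S₀)
    (hd : Φ.L2d RS F Kt θ) (he : Φ.L2e RS F Kt θ) : Φ.L2Sg RS F Kt θ S₀ := by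
  obtain ⟨da, hda, Ha⟩ := ha
  obtain ⟨kb, db, hkb, hdb, Hb⟩ := hb
  obtain ⟨kc, dc, hkc, hdc, Hc⟩ := hc
  obtain ⟨kd, Ad, dd, hkd, hAd, hdd, Hd⟩ := hd
  obtain ⟨ke, hke, He⟩ := he
  set κ₁ := min (min kb kc) (min kd ke) with hκ
  have h1 : κ₁ ≤ kb := (min_le_left _ _).trans (min_le_left _ _)
  have h2 : κ₁ ≤ kc := (min_le_left _ _).trans (min_le_right _ _)
  have h3 : κ₁ ≤ kd := (min_le_right _ _).trans (min_le_left _ _)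
  have h4 : κ₁ ≤ ke := (min_le_right _ _).trans (min_le_right _ _)
  refine ⟨κ₁, lt_min (lt_min hkb hkc) (lt_min hkd hke), fun κ' hκ' hκ'' => ?_⟩
  obtain ⟨Ae, de, hAe, hde, He⟩ := He κ' hκ' (hκ''.trans_le h4)
  refine ⟨max Ad Ae, min (min da db) (min (min dc dd) de), le_max_of_le_left hAd,
    lt_min (lt_min hda hdb) (lt_min (lt_min hdc hdd) hde), fun δ hδ hδ' => ?_⟩
  have e1 : δ < da := hδ'.trans_le ((min_le_left _ _).trans (min_le_left _ _))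
  have e2 : δ < db := hδ'.trans_le ((min_le_left _ _).trans (min_le_right _ _))
  have e3 : δ < dc :=
    hδ'.trans_le ((min_le_right _ _).trans ((min_le_left _ _).trans (min_le_left _ _)))
  have e4 : δ < dd :=
    hδ'.trans_le ((min_le_right _ _).trans ((min_le_left _ _).trans (min_le_right _ _)))
  have e5 : δ < de := hδ'.trans_le ((min_le_right _ _).trans (min_le_right _ _))
  filter_upwards [Ha δ hδ e1, Hb δ hδ e2, Hc δ hδ e3, Hd δ hδ e4, He δ hδ e5] with n Ka Kb Kc Kd Ke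
    ω hg hF
  have fl : ∀ {κ : ℝ}, κ₁ ≤ κ → ⌊κ₁ * (n : ℝ)⌋ ≤ ⌊κ * (n : ℝ)⌋ := fun h =>
    Int.floor_le_floor (mul_le_mul_of_nonneg_right h (Nat.cast_nonneg n))
  have pw : ∀ {A : ℝ} {N : ℕ}, 1 ≤ A → A ≤ max Ad Ae → A ^ (N + 1) ≤ (max Ad Ae) ^ (N + 1) :=
    fun h h' => pow_le_pow_left₀ (zero_le_one.trans h) h' _
  refine ⟨fun ℓ hℓ hv => ⟨Ka ω hg hF ℓ hℓ hv, ?_⟩, ?_, ?_, ?_⟩
  · rintro ⟨x, hx⟩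
    exact Kb ω hg hF ℓ hℓ hv ⟨x, fun v hv => bq_mono2 (fl h1) (hx v hv)⟩
  · intro R₃ ω' hR hg' hF' hc hc' hag
    exact Kc ω hg hF R₃ ω' hR hg' hF' (hc.mono2 (fl h2)) (hc'.mono2 (fl h2)) hag
  · intro hc
    obtain ⟨k1, k2⟩ := Kd ω hg hF (hc.mono2 (fl h3))
    exact ⟨k1, fun N₁ hN h0 => (k2 N₁ hN h0).trans
      (mul_le_mul_of_nonneg_right (pw hAd (le_max_left _ _)) k1)⟩
  · intro R₃ Z N₂ hR hc hZ hN h0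
    refine (Ke ω hg hF R₃ Z N₂ hR (hc.mono2 (fl h4)) hZ hN h0).trans
      (mul_le_mul_of_nonneg_right (pw hAe (le_max_right _ _)) ?_)
    classical
    unfold FrS.TO QX.TO
    refine prod_nonneg fun ℓ hℓ => ?_
    obtain ⟨q1, q2⟩ := mem_filter.1 hℓ
    refine Ka ω hg hF ℓ q1 fun ⟨x, hx, hx'⟩ => q2 ⟨x, hx, ?_⟩
    exact mem_coe.2 (FrS.hB_mono2 hR (mem_coe.1 hx'))

end Vale.Agent.P167.N.ID
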