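import Vale.Agent.P167.N.ID.PhT

/-!
# P167, `q < 1`, START: the cells of the Dobrushin frames

* `cDD`, `cRD`, `cXD`: the data of the cells.
* `dobF_frD`: the frame `frD` is a `DobF` of `CellM`, with the colours of the frozen squares.
-/

set_option autoImplicit false

namespace Vale.Agent.P167.N.ID

open Finset
open Vale.Agent.P167.Top
open Vale.Agent.P167.H871
open Vale.Agent.P167.H871.Q
open Vale.Agent.P167.A (plane)
open Vale.Agent.P167.FK (Bq)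
open Vale.Agent.P167.BR (ce)
open Vale.Agent.P167.H199 (Gap ah at' mks)
open Vale.Agent.P167.H662 (hsite)
open Vale.Agent.P167.H825.Q (Bc stΦ stτ)
open Vale.Agent.P167.H680.T (WallG WCG sgb sq par mem_uI)
open Vale.Agent.P167.H398.Q (hB)
open Vale.Agent.P167.E6 (IsPolygon Encloses dir face)
open Vale.Agent.P167.H825 (pdir enl ptau Marks Box tn)
open Vale.Agent.P167.XDL (bS mem_bS)
open Vale.Agent.P167.Enl (sW eW tB tB_lt kOf uN qN PN bd_qN qN_nat pW uW pW_eq uW_eq pW_vp uW_same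
  uW_mod vec_pred vp frmQ mem_frmQ sR eR row_dat row_num sR_num row_bds gn_big sqL_op frmQ_disj
  mem_hB BGap pdir_step)

variable {l : ℕ} {θ β : ℝ} {p : ZMod l → ℤ × ℤ} {S₀ : Finset (ℤ × ℤ)} {b : Box} {n d : ℕ}
  {tp g δ : ℝ} {ia : ℕ} {ta : ℝ}

/-- The data of the cell `D`. -/
noncomputable def cDD (p : ZMod l → ℤ × ℤ) (b : Box) (tp : ℝ) (n ia : ℕ) (ta : ℝ) : CD where
  n := l * n
  P := fun k => qN p n (tB n (mks p b tp)) (k : ZMod (l * n))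
  u := uN p n (tB n (mks p b tp))
  k₀ := Bc.ka l n (tB n (mks p b tp)) (.dob ia ta)
  zc := 0
  zo := 0
  C0 := 0

/-- The base site of the box. -/
noncomputable abbrev tqD (p : ZMod l → ℤ × ℤ) (b : Box) (n ia : ℕ) : ℕ :=
  tG pQ (bM p * n) (tqB (bQ b (bM p))) (cT p ia)

/-- The data of the exterior cell. -/
noncomputable def cXD (θ : ℝ) (p : ZMod l → ℤ × ℤ) (b : Box) (n ia nQ : ℕ) (PQ : ℕ → ℤ × ℤ)
    (uQ : ℕ → ℤ) (ιQ : ℕ → ℕ) : CD where
  n := nQ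
  P := revP nQ (sP PQ (ιQ (tqD p b n ia)))
  u := revU nQ (sU uQ (ιQ (tqD p b n ia)) 4)
  k₀ := k1 nQ (cT p ia)
  zc := 0
  zo := 0
  C0 := θ / 4 * (uT p - 3)

/-- The squares of the rows of the frame. -/
theorem mem_KD {v : ℤ × ℤ} : v ∈ KD p b tp n d ↔ ∃ i, v ∈ (rD θ β p b tp ia ta n d i).I := by
  rw [mem_union, mem_union]
  constructor
  · rintro ((h | h) | h)
    · rw [mem_frmJ (θ := θ) (β := β) (t := tqD p b n ia) (bc := .free) (J := fun _ => true)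
        (C := CQ θ β p ia) (c := cT p ia)] at h
      obtain ⟨x, hx⟩ := h
      exact ⟨.inr (.inl x), hx⟩
    · rw [mem_frmJ (θ := θ) (β := β) (t := ⌊tp * n⌋₊) (bc := .dob ia ta) (J := JD p ia)
        (C := 0) (c := 1)] at h
      obtain ⟨x, hx⟩ := h
      exact ⟨.inl x, hx⟩
    · exact ⟨.inr (.inr ()), h⟩
  · rintro ⟨x | x | x, h⟩
    · refine Or.inl (Or.inr ?_)
      rw [mem_frmJ (θ := θ) (β := β) (t := ⌊tp * n⌋₊) (bc := .dob ia ta) (J := JD p ia)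
        (C := 0) (c := 1)]
      exact ⟨x, h⟩
    · refine Or.inl (Or.inl ?_)
      rw [mem_frmJ (θ := θ) (β := β) (t := tqD p b n ia) (bc := .free) (J := fun _ => true)
        (C := CQ θ β p ia) (c := cT p ia)]
      exact ⟨x, h⟩
    · exact Or.inr h

theorem U_frD [NeZero l] : (frD θ β p S₀ b tp ia ta).U (rowS θ) δ n = KD p b tp n ⌊δ * n⌋₊ := by
  ext v
  rw [mem_KD (θ := θ) (β := β) (ia := ia) (ta := ta)]
  exact mem_uI

/-- The rows are separate. -/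
theorem sys_D [NeZero l] (H : DobN p S₀ b tp g δ n) :
    Sys θ (rD θ β p b tp ia ta n ⌊δ * n⌋₊) (KD p b tp n ⌊δ * n⌋₊)
      ((frD θ β p S₀ b tp ia ta).ph (rowS θ) δ n 0) := by
  refine sys_of (z := fun _ => 0) (fun v => mem_KD) ?_
  intro i j hij u hu v hv
  rw [rD_I] at hu hv
  have h1 := H.geoS.sepr i j hij u hu v hv
  have h2 : (8 : ℝ) ≤ nm (u - v) := by
    have := H.hn
    linarith
  have h3 : (8 : ℤ) ≤ nm (u - v) := by exact_mod_cast h2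
  omega

theorem tqD_bd (H : DobN p S₀ b tp g δ n) :
    tB (bM p * n) (mksQ p b) ≤ tqD p b n ia ∧ tqD p b n ia ≤ tB (bM p * n) (mksQ p b) + 1 ∧
      tqD p b n ia < bM p * n := by
  obtain ⟨c1, c2, c3, c4⟩ := H.box
  have h1 := tG_le pQ (bM p * n) (tqB (bQ b (bM p))) (cT p ia)
  have e : tB (bM p * n) (mksQ p b) = ⌊tqB (bQ b (bM p)) * ((bM p * n : ℕ) : ℝ)⌋₊ := rfl
  rw [← e] at h1
  exact ⟨h1.1, h1.2, t_lt H.hQ' H.hg' c2 c3 h1.2⟩

/-- The parity of the base site. -/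
theorem tG_even (p : ZMod l → ℤ × ℤ) (n : ℕ) (tp : ℝ) {s : ℝ} (hs : s = 1 ∨ s = -1) :
    Even ((vp p n 0 (tG p n tp s : ℤ)).1 + (vp p n 0 (tG p n tp s : ℤ)).2) ↔ s = 1 := by
  have h := par_tG p n tp hs
  have e : (n : ℤ) • p ((0 : ℕ) : ZMod l) + (tG p n tp s : ℤ) • dir (pdir p 0) =
    vp p n 0 (tG p n tp s : ℤ) := rfl
  change par ((n : ℤ) • p ((0 : ℕ) : ZMod l) + (tG p n tp s : ℤ) • dir (pdir p 0)) = s at h
  rw [e] at h
  unfold par at h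
  by_cases hc : Even ((vp p n 0 (tG p n tp s : ℤ)).1 + (vp p n 0 (tG p n tp s : ℤ)).2)
  · rw [if_pos hc] at h
    exact ⟨fun _ => h.symm, fun _ => hc⟩
  · rw [if_neg hc] at h
    constructor
    · exact fun h' => absurd h' hc
    · intro h'
      rw [h'] at h
      norm_num at h

section col

variable [NeZero l] (H : DobN p S₀ b tp g δ n) (hbg : BGap l (mks p b tp) g (.dob ia ta)) {η : Cfg}
  (hη : (frD θ β p S₀ b tp ia ta).Frz (rowS θ) δ n η)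

include H hbg hη

/-- The colours of the rows of the polygon. -/
theorem colP_D : ColP p (mks p b tp) n ⌊δ * n⌋₊ (tB n (mks p b tp))
    (Bc.ka l n (tB n (mks p b tp)) (.dob ia ta)) η := by
  obtain ⟨-, -, b5, b6, hM⟩ := H.basic
  have c4 : 16 ≤ ⌊δ * n⌋₊ := Nat.le_floor (by push_cast; exact H.hn)
  intro y τ h1 h2
  have hm : Enl.op p n y.1 τ ∈ (rD θ β p b tp ia ta n ⌊δ * n⌋₊ (.inl y)).I :=
    mem_frowJ.2 ⟨τ, h1, h2, rfl⟩
  have h3 : η (Enl.op p n y.1 τ) =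
      (rD θ β p b tp ia ta n ⌊δ * n⌋₊ (.inl y)).toRow.fr (Enl.op p n y.1 τ) := hη (.inl y) _ hm
  rw [h3]
  exact frowJ_fr H.hp H.hD H.hQ (bc_ok b6 hbg) (by omega) (tB_lt H.hQ b5) y.1.2
    (Nat.lt_succ_iff.1 y.2.2) h1 h2

omit hbg in
/-- The colours of the rows of the box. -/
theorem colQ_D : ∀ v ∈ K1D p b n ⌊δ * n⌋₊, η v = decide (cT p ia ≠ 1) := by
  obtain ⟨c1, c2, c3, c4'⟩ := H.box
  have c4 : 16 ≤ ⌊δ * n⌋₊ := Nat.le_floor (by push_cast; exact H.hn)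
  intro v hv
  obtain ⟨y, τ, h1, h2, rfl⟩ := mem_frmQ.1 hv
  have hm : Enl.op pQ (bM p * n) y.1 τ ∈ (rD θ β p b tp ia ta n ⌊δ * n⌋₊ (.inr (.inl y))).I :=
    mem_frowJ.2 ⟨τ, h1, h2, rfl⟩
  have h3 : η (Enl.op pQ (bM p * n) y.1 τ) =
      (rD θ β p b tp ia ta n ⌊δ * n⌋₊ (.inr (.inl y))).toRow.fr (Enl.op pQ (bM p * n) y.1 τ) :=
    hη (.inr (.inl y)) _ hm
  rw [h3]
  show decide ((frowJ θ β pQ (mksQ p b) (bM p * n) ⌊δ * n⌋₊ (tqD p b n ia) .free (fun _ => true)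
    (CQ θ β p ia) (cT p ia) y.1 y.2).τ (Enl.op pQ (bM p * n) y.1 τ) = -1) = _
  have hτ : τ < bM p * n := by
    have h4 := (Enl.rows_marks (p := pQ) H.hQ' H.hg' c1 c2 c3).hi y
    rw [c4'] at h4
    omega
  rw [frowJ_τ (bc := .free) pQ_poly pQ_encl H.hQ' trivial (by omega) (tqD_bd H).2.2 (cT_or p ia) y.1.2
    (Nat.lt_succ_iff.1 y.2.2) h1 h2]
  have hk : kOf 4 (bM p * n) (tqD p b n ia) y.1 τ < Bc.ka 4 (bM p * n) (tqD p b n ia) .free :=
    Enl.kOf_lt y.1.2 hτ (tqD_bd H).2.2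
  unfold stτ
  rw [if_pos hk, mul_one]
  rcases cT_or p ia with h | h <;> rw [h] <;> norm_num

omit H hbg in
/-- The colour of the spoke. -/
theorem colS_D : ∀ v ∈ (spk p n ⌊δ * n⌋₊).I, η v = decide (cT p ia ≠ 1) := by
  intro v hv
  have h3 : η v = (rD θ β p b tp ia ta n ⌊δ * n⌋₊ (.inr (.inr ()))).toRow.fr v :=
    hη (.inr (.inr ())) _ hv
  rw [h3]
  show decide (cT p ia * (if _ then (1 : ℝ) else 1) = -1) = _
  have e4 : ∀ c : Prop, ∀ [Decidable c], (if c then (1 : ℝ) else 1) = 1 := fun c _ => by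
    split_ifs <;> rfl
  rw [e4, mul_one]
  rcases cT_or p ia with h | h <;> rw [h] <;> norm_num

end col

theorem cT_ne : (cT p ia ≠ 1) ↔ ¬ clT p ia := by
  unfold cT
  by_cases hc : clT p ia
  · rw [if_pos hc]
    simp [hc]
  · rw [if_neg hc]
    simp only [hc, not_false_iff, iff_true]
    norm_num

section main

variable [NeZero l] (H : DobN p S₀ b tp g δ n) (hbg : BGap l (mks p b tp) g (.dob ia ta)) {n' : ℕ}
  {P' : ℕ → ℤ × ℤ} {u' : ℕ → ℤ} {ι : ℕ → ℕ} (hP : BPf p S₀ n (mks p b tp) ⌊δ * n⌋₊ n' P' u' ι)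
  {nQ : ℕ} {PQ : ℕ → ℤ × ℤ} {uQ : ℕ → ℤ} {ιQ : ℕ → ℕ}
  (hPQ : BPf pQ {(0, 0)} (bM p * n) (mksQ p b) ⌊δ * n⌋₊ nQ PQ uQ ιQ)
  {B : Set (ℤ × ℤ)} (hB : HolB p b tp n ⌊δ * n⌋₊ B)

include H hbg hP hB in
/-- The cell `D`. -/
theorem oD_D : (cDD p b tp n ia ta).Ok θ β (KD p b tp n ⌊δ * n⌋₊) B (enl S₀ n : Set (ℤ × ℤ)) 1
    ((frD θ β p S₀ b tp ia ta).ph (rowS θ) δ n 0) := by
  obtain ⟨-, -, b5, b6, hM⟩ := H.basic
  have hl : 0 < l := by have := H.hp.1; omega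
  have hRN := rn_D H hbg hP (tq := 0) (Nat.mul_pos (by omega) b5)
  have ht := tB_lt (n := n) H.hQ b5
  have hln : 0 < l * n := Nat.mul_pos hl b5
  refine ⟨cellD_D H hP hB _, ?_, hln, hln, ?_, fun h => absurd h (by norm_num)⟩
  · obtain ⟨j, j1, j2, j3⟩ := jA_row H hbg
    obtain ⟨-, g2, -, -, -⟩ := hbg
    have e1 := eW_le H g2 j1
    exact (Enl.kOf_lt g2 (show ⌊ta * n⌋₊ < n by omega) ht).le
  · exact phsD (C := 0) (J := JD p ia) H.hp H.hD H.hQ H.hg H.hδ H.hδg H.hn (sys_D H)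
      (bc_ok b6 hbg) ht
      (fun i j hi hj => ⟨.inl (⟨i, hi⟩, ⟨j, by change j ≤ 2 at hj; omega⟩), rfl⟩)
      (fun v hv => fun h => (cellD_D H hP hB 0).dis v hv (mem_coe.2 h))
      fun k h => oqD_D H hP hB h

include H hbg hP hB in
/-- The cell `R`. -/
theorem oR_D : (cRD θ p b tp n ia ta (tqD p b n ia) n' P' u' ι).Ok θ β (KD p b tp n ⌊δ * n⌋₊) B
    (RD p S₀ b tp n ⌊δ * n⌋₊ : Set (ℤ × ℤ)) 1 ((frD θ β p S₀ b tp ia ta).ph (rowS θ) δ n 0) := by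
  have htq := (tqD_bd (ia := ia) H).2.2
  have hRN := rn_D H hbg hP htq
  have hcell := cellRs H hP hB ia ta
  exact ⟨hcell, hRN.k0_lt.1.le, hRN.z_lt.1, hRN.z_lt.2,
    phs_rows (sys_D H) hcell.bd (fun v hv => hcell.dis v hv) fun k hk x hx h1 h2 =>
      valR H hbg hP hB htq hk hx h1 h2 rfl, fun h => absurd h (by norm_num)⟩

/-- The colour of the box. -/
theorem oneCol_D {N t : ℕ} : OneCol 4 N t .free β (CQ θ β p ia) (cT p ia) (θ / 4 * (uT p - 3))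
    (cT p ia) := by
  refine ⟨cT_or p ia, fun k hk => ?_, fun k hk => ?_⟩
  · have hk' : k < Bc.ka 4 N t .free := hk
    rw [if_pos hk']
    unfold CQ ET cT
    by_cases hc : clT p ia
    · simp only [if_pos hc, if_true]
      ring
    · simp only [if_neg hc]
      rw [if_neg (show ¬ (-1 : ℝ) = 1 by norm_num)]
      ring
  · have hk' : k < Bc.ka 4 N t .free := hk
    rw [if_pos hk', mul_one]

omit hbg in
include H hP hPQ hB in
/-- The exterior cell. -/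
theorem oX_D : (cXD θ p b n ia nQ PQ uQ ιQ).Ok θ β (KD p b tp n ⌊δ * n⌋₊) B
    (XD p b n ⌊δ * n⌋₊) (-1) ((frD θ β p S₀ b tp ia ta).ph (rowS θ) δ n 0) := by
  obtain ⟨-, -, b5, b6, hM⟩ := H.basic
  have hN0 : 0 < bM p * n := Nat.mul_pos (by omega) b5
  obtain ⟨t1, t2, htq⟩ := tqD_bd (ia := ia) H
  obtain ⟨c1, c2, c3, c4⟩ := H.box
  have hcell := cellX_D H hP hB hPQ htq
  have hn' : 0 < nQ := by have := hPQ.le; omega
  have hPQ' : BPf pQ {(0, 0)} (bM p * n) (mksQ p b) ⌊δ / bM p * ((bM p * n : ℕ) : ℝ)⌋₊ nQ PQ uQ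
      ιQ := by rw [c4]; exact hPQ
  refine ⟨hcell, ?_, hn', hn', ?_, fun _ => ?_⟩
  · show k1 nQ (cT p ia) ≤ nQ
    unfold k1
    split_ifs <;> omega
  · exact phsX (p := pQ) (S₀ := {(0, 0)}) (Q := mksQ p b) (n := bM p * n) (δ := δ / bM p)
      (J := fun _ => true) (C := CQ θ β p ia) (c := cT p ia) (bc := .free) (t := tqD p b n ia)
      pQ_poly pQ_encl H.hQ' H.hg' c1 c2 c3 hPQ' (sys_D H) trivial htq
      (by rw [c4]; exact hB.box) (cT_or p ia)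
      (fun i j hi hj => ⟨.inr (.inl (⟨i, hi⟩, ⟨j, by change j ≤ 2 at hj; omega⟩)), by rw [c4]; rfl⟩)
      (fun _ => rfl) oneCol_D hcell.bd hcell.dis
      fun k h => by rw [c4]; exact oqX_D H hB hPQ htq h
  · have hg0 : 0 ≤ (mksQ p b).tp := H.hQ'.tp0.le
    obtain ⟨j, j1, j2, j3⟩ := mid_row (p := pQ) H.hQ' H.hg' c1 c2 c3 (show 0 < 4 by norm_num) hg0
      H.hQ'.tp1.le H.hg'.2 t1 t2
    have hin := mid_inR (p := pQ) (l := 4) (Q := mksQ p b) (n := bM p * n) (i := 0)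
      (k := tqD p b n ia) (by norm_num) j1 j2 j3 (by omega) (by omega)
    exact gdX (p := pQ) (S₀ := {(0, 0)}) (Q := mksQ p b) (n := bM p * n) (δ := δ / bM p)
      (t := tqD p b n ia) pQ_poly H.hQ' H.hg' c2 c3 hPQ' htq hin
      (tG_even pQ (bM p * n) (tqB (bQ b (bM p))) (cT_or p ia))

include H hbg hP hPQ hB in
/-- **The cells of the Dobrushin frame.** -/
theorem dobF_D : DobF θ β ((frD θ β p S₀ b tp ia ta).U (rowS θ) δ n) B
    ((frD θ β p S₀ b tp ia ta).ph (rowS θ) δ n 0) (enl S₀ n) (RD p S₀ b tp n ⌊δ * n⌋₊)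
    (XD p b n ⌊δ * n⌋₊) (cDD p b tp n ia ta)
    (cRD θ p b tp n ia ta (tqD p b n ia) n' P' u' ι) (cXD θ p b n ia nQ PQ uQ ιQ) := by
  rw [U_frD]
  obtain ⟨-, -, b5, b6, hM⟩ := H.basic
  have hl : 0 < l := by have := H.hp.1; omega
  have hRN := rn_D H hbg hP (tq := 0) (Nat.mul_pos (by omega) b5)
  have ht := tB_lt (n := n) H.hQ b5
  have hln : 0 < l * n := Nat.mul_pos hl b5
  have hka : Bc.ka l n (tB n (mks p b tp)) (.dob ia ta) = jAd n ia ta - tB n (mks p b tp) := by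
    have := hRN.hA
    have := hRN.htn
    show kOf l n (tB n (mks p b tp)) ia ⌊ta * n⌋₊ = _
    unfold kOf
    rw [if_pos (by unfold jAd at *; omega)]
    rfl
  have h1 := hRN.hA
  have h2 := hRN.hA'
  have h3 := hRN.htn
  have h4 := hRN.ht
  refine ⟨oD_D H hbg hP hB, oR_D H hbg hP hB, oX_D H hP hPQ hB, ?_, ?_, ⟨rfl, rfl⟩, ?_, ?_, ?_,
    ?_, ?_, ?_⟩
  · show 0 < Bc.ka l n (tB n (mks p b tp)) (.dob ia ta) ∧
      Bc.ka l n (tB n (mks p b tp)) (.dob ia ta) < l * n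
    rw [hka]
    omega
  · show k1 nQ (cT p ia) = 0 ∨ k1 nQ (cT p ia) = nQ
    unfold k1
    split_ifs
    · exact Or.inr rfl
    · exact Or.inl rfl
  · intro v hv hvB
    by_cases g1 : v ∈ enl S₀ n
    · exact Or.inl g1
    right
    by_cases g2 : v ∈ enl {(0, 0)} (bM p * n)
    · left
      unfold RD
      rw [mem_filter]
      refine ⟨g2, ⟨g1, fun h => hv (mem_union_left _ (mem_union_right _ h))⟩, ?_⟩
      rintro ⟨g3, g4, g5⟩
      rcases (glueD H hP hB).s3 v ⟨g3, g4, by omega⟩ with g6 | g6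
      · exact hv (mem_union_right _ g6)
      · exact hvB g6
    · right
      rintro (h | h)
      · exact g2 h
      · exact hv (mem_union_left _ (mem_union_left _ h))
  · intro v hv h
    unfold RD at h
    exact (mem_filter.1 h).2.1.1 hv
  · intro v hv h
    refine h (Or.inl (mem_coe.2 (mem_boxE.2 ?_)))
    have := deep H (v := v) (Or.inl hv)
    omega
  · intro v hv h
    unfold RD at hv
    exact h (Or.inl (mem_coe.2 (mem_filter.1 hv).1))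
  · -- the squares beyond the junction of the domain
    have key : ∀ k j, k + tB n (mks p b tp) = j → InP p b tp n ⌊δ * n⌋₊ j →
        bq (cDD p b tp n ia ta).P (cDD p b tp n ia ta).u k ∈ RD p S₀ b tp n ⌊δ * n⌋₊ := by
      intro k j hkj hin
      obtain ⟨e1, e2⟩ := base_W (t := tB n (mks p b tp)) H.hp H.hD b5 ht
      have h6 := bq_RD H hB hin
      rw [bq_eq] at h6 ⊢
      show sqL ((fun k : ℕ => qN p n (tB n (mks p b tp)) (k : ZMod (l * n))) k +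
        vec (uN p n (tB n (mks p b tp)) k - 1)) (uN p n (tB n (mks p b tp)) k - 1) ∈ _
      rw [e1, e2]
      simp only
      rw [hkj, vec_congr (d' := uW p n (tB n (mks p b tp)) j - 1) (by omega),
        sqL_congr (d' := uW p n (tB n (mks p b tp)) j - 1) (by omega)]
      exact h6
    obtain ⟨a, ha, a1, a2, -⟩ := in_A H hbg (k := jAd n ia ta) (by omega) (by omega)
    obtain ⟨a', ha', a1', a2', -⟩ := in_A H hbg (k := jAd n ia ta - 1) (by omega) (by omega)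
    refine ⟨key _ (jAd n ia ta) ?_ ⟨a, ha, a1, a2⟩, key _ (jAd n ia ta - 1) ?_ ⟨a', ha', a1', a2'⟩⟩
    · show Bc.ka l n (tB n (mks p b tp)) (.dob ia ta) + _ = _
      rw [hka]
      omega
    · show Bc.ka l n (tB n (mks p b tp)) (.dob ia ta) - 1 + _ = _
      rw [hka]
      omega
  · -- the squares beyond the junction of the region
    have hrb := rb_frame H.hp H.hD H.hQ H.hg H.hδ H.hδg H.hn hB.poly
    obtain ⟨k1, -, -⟩ := k0_at H hbg hP hB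
    obtain ⟨a, ha, a1, a2, -⟩ := in_t H (k := tB n (mks p b tp)) (by omega) (by omega)
    obtain ⟨a', ha', a1', a2', -⟩ := in_t H (k := tB n (mks p b tp) - 1) (by omega) (by omega)
    obtain ⟨-, -, f1, -⟩ := out_sq H hbg hP hB (j := tB n (mks p b tp)) (by omega) ⟨a, ha, a1, a2⟩
    obtain ⟨-, -, f2, -⟩ := out_sq H hbg hP hB (j := tB n (mks p b tp) - 1) (by omega)
      ⟨a', ha', a1', a2'⟩
    constructor
    · show bq (PRs p b n ia ta n' P' ι) (URs p b n ia ta n' u' ι)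
        (kR p n ia ta n' ι (tB n (mks p b tp) - 1)) ∈ _
      rw [f2]
      exact mem_coe.1 (hrb.hR.bd.left _)
    · show bq (PRs p b n ia ta n' P' ι) (URs p b n ia ta n' u' ι)
        (kR p n ia ta n' ι (tB n (mks p b tp) - 1) - 1) ∈ _
      rw [k1, Nat.add_sub_cancel, f1]
      exact mem_coe.1 (hrb.hR.bd.left _)

include H hbg hP hPQ hB in
/-- **The colours of the cells of the Dobrushin frame.** -/
theorem clr_D {η : Cfg} (hη : (frD θ β p S₀ b tp ia ta).Frz (rowS θ) δ n η) :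
    (cDD p b tp n ia ta).Clr ((frD θ β p S₀ b tp ia ta).U (rowS θ) δ n) B η ∧
    (cRD θ p b tp n ia ta (tqD p b n ia) n' P' u' ι).Clr
      ((frD θ β p S₀ b tp ia ta).U (rowS θ) δ n) B η ∧
    (cXD θ p b n ia nQ PQ uQ ιQ).Clr ((frD θ β p S₀ b tp ia ta).U (rowS θ) δ n) B η := by
  rw [U_frD]
  obtain ⟨-, -, b5, b6, hM⟩ := H.basic
  have htq := (tqD_bd (ia := ia) H).2.2
  obtain ⟨c1, c2, c3, c4⟩ := H.box
  have hRN := rn_D H hbg hP htq
  have ht := tB_lt (n := n) H.hQ b5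
  have hcP := colP_D H hbg hη
  refine ⟨clrD H.hp H.hD H.hQ H.hg H.hδ H.hδg H.hn hcP ht fun k h => oqD_D H hP hB h, ?_, ?_⟩
  · intro k hk h1 h2
    show η (oq (PRs p b n ia ta n' P' ι) (URs p b n ia ta n' u' ι) k) = decide (¬ k <
      k0n (bM p * n) (yV p n) n' (tB n (mks p b tp)) (iT p * n) (jAd n ia ta) ι)
    rcases idxR H hbg hP hB hk h1 h2 with ⟨g1, g2, g3⟩ | ⟨j, hj, hin, g1, g2⟩
    · have h3 := hRN.colS (k := k) g1 g2
      have h4 : η (oq (PRs p b n ia ta n' P' ι) (URs p b n ia ta n' u' ι) k) =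
          decide (cT p ia ≠ 1) := by
        rcases g3 with g3 | g3
        · exact colS_D hη _ g3
        · exact colQ_D H hη _ g3
      rw [h4, decide_eq_decide, cT_ne, h3]
    · rw [g2, colW_at H.hp H.hD H.hQ H.hg H.hδ H.hδg H.hn hcP hj hin, decide_eq_decide,
        kOf_ka H hbg j]
      have h5 := hRN.col hj
      rw [g1]
      exact not_congr h5.symm
  · exact clrX (p := pQ) (Q := mksQ p b) (n := bM p * n) (δ := δ / bM p)
      (by rw [c4]; exact colQ_D H hη) fun k h => by rw [c4]; exact oqX_D H hB hPQ htq h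

omit [NeZero l] in
include H in
theorem exists_BPQ : ∃ nQ PQ uQ ιQ,
    BPf pQ {(0, 0)} (bM p * n) (mksQ p b) ⌊δ * n⌋₊ nQ PQ uQ ιQ := by
  obtain ⟨c1, c2, c3, c4⟩ := H.box
  have h := exists_BPf (p := pQ) (S₀ := {(0, 0)}) (Q := mksQ p b) (n := bM p * n) (δ := δ / bM p)
    pQ_poly pQ_encl H.hQ' H.hg' c1 c2 c3
  rw [c4] at h
  exact h

omit [NeZero l] in
include H hPQ in
/-- The exterior cell of the box. -/
theorem outX_D : (cXD θ p b n ia nQ PQ uQ ιQ).Out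
    (enl {(0, 0)} (bM p * n) ∪ K1D p b n ⌊δ * n⌋₊)
    (vp pQ (bM p * n) 0 (tqD p b n ia) + dir (pdir pQ 0 - 1)) := by
  obtain ⟨c1, c2, c3, c4⟩ := H.box
  obtain ⟨t1, t2, htq⟩ := tqD_bd (ia := ia) H
  obtain ⟨j, j1, j2, j3⟩ := mid_row (p := pQ) H.hQ' H.hg' c1 c2 c3 (show 0 < 4 by norm_num)
    H.hQ'.tp0.le H.hQ'.tp1.le H.hg'.2 t1 t2
  have hin := mid_inR (p := pQ) (l := 4) (Q := mksQ p b) (n := bM p * n) (i := 0)
    (k := tqD p b n ia) (by norm_num) j1 j2 j3 (by omega) (by omega)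
  have h := outX (p := pQ) (S₀ := {(0, 0)}) (Q := mksQ p b) (n := bM p * n) (δ := δ / bM p)
    (t := tqD p b n ia) (n' := nQ) (P' := PQ) (u' := uQ) (ι := ιQ) pQ_poly pQ_encl H.hQ' H.hg' c1 c2
    c3 (by rw [c4]; exact hPQ) htq hin (k1 nQ (cT p ia)) (θ / 4 * (uT p - 3))
  rw [c4] at h
  exact h

omit hP hPQ hB in
include H hbg in
/-- **The Dobrushin frame has three cells**, for every set `B` which contains the boxes of the
holes. -/
theorem dobF_frD : ∃ cR cX : CD,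
    (∀ B : Set (ℤ × ℤ),
      ((frD θ β p S₀ b tp ia ta).hB δ n ((⌊δ * n⌋₊ : ℤ) + 4) : Set (ℤ × ℤ)) ⊆ B →
      DobF θ β ((frD θ β p S₀ b tp ia ta).U (rowS θ) δ n) B
        ((frD θ β p S₀ b tp ia ta).ph (rowS θ) δ n 0) (enl S₀ n) (RD p S₀ b tp n ⌊δ * n⌋₊)
        (XD p b n ⌊δ * n⌋₊) (cDD p b tp n ia ta) cR cX ∧
      (∀ η : Cfg, (frD θ β p S₀ b tp ia ta).Frz (rowS θ) δ n η →
        (cDD p b tp n ia ta).Clr ((frD θ β p S₀ b tp ia ta).U (rowS θ) δ n) B η ∧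
        cR.Clr ((frD θ β p S₀ b tp ia ta).U (rowS θ) δ n) B η ∧
        cX.Clr ((frD θ β p S₀ b tp ia ta).U (rowS θ) δ n) B η) ∧
      ∀ k, ((clT p ia ∧ cR.k₀ ≤ k ∧ k < cR.zo) ∨ (¬ clT p ia ∧ cR.zc ≤ k ∧ k < cR.k₀)) →
        oq cR.P cR.u k ∈ (frD θ β p S₀ b tp ia ta).U (rowS θ) δ n → oq cR.P cR.u k ∉ B →
        ∃ y, oq cR.P cR.u k ∈ (rD θ β p b tp ia ta n ⌊δ * n⌋₊ (.inl (0, y))).I) ∧
    cR.Mid (vp p n ia ⌊ta * n⌋₊ + dir (pdir p ia - 1)) (SMid p b tp n ⌊δ * n⌋₊ ia) ∧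
    cX.Out (enl {(0, 0)} (bM p * n) ∪ K1D p b n ⌊δ * n⌋₊)
      (vp pQ (bM p * n) 0 (tqD p b n ia) + dir (pdir pQ 0 - 1)) := by
  obtain ⟨n', P', u', ι, hP⟩ := exists_BPf H.hp H.hD H.hQ H.hg H.hδ H.hδg H.hn
  obtain ⟨nQ, PQ, uQ, ιQ, hPQ⟩ := exists_BPQ H
  have hholB : ∀ B : Set (ℤ × ℤ),
      ((frD θ β p S₀ b tp ia ta).hB δ n ((⌊δ * n⌋₊ : ℤ) + 4) : Set (ℤ × ℤ)) ⊆ B →
      HolB p b tp n ⌊δ * n⌋₊ B := fun B h x v hv =>
    h (mem_coe.2 (mem_biUnion.2 ⟨x, mem_univ _, hv⟩))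
  refine ⟨cRD θ p b tp n ia ta (tqD p b n ia) n' P' u' ι, cXD θ p b n ia nQ PQ uQ ιQ, ?_, ?_,
    outX_D H hPQ⟩
  · intro B h
    have hB := hholB B h
    refine ⟨dobF_D H hbg hP hPQ hB, fun η hη => clr_D H hbg hP hPQ hB hη, fun k hk h1 h2 => ?_⟩
    rw [U_frD] at h1
    exact exit_b H hbg hP hB (tqD_bd H).2.2 hk h1 h2
  · exact mid_R H hbg hP (hholB Set.univ (Set.subset_univ _)) (tqD_bd H).2.2

end main

end Vale.Agent.P167.N.ID
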