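import Vale.Agent.P167.N.ID.ArmChain
import Vale.Agent.P167.H135.Z.Pot
import Vale.Agent.P167.H871.Q.AltB

/-!
# P167, the range `0 < q < 1`: an arm excludes the strands over its site

`q`: the contour of `I`. If `q t` is joined by its colour off `I` to the outside of `B`, then no
strand which stays in `B` goes over `q t`.
-/

namespace Vale.Agent.P167.N.ID

open Finset Relation
open Vale.Agent.P167
open Vale.Agent.P145.FB (PStep)
open Vale.Agent.P167.FK
open Vale.Agent.P167.E6 (IsPolygon Encloses)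
open Vale.Agent.P167.H871 (IsC Bd)
open Vale.Agent.P167.Top
open Vale.Agent.P167.H632 (cs pr)
open Vale.Agent.P167.H192.TA (Pw)
open Vale.Agent.P167.BR (be be_even be_odd)
open Vale.Agent.P167.XDL (bS mem_bS exists_idx be_ne)
open Vale.Agent.P167.H199 (strand ret Returns ret_min ret_le)
open Vale.Agent.P167.QX (exc mem_exc exc_nx exc_last ExtPot out_stays)
open Vale.Agent.P167.H871.Q (Foot Stays Rays pot_off pot_vals)
open Vale.Agent.P167.H135.Z (Pt Rc)

variable {n : ℕ} {q : ZMod n → ℤ × ℤ} {I B : Finset (ℤ × ℤ)} {u : ℕ → ℤ} {ω : Cfg}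
  {c : Bool} {e : Ed} {t i j : ℕ} {v s : ℤ × ℤ} {σ : ℤ} {φ : ℤ × ℤ → ℤ}

/-- The exterior potential as a potential off `I`. -/
theorem pt_of_ext (h1 : hdv e ∉ I) (h2 : tlv e ∈ I) (hr : Returns (nx ω) (bS I) e)
    (hφ : ExtPot I (exc I ω e) σ φ) : Pt ω {v | v ∉ I} (exc I ω e) φ := by
  classical
  refine ⟨fun x hx => (exc_nx h1 h2 hr hx).symm, fun x hx => ?_⟩
  rw [hφ.jump x hx]
  congr 1
  by_cases hxe : x ∈ exc I ω e
  · rw [if_pos hxe, if_pos (mem_coe.2 hxe)]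
  · rw [if_neg hxe, if_neg (fun h => hxe (mem_coe.1 h))]

/-- **An arm excludes the strands over its site.** -/
theorem not_over (hq : IsPolygon q) (hI : Encloses q I)
    (hu : Bd (I : Set (ℤ × ℤ)) n (fun k => q (k : ZMod n)) u 1) (hR : Rays I (B : Set (ℤ × ℤ)))
    {v0 : ℤ × ℤ} (hv0 : v0 ∉ B) (hc0 : IsC v0 (q 0)) (F : Foot q I ω e i j)
    (hs : Stays I (B : Set (ℤ × ℤ)) ω e) (ht : t ≤ n)
    (hp : ((q (t : ZMod n)).1 + (q (t : ZMod n)).2) % 2 = pr c)
    {A : Finset (ℤ × ℤ)} (hA : ∀ v ∈ A, v ∉ I)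
    (h : Pw (cs c ω ∩ (A : Set (ℤ × ℤ))) (q (t : ZMod n)) s) (hv : v ∉ B) (hvs : IsC v s) :
    ¬ (min i j < t ∧ t ≤ max i j) := by
  obtain ⟨i0, j0, φ, σ, -, -, -, -, -, hφ, -⟩ :=
    Vale.Agent.P167.H871.Q.exists_ext hq hI hu F.out F.tl F.rt
  have hz : φ (q 0) = 0 := pot_off hR F.rt hs hφ (fun h => hv0 (mem_coe.1 h)) hc0
  have hP := pt_of_ext F.out F.tl F.rt hφ
  have h1 : φ (q (t : ZMod n)) = φ s := by
    refine hP.rc (c := c) (A := A) (fun v hv => hA v hv) hp ?_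
    exact h
  rw [pot_off hR F.rt hs hφ (fun h => hv (mem_coe.1 h)) hvs, pot_vals hq hI F hφ hz t ht] at h1
  intro h2
  have h3 := F.ne hq hI
  rcases lt_or_gt_of_ne h3 with h4 | h4
  · rw [min_eq_left h4.le, max_eq_right h4.le] at h2
    rw [if_pos h2.1, if_neg (by omega)] at h1
    omega
  · rw [min_eq_right h4.le, max_eq_left h4.le] at h2
    rw [if_neg (by omega), if_pos h2.1] at h1
    omega

end Vale.Agent.P167.N.ID
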