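import Vale.Agent.P167.N.ID.CellR
import Vale.Agent.P167.H871.Q.IntW

/-!
# P167, `q < 1`, START: the cells inside and outside of a domain with rows

`RB`: rows outside of straight pieces of a closed path, the ends of the rows and the gaps between them
are in the boxes `B`. `RB.cellD`: the domain is a cell; `RB.cellX`: the complement of the domain and
of the rows is a cell, for the reversed path.
-/

set_option autoImplicit false

namespace Vale.Agent.P167.N.ID

open Finset
open Vale.Agent.P167.Top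
open Vale.Agent.P167.H871
open Vale.Agent.P167.H871.Q

variable {D B : Set (ℤ × ℤ)} {K : Finset (ℤ × ℤ)} {n N n' : ℕ} {P P' : ℕ → ℤ × ℤ}
  {u u' : ℕ → ℤ} {s e : ℕ → ℕ}

/-- Rows and boxes of the holes. -/
structure RB (D : Set (ℤ × ℤ)) (n : ℕ) (P : ℕ → ℤ × ℤ) (u : ℕ → ℤ) (N : ℕ) (s e : ℕ → ℕ)
    (K : Finset (ℤ × ℤ)) (B : Set (ℤ × ℤ)) : Prop where
  hR : Rws D n P u N s e
  hn : 2 < n
  hK : (K : Set (ℤ × ℤ)) = rws P u N s e
  hE : ends P u N s e ⊆ B
  tip : ∀ a < N, sqL (P (s a)) (u (s a) - 1) ∈ B ∧ sqL (P (e a - 1)) (u (s a) - 1) ∈ B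
  gap : ∀ k < n, ¬ InR N s e k → oq P u k ∈ B ∨ iq P u k ∈ B

/-- The squares of a step. -/
theorem sqL_pred (v : ℤ × ℤ) (d : ℤ) : sqL v d + vec (d - 1) = sqL v (d - 1) := by
  have h := sqL_next' (v - vec (d - 1)) (d - 1)
  rw [sub_add_cancel, sub_add_cancel] at h
  rw [h, ← sqL_vec, sub_add_cancel]

/-- The directions at the same site. -/
theorem Bd.dir_eq {σ : ℤ} (h : Bd D n P u σ) (hn : 0 < n) {k k' : ℕ} (he : P k = P k') :
    u k % 4 = u k' % 4 := by
  obtain ⟨g1, g2⟩ := h.perN (k % n) (k / n)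
  obtain ⟨g3, g4⟩ := h.perN (k' % n) (k' / n)
  rw [Nat.mod_add_div] at g1 g2 g3 g4
  have m1 := Nat.mod_lt k hn
  have m2 := Nat.mod_lt k' hn
  have g5 : P (k % n) = P (k' % n) := by rw [← g2, ← g4, he]
  have g6 : k % n = k' % n := by
    rcases lt_trichotomy (k % n) (k' % n) with h1 | h1 | h1
    · exact absurd g5 (h.inj _ _ h1 (by omega))
    · exact h1
    · exact absurd g5.symm (h.inj _ _ h1 (by omega))
  rw [g1, g3, g6, mul_assoc, mul_assoc]
  omega

namespace RB

variable (h : RB D n P u N s e K B)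

include h

theorem mem {v : ℤ × ℤ} : v ∈ K ↔ ∃ a < N, ∃ j, s a ≤ j ∧ j < e a ∧
    v = sqL (P j) (u (s a) - 1) := by
  rw [← mem_coe, h.hK]
  constructor
  · rintro ⟨a, ha, j, h1, h2, rfl⟩
    exact ⟨a, ha, j, h1, h2, by rw [h.hR.str a ha j (by omega) (by omega)]⟩
  · rintro ⟨a, ha, j, h1, h2, rfl⟩
    exact ⟨a, ha, j, h1, h2, by rw [h.hR.str a ha j (by omega) (by omega)]⟩

theorem disj {v : ℤ × ℤ} (hv : v ∈ K) : v ∉ D := by
  rw [← mem_coe, h.hK] at hv
  exact h.hR.nin hv

/-- The next site in a row. -/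
theorem nx {a j : ℕ} (ha : a < N) (h1 : s a ≤ j + 1) (h2 : j ≤ e a) :
    P (j + 1) = P j + vec (u (s a)) := by
  rw [h.hR.bd.step, h.hR.str a ha j h1 h2]

/-- The squares beyond the rows. -/
theorem byd {a j : ℕ} (ha : a < N) (h1 : s a ≤ j) (h2 : j < e a) :
    sqL (P j + vec (u (s a) - 1)) (u (s a) - 1) ∉ D ∪ rws P u N s e := by
  have hb := (h.hR.bmp ha).byd h1 h2
  have hn1 := h.nx (j := j) ha (by omega) (by omega)
  rintro (h3 | ⟨b, hb', l, h4, h5, h6⟩)
  · exact hb (Or.inl h3)
  · rw [h.hR.str b hb' l (by omega) (by omega)] at h6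
    have hn2 := h.nx (j := l) hb' (by omega) (by omega)
    -- a corner of the square beyond is a corner of the square of the other row
    have key : ∀ l', s b ≤ l' → l' ≤ e b → P j + vec (u (s a) - 1) ≠ P l' + vec (u (s b) - 1) := by
      intro l' h7 h8 h9
      rcases lt_trichotomy a b with g | g | g
      · exact h.hR.free2 b hb' a g l' j h7 h8 h1 (by omega) h9.symm
      · subst g
        have h10 := add_right_cancel h9
        -- the square beyond is not in the same row
        exact hb (Or.inr ⟨l, h4, h5, by rw [h.hR.str a ha l (by omega) (by omega)]; exact h6⟩)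
      · exact h.hR.free2 a ha b g j l' h1 (by omega) h7 h8 h9
    rcases sqL_corner h6 with g | g | g | g
    · exact h.hR.free a ha j h1 (by omega) l g.symm
    · exact key l h4 (by omega) g
    · rw [sub_add_cancel, ← hn2] at g
      exact h.hR.free a ha j h1 (by omega) (l + 1) g.symm
    · refine key (l + 1) (by omega) (by omega) ?_
      rw [g, sub_add_cancel, hn2]
      abel

/-- **The cell inside.** -/
theorem cellD : Cell K B D n P u 1 := by
  have hR := h.hR
  refine ⟨h.hn, hR.bd, hR.cov, fun v hv => h.disj hv, fun k hk => ?_,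
    fwd_of hR.bd (by have := h.hn; omega) ?_, bwd_of hR.bd (by have := h.hn; omega) ?_, ?_⟩
  · by_cases hk2 : InR N s e k
    · left
      rw [← mem_coe, h.hK]
      obtain ⟨a, ha, h1, h2⟩ := hk2
      exact ⟨a, ha, k, h1, h2, rfl⟩
    · exact Or.inr (h.gap k hk hk2)
  · intro k hk h1 h2 h3
    rw [← mem_coe, h.hK] at h1
    obtain ⟨a, ha, h4, h5⟩ := hR.inR hk h1
    have e1 := hR.str a ha k (by omega) (by omega)
    have e2 := hR.str a ha (k + 1) (by omega) (by omega)
    refine ⟨?_, by rw [e1, e2]⟩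
    rcases (by omega : k + 1 < e a ∨ k + 1 = e a) with g | g
    · rw [← mem_coe, h.hK]
      exact ⟨a, ha, k + 1, by omega, g, rfl⟩
    · exfalso
      apply h3
      apply h.hE
      refine ⟨a, ha, Or.inr ?_⟩
      rw [← g, e2, hR.bd.step, e1, sqL_vec]
      unfold oq
      rw [e1]
  · intro k hk h1 h2 h3
    rw [← mem_coe, h.hK] at h1
    rcases (by omega : k + 1 < n ∨ k + 1 = n) with g | g
    · obtain ⟨a, ha, h4, h5⟩ := hR.inR g h1
      have e1 := hR.str a ha k (by omega) (by omega)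
      have e2 := hR.str a ha (k + 1) (by omega) (by omega)
      refine ⟨?_, by rw [e1, e2]⟩
      rcases (by omega : s a ≤ k ∨ k + 1 = s a) with g' | g'
      · rw [← mem_coe, h.hK]
        exact ⟨a, ha, k, g', by omega, rfl⟩
      · exfalso
        apply h3
        apply h.hE
        refine ⟨a, ha, Or.inl ?_⟩
        rw [show s a - 1 = k by omega, e1]
        unfold oq
        rw [e2, hR.bd.step, e1, sqL_vec]
        abel
    · exfalso
      have e0 := oq_per hR.bd 0 1
      rw [mul_one, zero_add, ← g] at e0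
      change oq P u (k + 1) ∈ rws P u N s e at h1
      rw [e0] at h1
      obtain ⟨a, ha, h4, h5⟩ := hR.inR (by omega) h1
      have := hR.h1 a ha
      omega
  · intro k hk h1 h2 h3
    rw [← mem_coe, h.hK] at h1 h3
    obtain ⟨a, ha, h4, h5⟩ := hR.inR hk h1
    have e1 := hR.str a ha k (by omega) (by omega)
    refine h.byd ha h4 h5 (Or.inr ?_)
    unfold oq at h3
    rw [e1] at h3
    rw [sqL_vec]
    exact h3

/-- The free sides of the squares of the rows off the boxes are the far sides. -/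
theorem far {a j : ℕ} (ha : a < N) (h1 : s a ≤ j) (h2 : j < e a) {v : ℤ × ℤ}
    (hv : v = sqL (P j) (u (s a) - 1)) (hB : v ∉ B) {t : ℤ} (h3 : v + vec t ∉ D)
    (h4 : v + vec t ∉ K) : t % 4 = (u (s a) - 1) % 4 := by
  have hstr := h.hR.str a ha
  set w := u (s a) with hw
  have huj : u j = w := hstr j (by omega) (by omega)
  rcases (by omega : t % 4 = (w - 1) % 4 ∨ t % 4 = w % 4 ∨ t % 4 = (w + 1) % 4 ∨
    t % 4 = (w - 2) % 4) with g | g | g | g
  · exact g
  · exfalso
    have e1 : v + vec t = sqL (P (j + 1)) (w - 1) := by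
      rw [h.nx ha (by omega) (by omega), sqL_vec, ← hv, vec_congr g]
    rcases (by omega : j + 1 < e a ∨ j = e a - 1) with g' | g'
    · exact h4 (h.mem.2 ⟨a, ha, j + 1, by omega, g', e1⟩)
    · apply hB
      rw [hv, g']
      exact (h.tip a ha).2
  · exfalso
    apply h3
    have e1 := sqL_next' (P j) (w - 1)
    have e2 : v + vec t = sqL (P j) w := by
      have h5 : vec (w + 1) + vec (w - 1) = 0 := by
        have := vec_back (w - 1)
        rw [show w - 1 + 2 = w + 1 by ring] at this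
        rw [this]; simp
      rw [sub_add_cancel] at e1
      rw [hv, ← e1, vec_congr g, sqL_vec, add_assoc, add_comm (vec (w - 1)), h5, add_zero]
    rw [e2, ← huj]
    exact h.hR.bd.left j
  · exfalso
    rcases (by omega : s a < j ∨ j = s a) with g' | g'
    · have e1 : v + vec t = sqL (P (j - 1)) (w - 1) := by
        have h5 := h.nx (j := j - 1) ha (by omega) (by omega)
        rw [show j - 1 + 1 = j by omega] at h5
        have h6 : vec w + vec (w - 2) = 0 := by
          have := vec_back (w - 2)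
          rw [sub_add_cancel] at this
          rw [this]; simp
        rw [hv, h5, sqL_vec, vec_congr g, add_assoc, h6, add_zero]
      exact h4 (h.mem.2 ⟨a, ha, j - 1, by omega, by omega, e1⟩)
    · apply hB
      rw [hv, g']
      exact (h.tip a ha).1

variable (hb : Bd (D ∪ rws P u N s e) n' P' u' 1) (hc : Cov (D ∪ rws P u N s e) P' u')

include hb

/-- The step of the path around the rows at a square of a row off the boxes. -/
theorem at_row {m : ℕ} (h1 : iq P' u' m ∈ K) (h2 : iq P' u' m ∉ B) :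
    ∃ a < N, ∃ j, s a < j ∧ j + 1 < e a ∧ iq P' u' m = sqL (P j) (u (s a) - 1) ∧
      P' m = P j + vec (u (s a) - 1) ∧ u' m % 4 = u (s a) % 4 := by
  obtain ⟨a, ha, j, h3, h4, h5⟩ := h.mem.1 h1
  have h6 := hb.right m
  rw [← sqL_pred] at h6
  change iq P' u' m + vec (u' m - 1) ∉ _ at h6
  have h7 := h.far ha h3 h4 h5 h2 (t := u' m - 1) (fun g => h6 (Or.inl g))
    (fun g => h6 (Or.inr (by rw [← h.hK]; exact mem_coe.2 g)))
  have h8 : u' m % 4 = u (s a) % 4 := by omega
  have h9 : j ≠ s a := by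
    rintro rfl
    exact h2 (h5 ▸ (h.tip a ha).1)
  have h10 : j + 1 ≠ e a := by
    intro g
    apply h2
    rw [h5, show j = e a - 1 by omega]
    exact (h.tip a ha).2
  refine ⟨a, ha, j, by omega, by omega, h5, ?_, h8⟩
  have h11 : sqL (P' m) (u (s a)) = sqL (P j + vec (u (s a) - 1)) (u (s a)) := by
    have e1 := sqL_next' (P j) (u (s a) - 1)
    rw [sub_add_cancel] at e1
    rw [e1, ← h5]
    exact sqL_congr h8.symm
  exact sqL_inj h11

include hc

omit hb in
/-- The far side of a square of a row is a step of the path around the rows. -/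
theorem far_step {a j : ℕ} (ha : a < N) (h1 : s a ≤ j) (h2 : j < e a) :
    ∃ m, P' m = P j + vec (u (s a) - 1) ∧ u' m % 4 = u (s a) % 4 := by
  refine hc _ _ ?_ (h.byd ha h1 h2)
  have e1 := sqL_next' (P j) (u (s a) - 1)
  rw [sub_add_cancel] at e1
  rw [e1]
  refine Or.inr ⟨a, ha, j, h1, h2, ?_⟩
  rw [h.hR.str a ha j (by omega) (by omega)]

variable (hn' : 2 < n')

omit h hc in
/-- The squares of the reversed path. -/
theorem rev_sq (k : ℕ) : oq (revP n' P') (revU n' u') k = iq P' u' ((n' - 1) * (k + 1)) ∧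
    iq (revP n' P') (revU n' u') k = oq P' u' ((n' - 1) * (k + 1)) ∧
    (revU n' u' k) % 4 = (u' ((n' - 1) * (k + 1)) + 2) % 4 := by
  have h1 := hb.step ((n' - 1) * (k + 1))
  have h2 : revU n' u' k % 4 = (u' ((n' - 1) * (k + 1)) + 2) % 4 := by
    unfold revU
    rw [mul_assoc]
    omega
  refine ⟨?_, ?_, h2⟩
  · unfold oq iq
    show sqL (P' ((n' - 1) * (k + 1) + 1)) (revU n' u' k - 1) = _
    rw [h1, ← sqL_next' (P' ((n' - 1) * (k + 1))) (u' ((n' - 1) * (k + 1)))]
    exact sqL_congr (by omega)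
  · unfold oq iq
    show sqL (P' ((n' - 1) * (k + 1) + 1)) (revU n' u' k) = _
    rw [h1, ← sqL_next (P' ((n' - 1) * (k + 1))) (u' ((n' - 1) * (k + 1)))]
    exact sqL_congr (by omega)

omit h hc in
include hn' in
/-- The indices of the reversed path. -/
theorem rev_ix (k : ℕ) : P' ((n' - 1) * (k + 1 + 1) + 1) = P' ((n' - 1) * (k + 1)) ∧
    u' ((n' - 1) * (k + 1 + 1) + 1) = u' ((n' - 1) * (k + 1)) + 4 := by
  have e1 : (n' - 1) * (k + 1 + 1) + 1 = (n' - 1) * (k + 1) + n' := by
    obtain ⟨d, rfl⟩ : ∃ d, n' = d + 1 := ⟨n' - 1, by omega⟩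
    rw [Nat.add_sub_cancel]
    ring
  rw [e1, hb.perP, hb.per]
  exact ⟨rfl, by ring⟩

include hn'

/-- **The cell outside.** -/
theorem cellX : Cell K B (D ∪ rws P u N s e)ᶜ n' (revP n' P') (revU n' u') (-1) := by
  have hn0 : 0 < n' := by omega
  have hrev : Bd (D ∪ rws P u N s e)ᶜ n' (revP n' P') (revU n' u') (-1) := hb.rev hn0
  have hsq := fun k => rev_sq hb k
  have hix := fun k => rev_ix hb hn' k
  have hn := h.hn
  refine ⟨hn', hrev, ?_, fun v hv hv2 => ?_, fun k hk => ?_, fun k h1 h2 h3 => ?_,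
    fun k h1 h2 h3 => ?_, fun k _ h1 h2 h3 => ?_⟩
  · -- every side is a step
    intro v t h1 h2
    have h3 : sqL (v + vec t) (t + 2) ∈ D ∪ rws P u N s e := by
      rw [sqL_congr (d' := t - 2) (by omega), sqL_next]
      exact not_not.1 h2
    have h4 : sqL (v + vec t) (t + 2 - 1) ∉ D ∪ rws P u N s e := by
      rw [show t + 2 - 1 = t + 1 by ring, sqL_next']
      exact h1
    obtain ⟨k, hk, h5, h6⟩ := hc.lt hb hn0 h3 h4
    refine ⟨n' - 1 - k, ?_, ?_⟩
    · show P' ((n' - 1) * (n' - 1 - k + 1) + 1) = v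
      have e1 : (n' - 1) * (n' - 1 - k + 1) + 1 = k + 1 + n' * (n' - 1 - k) := by
        obtain ⟨d, rfl⟩ : ∃ d, n' = k + d + 1 := ⟨n' - k - 1, by omega⟩
        rw [show k + d + 1 - 1 = k + d by omega, show k + d - k = d by omega]
        ring
      rw [e1, (hb.perN _ _).2, hb.step, h5, vec_congr h6, vec_back]
      abel
    · show (u' ((n' - 1) * (n' - 1 - k + 1)) - 4 * 1 * (((n' - 1 - k : ℕ) : ℤ) + 1) + 2) % 4 = t % 4
      have e1 : (n' - 1) * (n' - 1 - k + 1) = k + n' * (n' - 1 - k) := by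
        obtain ⟨d, rfl⟩ : ∃ d, n' = k + d + 1 := ⟨n' - k - 1, by omega⟩
        rw [show k + d + 1 - 1 = k + d by omega, show k + d - k = d by omega]
        ring
      rw [e1, (hb.perN _ _).1, mul_assoc, mul_assoc]
      omega
  · exact hv2 (Or.inr (by rw [← h.hK]; exact mem_coe.2 hv))
  · -- the sides
    rw [(hsq k).1, (hsq k).2.1]
    set m := (n' - 1) * (k + 1) with hm
    rcases hb.left m with h1 | h1
    · right
      have h2 : sqL (P' m) (u' m - 1) ∉ D := fun g => hb.right m (Or.inl g)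
      obtain ⟨i, hi, h3, h4⟩ := h.hR.cov.lt h.hR.bd (by omega) h1 h2
      have h5 : ¬ InR N s e i := by
        rintro ⟨a, ha, h6, h7⟩
        refine hb.right m (Or.inr ⟨a, ha, i, h6, h7, ?_⟩)
        rw [h3]
        exact sqL_congr (by omega)
      have e1 : oq P u i = oq P' u' m := by
        unfold oq
        rw [h3]
        exact sqL_congr (by omega)
      have e2 : iq P u i = iq P' u' m := by
        unfold iq
        rw [h3]
        exact sqL_congr h4
      rcases h.gap i hi h5 with h6 | h6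
      · exact Or.inr (e1 ▸ h6)
      · exact Or.inl (e2 ▸ h6)
    · left
      rw [← mem_coe, h.hK]
      exact h1
  · -- forward
    rw [(hsq k).1] at h1 h2 h3
    rw [vec_congr (hsq k).2.2, vec_back, ← sub_eq_add_neg] at h3
    obtain ⟨a, ha, j, g1, g2, g3, g4, g5⟩ := h.at_row hb h1 h2
    obtain ⟨m, m1, m2⟩ := h.far_step hc ha (j := j - 1) (by omega) (by omega)
    have hnx := h.nx (j := j - 1) ha (by omega) (by omega)
    rw [show j - 1 + 1 = j by omega] at hnx
    -- the step before
    have h4 : P' (m + 1) = P' ((n' - 1) * (k + 1)) := by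
      rw [hb.step, m1, vec_congr m2, g4, hnx]
      abel
    have h5 : P' m = P' ((n' - 1) * (k + 1 + 1)) := by
      have h6 : P' (m + 1) = P' ((n' - 1) * (k + 1 + 1) + 1) := by rw [h4, (hix k).1]
      -- indices modulo the period
      obtain ⟨p1, p2⟩ := hb.perN (m % n') (m / n')
      obtain ⟨p3, p4⟩ := hb.perN ((n' - 1) * (k + 1 + 1) % n') ((n' - 1) * (k + 1 + 1) / n')
      obtain ⟨q1, q2⟩ := hb.perN (m % n' + 1) (m / n')
      obtain ⟨q3, q4⟩ := hb.perN ((n' - 1) * (k + 1 + 1) % n' + 1) ((n' - 1) * (k + 1 + 1) / n')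
      rw [show m % n' + 1 + n' * (m / n') = m + 1 by have := Nat.mod_add_div m n'; omega] at q1 q2
      rw [show (n' - 1) * (k + 1 + 1) % n' + 1 + n' * ((n' - 1) * (k + 1 + 1) / n') =
        (n' - 1) * (k + 1 + 1) + 1 by
          have := Nat.mod_add_div ((n' - 1) * (k + 1 + 1)) n'
          omega] at q3 q4
      rw [Nat.mod_add_div] at p1 p2 p3 p4
      have r1 := Nat.mod_lt m hn0
      have r2 := Nat.mod_lt ((n' - 1) * (k + 1 + 1)) hn0
      have h7 : P' (m % n' + 1) = P' ((n' - 1) * (k + 1 + 1) % n' + 1) := by rw [← q2, ← q4, h6]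
      have h8 : m % n' = (n' - 1) * (k + 1 + 1) % n' := by
        rcases lt_trichotomy (m % n') ((n' - 1) * (k + 1 + 1) % n') with g | g | g
        · exact absurd h7 (hb.inj _ _ (by omega) (by omega))
        · exact g
        · exact absurd h7.symm (hb.inj _ _ (by omega) (by omega))
      rw [p2, p4, h8]
    have h6 := Bd.dir_eq hb hn0 h5
    have h7 : iq P' u' ((n' - 1) * (k + 1 + 1)) = sqL (P (j - 1)) (u (s a) - 1) := by
      unfold iq
      rw [← h5, m1]
      have e1 := sqL_next' (P (j - 1)) (u (s a) - 1)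
      rw [sub_add_cancel] at e1
      rw [← e1]
      exact sqL_congr (by omega)
    refine ⟨?_, ?_⟩
    · rw [(hsq (k + 1)).1, h7]
      exact h.mem.2 ⟨a, ha, j - 1, by omega, by omega, rfl⟩
    · have h8 := hb.turn ((n' - 1) * (k + 1 + 1))
      rw [(hix k).2, abs_le] at h8
      unfold revU
      push_cast
      omega
  · -- backward
    rw [(hsq (k + 1)).1] at h1 h2 h3
    rw [vec_congr (hsq (k + 1)).2.2, vec_back, sub_neg_eq_add] at h3
    obtain ⟨a, ha, j, g1, g2, g3, g4, g5⟩ := h.at_row hb h1 h2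
    obtain ⟨m, m1, m2⟩ := h.far_step hc ha (j := j + 1) (by omega) (by omega)
    have hnx := h.nx (j := j) ha (by omega) (by omega)
    have h4 : P' ((n' - 1) * (k + 1 + 1) + 1) = P' m := by
      rw [hb.step, g4, vec_congr g5, m1, hnx]
      abel
    rw [(hix k).1] at h4
    have h6 := Bd.dir_eq hb hn0 h4
    have h7 : iq P' u' ((n' - 1) * (k + 1)) = sqL (P (j + 1)) (u (s a) - 1) := by
      unfold iq
      rw [h4, m1]
      have e1 := sqL_next' (P (j + 1)) (u (s a) - 1)
      rw [sub_add_cancel] at e1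
      rw [← e1]
      exact sqL_congr (by omega)
    refine ⟨?_, ?_⟩
    · rw [(hsq k).1, h7]
      exact h.mem.2 ⟨a, ha, j + 1, by omega, by omega, rfl⟩
    · have h8 := hb.turn ((n' - 1) * (k + 1 + 1))
      rw [(hix k).2, abs_le] at h8
      unfold revU
      push_cast
      omega
  · -- thin
    rw [(hsq k).1] at h1 h2 h3
    obtain ⟨a, ha, j, g1, g2, g3, g4, g5⟩ := h.at_row hb h1 h2
    have h4 := (hsq k).2.2
    rw [vec_congr (d' := u (s a) + 1) (by omega), g3] at h3
    apply h.disj h3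
    have e1 := sqL_next' (P j) (u (s a) - 1)
    have e2 : sqL (P j) (u (s a) - 1) + vec (u (s a) + 1) = sqL (P j) (u (s a)) := by
      have h5 : vec (u (s a) + 1) + vec (u (s a) - 1) = 0 := by
        have := vec_back (u (s a) - 1)
        rw [show u (s a) - 1 + 2 = u (s a) + 1 by ring] at this
        rw [this]; simp
      rw [sub_add_cancel] at e1
      rw [← e1, sqL_vec, add_assoc, add_comm (vec (u (s a) - 1)), h5, add_zero]
    rw [e2, ← h.hR.str a ha j (by omega) (by omega)]
    exact h.hR.bd.left j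

end RB

end Vale.Agent.P167.N.ID
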