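import Vale.Agent.P167.N.ID.TOne
import Vale.Agent.P167.N.ID.CellF
import Vale.Agent.P167.N.ID.ArmPot
import Vale.Agent.P167.H871.Q.LF1

/-!
# P167, `q < 1`, START (P2S): paths exclude the killed exits

`ext_pot`: an exit of the exterior with potential `0` at the base is not killed. `nk_of`: a path from the
base to far away and no crossing of a big annulus. `nkR_of`: a path from the junction `a` to a site of
the contour of `R` between the bases.
-/

set_option autoImplicit false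

namespace Vale.Agent.P167.N.ID

open Finset Relation
open Vale.Agent.P167.BR
open Vale.Agent.P167.FK
open Vale.Agent.P167.Top
open Vale.Agent.P145.FB (PStep PConn)
open Vale.Agent.P167.E6 (IsPolygon Encloses)
open Vale.Agent.P167.H871
open Vale.Agent.P167.H871.Q
open Vale.Agent.P167.A (plane)
open Vale.Agent.P167.XDL (bS mem_bS P4_be)
open Vale.Agent.P167.H632 (cs pr)
open Vale.Agent.P167.H192.TA (Pw)
open Vale.Agent.P167.H166N (NX)
open Vale.Agent.P167.H199 (strand ret mem_strand Returns ret_min ret_le)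
open Vale.Agent.P167.H680.S (nxt trS MixE)
open Vale.Agent.P167.QX (exc mem_exc exc_last exc_nx ExtPot out_stays)

variable {ω : Cfg} {ℓ : Finset Ed} {K I D : Finset (ℤ × ℤ)} {B : Set (ℤ × ℤ)} {b : Ed} {n : ℕ}
  {P : ℕ → ℤ × ℤ} {u : ℕ → ℤ} {i j z : ℕ} {M M' : ℤ} {e' e'' : Bool} {t : ℤ × ℤ}

/-- **The potential of an exit of the exterior.** If it is `0` at the base, then the exit is not
killed. -/
theorem ext_pot (hn : 2 < n) (hb : Bd (I : Set (ℤ × ℤ)) n P u 1) (hc : Cov (I : Set (ℤ × ℤ)) P u)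
    (hKI : K ⊆ I) (hr : Returns (nx ω) (bS K) b)
    (X : Ex K ((I : Set (ℤ × ℤ))ᶜ) n (revP n P) (revU n u) ω b i j) (hz : z < n) :
    Returns (nx ω) (bS I) b ∧ ∃ σ φ, ExtPot I (exc I ω b) σ φ ∧ (φ (revP n P z) = 0 →
      trS (bS K) ω b - (lab (revU n u) (-1) z j - lab (revU n u) (-1) z i) = 2 ∨
        trS (bS K) ω b - (lab (revU n u) (-1) z j - lab (revU n u) (-1) z i) = -2) := by
  have n0 : 0 < n := by omega
  have hq : IsPolygon (qp n P) := qp_polygon hn hb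
  have hI : Encloses (qp n P) I := qp_encloses hn hb fun v t h1 h2 => hc.lt hb n0 h1 h2
  have hu := qp_bd n0 hb
  have hnat : ∀ k : ℕ, qp n P (k : ZMod n) = P k := fun k => qp_nat n0 hb k
  have h1 : hdv b ∉ I := fun h => X.hdE (mem_coe.2 h)
  have h2 : tlv b ∈ I := hKI X.tlK
  obtain ⟨r1, r2⟩ := ret_ext hKI (fun h => h1 (hKI h)) hr fun k hk h => X.ins k hk (mem_coe.2 h)
  refine ⟨r1, ?_⟩
  obtain ⟨i', j', φ, σ, g1, g2, g3, g4, g5, g6, g7⟩ :=
    Vale.Agent.P167.H871.Q.exists_ext hq hI hu h1 h2 r1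
  refine ⟨σ, φ, g6, fun h0 => ?_⟩
  have F : Foot (qp n P) I ω b i' j' := ⟨g1, g2, h1, h2, r1, g4, g5⟩
  have h3 := pot_all hq hI F g6 (n - z) (by omega)
  rw [hnat] at h3
  obtain ⟨m, rfl⟩ : ∃ m, n = m + 1 := ⟨n - 1, by omega⟩
  have hi := X.hi
  have hj := X.hj
  obtain ⟨a1, a2⟩ := rev_at hb (i := i) (by omega)
  obtain ⟨b1, b2⟩ := rev_at hb (i := j) (by omega)
  obtain ⟨c1, -⟩ := rev_at hb (i := z) (by omega)
  have idx : ∀ {x : Ed} {k k' : ℕ}, k ≤ m → At (revP (m + 1) P) (revU (m + 1) u) x k →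
      k' < m + 1 → x = be (qp (m + 1) P) (k' : ZMod (m + 1)) → k' = m - k := by
    intro x k k' hk hat hk' hx
    obtain ⟨d1, d2⟩ := rev_at hb (i := k) hk
    refine Vale.Agent.P167.H871.Q.idx_eq hb hk' (by omega) ?_
    have h4 : P4 x = M4 (P k') (u k') := by
      rw [hx, P4_be hq hu k', hnat]
    rw [← h4]
    have h5 : P4 x = M4 (revP (m + 1) P k) (revU (m + 1) u k) := hat
    rw [h5, d1, d2]
    have h6 := hb.step (m - k)
    rw [show m - k + 1 = m + 1 - k by omega] at h6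
    rw [h6, M4_congr (d' := u (m - k) + 2) (by omega), M4_rev]
  have ei : i' = m - i := idx (by omega) X.at1 g1 g4
  have ej : j' = m - j := by
    refine idx (by omega) X.at2 g2 ?_
    rw [← g5, r2]
    rfl
  rw [c1] at h0
  rw [h0] at h3
  have h4 : trS (bS K) ω b = u j' - u i' +
      (if i' < j' then (if σ = 1 then 2 else -6) else (if σ = 1 then 6 else -2)) := by
    rw [← g7, r2]
    rfl
  have h5 := g6.sgn
  rw [h4]
  unfold lab
  rw [a2, b2, ← ei, ← ej]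
  rcases h5 with rfl | rfl <;> split_ifs at h3 ⊢ <;> first | contradiction | omega

/-- **A path from the base and no crossing of a big annulus exclude the killed exits.** -/
theorem ext_zero {p : ℤ × ℤ} {σ : ℤ} {φ : ℤ × ℤ → ℤ} (y1 : tlv b ∈ I) (y2 : hdv b ∉ I)
    (y3 : Returns (nx ω) (bS I) b) (hφ : ExtPot I (exc I ω b) σ φ)
    (hin : ∀ w ∈ I, nm (w - p) + 2 ≤ M) (hM : M ≤ M') (hconf : ω ∈ NX e'' p M M')
    (hpar : (p.1 + p.2) % 2 = pr e')
    (hpath : Pw (cs e' ω ∩ {w | w ∉ I}) p t) (ht : M' + 2 ≤ nm (t - p)) : φ p = 0 := by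
  have hK : ∀ k < ret (nx ω) (bS I) b, hdv ((nx ω)^[k] b) ∉ I := fun k hk => out_stays y2 hk
  have hbig : ∀ x ∈ exc I ω b, nm (hdv x - p) ≤ M' ∧ nm (tlv x - p) ≤ M' := fun x hx =>
    strand_big hK y3 (by have := hin _ y1; omega) hM hconf hx
  have ht0 : φ t = 0 := pot_far0 hφ (fun w hw => by have := hin w hw; omega) hbig ht
  have hP := pt_of_ext y2 y1 y3 hφ
  have key : φ p = φ t ∧ (t.1 + t.2) % 2 = pr e' := by
    clear ht ht0
    induction hpath with
    | refl => exact ⟨rfl, hpar⟩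
    | @tail u w _ h ih =>
      obtain ⟨h1, h2⟩ := ih
      obtain ⟨g1, g2, g3⟩ := h
      have h3 : PStep {w | ω w = e' ∧ w ∈ {u : ℤ × ℤ | u ∉ I}} u w := ⟨g1, g2, g3⟩
      refine ⟨h1.trans (hP.step h2 h3), ?_⟩
      omega
  rw [key.1, ht0]

/-- **(X)**: the base of the exterior cell is joined to far away, no crossing of a big annulus. -/
structure ArmX (I : Finset (ℤ × ℤ)) (z : ℤ × ℤ) (ω : Cfg) (e' e'' : Bool) (t : ℤ × ℤ) (M M' : ℤ) :
    Prop where
  par : (z.1 + z.2) % 2 = pr e'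
  inn : ∀ w ∈ I, nm (w - z) + 2 ≤ M
  le : M ≤ M'
  nx : ω ∈ NX e'' z M M'
  path : Pw (cs e' ω ∩ {w | w ∉ I}) z t
  far : M' + 2 ≤ nm (t - z)

theorem nk_of {c : CD} (h0 : 2 < n) (hb : Bd (I : Set (ℤ × ℤ)) n P u 1)
    (hc : Cov (I : Set (ℤ × ℤ)) P u) (hKI : K ⊆ I) (hcn : c.n = n) (hcP : c.P = revP n P)
    (hcu : c.u = revU n u) (C : LC B ω ℓ) (hzc : c.zc < n) (hzo : c.zo < n)
    (h1 : c.k₀ = c.n → ∃ e' e'' t M M', ArmX I (c.P c.zc) ω e' e'' t M M')
    (h2 : c.k₀ = 0 → ∃ e' e'' t M M', ArmX I (c.P c.zo) ω e' e'' t M M') :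
    c.NK K (I : Set (ℤ × ℤ))ᶜ ω ℓ := by
  intro b hbℓ i j X
  rw [hcP] at h1 h2
  rw [hcn, hcP, hcu] at X
  rw [hcu]
  have h3 : hdv b ∉ I := fun h => X.hdE (mem_coe.2 h)
  have h4 : tlv b ∈ I := hKI X.tlK
  have hr := C.rets (mem_bS.2 (Or.inr ⟨fun h => h3 (hKI h), X.tlK⟩)) hbℓ
  constructor
  · intro hk
    obtain ⟨e', e'', t, M, M', A⟩ := h1 hk
    obtain ⟨r1, σ, φ, g1, g2⟩ := ext_pot h0 hb hc hKI hr X hzc
    have h5 := g2 (ext_zero h4 h3 r1 g1 A.inn A.le A.nx A.par A.path A.far)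
    omega
  · intro hk
    obtain ⟨e', e'', t, M, M', A⟩ := h2 hk
    obtain ⟨r1, σ, φ, g1, g2⟩ := ext_pot h0 hb hc hKI hr X hzo
    have h5 := g2 (ext_zero h4 h3 r1 g1 A.inn A.le A.nx A.par A.path A.far)
    omega

/-! ### bounded cells -/

/-- **A path in a bounded cell is not separated by an exit.** -/
theorem path_in_cell (F : Cell K B (D : Set (ℤ × ℤ)) n P u 1)
    (X : Ex K (D : Set (ℤ × ℤ)) n P u ω b i j) {k l : ℕ} (hk : k ≤ n) (hl : l ≤ n) {c : Bool}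
    (hpar : ((P k).1 + (P k).2) % 2 = pr c)
    (h : Pw (cs c ω ∩ (D : Set (ℤ × ℤ))) (P k) (P l)) :
    H718.lft i j k ↔ H718.lft i j l := by
  have hq : IsPolygon (qp n P) := qp_polygon F.hn F.bd
  have hD : Encloses (qp n P) D := qp_encloses F.hn F.bd fun v t h1 h2 => F.cov.lt F.bd F.n0 h1 h2
  have hu := qp_bd F.n0 F.bd
  have hnat : ∀ k : ℕ, qp n P (k : ZMod n) = P k := fun k => qp_nat F.n0 F.bd k
  have hbe : ∀ {x : Ed} {k : ℕ}, At P u x k → be (qp n P) (k : ZMod n) = x := by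
    intro x k hx
    apply P4_inj
    rw [P4_be hq hu k, hnat]
    exact hx.symm
  have gE : hdv b ∈ D := mem_coe.1 X.hdE
  have gm : b ∈ eds D := mem_eds.2 (Or.inl gE)
  have hA := piece_mem_pcs (ω := ω) gm
  have sA := self_mem_piece (ω := ω) gm
  have gA : nxt (bS K) ω b ∈ piece ω D b :=
    (mem_of_run hA (k := ret (nx ω) (bS K) b) ⟨rfl, fun k hk => mem_coe.1 (X.ins k hk)⟩).1 sA
  obtain ⟨φ, hφ⟩ := exists_pot hq hD hA
  have g2K : hdv (nxt (bS K) ω b) ∉ D := fun h' => F.dis _ X.hdK (mem_coe.2 h')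
  obtain ⟨xi1, -, -⟩ := at_ex F.bd X.at1 (mem_coe.2 gE)
  obtain ⟨-, xj2, -, -⟩ := at_ent F.bd X.at2 (fun h' => g2K (mem_coe.1 h'))
  have hXY : H718.IsXY (qp n P) (piece ω D b) i j :=
    ⟨X.hi, X.hj, by rw [hbe X.at1]; exact sA, by rw [hbe X.at2]; exact gA,
      by rw [hnat, ← xi1]; exact FK.even_ls b, by rw [hnat, ← xj2]; exact BR.odd_rs _⟩
  have h1 := H718.pot_lft hq hD hA hφ hXY hk
  have h2 := H718.pot_lft hq hD hA hφ hXY hl
  rw [hnat] at h1 h2
  have hP : H135.Z.Pt ω (D : Set (ℤ × ℤ)) (piece ω D b : Set Ed) φ := by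
    classical
    refine ⟨fun x hx => ?_, fun x hx => ?_⟩
    · exact mem_of_run hA (k := 1) ⟨rfl, fun k hk => by
        have : k = 0 := by omega
        subst this
        exact mem_coe.1 hx⟩
    · rw [hφ x (mem_eds.2 (by simpa using hx))]
      congr 1
      by_cases hxe : x ∈ piece ω D b
      · rw [if_pos hxe, if_pos (mem_coe.2 hxe)]
      · rw [if_neg hxe, if_neg (fun h => hxe (mem_coe.1 h))]
  have h3 : φ (P k) = φ (P l) := by
    refine hP.rc (c := c) (A := D) (fun v hv => mem_coe.2 hv) hpar ?_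
    exact h
  rw [h1, h2] at h3
  by_cases e1 : H718.lft i j k <;> by_cases e2 : H718.lft i j l
  · exact iff_of_true e1 e2
  · rw [if_pos e1, if_neg e2] at h3; omega
  · rw [if_neg e1, if_pos e2] at h3; omega
  · exact iff_of_false e1 e2

/-- **(R)**: the junction `a` is joined in `R` to a site of the contour between the bases. -/
structure ArmR (c : CD) (R : Finset (ℤ × ℤ)) (ω : Cfg) (e' : Bool) (k : ℕ) : Prop where
  par : ((c.P 0).1 + (c.P 0).2) % 2 = pr e'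
  lo : c.zc ≤ k
  hi : k ≤ c.zo
  path : Pw (cs e' ω ∩ (R : Set (ℤ × ℤ))) (c.P 0) (c.P k)

theorem nkR_of {c : CD} {R : Finset (ℤ × ℤ)} {e' : Bool} {k : ℕ}
    (F : Cell K B (R : Set (ℤ × ℤ)) c.n c.P c.u 1) (hzo : c.zo < c.n) (A : ArmR c R ω e' k) :
    c.NKR K (R : Set (ℤ × ℤ)) ω ℓ := by
  intro b _ i j X
  have h1 := path_in_cell F X (k := 0) (l := k) (Nat.zero_le _) (by have := A.hi; omega) A.par A.path
  have h2 := A.lo
  have h3 := A.hi
  unfold H718.lft at h1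
  constructor
  · rintro - - ⟨h4, h5⟩
    omega
  · rintro - - ⟨h4, h5⟩
    omega

end Vale.Agent.P167.N.ID
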