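import Vale.Agent.P167.N.ID.TOneR
import Vale.Agent.P167.N.ID.TOneG
import Vale.Agent.P167.N.ID.L2G
import Vale.Agent.P167.N.ID.PhD

/-!
# P167, `q < 1`, START (P2S): the product over the loops off the holes, Dobrushin frames

* `DobF.to_ne`: the product is not zero if the outer site of the base of the box is joined to far away, a
  big annulus is not crossed and the junction `a` is joined in `R` to the row of the base `b`.
* `to_frD`: the Dobrushin frames.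
-/

set_option autoImplicit false

namespace Vale.Agent.P167.N.ID

open Finset
open Vale.Agent.P167.FK (Good Bq)
open Vale.Agent.P167.Top
open Vale.Agent.P167.H871
open Vale.Agent.P167.H871.Q
open Vale.Agent.P167.H199 (Gap mks)
open Vale.Agent.P167.H632 (cs pr)
open Vale.Agent.P167.H192.TA (Pw)
open Vale.Agent.P167.QX (TO)
open Vale.Agent.P167.H825.Q (Bc)
open Vale.Agent.P167.H433 (lc zA zB)
open Vale.Agent.P167.E6 (IsPolygon Encloses dir)
open Vale.Agent.P167.H825 (pdir enl ptau Marks Box)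
open Vale.Agent.P167.Enl (tB vp BGap)

section

variable {ω : Cfg} {K : Finset (ℤ × ℤ)} {B : Set (ℤ × ℤ)} {D R I : Finset (ℤ × ℤ)} {θ β : ℝ}
  {a : Ed → Bool → ℝ}

/-- **The product over the loops off the holes is not zero**: a path around the exterior and a path in
`R`. -/
theorem DobF.to_ne {cD cR cX : CD} {z za : ℤ × ℤ} {S : Set (ℤ × ℤ)}
    (F : DobF θ β K B a D R ((I : Set (ℤ × ℤ))ᶜ) cD cR cX) (hD : cD.Clr K B ω)
    (hR : cR.Clr K B ω) (hX : cX.Clr K B ω) (hg : Good ω) (hs : Real.sin θ ≠ 0)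
    (hcos : Real.cos θ ≠ 0) (hβ : β = (θ - Real.pi) / 2) (hKI : K ⊆ I) (hO : cX.Out I z)
    (hM : cR.Mid za S) (hA : ∃ e' e'' t M M', ArmX I z ω e' e'' t M M')
    (hP : ∃ e' s, (za.1 + za.2) % 2 = pr e' ∧ s ∈ S ∧ Pw (cs e' ω ∩ (R : Set (ℤ × ℤ))) za s) :
    TO θ K a B ω ≠ 0 := by
  obtain ⟨⟨P₀, u₀, g1, g2, g3, g4⟩, g5, g6, g7, g8⟩ := hO
  obtain ⟨e', s, h1, h2, h3⟩ := hP
  obtain ⟨k, k1, k2, k3⟩ := hM.s s h2
  refine F.TO_ne hD hR hX hg hs hcos hβ (fun ℓ C => ?_) fun ℓ C _ => ?_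
  · refine nk_of g5 g1 g2 hKI rfl g3 g4 C (by omega) (by omega) (fun _ => ?_) fun _ => ?_
    · rw [g6, g8]
      exact hA
    · rw [g7, g8]
      exact hA
  · refine nkR_of F.oR.cell F.oR.zo ⟨by rw [hM.a]; exact h1, k1, k2, ?_⟩
    rw [hM.a, k3]
    exact h3

end

variable {l : ℕ} [NeZero l] {θ β : ℝ} {p : ZMod l → ℤ × ℤ} {S₀ : Finset (ℤ × ℤ)} {b : Box}
  {tp g δ : ℝ} {n : ℕ} {ia : ℕ} {ta : ℝ}

/-- The outer site of the base of the box. -/
noncomputable def zQ (p : ZMod l → ℤ × ℤ) (b : Box) (n ia : ℕ) : ℤ × ℤ :=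
  vp pQ (bM p * n) 0 (tqD p b n ia) + dir (pdir pQ 0 - 1)

/-- The squares of `frD` between the box and the domain, off the holes. -/
def offD (θ β : ℝ) (p : ZMod l → ℤ × ℤ) (S₀ : Finset (ℤ × ℤ)) (b : Box) (tp : ℝ) (ia : ℕ)
    (ta δ : ℝ) (n : ℕ) : Set (ℤ × ℤ) :=
  {v | v ∈ enl {(0, 0)} (bM p * n) ∧ v ∉ (frD θ β p S₀ b tp ia ta).U (rowS θ) δ n ∧
    v ∉ enl S₀ n ∧ v ∉ (frD θ β p S₀ b tp ia ta).hB δ n ((⌊δ * n⌋₊ : ℤ) + 4)}

/-- **(P2S), Dobrushin frames, the deterministic part**: the outer site of the base of the box is joined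
to far away, the junction `a` is joined between the box and the domain to the outer line of the row of
the base `b`. -/
theorem to_frD (H : DobN p S₀ b tp g δ n) (hbg : BGap l (mks p b tp) g (.dob ia ta))
    (hs : Real.sin θ ≠ 0) (hcos : Real.cos θ ≠ 0) (hβ : β = (θ - Real.pi) / 2) {R₃ : ℤ}
    (hR : (⌊δ * n⌋₊ : ℤ) + 4 ≤ R₃) {ω : Cfg} (hω : Good ω)
    (hfz : (frD θ β p S₀ b tp ia ta).Frz (rowS θ) δ n ω)
    (hX : ∃ e' e'' t M M', ArmX (enl {(0, 0)} (bM p * n) ∪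
      (frD θ β p S₀ b tp ia ta).U (rowS θ) δ n) (zQ p b n ia) ω e' e'' t M M')
    (hA : ∃ e' s, ((zA p n ia ta).1 + (zA p n ia ta).2) % 2 = pr e' ∧ s ∈ SidB p ia n tp g ∧
      Pw (cs e' ω ∩ offD θ β p S₀ b tp ia ta δ n) (zA p n ia ta) s) :
    (frD θ β p S₀ b tp ia ta).TO (rowS θ) θ δ n R₃ ω ≠ 0 := by
  obtain ⟨cR, cX, h1, hM, hO⟩ := dobF_frD (θ := θ) (β := β) H hbg
  have hU : (frD θ β p S₀ b tp ia ta).U (rowS θ) δ n = KD p b tp n ⌊δ * n⌋₊ := U_frD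
  have hsub : ((frD θ β p S₀ b tp ia ta).hB δ n ((⌊δ * n⌋₊ : ℤ) + 4) : Set (ℤ × ℤ)) ⊆
      ((frD θ β p S₀ b tp ia ta).hB δ n R₃ : Set (ℤ × ℤ)) := fun v hv =>
    mem_coe.2 (FrS.hB_mono2 hR (mem_coe.1 hv))
  obtain ⟨F0, -, -⟩ := h1 _ (Set.Subset.refl _)
  obtain ⟨F, hc, -⟩ := h1 _ hsub
  obtain ⟨c1, c2, c3⟩ := hc ω hfz
  have hKI : KD p b tp n ⌊δ * n⌋₊ ⊆ enl {(0, 0)} (bM p * n) ∪ K1D p b n ⌊δ * n⌋₊ := by
    intro v hv
    rcases mem_union.1 hv with h | h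
    · rcases mem_union.1 h with h | h
      · exact mem_union_right _ h
      · have := deep H (v := v) (Or.inr (Or.inl h))
        exact mem_union_left _ (mem_boxE.2 (by omega))
    · have := deep H (v := v) (Or.inr (Or.inr h))
      exact mem_union_left _ (mem_boxE.2 (by omega))
  have hI : enl {(0, 0)} (bM p * n) ∪ (frD θ β p S₀ b tp ia ta).U (rowS θ) δ n =
      enl {(0, 0)} (bM p * n) ∪ K1D p b n ⌊δ * n⌋₊ := by
    rw [hU]
    ext v
    constructor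
    · intro h
      rcases mem_union.1 h with h | h
      · exact mem_union_left _ h
      · exact hKI h
    · intro h
      rcases mem_union.1 h with h | h
      · exact mem_union_left _ h
      · exact mem_union_right _ (mem_union_left _ (mem_union_left _ h))
  have hXI : XD p b n ⌊δ * n⌋₊ =
      ((enl {(0, 0)} (bM p * n) ∪ K1D p b n ⌊δ * n⌋₊ : Finset (ℤ × ℤ)) : Set (ℤ × ℤ))ᶜ := by
    unfold XD
    rw [coe_union]
  rw [hXI] at F
  rw [hI] at hX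
  obtain ⟨e', s, g1, g2, g3⟩ := hA
  have hmem : offD θ β p S₀ b tp ia ta δ n ⊆ (RD p S₀ b tp n ⌊δ * n⌋₊ : Set (ℤ × ℤ)) := by
    rintro v ⟨v1, v2, v3, v4⟩
    rcases F0.cov v v2 (fun h => v4 (mem_coe.1 h)) with h | h | h
    · exact absurd h v3
    · exact mem_coe.2 h
    · exact absurd (Or.inl (mem_coe.2 v1)) h
  have ha : vp p n ia ⌊ta * n⌋₊ + dir (pdir p ia - 1) = zA p n ia ta := (lc_out _ _).symm
  rw [ha] at hM
  exact F.to_ne c1 c2 c3 hω hs hcos hβ (by rw [hU]; exact hKI) hO hM hX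
    ⟨e', s, g1, sidB_sub H g2, H192.TA.Pw.mono (Set.inter_subset_inter_right _ hmem) g3⟩

end Vale.Agent.P167.N.ID
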