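import Vale.Agent.P167.N.ID.TOneP
import Vale.Agent.P167.N.ID.TOneD

/-!
# P167, `q < 1`, START (P2S): the base sites in local coordinates
-/

set_option autoImplicit false

namespace Vale.Agent.P167.N.ID

open Vale.Agent.P167.H825.Q (Bc)
open Vale.Agent.P167.H433 (lc zP)
open Vale.Agent.P167.H825 (pdir Box)
open Vale.Agent.P167.Enl (vp)

variable {l : ℕ} {p : ZMod l → ℤ × ℤ} {b : Box} {n ia : ℕ} {tp : ℝ} {bc : Bc}

theorem zP_eq : zP p n tp bc = zXP p n tp bc := lc_out _ _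

theorem zQ_eq : zQ p b n ia = lc (pdir pQ 0) (vp pQ (bM p * n) 0 (tqD p b n ia)) 0 1 :=
  (lc_out _ _).symm

end Vale.Agent.P167.N.ID
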