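import Vale.Agent.P167.N.ID.GeoS

/-!
# P167, block ID, geometry of the frames: the frame with Dobrushin boundary conditions
-/

set_option autoImplicit false

namespace Vale.Agent.P167.N.ID

open Finset Filter Topology
open Vale.Agent.P167.E6 (IsPolygon Encloses dir face region)
open Vale.Agent.P167.H825 (pdir enl domP Box dirOf Marks FlowIn epos rnd bsite)
open Vale.Agent.P167.H825.Q (Row Bc)
open Vale.Agent.P167.H662 (hsite)
open Vale.Agent.P167.FK (Bq)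
open Vale.Agent.P167.H199 (Gap mks mth c0 c0_pos int_far mks_ok Gen)
open Vale.Agent.P167.XDL (bS mem_bS)
open Vale.Agent.P167.H680.T (uI mem_uI)
open Vale.Agent.P167.H398.Q (Tch hB)
open Vale.Agent.P167.Enl (sW eW tB rowP mem_rowP frm vp oz vz vz_eq oz_eq fin4_cases frmQ mem_frmQ
  iB jB pA pB gA gB iB_lt jB_le vp_pA vp_pB pB_zero pB_pos pA_zero row_pos rows_long frm_box
  mem_Bq' Bq_of op_near nm_tri nm_sub_comm pA_lt pB_le enl_side op_same lt_n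
  rows_marks near_hole fl fl_zero fl_one theta_mono theta_nonneg theta_le_one hsite_far mark_far
  frow_I hole_near frmQ_disj clH clH_sub clH_disj cl_cov hsite_out gn_big mem_bS_two gap_step
  pdir_step dir0 dir1 dir2 dir3)

/-- The index of the holes of the frame with Dobrushin boundary conditions: the marks of the
polygon, the marks of the box, the foot of the spoke. -/
abbrev HxD (l : ℕ) : Type := (Fin l × Fin 3) ⊕ (Fin 4 × Fin 3) ⊕ Unit

variable {l : ℕ} {p : ZMod l → ℤ × ℤ} {S₀ : Finset (ℤ × ℤ)} {b : Box} {n d : ℕ} {tp : ℝ}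

/-- The foot of the spoke. -/
noncomputable def ftD (p : ZMod l → ℤ × ℤ) (n : ℕ) : ℤ × ℤ := (n * (p (iT p)).1, 0)

/-- **The centres of the holes** of the frame with Dobrushin boundary conditions. -/
noncomputable def hoD (p : ZMod l → ℤ × ℤ) (b : Box) (tp : ℝ) (n : ℕ) : HxD l → ℤ × ℤ
  | .inl x => hsite p (mks p b tp) n x
  | .inr (.inl x) => hsite pQ (mksQ p b) (bM p * n) x
  | .inr (.inr _) => ftD p n

/-- The squares of the box. -/
theorem opQ {N : ℕ} {i : ℕ} (hi : i < 4) (σ : ℤ) :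
    (i = 0 ∧ Enl.op pQ N i σ = (N - σ - 1, (N : ℤ))) ∨ (i = 1 ∧ Enl.op pQ N i σ = (-1, N - σ - 1)) ∨
      (i = 2 ∧ Enl.op pQ N i σ = (σ, -1)) ∨ (i = 3 ∧ Enl.op pQ N i σ = ((N : ℤ), σ)) := by
  obtain ⟨d0, d1, d2, d3⟩ := pdir_pQ
  unfold Enl.op
  have e0 : pQ ((0 : ℕ) : ZMod 4) = (1, 1) := rfl
  have e1 : pQ ((1 : ℕ) : ZMod 4) = (0, 1) := rfl
  have e2 : pQ ((2 : ℕ) : ZMod 4) = (0, 0) := rfl
  have e3 : pQ ((3 : ℕ) : ZMod 4) = (1, 0) := rfl
  interval_cases i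
  · left
    rw [d0, e0, (oz_eq _ _).2.2.1]
    simp
  · right; left
    rw [d1, e1, (oz_eq _ _).2.2.2]
    simp
  · right; right; left
    rw [d2, e2, (oz_eq _ _).1]
    simp
  · right; right; right
    rw [d3, e3, (oz_eq _ _).2.1]
    simp

/-- The squares of the rows of the box. -/
theorem rowQ_mem {N : ℕ} {i s e : ℕ} (hi : i < 4) (he : e ≤ N) {u : ℤ × ℤ}
    (hu : u ∈ rowP pQ N i s e) : ((-1 ≤ u.1 ∧ u.1 ≤ N) ∧ -1 ≤ u.2 ∧ u.2 ≤ N) ∧
      (u.1 = -1 ∨ u.1 = N ∨ u.2 = N ∨ (i = 2 ∧ u.2 = -1)) := by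
  obtain ⟨σ, h1, h2, rfl⟩ := mem_rowP.1 hu
  rcases opQ (N := N) hi (σ : ℤ) with ⟨rfl, h⟩ | ⟨rfl, h⟩ | ⟨rfl, h⟩ | ⟨rfl, h⟩ <;>
    (have h5 := congrArg Prod.fst h; have h6 := congrArg Prod.snd h; simp only at h5 h6; omega)

/-- The spoke. -/
theorem spk_mem (hp : IsPolygon p) (hN : Nrm p) {v : ℤ × ℤ} (hv : v ∈ (spk p n d).I) :
    (v.1 = n * (p (iT p)).1 ∧ (2 * n : ℤ) ≤ v.1 ∧ v.1 + 2 * n ≤ bM p * n) ∧
      (d : ℤ) ≤ v.2 ∧ v.2 + d < n * (p (iT p)).2 ∧ v.2 + 2 * n ≤ bM p * n := by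
  have : NeZero l := ⟨by have := hp.1; omega⟩
  obtain ⟨b1, b2, b3⟩ := mem_spk.1 hv
  have c1 := hN (iT p)
  have c2 := le_bM p (iT p)
  have hn0 : (0 : ℤ) ≤ n := by positivity
  have e1 : 2 * (n : ℤ) ≤ n * (p (iT p)).1 := by nlinarith
  have e2 : n * (p (iT p)).1 + 2 * n ≤ bM p * (n : ℤ) := by nlinarith
  have e3 : n * (p (iT p)).2 + 2 * n ≤ bM p * (n : ℤ) := by nlinarith
  omega

/-- The foot. -/
theorem ft_mem (hp : IsPolygon p) (hN : Nrm p) : (ftD p n).2 = 0 ∧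
    ((ftD p n).1 = n * (p (iT p)).1 ∧ (2 * n : ℤ) ≤ (ftD p n).1 ∧
      (ftD p n).1 + 2 * n ≤ bM p * n) := by
  have : NeZero l := ⟨by have := hp.1; omega⟩
  have c1 := hN (iT p)
  have c2 := le_bM p (iT p)
  have hn0 : (0 : ℤ) ≤ n := by positivity
  have e1 : 2 * (n : ℤ) ≤ n * (p (iT p)).1 := by nlinarith
  have e2 : n * (p (iT p)).1 + 2 * n ≤ bM p * (n : ℤ) := by nlinarith
  exact ⟨rfl, rfl, e1, e2⟩

/-- The rows of the polygon are above the lowest vertex. -/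
theorem row_low (hp : IsPolygon p) {i s e : ℕ} (he : e ≤ n) {u : ℤ × ℤ}
    (hu : u ∈ rowP p n i s e) : n * (p (iT p)).2 - 1 ≤ u.2 := by
  obtain ⟨σ, h1, h2, rfl⟩ := mem_rowP.1 hu
  have h3 := (lowV_iT hp).vp (n := n) hp (i := i) (σ := σ) (by omega)
  have h4 := op_near (p := p) (n := n) i σ
  rw [nm_le_iff] at h4
  simp only [Prod.fst_sub, Prod.snd_sub] at h4
  omega

/-- The marks of the box are on its boundary. -/
theorem hsQ (hQ : (mksQ p b).Ok) {N : ℕ} (hN : 0 < N) (x : Fin 4 × Fin 3) :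
    (0 ≤ (hsite pQ (mksQ p b) N x).1 ∧ (hsite pQ (mksQ p b) N x).1 ≤ N) ∧
    (0 ≤ (hsite pQ (mksQ p b) N x).2 ∧ (hsite pQ (mksQ p b) N x).2 ≤ N) ∧
    ((hsite pQ (mksQ p b) N x).1 = 0 ∨ (hsite pQ (mksQ p b) N x).1 = N ∨
      (hsite pQ (mksQ p b) N x).2 = N ∨ ((hsite pQ (mksQ p b) N x).2 = 0 ∧ (x.1 : ℕ) = 2 ∧
        (hsite pQ (mksQ p b) N x).1 = ⌊(mksQ p b).θ 2 x.2 * N⌋₊)) := by
  have h1 : pA N (mksQ p b) (l := 4) x < N := pA_lt (n := N) hQ hN x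
  have h3 : vp pQ N x.1 (pA N (mksQ p b) (l := 4) x : ℤ) = hsite pQ (mksQ p b) N x :=
    vp_pA (p := pQ) (n := N) (Q := mksQ p b) x
  rw [← h3]
  obtain ⟨d0, d1, d2, d3⟩ := pdir_pQ
  have e0 : pQ ((0 : ℕ) : ZMod 4) = (1, 1) := rfl
  have e1 : pQ ((1 : ℕ) : ZMod 4) = (0, 1) := rfl
  have e2 : pQ ((2 : ℕ) : ZMod 4) = (0, 0) := rfl
  have e3 : pQ ((3 : ℕ) : ZMod 4) = (1, 0) := rfl
  have e4 : (x.1 : ℕ) = 2 → pA N (mksQ p b) (l := 4) x = ⌊(mksQ p b).θ 2 x.2 * N⌋₊ := by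
    intro h
    unfold pA
    rw [h]
  have hx := x.1.2
  have key : ∀ i < 4, ∀ σ : ℤ, (i = 0 ∧ vp pQ N i σ = (N - σ, (N : ℤ))) ∨
      (i = 1 ∧ vp pQ N i σ = (0, N - σ)) ∨
      (i = 2 ∧ vp pQ N i σ = (σ, 0)) ∨ (i = 3 ∧ vp pQ N i σ = ((N : ℤ), σ)) := by
    intro i hi σ
    unfold vp
    interval_cases i
    · left
      rw [d0, e0, (vz_eq _ _).2.2.1]
      simp
    · right; left
      rw [d1, e1, (vz_eq _ _).2.2.2]
      simp
    · right; right; left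
      rw [d2, e2, (vz_eq _ _).1]
      simp
    · right; right; right
      rw [d3, e3, (vz_eq _ _).2.1]
      simp
  rcases key x.1 hx (pA N (mksQ p b) (l := 4) x : ℤ) with ⟨hi, h⟩ | ⟨hi, h⟩ | ⟨hi, h⟩ | ⟨hi, h⟩ <;>
    (have h5 := congrArg Prod.fst h; have h6 := congrArg Prod.snd h; simp only at h5 h6)
  · omega
  · omega
  · have := e4 hi
    omega
  · omega

/-- **The foot is far from the marks of the box.** -/
theorem foot_far (hp : IsPolygon p) (hD : Encloses p S₀) (hN : Nrm p) (hb : b.Ok S₀)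
    (hQ : (mksQ p b).Ok) (hn : 0 < n) (x : Fin 4 × Fin 3) :
    c0 b * n - 1 ≤ (nm (ftD p n - hsite pQ (mksQ p b) (bM p * n) x) : ℝ) := by
  have : NeZero l := ⟨by have := hp.1; omega⟩
  have hM : 0 < bM p := by unfold bM; omega
  have hNn : 0 < bM p * n := by positivity
  obtain ⟨⟨k1, k2⟩, ⟨k3, k4⟩, k5⟩ := hsQ hQ hNn x
  obtain ⟨f1, f2, f3, f4⟩ := ft_mem (n := n) hp hN
  push_cast at k2 k4 k5
  have hnr : (0 : ℝ) < n := by exact_mod_cast hn
  have hc1 : c0 b ≤ 1 := by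
    have h1 : c0 b ≤ Int.fract b.xl := ((min_le_left _ _).trans (min_le_left _ _)).trans
      (min_le_left _ _)
    have h2 := Int.fract_lt_one b.xl
    linarith
  have hbig : 2 * (n : ℤ) ≤ nm (ftD p n - hsite pQ (mksQ p b) (bM p * n) x) →
      c0 b * n - 1 ≤ (nm (ftD p n - hsite pQ (mksQ p b) (bM p * n) x) : ℝ) := by
    intro h
    have h' : 2 * (n : ℝ) ≤ nm (ftD p n - hsite pQ (mksQ p b) (bM p * n) x) := by exact_mod_cast h
    nlinarith
  by_cases hfar : 2 * (n : ℤ) ≤ nm (ftD p n - hsite pQ (mksQ p b) (bM p * n) x)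
  · exact hbig hfar
  rw [le_nm_iff] at hfar
  simp only [Prod.fst_sub, Prod.snd_sub, not_or, not_le] at hfar
  have hMn : 2 * (n : ℤ) ≤ bM p * n := by
    have : (2 : ℤ) ≤ bM p := by unfold bM; push_cast; omega
    nlinarith
  obtain ⟨k6, k7, k8⟩ : (hsite pQ (mksQ p b) (bM p * n) x).2 = 0 ∧ (x.1 : ℕ) = 2 ∧
      (hsite pQ (mksQ p b) (bM p * n) x).1 = ⌊(mksQ p b).θ 2 x.2 * ((bM p * n : ℕ) : ℝ)⌋₊ := by
    rcases k5 with k5 | k5 | k5 | ⟨k5, k6, k7⟩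
    · omega
    · omega
    · omega
    · exact ⟨k5, k6, by push_cast; exact k7⟩
  -- the position of the mark
  have hfl : ((⌊(mksQ p b).θ 2 x.2 * ((bM p * n : ℕ) : ℝ)⌋₊ : ℕ) : ℝ) ≤
      (mksQ p b).θ 2 x.2 * ((bM p * n : ℕ) : ℝ) ∧
      (mksQ p b).θ 2 x.2 * ((bM p * n : ℕ) : ℝ) <
      (⌊(mksQ p b).θ 2 x.2 * ((bM p * n : ℕ) : ℝ)⌋₊ : ℕ) + 1 := by
    have := fl hQ (bM p * n) 2 (show (x.2 : ℕ) ≤ (mksQ p b).m + 1 by
      have := x.2.2
      show (x.2 : ℕ) ≤ 2 + 1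
      omega)
    exact ⟨this.1, this.2.1⟩
  have hθ : c0 b ≤ |((p (iT p)).1 : ℝ) - bM p * (mksQ p b).θ 2 x.2| := by
    obtain ⟨⟨a1, a2, a3⟩, a4, a5, a6⟩ := bQ_mem hp hD hN hb
    have hMr : (0 : ℝ) < bM p := by exact_mod_cast hM
    have f : ∀ c : ℝ, 0 < c → c < bM p → Int.fract (c / bM p) = c / bM p := fun c h1 h2 =>
      Int.fract_eq_self.2 ⟨by positivity, by rw [div_lt_one hMr]; exact h2⟩
    have c1 : c0 b ≤ |((p (iT p)).1 : ℝ) - b.xl| :=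
      ((min_le_left _ _).trans (min_le_left _ _)).trans (int_far _ _)
    have c2 : c0 b ≤ |((p (iT p)).1 : ℝ) - b.xr| :=
      ((min_le_left _ _).trans (min_le_right _ _)).trans (int_far _ _)
    have c3 : c0 b ≤ |((p (iT p)).1 : ℝ)| := by
      have : (2 : ℝ) ≤ (p (iT p)).1 := by exact_mod_cast (hN (iT p)).1
      exact hc1.trans ((by linarith : (1 : ℝ) ≤ (p (iT p)).1).trans (le_abs_self _))
    have e1 : (mksQ p b).θ 2 x.2 = mth (bQ b (bM p)) 0 x.2 := by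
      show mth (bQ b (bM p)) (pdir pQ 2) x.2 = _
      rw [pdir_pQ.2.2.1]
    have g1 : H199.fr 0 (H199.lna (bQ b (bM p)) 0) = b.xl / bM p := by
      unfold H199.fr H199.lna
      simp only [true_or, if_true]
      exact f _ a1 (a2.trans a3)
    have g2 : H199.fr 0 (H199.lnb (bQ b (bM p)) 0) = b.xr / bM p := by
      unfold H199.fr H199.lnb
      simp only [true_or, if_true]
      exact f _ (a1.trans a2) a3
    have m1 : bM p * (b.xl / bM p) = b.xl := by field_simp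
    have m2 : bM p * (b.xr / bM p) = b.xr := by field_simp
    rw [e1]
    have hx2 := x.2.2
    generalize (x.2 : ℕ) = j at hx2
    interval_cases j
    · rw [H199.mth_zero, mul_zero, sub_zero]
      exact c3
    · rw [H199.mth_one, g1, g2]
      rcases min_choice (b.xl / (bM p : ℝ)) (b.xr / bM p) with h | h <;> rw [h]
      · rw [m1]; exact c1
      · rw [m2]; exact c2
    · rw [H199.mth_two, g1, g2]
      rcases max_choice (b.xl / (bM p : ℝ)) (b.xr / bM p) with h | h <;> rw [h]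
      · rw [m1]; exact c1
      · rw [m2]; exact c2
  -- conclusion
  have h1 : |((ftD p n).1 : ℝ) - (hsite pQ (mksQ p b) (bM p * n) x).1| ≤
      nm (ftD p n - hsite pQ (mksQ p b) (bM p * n) x) := by
    have : |(ftD p n).1 - (hsite pQ (mksQ p b) (bM p * n) x).1| ≤
      nm (ftD p n - hsite pQ (mksQ p b) (bM p * n) x) := le_max_left _ _
    exact_mod_cast this
  refine le_trans ?_ h1
  rw [k8, f2]
  push_cast
  push_cast at hfl
  have h2 : c0 b * n ≤ |((p (iT p)).1 : ℝ) - bM p * (mksQ p b).θ 2 x.2| * n :=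
    mul_le_mul_of_nonneg_right hθ hnr.le
  rw [← abs_of_pos hnr, ← abs_mul, abs_of_pos hnr] at h2
  have e2 : (((p (iT p)).1 : ℝ) - bM p * (mksQ p b).θ 2 x.2) * n =
      ((n : ℝ) * (p (iT p)).1 - (⌊(mksQ p b).θ 2 x.2 * (bM p * n)⌋₊ : ℕ)) +
      ((⌊(mksQ p b).θ 2 x.2 * (bM p * n)⌋₊ : ℕ) - (mksQ p b).θ 2 x.2 * (bM p * n)) := by ring
  rw [e2] at h2
  have h3 := abs_add_le ((n : ℝ) * (p (iT p)).1 - (⌊(mksQ p b).θ 2 x.2 * (bM p * n)⌋₊ : ℕ))
    ((⌊(mksQ p b).θ 2 x.2 * (bM p * n)⌋₊ : ℕ) - (mksQ p b).θ 2 x.2 * (bM p * n))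
  have h4 : |((⌊(mksQ p b).θ 2 x.2 * (bM p * n)⌋₊ : ℕ) : ℝ) - (mksQ p b).θ 2 x.2 * (bM p * n)| ≤ 1 := by
    rw [abs_le]
    constructor <;> linarith
  linarith

/-! ### the vertex with the spoke -/

/-- The index of the hole with the spoke. -/
noncomputable def xT (hp : IsPolygon p) (Q : Marks) : Fin l × Fin (Q.m + 1) :=
  (⟨iT p, (lowV_iT hp).lt⟩, 0)

theorem hsT (hp : IsPolygon p) {Q : Marks} (hQ : Q.Ok) :
    hsite p Q n (xT hp Q) = ((n : ℤ) * (p (iT p)).1, (n : ℤ) * (p (iT p)).2) := by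
  rw [← vp_pA, pA_zero hQ rfl]
  unfold vp vz xT
  simp
  rfl

theorem iB_xT (hp : IsPolygon p) (Q : Marks) :
    iB l (xT hp Q) = if iT p = 0 then l - 1 else iT p - 1 := if_pos rfl

theorem dirT (hp : IsPolygon p) (hD : Encloses p S₀) (Q : Marks) :
    pdir p (iB l (xT hp Q)) = 3 ∧ pdir p (xT hp Q).1 = 0 := by
  obtain ⟨h1, h2, h3⟩ := (lowV_iT hp).sides hp hD
  refine ⟨?_, h1⟩
  have hl : 0 < l := by have := hp.1; omega
  have : NeZero l := ⟨hl.ne'⟩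
  have e : ((iB l (xT hp Q) : ℕ) : ZMod l) = ((iT p : ℕ) : ZMod l) - 1 := by
    rw [iB_xT]
    split_ifs with h
    · rw [h]
      have : ((l - 1 + 1 : ℕ) : ZMod l) = 0 := by
        rw [Nat.sub_add_cancel hl]
        exact ZMod.natCast_self l
      push_cast at this ⊢
      linear_combination this
    · have h4 : ((iT p - 1 + 1 : ℕ) : ZMod l) = (iT p : ℕ) := by
        rw [Nat.sub_add_cancel (Nat.one_le_iff_ne_zero.2 h)]
      push_cast at h4 ⊢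
      linear_combination h4
  have h4 := pdir_step hp (iB l (xT hp Q))
  rw [e, sub_add_cancel] at h4
  generalize pdir p (iB l (xT hp Q)) = r at h4
  rw [h2] at h4
  have h5 : (0, 1) + dir r = 0 := by
    have : p ((iT p : ℕ) : ZMod l) + 0 = p ((iT p : ℕ) : ZMod l) + ((0, 1) + dir r) := by
      rw [add_zero, ← add_assoc]
      exact h4
    exact (add_left_cancel this).symm
  rcases fin4_cases r with rfl | rfl | rfl | rfl
  · rw [dir0] at h5; simp at h5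
  · rw [dir1] at h5; simp at h5
  · rw [dir2] at h5; simp at h5
  · rfl

end Vale.Agent.P167.N.ID
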