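import Vale.Agent.P167.N.ID.HosA
import Vale.Agent.P167.N.Base.ArmSDef
import Vale.Agent.P167.H398.Q.PDefs
import Vale.Agent.P167.H398.Q.TG

/-!
# P167, `q < 1`, block 2A, START: abstract frames

`FrS X`: a family of frames (rows `r δ n`, holes `h δ n` of size `δ n`, colours `b δ n` of the frozen
squares at the holes, closing squares). `FrS.Geo`: its geometry. The literal inputs of START for such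
a family: `L1Sg`, `L2Sg`, `P2Tg`, `P2Sg`, `P3Sg` (inputs), `H2Sg`, `H6Sg`, `H7Sg` (derived).

The factors of a system of rows are divided in two groups: the tips `k ∈ Kt` (at the holes, radius
`δ n / 16`) and the others (radius `4 κ' n`, far from the holes).
-/

set_option autoImplicit false

namespace Vale.Agent.P167.N.ID

open Finset MeasureTheory Filter

open Vale.Agent.P167 Vale.Agent.P167.N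

open Vale.Agent.P167.BR hiding dv

open Vale.Agent.P167.FK

open Vale.Agent.P167.E6 (IsPolygon Encloses)

open Vale.Agent.P167.XDL (bS)

open Vale.Agent.P167.H825 (dv enl FlowIn)

open Vale.Agent.P167.H825.Q (Row VT)

open Vale.Agent.P167.H398.Q (NA Tch)

open Vale.Agent.P167.H718 (Dob)

open Vale.Agent.P167.H199 (ah at')

open Vale.Agent.P167.A (plane)

open Vale.Agent.P167.QX (RT TB TO fLp VisL XBoff stag)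

open Vale.Agent.P167.H685 (LE)

open Vale.Agent.P167.H562.QM (MajA)

open Vale.Agent.P167.H562.MAJ (Sm)

open Vale.Agent.P167.H506.Q (EF fz)

open Vale.Agent.P167.Enl (qN uN)

/-- **A family of frames with holes of size `δ n`.** -/
structure FrS (X : Type) where
  /-- the index of the rows -/
  ι : Type
  /-- finitely many rows -/
  fι : Fintype ι
  /-- the index of the holes -/
  H : Type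
  /-- finitely many holes -/
  fH : Fintype H
  /-- there is a hole -/
  nH : Nonempty H
  /-- the rows -/
  r : ℝ → ℕ → ι → X
  /-- the centres of the holes -/
  h : ℝ → ℕ → H → ℤ × ℤ
  /-- the colours of the frozen squares at the holes -/
  b : ℝ → ℕ → H → Bool
  /-- the closing squares -/
  Hc : ℝ → ℕ → Finset (ℤ × ℤ)
  /-- the colours of the closing squares -/
  sc : ℝ → ℕ → Cfg
  /-- the picture is in the box of size `R n` -/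
  R : ℝ
  /-- the position of the base -/
  t : ℕ → ℕ
  /-- the position of the junction -/
  k : ℕ → ℕ

attribute [instance] FrS.fι FrS.fH FrS.nH

variable {X : Type} (RS : RSys X) {Kx : Type} [Fintype Kx] [DecidableEq Kx] (F : Fct RS Kx)
  (Kt : Finset Kx) (Φ : FrS X) (θ β : ℝ) {l : ℕ} (p : ZMod l → ℤ × ℤ) (S₀ : Finset (ℤ × ℤ))

section defs

variable (δ : ℝ) (n : ℕ)

/-- The frozen squares. -/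
def FrS.U : Finset (ℤ × ℤ) := RS.uI (Φ.r δ n)

/-- The phases with the flow `c`. -/
noncomputable def FrS.ph (c : Ed → ℝ) : Ed → Bool → ℝ := (RS.wc (Φ.r δ n) c).ph

/-- The configuration has the frozen values. -/
def FrS.Frz (ω : Cfg) : Prop := RS.Frz (Φ.r δ n) ω

/-- The boxes of the holes. -/
noncomputable def FrS.hB (R : ℤ) : Finset (ℤ × ℤ) := univ.biUnion fun x => Bq (Φ.h δ n x) R

/-- The loops which visit the boxes of radius `R` at the holes stay in one of the boxes of radius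
`R'`. -/
def FrS.Cnf (R R' : ℤ) (ω : Cfg) : Prop :=
  ∀ ℓ, IsLoop ω ℓ → VisL (Φ.hB δ n R) ℓ → ∃ x, ∀ v ∈ vs ℓ, v ∈ Bq (Φ.h δ n x) R'

/-- No arms at the holes. -/
noncomputable def FrS.NAh (r R : ℤ) : Set Cfg := NA univ (Φ.b δ n) (Φ.h δ n) r R

/-- The factors of the tips, radius `ρ`. -/
noncomputable def FrS.Tt (ρ : ℤ) (ω : Cfg) : ℝ :=
  ∏ i, ∏ k ∈ Kt, F.T (Φ.U RS δ n) (Φ.r δ n i) k ρ ω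

/-- The factors off the holes, radius `ρ`. -/
noncomputable def FrS.Tj (ρ : ℤ) (ω : Cfg) : ℝ :=
  ∏ i, ∏ k ∈ Ktᶜ, F.T (Φ.U RS δ n) (Φ.r δ n i) k ρ ω

/-- The product over the loops which visit the boxes of radius `R`, no flow. -/
noncomputable def FrS.TB (R : ℤ) (ω : Cfg) : ℝ :=
  QX.TB θ (Φ.U RS δ n) (Φ.ph RS δ n 0) (Φ.hB δ n R) ω

/-- The product over the loops which do not visit the boxes of radius `R`, no flow. -/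
noncomputable def FrS.TO (R : ℤ) (ω : Cfg) : ℝ :=
  QX.TO θ (Φ.U RS δ n) (Φ.ph RS δ n 0) (Φ.hB δ n R) ω

/-- The product over the loops at the holes, off the arms `(R₁, R₂)`. -/
noncomputable def FrS.T2 (R₁ R₂ : ℤ) (ω : Cfg) : ℝ :=
  |Φ.TB RS θ δ n R₁ ω| * (Φ.NAh δ n (R₁ + 1) (R₂ - 1)).indicator 1 ω

/-- The product over the loops off the holes and the functional of the domain, off the arms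
`(R₃, R₄)`. -/
noncomputable def FrS.G (c : Ed → ℝ) (R₃ R₄ : ℤ) (ω : Cfg) : ℝ :=
  Φ.TO RS θ δ n R₃ ω *
    XBoff θ β (qN p n (Φ.t n)) (enl S₀ n) (Φ.k n) (dv c) (Φ.hB δ n R₃) ω *
    (Φ.NAh δ n (R₃ + 1) (R₄ - 1)).indicator 1 ω

/-- The expectation on the frozen squares. -/
noncomputable def FrS.E (P : Measure Cfg) (σ : Cfg) (f : Cfg → ℝ) : ℝ := EF P (Φ.U RS δ n) σ f

end defs

/-- **The geometry of one frame.** `d = ⌊δ n⌋₊`; all squares at the holes are in the boxes of radius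
`d + 4`. -/
structure FrS.GeoN (g δ : ℝ) (n : ℕ) : Prop where
  /-- the rows are allowed and long -/
  val : ∀ i, F.Val (Φ.r δ n i) ∧ g * n ≤ F.mg (Φ.r δ n i)
  /-- the rows are separate -/
  sepr : ∀ i j, i ≠ j → ∀ u ∈ RS.I (Φ.r δ n i), ∀ v ∈ RS.I (Φ.r δ n j),
    δ * n / 2 ≤ (nm (u - v) : ℝ)
  /-- two rows are far from each other, except at a common hole -/
  hull : ∀ i j, i ≠ j → ∀ u ∈ RS.I (Φ.r δ n i), ∀ v ∈ RS.I (Φ.r δ n j),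
    (nm (u - v) : ℝ) < g * n → ∃ x, ∃ w : ℤ × ℤ, min u.1 v.1 ≤ w.1 ∧ w.1 ≤ max u.1 v.1 ∧
      min u.2 v.2 ≤ w.2 ∧ w.2 ≤ max u.2 v.2 ∧ (nm (w - Φ.h δ n x) : ℝ) ≤ 2 * δ * n
  /-- the rows are in the picture -/
  rbox : ∀ i, ∀ u ∈ RS.I (Φ.r δ n i), (nm u : ℝ) ≤ Φ.R * n
  /-- the holes are in the picture -/
  hbox : ∀ x, (nm (Φ.h δ n x) : ℝ) ≤ Φ.R * n
  /-- the holes are not inside the domain -/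
  out : ∀ x, ∃ v ∉ enl S₀ n, nm (v - Φ.h δ n x) ≤ 1
  /-- the holes are separate -/
  seph : ∀ x y, x ≠ y → g * n ≤ (nm (Φ.h δ n x - Φ.h δ n y) : ℝ)
  /-- the tips are at the holes -/
  tip : ∀ i, ∀ k ∈ Kt, F.Sp (Φ.r δ n i) k →
    ∃ x, (nm (F.ctr (Φ.r δ n i) k - Φ.h δ n x) : ℝ) ≤ 2 * δ * n
  /-- the other special points are far from the holes -/
  oth : ∀ i, ∀ k ∉ Kt, F.Sp (Φ.r δ n i) k →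
    ∀ x, g * n ≤ (nm (F.ctr (Φ.r δ n i) k - Φ.h δ n x) : ℝ)
  /-- one colour at every hole -/
  col : ∀ x i, ∀ v ∈ RS.I (Φ.r δ n i), (nm (v - Φ.h δ n x) : ℝ) < g * n →
    RS.fr (Φ.r δ n i) v = Φ.b δ n x
  /-- the shape of the frozen squares at the holes -/
  shp : ∀ x (r R : ℤ), (⌊δ * n⌋₊ : ℤ) + 4 ≤ r → (R : ℝ) ≤ g * n →
    Shp (Φ.U RS δ n : Set (ℤ × ℤ)) (Φ.h δ n x) r R
  /-- the rows are outside of the domain -/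
  dom : Disjoint (Φ.U RS δ n) (enl S₀ n)
  /-- the sides of the domain which are not sides of the rows are at the holes -/
  hole : ∀ e ∈ bS (enl S₀ n), e ∉ bS (Φ.U RS δ n) → hdv e ∈ Φ.hB δ n ((⌊δ * n⌋₊ : ℤ) + 4)
  /-- the position of the base -/
  base : Φ.t n < n
  /-- the position of the junction -/
  junc : Φ.k n ≤ l * n
  /-- the phases inside the domain -/
  phs : ∃ K : ℝ, ∀ j < l * n,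
    (be (qN p n (Φ.t n)) (j : ZMod (l * n)) ∈ bS (Φ.U RS δ n) →
      hdv (be (qN p n (Φ.t n)) (j : ZMod (l * n))) ∈ enl S₀ n →
      ah plane (Φ.ph RS δ n 0) (be (qN p n (Φ.t n)) (j : ZMod (l * n))) =
        θ / 4 * uN p n (Φ.t n) j + stag θ β (qN p n (Φ.t n)) (Φ.k n) j + K) ∧
    (be (qN p n (Φ.t n)) (j : ZMod (l * n)) ∈ bS (Φ.U RS δ n) →
      tlv (be (qN p n (Φ.t n)) (j : ZMod (l * n))) ∈ enl S₀ n →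
      at' plane (Φ.ph RS δ n 0) (be (qN p n (Φ.t n)) (j : ZMod (l * n))) =
        -(θ / 4 * uN p n (Φ.t n) j + stag θ β (qN p n (Φ.t n)) (Φ.k n) j + K))
  /-- the closing squares are at the holes -/
  cls : Φ.Hc δ n ⊆ Φ.hB δ n ((⌊δ * n⌋₊ : ℤ) + 4)
  /-- the closing squares are outside of the domain -/
  clsD : Disjoint (Φ.Hc δ n) (enl S₀ n)
  /-- the squares which touch the domain are frozen or closing squares -/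
  tch : ∀ v ∉ enl S₀ n, ∀ w ∈ enl S₀ n, Tch v w → v ∈ Φ.U RS δ n ∪ Φ.Hc δ n
  /-- the colours of the closing squares -/
  clc : ∀ x, ∀ v ∈ Φ.Hc δ n, (nm (v - Φ.h δ n x) : ℝ) < g * n → Φ.sc δ n v = Φ.b δ n x
  /-- the domain has the boundary conditions of the arcs -/
  dob : ∀ η : Cfg, Good η → Φ.Frz RS δ n η → (∀ v ∈ Φ.Hc δ n, v ∉ Φ.U RS δ n → η v = Φ.sc δ n v) →
    Dob η (enl S₀ n) (qN p n (Φ.t n)) (Φ.k n)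

/-- **The geometry of the frames.** -/
def FrS.Geo : Prop :=
  ∃ g : ℝ, 0 < g ∧ g ≤ 1 ∧ ∃ δ₀ : ℝ, 0 < δ₀ ∧ ∀ δ : ℝ, 0 < δ → δ < δ₀ → ∀ᶠ n : ℕ in atTop,
    Φ.GeoN RS F Kt θ β p S₀ g δ n

/-- **(L1S) The law-free majorant** of the functional of a frame. -/
def FrS.L1Sg : Prop :=
  ∀ (κ B : ℝ), 0 < κ →
  ∃ κ₁ : ℝ, 0 < κ₁ ∧ ∀ κ' : ℝ, 0 < κ' → κ' < κ₁ → ∃ A δ₀ : ℝ, 1 ≤ A ∧ 0 < δ₀ ∧
  ∀ δ : ℝ, 0 < δ → δ < δ₀ → ∀ᶠ n : ℕ in atTop, ∀ c : Ed → ℝ, (Function.support c).Finite →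
  FlowIn (enl S₀ n) κ B n c → ∀ ω : Cfg, Good ω → Φ.Frz RS δ n ω →
  ∀ (Z : Finset (ℤ × ℤ)) (N₁ N₂ : ℕ), (∀ v : ℤ × ℤ, (nm v : ℝ) ≤ (Φ.R + 1) * n → v ∈ Z) →
  MajA (Φ.hB δ n ⌊4 * δ * n⌋) (δ * n / 64) ω N₁ → MajA Z (κ' * n) ω N₂ →
  |RT θ (Φ.U RS δ n) (Φ.ph RS δ n c) ω| ≤
    (∏ i, (2 * Real.sin θ) ^ ((RS.shape (Φ.r δ n i)).L + 1)) *
      (A ^ (N₁ + N₂ + 1) * Real.exp (-(Real.tan θ * Sm (dv c) (κ' * n) ω)) *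
        (Φ.Tt RS F Kt δ n ⌊δ * n / 16⌋ ω * Φ.Tj RS F Kt δ n ⌊4 * κ' * n⌋ ω))

/-- **(L2S) The loops of the frame without flow.** (a), (b): loops which do not visit the boxes of
radius `δ n + 4`; (c): the product over the loops off the holes does not depend on the squares of the
domain; (d): lower bound, loops at the holes; (e): lower bound, loops off the holes. -/
def FrS.L2Sg : Prop :=
  ∃ κ₁ : ℝ, 0 < κ₁ ∧ ∀ κ' : ℝ, 0 < κ' → κ' < κ₁ → ∃ A δ₀ : ℝ, 1 ≤ A ∧ 0 < δ₀ ∧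
  ∀ δ : ℝ, 0 < δ → δ < δ₀ → ∀ᶠ n : ℕ in atTop, ∀ ω : Cfg, Good ω → Φ.Frz RS δ n ω →
  -- (a), (b)
  (∀ ℓ ∈ LE ω (bS (Φ.U RS δ n)), ¬ VisL (Φ.hB δ n ((⌊δ * (n : ℝ)⌋₊ : ℤ) + 4)) ℓ →
    0 ≤ fLp θ (Φ.U RS δ n) (Φ.ph RS δ n 0) ω ℓ ∧
    ((∃ x, ∀ v ∈ vs ℓ, v ∈ Bq (Φ.h δ n x) ⌊κ₁ * n⌋) →
      fLp θ (Φ.U RS δ n) (Φ.ph RS δ n 0) ω ℓ = 1)) ∧
  -- (c)
  (∀ (R₃ : ℤ) (ω' : Cfg), (⌊δ * (n : ℝ)⌋₊ : ℤ) + 4 ≤ R₃ → Good ω' → Φ.Frz RS δ n ω' →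
    Φ.Cnf δ n R₃ ⌊κ₁ * n⌋ ω → Φ.Cnf δ n R₃ ⌊κ₁ * n⌋ ω' →
    (∀ v ∉ enl S₀ n, v ∉ Φ.hB δ n R₃ → ω v = ω' v) →
    Φ.TO RS θ δ n R₃ ω = Φ.TO RS θ δ n R₃ ω') ∧
  -- (d)
  (Φ.Cnf δ n ⌊4 * δ * n⌋ ⌊κ₁ * n⌋ ω → 0 ≤ Φ.TB RS θ δ n ⌊4 * δ * n⌋ ω ∧
    ∀ N₁ : ℕ, MajA (Φ.hB δ n ⌊4 * δ * n⌋) (δ * n / 64) ω N₁ →
    Φ.TB RS θ δ n ⌊4 * δ * n⌋ ω ≠ 0 →
    Φ.Tt RS F Kt δ n ⌊δ * n / 16⌋ ω ≤ A ^ (N₁ + 1) * Φ.TB RS θ δ n ⌊4 * δ * n⌋ ω) ∧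
  -- (e)
  (∀ (R₃ : ℤ) (Z : Finset (ℤ × ℤ)) (N₂ : ℕ), (⌊δ * (n : ℝ)⌋₊ : ℤ) + 4 ≤ R₃ →
    Φ.Cnf δ n R₃ ⌊κ₁ * n⌋ ω → (∀ v : ℤ × ℤ, (nm v : ℝ) ≤ (Φ.R + 1) * n → v ∈ Z) →
    MajA Z (κ' * n) ω N₂ → Φ.TO RS θ δ n R₃ ω ≠ 0 →
    Φ.Tj RS F Kt δ n ⌊4 * κ' * n⌋ ω ≤ A ^ (N₂ + 1) * Φ.TO RS θ δ n R₃ ω)

/-- **(P2T)** The product over the loops at the holes is not zero with positive probability, given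
the factors of the tips, uniformly in the size of the holes. -/
def FrS.P2Tg (P : Measure Cfg) : Prop :=
  ∃ C δ₀ : ℝ, 0 < C ∧ 0 < δ₀ ∧
  ∀ δ : ℝ, 0 < δ → δ < δ₀ → ∀ᶠ n : ℕ in atTop, ∀ σ : Cfg, Φ.Frz RS δ n σ →
  Φ.E RS δ n P σ (Φ.Tt RS F Kt δ n ⌊δ * n / 16⌋) ≤
    C * Φ.E RS δ n P σ (fun ω => Φ.Tt RS F Kt δ n ⌊δ * n / 16⌋ ω *
      {ω | Φ.TB RS θ δ n ⌊4 * δ * n⌋ ω ≠ 0}.indicator 1 ω)

/-- **(P2S)** The product over the loops off the holes is not zero with positive probability, given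
the factors off the holes, uniformly in the size of the holes. -/
def FrS.P2Sg (P : Measure Cfg) : Prop :=
  ∃ κ₁ : ℝ, 0 < κ₁ ∧ ∀ κ' : ℝ, 0 < κ' → κ' < κ₁ → ∃ C δ₀ κ₃ : ℝ, 0 < C ∧ 0 < δ₀ ∧ 0 < κ₃ ∧
  ∀ δ : ℝ, 0 < δ → δ < δ₀ → ∀ᶠ n : ℕ in atTop, ∀ σ : Cfg, Φ.Frz RS δ n σ →
  ∀ R₃ : ℤ, (⌊δ * (n : ℝ)⌋₊ : ℤ) + 4 ≤ R₃ → (R₃ : ℝ) ≤ κ₃ * n →
  Φ.E RS δ n P σ (Φ.Tj RS F Kt δ n ⌊4 * κ' * n⌋) ≤
    C * Φ.E RS δ n P σ (fun ω => Φ.Tj RS F Kt δ n ⌊4 * κ' * n⌋ ω *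
      {ω | Φ.TO RS θ δ n R₃ ω ≠ 0}.indicator 1 ω)

/-- **(P3S)** The product of the normalisations of the rows is bounded by the expectation of the
factors in the frame; the constant may depend on `δ`. -/
def FrS.P3Sg (P : Measure Cfg) (Zp : ℕ → X → ℝ) : Prop :=
  ∃ κ₁ : ℝ, 0 < κ₁ ∧ ∀ κ' : ℝ, 0 < κ' → κ' < κ₁ → ∃ δ₀ : ℝ, 0 < δ₀ ∧
  ∀ δ : ℝ, 0 < δ → δ < δ₀ → ∃ C : ℝ, 0 < C ∧ ∀ᶠ n : ℕ in atTop, ∀ σ : Cfg, Φ.Frz RS δ n σ →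
  ∏ i, Zp n (Φ.r δ n i) ≤
    C * ((∏ i, (2 * Real.sin θ) ^ ((RS.shape (Φ.r δ n i)).L + 1)) *
      ∫ ω, fz (Φ.U RS δ n) σ ω * (Φ.Tt RS F Kt δ n ⌊δ * n / 16⌋ ω *
        Φ.Tj RS F Kt δ n ⌊4 * κ' * n⌋ ω) ∂P)

/-- **(H2S) Moments of the numbers of the large segments.** -/
def FrS.H2Sg (P : Measure Cfg) : Prop :=
  ∀ (κ B : ℝ), 0 < κ →
  ∃ κ₁ : ℝ, 0 < κ₁ ∧ ∀ κ' : ℝ, 0 < κ' → κ' < κ₁ → ∀ A : ℝ, 1 ≤ A → ∃ M δ₀ : ℝ, 0 < M ∧ 0 < δ₀ ∧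
  ∀ δ : ℝ, 0 < δ → δ < δ₀ → ∀ᶠ n : ℕ in atTop, ∀ σ : Cfg, Φ.Frz RS δ n σ →
  ∃ (Z B₁ B₂ : Finset (ℤ × ℤ)) (N₁ N₂ : Cfg → ℕ),
    (∀ v : ℤ × ℤ, (nm v : ℝ) ≤ (Φ.R + 1) * n → v ∈ Z) ∧
    (∀ ω ω' : Cfg, (∀ v ∈ B₁, ω v = ω' v) → N₁ ω = N₁ ω') ∧
    (∀ ω ω' : Cfg, (∀ v ∈ B₂, ω v = ω' v) → N₂ ω = N₂ ω') ∧
    (∀ ω, Good ω → MajA (Φ.hB δ n ⌊4 * δ * n⌋) (δ * n / 64) ω (N₁ ω)) ∧
    (∀ ω, Good ω → MajA Z (κ' * n) ω (N₂ ω)) ∧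
    (∀ c : Ed → ℝ, (Function.support c).Finite → FlowIn (enl S₀ n) κ B n c →
      Φ.E RS δ n P σ (fun ω => Φ.Tt RS F Kt δ n ⌊δ * n / 16⌋ ω *
          Φ.Tj RS F Kt δ n ⌊4 * κ' * n⌋ ω *
          (A ^ (N₁ ω + N₂ ω + 1) * Real.exp (-(Real.tan θ * Sm (dv c) (κ' * n) ω))) ^ 2) ≤
      M * Φ.E RS δ n P σ (fun ω => Φ.Tt RS F Kt δ n ⌊δ * n / 16⌋ ω *
          Φ.Tj RS F Kt δ n ⌊4 * κ' * n⌋ ω)) ∧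
    Φ.E RS δ n P σ (fun ω => Φ.Tt RS F Kt δ n ⌊δ * n / 16⌋ ω * (A ^ (N₁ ω + 1)) ^ 2) ≤
      M * Φ.E RS δ n P σ (Φ.Tt RS F Kt δ n ⌊δ * n / 16⌋) ∧
    Φ.E RS δ n P σ (fun ω => Φ.Tj RS F Kt δ n ⌊4 * κ' * n⌋ ω * (A ^ (N₂ ω + 1)) ^ 2) ≤
      M * Φ.E RS δ n P σ (Φ.Tj RS F Kt δ n ⌊4 * κ' * n⌋)

/-- **(H6S) The closed frame.** `R₃ ≤ t R₄`, `R₄ ≤ κ₁ n`; `t` depends on `ε`. -/
def FrS.H6Sg (P : Measure Cfg) : Prop :=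
  ∀ (κ B : ℝ), 0 < κ →
  ∃ κ₁ M : ℝ, 0 < κ₁ ∧ 0 < M ∧ ∀ ε : ℝ, 0 < ε → ∃ t : ℝ, 0 < t ∧ t < 1 ∧
  ∀ κ₃ κ₄ : ℝ, 0 < κ₃ → κ₃ ≤ t * κ₄ → κ₄ ≤ κ₁ → ∃ δ₀ : ℝ, 0 < δ₀ ∧
  ∀ δ : ℝ, 0 < δ → δ < δ₀ → ∀ᶠ n : ℕ in atTop, ∀ σ : Cfg, Φ.Frz RS δ n σ →
  0 ≤ Φ.E RS δ n P σ (Φ.G RS θ β p S₀ δ n 0 ⌊κ₃ * n⌋ ⌊κ₄ * n⌋) ∧
  ∀ c : Ed → ℝ, (Function.support c).Finite → FlowIn (enl S₀ n) κ B n c →
    |Φ.E RS δ n P σ (Φ.G RS θ β p S₀ δ n c ⌊κ₃ * n⌋ ⌊κ₄ * n⌋) -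
      VT θ β p S₀ n (Φ.t n) (Φ.k n) (dv c) *
        Φ.E RS δ n P σ (Φ.G RS θ β p S₀ δ n 0 ⌊κ₃ * n⌋ ⌊κ₄ * n⌋)| ≤
      ε * Φ.E RS δ n P σ (Φ.G RS θ β p S₀ δ n 0 ⌊κ₃ * n⌋ ⌊κ₄ * n⌋) ∧
    Φ.E RS δ n P σ (fun ω => |Φ.G RS θ β p S₀ δ n c ⌊κ₃ * n⌋ ⌊κ₄ * n⌋ ω|) ≤
      M * Φ.E RS δ n P σ (Φ.G RS θ β p S₀ δ n 0 ⌊κ₃ * n⌋ ⌊κ₄ * n⌋) ∧
    |VT θ β p S₀ n (Φ.t n) (Φ.k n) (dv c)| ≤ M

/-- **(H7S) The lower bound.** `R₁ = 4 δ n`, `R₂ = s₂ δ n`, `4 ≤ t s₂`; `R₃ ≤ t R₄`; the constants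
`C`, `t` do not depend on `δ`, `s₂`, `κ₃`, `κ₄`. -/
def FrS.H7Sg (P : Measure Cfg) : Prop :=
  ∃ κ₁ : ℝ, 0 < κ₁ ∧ ∀ κ' : ℝ, 0 < κ' → κ' < κ₁ → ∃ C t : ℝ, 0 < C ∧ 0 < t ∧ t < 1 ∧
  ∀ s₂ κ₃ κ₄ : ℝ, 4 ≤ t * s₂ → 0 < κ₃ → κ₃ ≤ t * κ₄ → κ₃ ≤ t → κ₄ ≤ κ₁ →
  ∃ δ₀ : ℝ, 0 < δ₀ ∧ ∀ δ : ℝ, 0 < δ → δ < δ₀ → ∀ᶠ n : ℕ in atTop, ∀ σ : Cfg, Φ.Frz RS δ n σ →
  Φ.E RS δ n P σ (fun ω => Φ.Tt RS F Kt δ n ⌊δ * n / 16⌋ ω * Φ.Tj RS F Kt δ n ⌊4 * κ' * n⌋ ω) ≤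
    C * Φ.E RS δ n P σ (fun ω => Φ.G RS θ β p S₀ δ n 0 ⌊κ₃ * n⌋ ⌊κ₄ * n⌋ ω *
      Φ.T2 RS θ δ n ⌊4 * δ * n⌋ ⌊s₂ * δ * n⌋ ω)

end Vale.Agent.P167.N.ID
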