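import Vale.Agent.P167.N.ID.FrmC
import Vale.Agent.P167.N.ID.GeoSD
import Vale.Agent.P167.N.ID.StA

/-!
# P167, block ID: the two families of frames

* `frP`: the frames of the free and wired boundary conditions (rows of the polygon).
* `frD`: the frames of the Dobrushin boundary conditions (rows of the polygon, of the box, spoke).
-/

set_option autoImplicit false

namespace Vale.Agent.P167.N.ID

open Finset
open Vale.Agent.P167.E6 (IsPolygon Encloses)
open Vale.Agent.P167.H825 (Box)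
open Vale.Agent.P167.H825.Q (Bc)
open Vale.Agent.P167.H199 (mks)
open Vale.Agent.P167.H662 (hsite)
open Vale.Agent.P167.Enl (clH)

/-- The position of the junction. -/
noncomputable def kP {l : ℕ} (p : ZMod l → ℤ × ℤ) (tp : ℝ) (bc : Bc) (n : ℕ) : ℕ :=
  bc.ka l n (tP p n tp bc)

/-- **The frames of the free and wired boundary conditions.** -/
noncomputable def frP {l : ℕ} [NeZero l] (θ β : ℝ) (p : ZMod l → ℤ × ℤ) (S₀ : Finset (ℤ × ℤ))
    (b : Box) (tp : ℝ) (bc : Bc) : FrS Row where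
  ι := Fin l × Fin 3
  fι := inferInstance
  H := Fin l × Fin 3
  fH := inferInstance
  nH := ⟨(⟨0, Nat.pos_of_ne_zero (NeZero.ne l)⟩, 0)⟩
  r δ n x := rP θ β p b tp bc n ⌊δ * n⌋₊ x
  h _ n x := hsite p (mks p b tp) n x
  b _ n x := wcJ l n (mks p b tp) (tP p n tp bc) (kP p tp bc n) x
  Hc δ n := clH p (mks p b tp) n ⌊δ * n⌋₊ S₀
  sc δ n := clSJ p (mks p b tp) n ⌊δ * n⌋₊ (tP p n tp bc) (kP p tp bc n)
  R := bM p + 1
  t n := tP p n tp bc
  k n := kP p tp bc n

/-- The colours of the holes. -/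
noncomputable def bD {l : ℕ} (p : ZMod l → ℤ × ℤ) (b : Box) (tp : ℝ) (ia : ℕ) (ta : ℝ) (n : ℕ) :
    HxD l → Bool
  | .inl x => wcJ l n (mks p b tp) (tP p n tp (.dob ia ta)) (kP p tp (.dob ia ta) n) x
  | .inr (.inl _) => decide (cT p ia = -1)
  | .inr (.inr _) => decide (cT p ia = -1)

/-- **The frames of the Dobrushin boundary conditions.** -/
noncomputable def frD {l : ℕ} [NeZero l] (θ β : ℝ) (p : ZMod l → ℤ × ℤ) (S₀ : Finset (ℤ × ℤ))
    (b : Box) (tp : ℝ) (ia : ℕ) (ta : ℝ) : FrS Row where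
  ι := IxD l
  fι := inferInstance
  H := HxD l
  fH := inferInstance
  nH := ⟨.inl (⟨0, Nat.pos_of_ne_zero (NeZero.ne l)⟩, 0)⟩
  r δ n x := rD θ β p b tp ia ta n ⌊δ * n⌋₊ x
  h _ n x := hoD p b tp n x
  b _ n x := bD p b tp ia ta n x
  Hc δ n := clH p (mks p b tp) n ⌊δ * n⌋₊ S₀
  sc δ n := clSJ p (mks p b tp) n ⌊δ * n⌋₊ (tP p n tp (.dob ia ta)) (kP p tp (.dob ia ta) n)
  R := bM p + 1
  t n := tP p n tp (.dob ia ta)
  k n := kP p tp (.dob ia ta) n

end Vale.Agent.P167.N.ID
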