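import Vale.Agent.P167.N.Kit
import Vale.Agent.P167.N.H398.Q.Mac
import Vale.Agent.P167.N.H506.Q.Tr
import Vale.Agent.P167.N.H562.Q.MQ3
import Vale.Agent.P167.N.H562.Q.CB3
import Vale.Agent.P167.N.H945.Q.HFlow
import Vale.Agent.P167.N.H945.Q.HLift
import Vale.Agent.P167.H945.S.SW

/-!
# P167, `q < 1`, HOS and START: moments with a product of local factors

`PG f`: the product of a finite family of nonnegative factors `f j`, local in the boxes `B j`. `K`: the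
frozen squares, `σ`: the frozen state. `EF_chgG`: change of one factor. `EF_spG`, `EF_zoneG`,
`EF_flowG`: moments of the number of the large strands near the place of a factor, off the factors,
and of the masses of the small loops. Nothing depends on the form of the rows.
-/

set_option autoImplicit false

namespace Vale.Agent.P167.N.ID

open Finset MeasureTheory Filter

open Vale.Agent.P167 Vale.Agent.P167.N

open Vale.Agent.P167.BR

open Vale.Agent.P167.FK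

open Vale.Agent.P167.FKA (Loc Ind Loc.ind Ex_mono Ex_congr)

open Vale.Agent.P167.H519 (IsLim)

open Vale.Agent.P167.H825 (dv epos)

open Vale.Agent.P167.H166 (bxx mem_bxx)

open Vale.Agent.P167.H506.Q (EF fz LF EF_le EF_lin EF_nonneg)

open Vale.Agent.P167.H562.QM

open Vale.Agent.P167.H562.MAJ (Sm exists_cball)

open Vale.Agent.P167.H945.Q (LF.prod LF.sum ind_prod EF_sum EF_comb nm_sub_le nm_comm nm_of_Bq
  Bq_of_nm mem_Bq fsum_dv)

variable {Q θ : ℝ} {P : Measure Cfg} {K : Finset (ℤ × ℤ)} {σ : Cfg} {J : Type} [Fintype J]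
  {f : J → Cfg → ℝ} {Bx : J → Finset (ℤ × ℤ)}

/-- The product of the factors. -/
noncomputable def PG (f : J → Cfg → ℝ) (ω : Cfg) : ℝ := ∏ j, f j ω

theorem PG_nonneg (hf : ∀ j ω, 0 ≤ f j ω) (ω : Cfg) : 0 ≤ PG f ω :=
  prod_nonneg fun j _ => hf j ω

theorem PG_LF (hf : ∀ j, Loc (Bx j) (f j)) : LF (PG f) :=
  LF.prod _ fun j _ => ⟨Bx j, hf j⟩

/-- The product does not depend on a set off the boxes. -/
theorem PG_ind {U : Finset (ℤ × ℤ)} (hf : ∀ j, Loc (Bx j) (f j))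
    (hU : ∀ j, Disjoint (Bx j) U) : Ind U (PG f) :=
  ind_prod _ fun j _ => Loc.ind (hU j) (hf j)

/-- **Change of one factor** in a small domain. -/
theorem EF_chgG (hQ : Kit Q) (hP : IsLim Q P) (hg : ∀ᵐ ω ∂P, Good ω) [DecidableEq J]
    (hf0 : ∀ j ω, 0 ≤ f j ω) (hf : ∀ j, Loc (Bx j) (f j)) {p : J} {D1 : Finset (ℤ × ℤ)}
    (hD1 : Disjoint D1 K) (hoth : ∀ q, q ≠ p → Disjoint (Bx q) D1) {F1 F2 : Cfg → ℝ}
    (h1 : LF F1) (h2 : LF F2) {C : ℝ}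
    (h : ∀ η : Cfg, Good η → (∀ v ∈ K, η v = σ v) → Ex Q D1 η F1 ≤ C * Ex Q D1 η F2) :
    EF P K σ (fun ω => (∏ q ∈ univ.erase p, f q ω) * F1 ω) ≤
      C * EF P K σ (fun ω => (∏ q ∈ univ.erase p, f q ω) * F2 ω) :=
  Vale.Agent.P167.N.H945.Q.EF_lift hQ hP hg hD1
    (fun ω => prod_nonneg fun q _ => hf0 q ω)
    (ind_prod _ fun q hq => Loc.ind (hoth q (ne_of_mem_erase hq)) (hf q))
    (LF.prod _ fun q _ => ⟨Bx q, hf q⟩) h1 h2 h

/-- **Moments near the place of a factor.** -/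
theorem EF_spG (hQ : Kit Q) (hP : IsLim Q P) (hg : ∀ᵐ ω ∂P, Good ω)
    (hf0 : ∀ j ω, 0 ≤ f j ω) (hf : ∀ j, Loc (Bx j) (f j)) {p : J} {D1 : Finset (ℤ × ℤ)}
    (hD1 : Disjoint D1 K) (hoth : ∀ q, q ≠ p → Disjoint (Bx q) D1) {N : Cfg → ℕ}
    {U : Finset (ℤ × ℤ)} (hN : ∀ ω ω' : Cfg, (∀ v ∈ U, ω v = ω' v) → N ω = N ω') {s C : ℝ}
    (h : ∀ η : Cfg, Good η → (∀ v ∈ K, η v = σ v) →
      Ex Q D1 η (fun ω => f p ω * Real.exp (s * (N ω : ℝ))) ≤ C * Ex Q D1 η (f p)) :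
    EF P K σ (fun ω => PG f ω * Real.exp (s * (N ω : ℝ))) ≤ C * EF P K σ (PG f) := by
  classical
  have key := EF_chgG hQ hP hg hf0 hf hD1 hoth
    (F1 := fun ω => f p ω * Real.exp (s * (N ω : ℝ))) (F2 := f p)
    (LF.mul ⟨_, hf p⟩ (LF.comp (N := N) hN fun n : ℕ => Real.exp (s * n))) ⟨_, hf p⟩ h
  have e1 : (fun ω => PG f ω * Real.exp (s * (N ω : ℝ))) = fun ω =>
      (∏ q ∈ univ.erase p, f q ω) * (f p ω * Real.exp (s * (N ω : ℝ))) := by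
    funext ω
    unfold PG
    rw [← Finset.prod_erase_mul univ _ (mem_univ p), mul_assoc]
  have e2 : PG f = fun ω => (∏ q ∈ univ.erase p, f q ω) * f p ω := by
    funext ω
    unfold PG
    rw [← Finset.prod_erase_mul univ _ (mem_univ p)]
  rw [e1, e2]
  exact key

/-- **Moments in a zone.** -/
theorem EF_zoneG (hQ : Kit Q) (hR : RSW Q) (hP : IsLim Q P) (hg : ∀ᵐ ω ∂P, Good ω) (m : ℕ) :
    ∃ e1 : ℝ, 0 < e1 ∧ ∀ κ Rz s : ℝ, 0 < κ → 0 ≤ Rz →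
    ∃ C ρ0 : ℝ, 0 < C ∧ 0 < ρ0 ∧ ∀ ρ : ℝ, ρ0 ≤ ρ → ∀ (c : ℤ × ℤ) (A : Finset (ℤ × ℤ)),
      (∀ v ∈ A, (nm (v - c) : ℝ) ≤ Rz * ρ) → ∀ (x : Fin m → ℤ × ℤ), ∃ N : Cfg → ℕ,
      (∃ U : Finset (ℤ × ℤ), ∀ ω ω' : Cfg, (∀ v ∈ U, ω v = ω' v) → N ω = N ω') ∧
      (∀ ω, MajA A (κ * ρ) ω (N ω)) ∧
      ∀ (K : Finset (ℤ × ℤ)) (σ : Cfg) {J : Type} [Fintype J] (f : J → Cfg → ℝ)
        (Bx : J → Finset (ℤ × ℤ)), (∀ j ω, 0 ≤ f j ω) → (∀ j, Loc (Bx j) (f j)) →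
        (∀ (D : Finset (ℤ × ℤ)) (η : Cfg), Good η → (∀ v ∈ K, η v = σ v) →
          (∀ v, Nr A (κ * ρ) v → v ∉ K → v ∈ D) → (∀ v ∈ K, v ∉ D) →
          ∀ (y : ℤ × ℤ) (a : ℤ), 1 ≤ a → (a : ℝ) ≤ κ * ρ / 4 →
          (∀ v ∈ bxx y a, Nr A (κ * ρ) v ∧ ∀ i, e1 * κ / (1 + |s|) * ρ < (nm (v - x i) : ℝ)) →
          OneC y a D η) →
        (∀ j, ∀ v ∈ Bx j,
          ¬ (Nr A (κ * ρ) v ∧ ∀ i, e1 * κ / (1 + |s|) * ρ < (nm (v - x i) : ℝ))) →
        EF P K σ (fun ω => PG f ω * Real.exp (s * (N ω : ℝ))) ≤ C * EF P K σ (PG f) := by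
  classical
  obtain ⟨e1, he1, key⟩ := Vale.Agent.P167.N.H398.Q.macro_F hQ hR m
  refine ⟨e1, he1, fun κ Rz s hκ hRz => ?_⟩
  obtain ⟨C, ρ0, hC, hρ0, key⟩ := key κ Rz s hκ hRz
  refine ⟨C, ρ0, hC, hρ0, fun ρ hρ c A hA x => ?_⟩
  have hρp : 0 < ρ := lt_of_lt_of_le hρ0 hρ
  obtain ⟨N, hN1, hN2, hN3⟩ := key ρ hρ c A hA x
  -- the zone
  obtain ⟨U, hU⟩ := exists_cball c ((Rz + κ) * ρ)
  have hnear : ∀ v, Nr A (κ * ρ) v → v ∈ U := by
    rintro v ⟨u, hu, hv⟩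
    rw [hU]
    have h2 := hA u hu
    have h3 : (nm (v - c) : ℝ) ≤ nm (v - u) + nm (u - c) := by exact_mod_cast nm_sub_le v u c
    nlinarith
  have hNl : ∀ ω ω' : Cfg, (∀ v ∈ U, ω v = ω' v) → N ω = N ω' := fun ω ω' hw =>
    hN1 ω ω' fun v hv _ => hw v (hnear v hv)
  refine ⟨N, ⟨U, hNl⟩, hN2, fun K σ {J} _ f Bx hf0 hf hone hbox => ?_⟩
  obtain ⟨R₀, -, hR₀⟩ := H519.exists_Bq U
  have := Vale.Agent.P167.N.H506.Q.EF_tr hQ hP hg K σ
    ((PG_LF hf).mul (LF.comp (N := N) hNl fun n : ℕ => Real.exp (s * n)))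
    (PG_LF hf) (a := 1) (b := C) R₀ fun D η hD _ hη hk => by
      rw [one_mul]
      refine hN3 (D \ K) η hη (hone (D \ K) η hη hk (fun v hv hv' =>
        Finset.mem_sdiff.2 ⟨hD (hR₀ (hnear v hv)), hv'⟩) fun v hv hv' =>
          (Finset.mem_sdiff.1 hv').2 hv) _ (fun ω => PG_nonneg hf0 ω) ?_
      intro ω ω' hw
      refine prod_congr rfl fun j _ => hf j ω ω' fun v hv => hw v fun hv' => ?_
      exact hbox j v hv ⟨hv'.2.1, hv'.2.2⟩
  rwa [one_mul] at this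

/-- **Moments of the masses of the small loops.** -/
theorem EF_flowG (h0 : 0 < θ) (h1 : Ang θ) (hR : RSW (2 * Real.cos θ))
    (hP : IsLim (2 * Real.cos θ) P) (hg : ∀ᵐ ω ∂P, Good ω) {κ' Rf B : ℝ} (s : ℝ)
    (hκ' : 0 < κ') (hs : 0 ≤ s) :
    ∃ C n₀ : ℝ, 0 < C ∧ 0 < n₀ ∧ ∀ n : ℕ, n₀ ≤ n →
      ∀ {K : Finset (ℤ × ℤ)} {J : Type} [Fintype J] {f : J → Cfg → ℝ}
      {Bx : J → Finset (ℤ × ℤ)} {c : Ed → ℝ}, (∀ j ω, 0 ≤ f j ω) → (∀ j, Loc (Bx j) (f j)) →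
      (Function.support c).Finite → (∀ z, |dv c z| ≤ B / (n : ℝ) ^ 2) →
      (∀ z, dv c z ≠ 0 → (nm z : ℝ) ≤ Rf * n ∧ (∀ u ∈ K, 33 * (κ' * n) < (nm (z - u) : ℝ)) ∧
        ∀ j, ∀ u ∈ Bx j, 33 * (κ' * n) < (nm (z - u) : ℝ)) →
      ∀ (σ : Cfg), ∀ t : ℝ, 0 ≤ t → t ≤ s →
      LF (fun ω => Real.exp (-(t * (Real.tan θ * Sm (dv c) (κ' * n) ω)))) ∧
      EF P K σ (fun ω => PG f ω *
          Real.exp (-(t * (Real.tan θ * Sm (dv c) (κ' * n) ω)))) ≤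
        C * EF P K σ (PG f) := by
  classical
  have hQ := h1.kit
  have ht0 := Vale.Agent.P167.N.H945.Q.tan_nn h0 h1
  obtain ⟨ε, C, ρ0, hε, hC, hρ0, key⟩ := Vale.Agent.P167.N.H562.QM.YQ_mom hQ hR hP κ' (|Rf| + 1)
    (|B| + 1) (s * Real.tan θ) 1 2 0 hκ' (by positivity) (by positivity) (mul_nonneg hs ht0) le_rfl
    (by norm_num)
  refine ⟨C, max ρ0 1, hC, by positivity,
    fun n hn K J _ f Bx c hf0 hf hc hdle hz σ t ht hts => ?_⟩
  have hn0 : ρ0 ≤ (n : ℝ) := (le_max_left _ _).trans hn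
  have hn1 : (1 : ℝ) ≤ n := (le_max_right _ _).trans hn
  have hκ'n : 0 < κ' * n := by positivity
  obtain ⟨N, -, -, hN3⟩ := key n hn0 0 ∅ (fun v hv => absurd hv (Finset.notMem_empty v)) Fin.elim0
  have hfs : ∀ z, dv c z ≠ 0 → (nm (z - (0 : ℤ × ℤ)) : ℝ) ≤ (|Rf| + 1) * n := fun z h => by
    rw [sub_zero]
    have h5 : Rf * n ≤ |Rf| * n := mul_le_mul_of_nonneg_right (le_abs_self Rf) (by linarith)
    have := (hz z h).1
    nlinarith
  have hfb : ∀ z, |dv c z| ≤ (|B| + 1) / (n : ℝ) ^ 2 := fun z => by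
    refine (hdle z).trans (div_le_div_of_nonneg_right ?_ (by positivity))
    linarith [le_abs_self B]
  obtain ⟨F, hF⟩ := exists_cball 0 ((|Rf| + 1) * n)
  have hF' : ∀ z, dv c z ≠ 0 → z ∈ F := fun z h => (hF z).2 (hfs z h)
  obtain ⟨A0, hA0⟩ := Sm_Loc hF' (κ' * n)
  have hLF : LF (fun ω => Real.exp (-(t * (Real.tan θ * Sm (dv c) (κ' * n) ω)))) :=
    ⟨A0, fun ω ω' hw => by
      show Real.exp (-(t * (Real.tan θ * Sm (dv c) (κ' * n) ω))) =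
        Real.exp (-(t * (Real.tan θ * Sm (dv c) (κ' * n) ω')))
      rw [hA0 ω ω' hw]⟩
  refine ⟨hLF, ?_⟩
  -- the range of the flow
  obtain ⟨R₁, hR₁⟩ : ∃ R₁ : ℤ, ((|Rf| + 1) * n + 33 * (κ' * n)) < R₁ := exists_int_gt _
  have := Vale.Agent.P167.N.H506.Q.EF_tr hQ hP hg K σ ((PG_LF hf).mul hLF) (PG_LF hf) (a := 1)
    (b := C) R₁ fun D η hD _ hη hk => by
      rw [one_mul]
      have h2 := hN3 (D \ K) η hη (fun y a ha hz => by
          obtain ⟨u, hu, -⟩ := hz y (mem_bxx.2 (by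
            rw [sub_self]
            have : nm (0 : ℤ × ℤ) = 0 := by simp [nm]
            omega))
          exact absurd hu (Finset.notMem_empty u)) (dv c) hfb hfs (fun z hz' v hv => by
          have hv' : (nm (v - z) : ℝ) ≤ 33 * (κ' * n) := by linarith
          refine Finset.mem_sdiff.2 ⟨hD (Bq_of_nm ?_), fun hvu => ?_⟩
          · have h4 : (nm (v - 0) : ℝ) ≤ nm (v - z) + nm (z - 0) := by
              exact_mod_cast nm_sub_le v z 0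
            have h5 := hfs z hz'
            have h6 : (nm (v - 0) : ℝ) < R₁ := by linarith
            exact_mod_cast h6
          · have h4 := (hz z hz').2.1 v hvu
            rw [nm_comm] at h4
            linarith) (PG f) (fun ω => PG_nonneg hf0 ω) (fun ω ω' hw => by
          refine prod_congr rfl fun j _ => hf j ω ω' fun v hv => hw v fun hv' => ?_
          rcases hv'.2 with ⟨u, hu, -⟩ | ⟨z, hz', hvz⟩
          · exact absurd hu (Finset.notMem_empty u)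
          · have h2 := (hz z hz').2.2 j v hv
            rw [nm_comm] at h2
            linarith) 1 (t * Real.tan θ) zero_le_one one_le_two (mul_nonneg ht ht0)
              (mul_le_mul_of_nonneg_right hts ht0)
      rw [fsum_dv hc, mul_zero, zero_mul, neg_zero, Real.exp_zero, mul_one] at h2
      refine le_trans (le_of_eq ?_) h2
      refine Ex_congr fun S _ => ?_
      congr 1
      unfold YQ
      rw [one_pow, one_mul, ← Real.exp_mul]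
      congr 1
      ring
  rwa [one_mul] at this

end Vale.Agent.P167.N.ID
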