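import Vale.Agent.P167.N.ID.HosG
import Vale.Agent.P167.N.ID.EFG
import Vale.Agent.P167.H506.Q.OneR

/-!
# P167, `q < 1`, HOS: special points and factors of an arbitrary system of straight walls

* `Fct RS Kx`: the special points (index type `Kx`) of the rows of the system `RS` and their factors.
* `L1g`, `P1ag`, `P1bg`: the law-free majorant, the comparison of the radii, the moments near a special
  point (literal inputs of `HosD.hosr_g`).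
* geometry of the admissible configurations.
-/

set_option autoImplicit false

namespace Vale.Agent.P167.N.ID

open Finset MeasureTheory Filter

open Vale.Agent.P167 Vale.Agent.P167.N

open Vale.Agent.P167.BR hiding dv

open Vale.Agent.P167.FK

open Vale.Agent.P167.FKA (Loc Ind Loc.ind)

open Vale.Agent.P167.H519 (IsLim)

open Vale.Agent.P167.H825 (dv epos)

open Vale.Agent.P167.H825.Q (Row)

open Vale.Agent.P167.H680.T (WCG WallG uI mem_uI sq_mem et et_pos et_mem)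

open Vale.Agent.P167.QX (RT)

open Vale.Agent.P167.H506.Q (fz)

open Vale.Agent.P167.H562.QM (MajA)

open Vale.Agent.P167.H562.MAJ (Sm)

open Vale.Agent.P167.H945.Q (nm_sub_le nm_comm nm_of_Bq Bq_of_nm mem_Bq sep_sq exists_sq)

variable {X : Type}

/-- The squares of a row. -/
def RSys.I (RS : RSys X) (x : X) : Finset (ℤ × ℤ) := (RS.shape x).I

/-- The walls of the rows `r` with the flow `c`. -/
noncomputable def RSys.wc (RS : RSys X) {ι : Type} (r : ι → X) (c : Ed → ℝ) : WCG ι :=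
  ⟨fun i => RS.wall (r i) 0, c⟩

/-- The squares of all rows. -/
def RSys.uI (RS : RSys X) {ι : Type} [Fintype ι] (r : ι → X) : Finset (ℤ × ℤ) :=
  H680.T.uI fun i => RS.shape (r i)

/-- The frozen state. -/
def RSys.Frz (RS : RSys X) {ι : Type} (r : ι → X) (σ : Cfg) : Prop :=
  ∀ i, ∀ v ∈ RS.I (r i), σ v = RS.fr (r i) v

/-- **The special points and their factors.** -/
structure Fct (RS : RSys X) (Kx : Type) where
  /-- the rows of the allowed kinds -/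
  Val : X → Prop
  /-- the margin: smallest distance of the special points -/
  mg : X → ℕ
  /-- the centres -/
  ctr : X → Kx → ℤ × ℤ
  /-- the special point exists -/
  Sp : X → Kx → Prop
  /-- the factor of the special point, radius `R`; `I`: all frozen squares -/
  T : Finset (ℤ × ℤ) → X → Kx → ℤ → Cfg → ℝ
  /-- the margin is at most the length -/
  mg_le : ∀ {x}, Val x → mg x ≤ (RS.shape x).L
  /-- the centres are at the row -/
  near : ∀ {x k}, Val x → 1 ≤ mg x → Sp x k → ∃ u ∈ RS.I x, nm (ctr x k - u) ≤ 1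
  /-- the centres are separate -/
  sep : ∀ {x k l}, Val x → 1 ≤ mg x → Sp x k → Sp x l → k ≠ l →
    (mg x : ℤ) - 2 ≤ nm (ctr x k - ctr x l)
  /-- the frozen squares of one colour are a rectangle -/
  rect : ∀ (x : X) (c : Bool), ∃ a0 a1 b0 b1 : ℤ, ∀ z : ℤ × ℤ,
    (z ∈ RS.I x ∧ RS.fr x z = c) ↔ ((a0 ≤ z.1 ∧ z.1 < a1) ∧ b0 ≤ z.2 ∧ z.2 < b1)
  /-- positivity -/
  nonneg : ∀ I x k R ω, 0 ≤ T I x k R ω
  /-- no special point -/
  plain : ∀ {I x k R ω}, ¬ Sp x k → T I x k R ω = 1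
  /-- locality -/
  loc : ∀ I x k R, Loc (Bq (ctr x k) R) (T I x k R)
  /-- the other rows are not seen -/
  own : ∀ {I x k R ω}, Val x → 1 ≤ mg x → RS.I x ⊆ I →
    (∀ v ∈ Bq (ctr x k) R, v ∈ I → v ∈ RS.I x) →
    (∀ e : Ed, hdv e ∈ RS.I x → tlv e ∈ I → tlv e ∈ RS.I x) →
    T I x k R ω = T (RS.I x) x k R ω

/-- **The law-free majorant** of the functional of an admissible configuration. -/
def L1g (RS : RSys X) {Kx : Type} [Fintype Kx] (F : Fct RS Kx) (Ok : ℝ → ℕ → X → Prop) (θ : ℝ) :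
    Prop :=
  ∀ (κ R B : ℝ) (M : ℕ), 0 < κ → ∃ κ₁ : ℝ, 0 < κ₁ ∧ ∀ κ' : ℝ, 0 < κ' → κ' < κ₁ →
    ∃ A : ℝ, 1 ≤ A ∧ ∀ᶠ n : ℕ in atTop, ∀ (ι : Type) [Fintype ι] (r : ι → X) (c : Ed → ℝ),
      (Function.support c).Finite → Fintype.card ι ≤ M → (RS.wc r c).Adm κ R B n →
      (∀ i, Ok κ n (r i)) → ∀ ω : Cfg, Good ω → RS.Frz r ω →
      ∀ (Z : Finset (ℤ × ℤ)) (N : ℕ), (∀ v : ℤ × ℤ, (nm v : ℝ) ≤ (R + 1) * n → v ∈ Z) →
        MajA Z (κ' * n) ω N →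
        |RT θ (RS.uI r) (RS.wc r c).ph ω| ≤
          (∏ i, (2 * Real.sin θ) ^ ((RS.shape (r i)).L + 1)) * (A ^ (N + 1) *
          Real.exp (-(Real.tan θ * Sm (dv c) (κ' * n) ω)) *
          ∏ i, ∏ k, F.T (RS.uI r) (r i) k ⌊κ * n / 16⌋ ω)

/-- **Comparison of the radii**: all boundary conditions. -/
def P1ag (RS : RSys X) {Kx : Type} (F : Fct RS Kx) (θ : ℝ) : Prop :=
  ∀ Λ : ℝ, 1 ≤ Λ → ∃ C ρ₀ : ℝ, 0 < C ∧ ∀ (x : X) (k : Kx) (ρ ρ' : ℤ),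
    F.Val x → F.Sp x k → ρ₀ ≤ ρ → ρ ≤ ρ' → (ρ' : ℝ) ≤ Λ * ρ → 8 * ρ' ≤ F.mg x →
    ∀ η : Cfg, Good η → (∀ v ∈ RS.I x, η v = RS.fr x v) →
      Ex (2 * Real.cos θ) (Bq (F.ctr x k) (4 * ρ') \ RS.I x) η (F.T (RS.I x) x k ρ) ≤
        C * Ex (2 * Real.cos θ) (Bq (F.ctr x k) (4 * ρ') \ RS.I x) η (F.T (RS.I x) x k ρ')

/-- **Moments of the number of the large strands near a special point**: all boundary
conditions. -/
def P1bg (RS : RSys X) {Kx : Type} (F : Fct RS Kx) (θ : ℝ) : Prop :=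
  ∀ ε s : ℝ, 0 < ε → ∃ C ρ₀ : ℝ, 0 < C ∧ ∀ (x : X) (k : Kx) (ρ : ℤ),
    F.Val x → F.Sp x k → ρ₀ ≤ ρ → 8 * ρ ≤ F.mg x → ∃ N : Cfg → ℕ,
    (∀ ω ω' : Cfg, (∀ v ∈ Bq (F.ctr x k) (4 * ρ), ω v = ω' v) → N ω = N ω') ∧
    (∀ ω, Good ω → MajA (Bq (F.ctr x k) (2 * ρ)) (ε * ρ) ω (N ω)) ∧
    ∀ η : Cfg, Good η → (∀ v ∈ RS.I x, η v = RS.fr x v) →
      Ex (2 * Real.cos θ) (Bq (F.ctr x k) (4 * ρ) \ RS.I x) η
          (fun ω => F.T (RS.I x) x k ρ ω * Real.exp (s * (N ω : ℝ))) ≤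
        C * Ex (2 * Real.cos θ) (Bq (F.ctr x k) (4 * ρ) \ RS.I x) η (F.T (RS.I x) x k ρ)

/-- **Comparison of the radii in the other direction** (trivial if the factors decrease). -/
def P1cg (RS : RSys X) {Kx : Type} (F : Fct RS Kx) (θ : ℝ) : Prop :=
  ∀ Λ : ℝ, 1 ≤ Λ → ∃ C ρ₀ : ℝ, 0 < C ∧ ∀ (x : X) (k : Kx) (ρ ρ' : ℤ),
    F.Val x → F.Sp x k → ρ₀ ≤ ρ → ρ ≤ ρ' → (ρ' : ℝ) ≤ Λ * ρ → 8 * ρ' ≤ F.mg x →
    ∀ η : Cfg, Good η → (∀ v ∈ RS.I x, η v = RS.fr x v) →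
      Ex (2 * Real.cos θ) (Bq (F.ctr x k) (4 * ρ') \ RS.I x) η (F.T (RS.I x) x k ρ') ≤
        C * Ex (2 * Real.cos θ) (Bq (F.ctr x k) (4 * ρ') \ RS.I x) η (F.T (RS.I x) x k ρ)

/-- **The normalisation of a row.** -/
noncomputable def Zpg (RS : RSys X) {Kx : Type} [Fintype Kx] (F : Fct RS Kx) (θ : ℝ)
    (P : Measure Cfg) (_n : ℕ) (x : X) : ℝ :=
  (2 * Real.sin θ) ^ ((RS.shape x).L + 1) *
    ∫ ω, fz (RS.I x) (RS.fr x) ω * ∏ k, F.T (RS.I x) x k ((F.mg x / 8 : ℕ) : ℤ) ω ∂P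

/-! ### geometry -/

section geo

variable {RS : RSys X} {κ R B : ℝ} {n : ℕ} {ι : Type} {r : ι → X} {c : Ed → ℝ}

theorem wc_et (hL : ∀ i, 1 ≤ (RS.shape (r i)).L) {i : ι} {u : ℤ × ℤ} (hu : u ∈ RS.I (r i)) :
    et (RS.shape (r i)) u ∈ ((RS.wc r c).w i).S := by
  show _ ∈ (RS.wall (r i) 0).S
  rw [(RS.cuts (r i) 0 (hL i)).S]
  exact et_mem hu

theorem adm_sepA (hA : (RS.wc r c).Adm κ R B n) (hL : ∀ i, 1 ≤ (RS.shape (r i)).L) {i j : ι}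
    (hij : i ≠ j) {u v : ℤ × ℤ} (hu : u ∈ RS.I (r i)) (hv : v ∈ RS.I (r j)) :
    κ * n ≤ (nm (u - v) : ℝ) := by
  have h1 := hA.sep i j hij _ (wc_et hL hu) _ (wc_et hL hv)
  rwa [et_pos, et_pos] at h1

theorem adm_boxA (hA : (RS.wc r c).Adm κ R B n) (hL : ∀ i, 1 ≤ (RS.shape (r i)).L) {i : ι}
    {u : ℤ × ℤ} (hu : u ∈ RS.I (r i)) : (nm u : ℝ) ≤ R * n := by
  have h1 := hA.box i _ (wc_et hL hu)
  rwa [et_pos] at h1

theorem adm_flowA (hA : (RS.wc r c).Adm κ R B n) (hL : ∀ i, 1 ≤ (RS.shape (r i)).L) {e : Ed}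
    (he : c e ≠ 0) :
    (nm (epos e) : ℝ) ≤ R * n ∧ ∀ i, ∀ u ∈ RS.I (r i), κ * n ≤ (nm (epos e - u) : ℝ) := by
  obtain ⟨h1, h2⟩ := hA.csup e he
  refine ⟨h1, fun i u hu => ?_⟩
  have h3 := h2 i _ (wc_et hL hu)
  rwa [et_pos] at h3

/-- A row in the box is not long. -/
theorem adm_lenA (hA : (RS.wc r c).Adm κ R B n) (hL : ∀ i, 1 ≤ (RS.shape (r i)).L) (i : ι) :
    ((RS.shape (r i)).L : ℝ) ≤ 2 * R * n + 1 := by
  have h1 := hL i
  have h2 := adm_boxA hA hL (i := i) (sq_mem.2 (show 0 < (RS.shape (r i)).L by omega))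
  have h3 := adm_boxA hA hL (i := i)
    (sq_mem.2 (show (RS.shape (r i)).L - 1 < (RS.shape (r i)).L by omega))
  have h4 := sep_sq (RS.shape (r i)) ((RS.shape (r i)).L - 1) 0
  have h5 := nm_sub_le ((RS.shape (r i)).sq ((RS.shape (r i)).L - 1)) 0 ((RS.shape (r i)).sq 0)
  rw [h4, sub_zero, zero_sub, H199.nm_neg] at h5
  have h6 : (((RS.shape (r i)).L : ℤ) : ℝ) - 1 ≤
      (nm ((RS.shape (r i)).sq ((RS.shape (r i)).L - 1)) : ℝ) + nm ((RS.shape (r i)).sq 0) := by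
    have h7 : ((RS.shape (r i)).L : ℤ) - 1 ≤
        |(((RS.shape (r i)).L - 1 : ℕ) : ℤ) - (0 : ℕ)| := by
      refine le_trans (le_of_eq ?_) (le_abs_self _)
      push_cast [Nat.cast_sub h1]
      ring
    exact_mod_cast h7.trans h5
  push_cast at h6
  linarith

theorem mem_uIA [Fintype ι] {v : ℤ × ℤ} : v ∈ RS.uI r ↔ ∃ i, v ∈ RS.I (r i) := mem_uI

variable {Kx : Type} {F : Fct RS Kx}

/-- A square of the row next to the centre. -/
theorem ctr_u (F : Fct RS Kx) {x : X} {k : Kx} (hv : F.Val x) (hm : 1 ≤ F.mg x) (hk : F.Sp x k)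
    (v : ℤ × ℤ) : ∃ u ∈ RS.I x, (nm (v - u) : ℝ) ≤ nm (v - F.ctr x k) + 1 ∧
      (nm (v - F.ctr x k) : ℝ) ≤ nm (v - u) + 1 := by
  obtain ⟨u, hu, h⟩ := F.near hv hm hk
  have h1 := nm_sub_le v (F.ctr x k) u
  have h2 := nm_sub_le v u (F.ctr x k)
  rw [nm_comm u] at h2
  refine ⟨u, hu, ?_, ?_⟩
  · exact_mod_cast h1.trans (by linarith)
  · exact_mod_cast h2.trans (by linarith)

/-- The special points are separate. -/
theorem ctr_sepA (hA : (RS.wc r c).Adm κ R B n) (hr : ∀ i, F.Val (r i) ∧ κ * n ≤ F.mg (r i))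
    (hn : 1 ≤ κ * n) {p p' : ι × Kx} (hp : F.Sp (r p.1) p.2) (hp' : F.Sp (r p'.1) p'.2)
    (h : p ≠ p') : κ * n - 2 ≤ (nm (F.ctr (r p.1) p.2 - F.ctr (r p'.1) p'.2) : ℝ) := by
  have hm : ∀ i, 1 ≤ F.mg (r i) := fun i => by
    have h2 : (1 : ℝ) ≤ F.mg (r i) := hn.trans (hr i).2
    exact_mod_cast h2
  have hL : ∀ i, 1 ≤ (RS.shape (r i)).L := fun i => (hm i).trans (F.mg_le (hr i).1)
  by_cases h1 : p.1 = p'.1
  · obtain ⟨i, k⟩ := p
    obtain ⟨i', k'⟩ := p'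
    obtain rfl : i = i' := h1
    have h2 := F.sep (hr i).1 (hm i) hp hp' fun h2 => h (Prod.ext rfl h2)
    have h3 : ((F.mg (r i) : ℤ) : ℝ) - 2 ≤ (nm (F.ctr (r i) k - F.ctr (r i) k') : ℝ) := by
      exact_mod_cast h2
    have h4 := (hr i).2
    push_cast at h3
    linarith
  · obtain ⟨u, hu, a1, -⟩ := ctr_u F (hr p.1).1 (hm _) hp (F.ctr (r p'.1) p'.2)
    obtain ⟨w, hw, b1, -⟩ := ctr_u F (hr p'.1).1 (hm _) hp' u
    have h2 := adm_sepA hA hL h1 hu hw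
    rw [nm_comm (F.ctr (r p'.1) p'.2) u, nm_comm (F.ctr (r p'.1) p'.2)] at a1
    linarith

/-- A centre and the squares of another row. -/
theorem ctr_rowA [Fintype ι] (hA : (RS.wc r c).Adm κ R B n)
    (hr : ∀ i, F.Val (r i) ∧ κ * n ≤ F.mg (r i))
    (hn : 1 ≤ κ * n) {i : ι} {k : Kx} (hk : F.Sp (r i) k) {v : ℤ × ℤ} (hv : v ∈ RS.uI r)
    (h : (nm (v - F.ctr (r i) k) : ℝ) < κ * n - 1) : v ∈ RS.I (r i) := by
  have hm : ∀ i, 1 ≤ F.mg (r i) := fun i => by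
    have h2 : (1 : ℝ) ≤ F.mg (r i) := hn.trans (hr i).2
    exact_mod_cast h2
  have hL : ∀ i, 1 ≤ (RS.shape (r i)).L := fun i => (hm i).trans (F.mg_le (hr i).1)
  obtain ⟨j, hj⟩ := mem_uIA.1 hv
  by_cases hij : j = i
  · subst hij
    exact hj
  · obtain ⟨u, hu, a1, -⟩ := ctr_u F (hr i).1 (hm i) hk v
    have := adm_sepA hA hL hij hj hu
    linarith

/-- The rows do not touch each other. -/
theorem adm_tch [Fintype ι] (hA : (RS.wc r c).Adm κ R B n) (hL : ∀ i, 1 ≤ (RS.shape (r i)).L)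
    (hn : 1 < κ * n) {i : ι} {e : Ed} (he : hdv e ∈ RS.I (r i)) (h : tlv e ∈ RS.uI r) :
    tlv e ∈ RS.I (r i) := by
  obtain ⟨j, hj⟩ := mem_uIA.1 h
  by_cases hij : j = i
  · rw [← hij]
    exact hj
  · exfalso
    have h1 := adm_sepA hA hL hij hj he
    have h2 : (nm (hdv e - tlv e) : ℝ) ≤ 1 := by exact_mod_cast H680.T.nm_ht e
    rw [nm_comm] at h1
    linarith

/-- Rows do not see each other. -/
theorem T_adm [Fintype ι] (hA : (RS.wc r c).Adm κ R B n)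
    (hr : ∀ i, F.Val (r i) ∧ κ * n ≤ F.mg (r i)) (hn : 1 < κ * n) {p : ι × Kx} {ρ : ℤ}
    (hρ : (ρ : ℝ) < κ * n - 1) (ω : Cfg) :
    F.T (RS.uI r) (r p.1) p.2 ρ ω = F.T (RS.I (r p.1)) (r p.1) p.2 ρ ω := by
  have hm : ∀ i, 1 ≤ F.mg (r i) := fun i => by
    have h2 : (1 : ℝ) ≤ F.mg (r i) := hn.le.trans (hr i).2
    exact_mod_cast h2
  have hL : ∀ i, 1 ≤ (RS.shape (r i)).L := fun i => (hm i).trans (F.mg_le (hr i).1)
  by_cases hp : F.Sp (r p.1) p.2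
  · refine F.own (hr p.1).1 (hm _) (fun v hv => mem_uIA.2 ⟨_, hv⟩) (fun v hv h => ?_)
      fun e he h => adm_tch hA hL hn he h
    refine ctr_rowA hA hr hn.le hp h (lt_of_le_of_lt ?_ hρ)
    exact_mod_cast nm_of_Bq hv
  · rw [F.plain hp, F.plain hp]

/-- The box of a factor (empty if there is no special point). -/
noncomputable def Fct.bx (F : Fct RS Kx) (x : X) (k : Kx) (ρ : ℤ) : Finset (ℤ × ℤ) := by
  classical
  exact if F.Sp x k then Bq (F.ctr x k) ρ else ∅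

theorem Fct.mem_bx {x : X} {k : Kx} {ρ : ℤ} {v : ℤ × ℤ} :
    v ∈ F.bx x k ρ ↔ F.Sp x k ∧ v ∈ Bq (F.ctr x k) ρ := by
  classical
  unfold Fct.bx
  by_cases h : F.Sp x k
  · rw [if_pos h]
    exact ⟨fun h1 => ⟨h, h1⟩, fun h1 => h1.2⟩
  · rw [if_neg h]
    exact ⟨fun h1 => absurd h1 (Finset.notMem_empty _), fun h1 => absurd h1.1 h⟩

theorem Fct.loc' (F : Fct RS Kx) (I : Finset (ℤ × ℤ)) (x : X) (k : Kx) (ρ : ℤ) :
    Loc (F.bx x k ρ) (F.T I x k ρ) := by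
  intro ω ω' h
  by_cases hk : F.Sp x k
  · exact F.loc I x k ρ ω ω' fun v hv => h v (Fct.mem_bx.2 ⟨hk, hv⟩)
  · rw [F.plain hk, F.plain hk]

end geo

end Vale.Agent.P167.N.ID
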