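import Vale.Agent.P167.N.ID.Row
import Vale.Agent.P167.N.ID.HosA
import Vale.Agent.P167.N.ID.ArmDef
import Vale.Agent.P167.H945.Q.TLoc
import Vale.Agent.P167.H871.Q.RowP

/-!
# P167, `0 < q < 1`, block 2A: the special points of the rows and their factors

`rowS θ : RSys Row`, `rowF θ : Fct (rowS θ) Bool`: the rows as a system of straight walls, their
special points (`true`: the killed tip, site `Row.zt`; `false`: base or junction, site `Row.zm`) and
factors: indicator of an arm from the site (tips, bases, junctions with `|j| = (π - θ) / 2`), resp.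
`2 cos θ` to the number of the strands over the site (junctions with `|j| = |π - 3 θ| / 2`).
-/

set_option autoImplicit false

namespace Vale.Agent.P167.N.ID

open Finset MeasureTheory Filter
open Vale.Agent.P167 Vale.Agent.P167.N
open Vale.Agent.P167.FK
open Vale.Agent.P167.FKA (Loc)
open Vale.Agent.P167.XDL (bS mem_bS)
open Vale.Agent.P167.H680.T (par par_mul par_cases)
open Vale.Agent.P167.H945.Q (face faces lrs lrs_congr lrs_row faces_sub tl_face)
open Vale.Agent.P167.H871.Q (rqr fz0 fd)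

variable {θ κ : ℝ} {n : ℕ} {r : Row}

/-! ### the system -/

/-- **The rows as a system of straight walls.** -/
noncomputable def rowS (θ : ℝ) : RSys Row where
  shape := Row.toRow
  wall r z := r.wall θ z
  fr r := r.toRow.fr
  cuts _ _ h := ⟨rfl, fun e b he => thk_in0 e b he, h⟩
  wall_z _ _ := rfl
  wall_a _ _ _ := rfl

@[simp] theorem rowS_shape (r : Row) : (rowS θ).shape r = r.toRow := rfl

@[simp] theorem rowS_wall (r : Row) (z : ℝ) : (rowS θ).wall r z = r.wall θ z := rfl

@[simp] theorem rowS_fr (r : Row) : (rowS θ).fr r = r.toRow.fr := rfl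

@[simp] theorem rowS_I (r : Row) : (rowS θ).I r = r.I := rfl

/-- The rows of the allowed kinds, without margins. -/
structure Row.Val (θ : ℝ) (r : Row) : Prop where
  /-- the colour -/
  s : r.s = 1 ∨ r.s = -1
  /-- the kind -/
  kind : (r.j = 0 ∧ r.η = 1) ∨
    ((((|r.j| = (Real.pi - θ) / 2 ∨ |r.j| = |Real.pi - 3 * θ| / 2) ∧ r.η = -1) ∨
      (|r.j| = θ ∧ r.η = 1)) ∧ r.k0 ≤ r.L)
  /-- the killed site of a base is good -/
  gd : r.η = 1 → r.j ≠ 0 → par (r.st r.kf r.k0) * r.s = -1

theorem Row.Val.eta (h : r.Val θ) : r.η = 1 ∨ r.η = -1 := by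
  rcases h.kind with h | ⟨h | h, -⟩
  · exact Or.inl h.2
  · exact Or.inr h.2
  · exact Or.inl h.2

theorem Row.Val.k0_le (h : r.Val θ) (hp : ¬ r.Plain) : r.k0 ≤ r.L := by
  rcases h.kind with h | ⟨-, h⟩
  · exact absurd h hp
  · exact h

theorem Row.Ok.val (h : r.Ok θ κ n) (hκ : 0 ≤ κ * n) : r.Val θ := by
  refine ⟨h.s, ?_, h.gd⟩
  rcases h.kind with h1 | ⟨h1, h2, h3⟩
  · exact Or.inl h1
  · refine Or.inr ⟨h1, ?_⟩
    have : (r.k0 : ℝ) ≤ r.L := by linarith
    exact_mod_cast this

theorem Row.mg_plain (h : r.Plain) : r.mg = r.L := by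
  unfold Row.mg
  rw [if_pos h]

theorem Row.mg_not (h : ¬ r.Plain) : r.mg = min r.k0 (r.L - r.k0) := by
  unfold Row.mg
  rw [if_neg h]

theorem Row.mg_le (r : Row) : r.mg ≤ r.L := by
  by_cases h : r.Plain
  · rw [Row.mg_plain h]
  · rw [Row.mg_not h]
    omega

theorem Row.Ok.mg (h : r.Ok θ κ n) (hκ : 0 ≤ κ * n) : κ * n ≤ r.mg := by
  by_cases hp : r.Plain
  · rw [Row.mg_plain hp]
    exact h.len
  · have h0 := (h.val hκ).k0_le hp
    rw [Row.mg_not hp]
    rcases h.kind with h1 | ⟨-, h2, h3⟩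
    · exact absurd h1 hp
    · rw [Nat.cast_min, Nat.cast_sub h0]
      exact le_min h2 (by linarith)

/-! ### sites -/

/-- The site of the base or junction. -/
noncomputable abbrev Row.zm (r : Row) : ℤ × ℤ := r.zb

/-- The sites of the faces in terms of the squares. -/
theorem Row.st_sq (r : Row) (b : Bool) (k : ℕ) :
    r.st b k - r.sq k = if r.o then (0, if b then 1 else 0) else (if b then 1 else 0, 0) := by
  unfold Row.st H825.Q.Row.sq
  cases r.o
  · simp only [Bool.false_eq_true, if_false]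
    refine Prod.ext ?_ ?_ <;> simp
  · simp only [if_true]
    refine Prod.ext ?_ ?_ <;> simp

theorem Row.near_st (r : Row) (b : Bool) (k : ℕ) : nm (r.st b k - r.sq k) ≤ 1 := by
  rw [Row.st_sq]
  cases r.o <;> cases b <;> simp [nm]

theorem Row.near_st' (r : Row) (b : Bool) {k : ℕ} (hk : 1 ≤ k) : nm (r.st b k - r.sq (k - 1)) ≤ 1 := by
  have h : r.st b k - r.sq (k - 1) =
      if r.o then (1, if b then 1 else 0) else (if b then 1 else 0, 1) := by
    unfold Row.st H825.Q.Row.sq
    cases r.o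
    · simp only [Bool.false_eq_true, if_false]
      refine Prod.ext ?_ ?_
      · simp
      · simp only [Prod.snd_sub]
        push_cast [Nat.cast_sub hk]
        ring
    · simp only [if_true]
      refine Prod.ext ?_ ?_
      · simp only [Prod.fst_sub]
        push_cast [Nat.cast_sub hk]
        ring
      · simp
  rw [h]
  cases r.o <;> cases b <;> simp [nm]

theorem Row.sep_st (r : Row) (b b' : Bool) (k k' : ℕ) :
    |(k : ℤ) - k'| ≤ nm (r.st b k - r.st b' k') := by
  unfold Row.st nm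
  cases r.o
  · simp only [Bool.false_eq_true, if_false, Prod.snd_sub, Prod.fst_sub]
    refine le_trans (le_of_eq ?_) (le_max_right _ _)
    congr 1
    ring
  · simp only [if_true, Prod.snd_sub, Prod.fst_sub]
    refine le_trans (le_of_eq ?_) (le_max_left _ _)
    congr 1
    ring

/-- The corner of the killed end is good. -/
theorem Row.good_zt (h : r.Val θ) : par r.zt * r.se r.p = -1 := by
  have hs : r.se r.p = 1 ∨ r.se r.p = -1 := by
    unfold Row.se
    rcases h.s with h1 | h1 <;> rcases h.eta with h2 | h2 <;> rw [h1, h2] <;> split_ifs <;> norm_num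
  unfold Row.zt Row.gc
  by_cases h1 : par (r.st true (r.ke r.p)) * r.se r.p = -1
  · rw [decide_eq_true h1]
    exact h1
  · rw [decide_eq_false h1]
    have h2 := Row.par_not r true (r.ke r.p)
    rw [Bool.not_true] at h2
    rw [h2]
    rcases par_cases (r.st true (r.ke r.p)) with h3 | h3 <;> rcases hs with h4 | h4
    · rw [h3, h4]
      norm_num
    · exact absurd (by rw [h3, h4]; norm_num) h1
    · exact absurd (by rw [h3, h4]; norm_num) h1
    · rw [h3, h4]
      norm_num

theorem Row.good_zm (h : r.Val θ) (h1 : r.η = 1) (h2 : r.j ≠ 0) : par r.zm * r.s = -1 := h.gd h1 h2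

/-! ### the factors -/

/-- The colour of the arms from a site: `true` (open) from the primal sites. -/
def cz (z : ℤ × ℤ) : Bool := decide (Even (z.1 + z.2))

/-- **The factor of a killed site**: indicator of an arm from the site. -/
noncomputable def TK (I : Finset (ℤ × ℤ)) (z : ℤ × ℤ) (R : ℤ) (ω : Cfg) : ℝ :=
  (AZ (cz z) I z R).indicator (1 : Cfg → ℝ) ω

/-- **The factor of a power junction.** -/
noncomputable def Row.T2 (θ : ℝ) (I : Finset (ℤ × ℤ)) (r : Row) (R : ℤ) (ω : Cfg) : ℝ :=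
  (2 * Real.cos θ) ^
    ((lrs I (faces r.toRow r.kf 0 r.k0) (faces r.toRow r.kf r.k0 r.L) (Bq r.zm R) ω).card +
      (lrs I (faces r.toRow r.kf r.k0 r.L) (faces r.toRow r.kf 0 r.k0) (Bq r.zm R) ω).card)

/-- The power junctions. -/
def Row.K2 (θ : ℝ) (r : Row) : Prop := r.η = -1 ∧ |r.j| ≠ (Real.pi - θ) / 2

/-- The special points: `true`: the killed tip; `false`: base or junction. -/
def Row.Sp (r : Row) (k : Bool) : Prop := k = true ∨ ¬ r.Plain

/-- The centres. -/
noncomputable def Row.ctr (r : Row) (k : Bool) : ℤ × ℤ := if k then r.zt else r.zm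

open Classical in
/-- **The factors.** -/
noncomputable def Row.T (θ : ℝ) (I : Finset (ℤ × ℤ)) (r : Row) (k : Bool) (R : ℤ) (ω : Cfg) : ℝ :=
  if k then TK I r.zt R ω else if r.Plain then 1 else if r.K2 θ then r.T2 θ I R ω else
    TK I r.zm R ω

theorem TK_nonneg (I : Finset (ℤ × ℤ)) (z : ℤ × ℤ) (R : ℤ) (ω : Cfg) : 0 ≤ TK I z R ω :=
  Set.indicator_nonneg (fun _ _ => zero_le_one) _

theorem TK_le_one (I : Finset (ℤ × ℤ)) (z : ℤ × ℤ) (R : ℤ) (ω : Cfg) : TK I z R ω ≤ 1 :=
  Set.indicator_le_self' (fun _ _ => zero_le_one) _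

theorem TK_loc (I : Finset (ℤ × ℤ)) (z : ℤ × ℤ) (R : ℤ) : Loc (Bq z R) (TK I z R) :=
  fun ω ω' h => AZ_loc ω ω' fun v hv => h v (Finset.mem_sdiff.1 hv).1

theorem TK_own {I J : Finset (ℤ × ℤ)} {z : ℤ × ℤ} {R : ℤ} (h : ∀ v ∈ Bq z R, v ∈ I ↔ v ∈ J)
    (ω : Cfg) : TK I z R ω = TK J z R ω := by
  unfold TK
  rw [AZ_I h]

theorem Row.T2_nonneg (h : 0 ≤ Real.cos θ) (I : Finset (ℤ × ℤ)) (r : Row) (R : ℤ) (ω : Cfg) :
    0 ≤ r.T2 θ I R ω := pow_nonneg (by linarith) _

theorem Row.T2_loc (I : Finset (ℤ × ℤ)) (r : Row) (R : ℤ) : Loc (Bq r.zm R) (r.T2 θ I R) := by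
  intro ω ω' h
  unfold Row.T2
  rw [lrs_congr h, lrs_congr h]

theorem Row.T2_own {I : Finset (ℤ × ℤ)} {R : ℤ} {ω : Cfg} (hk : r.k0 ≤ r.L) (hI : r.I ⊆ I)
    (hB : ∀ v ∈ Bq r.zm R, v ∈ I → v ∈ r.I)
    (hs : ∀ e : Ed, hdv e ∈ r.I → tlv e ∈ I → tlv e ∈ r.I) :
    r.T2 θ I R ω = r.T2 θ r.I R ω := by
  unfold Row.T2
  rw [lrs_row hI hB (faces_sub (r := r.toRow) le_rfl) (tl_face hk hs),
    lrs_row hI hB (faces_sub (r := r.toRow) hk) (tl_face le_rfl hs)]

/-- **The special points of the rows.** -/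
noncomputable def rowF (hθ : 0 ≤ Real.cos θ) : Fct (rowS θ) Bool where
  Val := Row.Val θ
  mg := Row.mg
  ctr := Row.ctr
  Sp := Row.Sp
  T := fun I r k R ω => r.T θ I k R ω
  mg_le := fun {r} _ => r.mg_le
  near := by
    intro r k hv hm hk
    have hL : 1 ≤ r.L := hm.trans r.mg_le
    cases k
    · have hp : ¬ r.Plain := hk.resolve_left Bool.false_ne_true
      have hk0 := hv.k0_le hp
      rw [Row.mg_not hp] at hm
      refine ⟨r.sq r.k0, H680.T.sq_mem.2 (show r.k0 < r.L by omega), ?_⟩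
      exact r.near_st _ _
    · unfold Row.ctr Row.zt
      rw [if_pos rfl]
      cases hp : r.p
      · refine ⟨r.sq 0, H680.T.sq_mem.2 (show 0 < r.L by omega), ?_⟩
        exact r.near_st _ _
      · refine ⟨r.sq (r.L - 1), H680.T.sq_mem.2 (show r.L - 1 < r.L by omega), ?_⟩
        exact r.near_st' _ hL
  sep := by
    have key : ∀ {r : Row}, r.Val θ → ¬ r.Plain → (r.mg : ℤ) - 2 ≤ nm (r.zt - r.zm) := by
      intro r hv hp
      have hk0 := hv.k0_le hp
      refine le_trans ?_ (r.sep_st (r.gc r.p) r.kf (r.ke r.p) r.k0)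
      rw [Row.mg_not hp]
      unfold Row.ke
      cases r.p
      · simp only [Bool.false_eq_true, if_false]
        rw [abs_sub_comm]
        refine le_trans ?_ (le_abs_self _)
        omega
      · simp only [if_true]
        refine le_trans ?_ (le_abs_self _)
        omega
    intro r k l hv _ hk hl hne
    cases k <;> cases l
    · exact absurd rfl hne
    · have := key hv (hk.resolve_left Bool.false_ne_true)
      rw [H945.Q.nm_comm]
      exact this
    · exact key hv (hl.resolve_left Bool.false_ne_true)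
    · exact absurd rfl hne
  rect := fun r c => H506.Q.row_rect r.toRow c
  nonneg := by
    intro I r k R ω
    unfold Row.T
    split_ifs
    · exact TK_nonneg _ _ _ _
    · exact zero_le_one
    · exact Row.T2_nonneg hθ _ _ _ _
    · exact TK_nonneg _ _ _ _
  plain := by
    intro I r k R ω h
    unfold Row.Sp at h
    push Not at h
    unfold Row.T
    rw [if_neg h.1, if_pos h.2]
  loc := by
    intro I r k R
    unfold Row.T Row.ctr
    split_ifs
    · exact TK_loc _ _ _
    · exact fun _ _ _ => rfl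
    · exact Row.T2_loc _ _ _
    · exact TK_loc _ _ _
  own := by
    intro I r k R ω hv _ hI hB hs
    have hz : ∀ z, (∀ v ∈ Bq z R, v ∈ I → v ∈ r.I) → ∀ v ∈ Bq z R, v ∈ I ↔ v ∈ r.I :=
      fun z h v hv => ⟨h v hv, fun h' => hI h'⟩
    unfold Row.T
    cases k
    · simp only [Bool.false_eq_true, if_false]
      split_ifs with h1 h2
      · rfl
      · exact Row.T2_own (hv.k0_le h1) hI hB hs
      · exact TK_own (hz _ hB) ω
    · simp only [if_true]
      exact TK_own (hz _ hB) ω

end Vale.Agent.P167.N.ID
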