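import Vale.Agent.P167.N.ID.H6B

/-!
# P167, `q < 1`, START: the lower bound for one size

Arbitrary frozen squares, phases and holes (`TGA.lean`). `T`: the factors of the special points at the
holes, `Jn`: the factors of the other special points.

* `rm_hA`: ratio mixing in the boxes of the holes.
* `low_T`, `low_J`: the two factors; `h7_one`: the lower bound.
-/

set_option autoImplicit false

namespace Vale.Agent.P167.N.ID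

open Finset MeasureTheory

open Vale.Agent.P167 Vale.Agent.P167.N

open Vale.Agent.P167.BR hiding dv

open Vale.Agent.P167.FK

open Vale.Agent.P167.FKA (Loc Ind cf_out)

open Vale.Agent.P167.E6 (IsPolygon Encloses)

open Vale.Agent.P167.H519 (IsLim)

open Vale.Agent.P167.H825 (dv FlowIn epos)

open Vale.Agent.P167.QX (QL TB TO fLp VisL XBoff XB XB_eq_off XB_zero)

open Vale.Agent.P167.H506.Q (EF RM fac)

open Vale.Agent.P167.H398.Q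

variable {ι : Type} {J : Finset ι} {b : ι → Bool} {c : ι → ℤ × ℤ} {r R R' : ℤ}
  {θ β : ℝ} {K D : Finset (ℤ × ℤ)} {a : Ed → Bool → ℝ} {R₁ R₂ R₃ R₄ : ℤ} {ω ω' : Cfg}
  {N k n : ℕ} {q : ZMod N → ℤ × ℤ} {f : Ed → ℝ} {Q α C : ℝ} {κ : Cfg} {P : Measure Cfg}

/-- The frozen squares near the holes: one colour, simple shape. -/
structure HolK (J : Finset ι) (b : ι → Bool) (c : ι → ℤ × ℤ) (K : Finset (ℤ × ℤ)) (κ : Cfg)
    (r R : ℤ) : Prop where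
  /-- the colour -/
  col : ∀ i ∈ J, ∀ v ∈ K, v ∈ Bq (c i) R → κ v = b i
  /-- the shape -/
  shp : ∀ i ∈ J, Shp (K : Set (ℤ × ℤ)) (c i) r R
  /-- the boxes are disjoint -/
  dis : ∀ i ∈ J, ∀ j ∈ J, i ≠ j → Disjoint (Bq (c i) R) (Bq (c j) R)

theorem HolK.mono {r' R' : ℤ} (h : HolK J b c K κ r R) (hr : r ≤ r') (hR : R' ≤ R) :
    HolK J b c K κ r' R' :=
  ⟨fun i hi v hv hx => h.col i hi v hv (Bq_mono' hR hx), fun i hi => (h.shp i hi).mono hr hR,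
    fun i hi j hj hij => Finset.disjoint_of_subset_left (Bq_mono' hR)
      (Finset.disjoint_of_subset_right (Bq_mono' hR) (h.dis i hi j hj hij))⟩

/-- **Ratio mixing in the boxes of the holes.** -/
theorem rm_hA [DecidableEq ι] (hQ : Kit Q) (hκ : Good κ) (hA : ArmS Q α C)
    (h : HolK J b c K κ r R) (hr : 1 ≤ r) (hrR : r ≤ R) (hε : C * ((r : ℝ) / R) ^ α < 1) :
    RM Q K κ ((J.biUnion fun i => Bq (c i) R) \ K) ((J.biUnion fun i => Bq (c i) r) \ K)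
      (fac J.card (C * ((r : ℝ) / R) ^ α)) :=
  Vale.Agent.P167.N.H506.Q.rm_holes hQ hκ hA J c hr hrR h.dis
    (fun i hi => ⟨b i, fun v hv hx => h.col i hi v hv hx⟩) h.shp hε

theorem rat_nonneg {r R : ℤ} (hC : 0 ≤ C) (hr : 0 ≤ r) (hR : 0 ≤ R) :
    0 ≤ C * ((r : ℝ) / R) ^ α := by
  have h1 : (0 : ℝ) ≤ r := by exact_mod_cast hr
  have h2 : (0 : ℝ) ≤ R := by exact_mod_cast hR
  positivity

/-- **The loops at the holes.** -/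
theorem low_T (hQ : Kit Q) (hP : IsLim Q P) (hg : ∀ᵐ ω ∂P, Good ω) (hA : ArmS Q α C)
    {rT : ℤ} {T : Cfg → ℝ} (hT0 : ∀ ω, 0 ≤ T ω) (hT : Loc (hBA J c rT) T)
    (hK : HolK J b c K κ (R₁ + 1) (R₂ - 1)) (hrT : rT ≤ R₁) (h0 : 0 ≤ R₁) (h12 : R₁ + 2 < R₂)
    (cB : CB (TB θ K a (hBA J c R₁ : Set (ℤ × ℤ))))
    {A M CP : ℝ} (h1 : 1 ≤ A) (hM : 0 < M) (hCP : 0 < CP) {N₁ : Cfg → ℕ}
    {BN : Finset (ℤ × ℤ)} (hN : ∀ ω ω' : Cfg, (∀ v ∈ BN, ω v = ω' v) → N₁ ω = N₁ ω')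
    (hd : ∀ ω, Good ω → (∀ v ∈ K, ω v = κ v) → CnfA J c R₁ R₂ ω →
      TB θ K a (hBA J c R₁ : Set (ℤ × ℤ)) ω ≠ 0 →
      T ω ≤ A ^ (N₁ ω + 1) * |TB θ K a (hBA J c R₁ : Set (ℤ × ℤ)) ω|)
    (h2 : EF P K κ (fun ω => T ω * (A ^ (N₁ ω + 1)) ^ 2) ≤ M * EF P K κ T)
    (hP2 : EF P K κ T ≤ CP * EF P K κ (fun ω => T ω *
      {ω | TB θ K a (hBA J c R₁ : Set (ℤ × ℤ)) ω ≠ 0}.indicator 1 ω))
    (hε : J.card * (C * (((R₁ + 1 : ℤ) : ℝ) / ((R₂ - 1 : ℤ) : ℝ)) ^ α) ≤ 1 / (2 * CP)) :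
    EF P K κ T ≤ 4 * M * CP ^ 2 * EF P K κ (T2A θ K a J b c R₁ R₂) := by
  classical
  have hPp : IsProbabilityMeasure P := hP.1
  have hA0 : 0 < A := by linarith
  refine low_gen hg (harm_of hQ hP hg hA (by omega) (by omega) hK.col hK.shp) hT0
    (CB.of_loc hT) (fun i hi => hT.ind ?_) cB (cb_T2X (by omega)) h1 hM hCP hN
    (fun ω hω hk hn hne => ?_) (fun ω _ _ => T2A_nonneg ω) h2 hP2 hε
  · rw [Finset.disjoint_left]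
    intro v hv hv'
    obtain ⟨hv1, -⟩ := mem_sdiff.1 hv'
    obtain ⟨hv1, hv2⟩ := mem_sdiff.1 hv1
    obtain ⟨j, hj, h3⟩ := mem_hBX.1 hv
    by_cases hij : i = j
    · subst hij
      exact hv2 (Bq_mono' (by omega) h3)
    · exact Finset.disjoint_left.1 (hK.dis i hi j hj hij) hv1 (Bq_mono' (by omega) h3)
  · have h3 := hd ω hω hk (cnfA_NA (by omega) hn) hne
    unfold T2A
    rw [Set.indicator_of_mem hn, Pi.one_apply, mul_one]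
    exact h3

/-- **The loops off the holes.** -/
theorem low_J (h0 : 0 < θ) (h1 : Ang θ) (hβ : Real.cos (θ / 2 + β) = Real.sin θ)
    (hP : IsLim (2 * Real.cos θ) P) (hg : ∀ᵐ ω ∂P, Good ω) (hA : ArmS (2 * Real.cos θ) α C)
    (hq : IsPolygon q) (hD : Encloses q D)
    {T : Cfg → ℝ} (hT0 : ∀ ω, 0 ≤ T ω) (cT : CB T) (hT : Ind (hBA J c R₄) T)
    (hK : HolK J b c K κ (R₃ + 1) (R₄ - 1)) (h3 : 0 ≤ R₃) (h34 : R₃ + 2 < R₄)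
    {A M CP : ℝ} (hA1 : 1 ≤ A) (hM : 0 < M) (hCP : 0 < CP) {N₂ : Cfg → ℕ}
    {BN : Finset (ℤ × ℤ)} (hN : ∀ ω ω' : Cfg, (∀ v ∈ BN, ω v = ω' v) → N₂ ω = N₂ ω')
    (ha : ∀ ω, Good ω → (∀ v ∈ K, ω v = κ v) → 0 ≤ TO θ K a (hBA J c R₃ : Set (ℤ × ℤ)) ω)
    (hd : ∀ ω, Good ω → (∀ v ∈ K, ω v = κ v) → CnfA J c R₃ R₄ ω →
      TO θ K a (hBA J c R₃ : Set (ℤ × ℤ)) ω ≠ 0 →
      T ω ≤ A ^ (N₂ ω + 1) * TO θ K a (hBA J c R₃ : Set (ℤ × ℤ)) ω)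
    (h2 : EF P K κ (fun ω => T ω * (A ^ (N₂ ω + 1)) ^ 2) ≤ M * EF P K κ T)
    (hP2 : EF P K κ T ≤ CP * EF P K κ (fun ω => T ω *
      {ω | TO θ K a (hBA J c R₃ : Set (ℤ × ℤ)) ω ≠ 0}.indicator 1 ω))
    (hε : J.card * (C * (((R₃ + 1 : ℤ) : ℝ) / ((R₄ - 1 : ℤ) : ℝ)) ^ α) ≤ 1 / (2 * CP)) :
    EF P K κ T ≤ 4 * M * CP ^ 2 * EF P K κ (GfA θ K a J b c β q D k 0 R₃ R₄) := by
  classical
  have hPp : IsProbabilityMeasure P := hP.1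
  have hsin : 0 < Real.sin θ :=
    Real.sin_pos_of_pos_of_lt_pi h0 (by linarith [Real.pi_pos, h1.lt])
  have hcos : 0 < Real.cos θ := by have := h1.kit.pos; linarith
  refine low_gen hg (harm_of h1.kit hP hg hA (by omega) (by omega) hK.col hK.shp) hT0
    cT (fun i hi => hT.mono fun v hv => ?_)
    (Vale.Agent.P167.N.H398.Q.cb_TO (I := K) (a := a) (B := (hBA J c R₃ : Set (ℤ × ℤ))) hsin h1.kit)
    (cb_GfA h0 h1) hA1 hM hCP hN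
    (fun ω hω hk hn hne => ?_) (fun ω hω hk => ?_) h2 hP2 hε
  · exact mem_hBX.2 ⟨i, hi, Bq_mono' (by omega) (mem_sdiff.1 (mem_sdiff.1 hv).1).1⟩
  · rw [GfA_zero hq hD hω hsin.ne' hcos.ne' hβ]
    unfold TOA
    rw [Set.indicator_of_mem hn, Pi.one_apply, mul_one]
    exact hd ω hω hk (cnfA_NA (by omega) hn) hne
  · rw [GfA_zero hq hD hω hsin.ne' hcos.ne' hβ]
    exact mul_nonneg (ha ω hω hk) ind01A

/-- **The lower bound for one size.** -/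
theorem h7_one [DecidableEq ι] (h0 : 0 < θ) (h1 : Ang θ)
    (hβ : Real.cos (θ / 2 + β) = Real.sin θ)
    (hP : IsLim (2 * Real.cos θ) P) (hg : ∀ᵐ ω ∂P, Good ω) (hA : ArmS (2 * Real.cos θ) α C)
    (hC : 0 ≤ C) (hq : IsPolygon q) (hD : Encloses q D) (hκ : Good κ)
    -- the factor at the holes
    {rT : ℤ} {T : Cfg → ℝ} (hT0 : ∀ ω, 0 ≤ T ω) (hT : Loc (hBA J c rT) T)
    -- the other factors
    {Rb : ℤ} {Jn : Cfg → ℝ} (hJ0 : ∀ ω, 0 ≤ Jn ω) (cJ : CB Jn) (hJ : Ind (hBA J c Rb) Jn)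
    -- the radii
    (hK : HolK J b c K κ rT Rb) (t1 : 1 ≤ rT) (t2 : rT ≤ R₁) (t3 : R₁ + 2 < R₂) (t4 : R₂ ≤ R₃)
    (t5 : R₃ + 2 < R₄) (t6 : R₄ ≤ Rb)
    {A M CP : ℝ} (hA1 : 1 ≤ A) (hM : 0 < M) (hCP : 0 < CP)
    -- the loops at the holes
    {N₁ : Cfg → ℕ} {BN : Finset (ℤ × ℤ)}
    (hN : ∀ ω ω' : Cfg, (∀ v ∈ BN, ω v = ω' v) → N₁ ω = N₁ ω')
    (hd : ∀ ω, Good ω → (∀ v ∈ K, ω v = κ v) → CnfA J c R₁ R₂ ω →
      TB θ K a (hBA J c R₁ : Set (ℤ × ℤ)) ω ≠ 0 →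
      T ω ≤ A ^ (N₁ ω + 1) * |TB θ K a (hBA J c R₁ : Set (ℤ × ℤ)) ω|)
    (h2 : EF P K κ (fun ω => T ω * (A ^ (N₁ ω + 1)) ^ 2) ≤ M * EF P K κ T)
    (hP2 : EF P K κ T ≤ CP * EF P K κ (fun ω => T ω *
      {ω | TB θ K a (hBA J c R₁ : Set (ℤ × ℤ)) ω ≠ 0}.indicator 1 ω))
    (hε : J.card * (C * (((R₁ + 1 : ℤ) : ℝ) / ((R₂ - 1 : ℤ) : ℝ)) ^ α) ≤ 1 / (2 * CP))
    -- the loops off the holes
    {N₂ : Cfg → ℕ} {BN' : Finset (ℤ × ℤ)}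
    (hN' : ∀ ω ω' : Cfg, (∀ v ∈ BN', ω v = ω' v) → N₂ ω = N₂ ω')
    (ha : ∀ ω, Good ω → (∀ v ∈ K, ω v = κ v) → 0 ≤ TO θ K a (hBA J c R₃ : Set (ℤ × ℤ)) ω)
    (hd' : ∀ ω, Good ω → (∀ v ∈ K, ω v = κ v) → CnfA J c R₃ R₄ ω →
      TO θ K a (hBA J c R₃ : Set (ℤ × ℤ)) ω ≠ 0 →
      Jn ω ≤ A ^ (N₂ ω + 1) * TO θ K a (hBA J c R₃ : Set (ℤ × ℤ)) ω)
    (h2' : EF P K κ (fun ω => Jn ω * (A ^ (N₂ ω + 1)) ^ 2) ≤ M * EF P K κ Jn)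
    (hP2' : EF P K κ Jn ≤ CP * EF P K κ (fun ω => Jn ω *
      {ω | TO θ K a (hBA J c R₃ : Set (ℤ × ℤ)) ω ≠ 0}.indicator 1 ω))
    (hε' : J.card * (C * (((R₃ + 1 : ℤ) : ℝ) / ((R₄ - 1 : ℤ) : ℝ)) ^ α) ≤ 1 / (2 * CP))
    -- mixing
    (m1 : C * ((rT : ℝ) / Rb) ^ α < 1) (m2 : 8 * J.card * (C * ((rT : ℝ) / Rb) ^ α) ≤ 1)
    (m3 : C * ((R₂ : ℝ) / R₃) ^ α < 1) (m4 : 8 * J.card * (C * ((R₂ : ℝ) / R₃) ^ α) ≤ 1) :
    EF P K κ (fun ω => T ω * Jn ω) ≤ 64 * M ^ 2 * CP ^ 4 * EF P K κ (fun ω =>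
      GfA θ K a J b c β q D k 0 R₃ R₄ ω * T2A θ K a J b c R₁ R₂ ω) := by
  classical
  have hsin : 0 < Real.sin θ :=
    Real.sin_pos_of_pos_of_lt_pi h0 (by linarith [Real.pi_pos, h1.lt])
  have hcos : 0 < Real.cos θ := by have := h1.kit.pos; linarith
  have hQ := h1.kit
  have s1 := low_T (θ := θ) (a := a) hQ hP hg hA hT0 hT
    (hK.mono (r' := R₁ + 1) (R' := R₂ - 1) (by omega) (by omega)) t2 (by omega) t3
    (Vale.Agent.P167.N.H398.Q.cb_TB (I := K) (a := a) (B := (hBA J c R₁ : Set (ℤ × ℤ))) hsin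
      h1.kit) hA1 hM hCP hN hd h2 hP2 hε
  have s2 := low_J (a := a) (k := k) h0 h1 hβ hP hg hA hq hD hJ0 cJ
    (hJ.mono (hBA_mono t6)) (hK.mono (r' := R₃ + 1) (R' := R₄ - 1) (by omega) (by omega))
    (by omega) t5 hA1 hM hCP hN' ha hd' h2' hP2' hε'
  have hJK : Ind ((J.biUnion fun i => Bq (c i) Rb) \ K) Jn := hJ.mono sdiff_subset
  have s3 := (mix_gen hQ hP hg (rm_hA hQ hκ hA hK t1 (by omega) m1)
    (rat_nonneg hC (by omega) (by omega)) m1 m2 hT0 hT hJ0 cJ hJK).1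
  have hdis4 : ∀ i ∈ J, ∀ j ∈ J, i ≠ j → Disjoint (Bq (c i) R₄) (Bq (c j) R₄) :=
    fun i hi j hj hij => Finset.disjoint_of_subset_left (Bq_mono' (by omega))
      (Finset.disjoint_of_subset_right (Bq_mono' (by omega)) (hK.dis i hi j hj hij))
  have s4 := mix_low hQ hP hg (rm_hA hQ hκ hA (hK.mono (r' := R₂) (R' := R₃) (by omega)
    (by omega)) (by omega) t4 m3) (rat_nonneg hC (by omega) (by omega)) m3 m4
    (T := T2A θ K a J b c R₁ R₂) (G := GfA θ K a J b c β q D k 0 R₃ R₄) T2A_nonneg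
    (T2A_loc (by omega)) (cb_GfA h0 h1) (fun ω hω hk => by
      rw [GfA_zero hq hD hω hsin.ne' hcos.ne' hβ]
      exact mul_nonneg (ha ω hω hk) ind01A)
    (fun ω ω' hω hω' h => GfA_congr (by omega) hdis4 hω hω' h)
  have key := h7_gen (P := P) (K := K) (κ := κ) (T := T) (J := Jn)
    (DT := T2A θ K a J b c R₁ R₂) (DJ := GfA θ K a J b c β q D k 0 R₃ R₄)
    (a := 4 * M * CP ^ 2) (b := 4 * M * CP ^ 2) (by positivity) (by positivity) hT0 hJ0 s1 s2 s3 s4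
  refine key.trans (le_of_eq ?_)
  ring

end Vale.Agent.P167.N.ID
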