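import Vale.Agent.P167.N.ID.StA
import Vale.Agent.P167.N.ID.H7B
import Vale.Agent.P167.N.Base.ArmS

/-!
# P167, `q < 1`, START: the lower bound `H7Sg` for abstract frames

* `FrS.GeoN.holK`, `Tt_loc`, `Tj_ind`, ...: the geometry of a frame in the form of `h7_one`.
* `FrS.h7sg`: **`H7Sg`** from `Geo`, `L2Sg`, `P2Tg`, `P2Sg`, `H2Sg`.
-/

set_option autoImplicit false

namespace Vale.Agent.P167.N.ID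

open Finset MeasureTheory Filter

open Vale.Agent.P167 Vale.Agent.P167.N

open Vale.Agent.P167.BR hiding dv

open Vale.Agent.P167.FK

open Vale.Agent.P167.FKA (Loc Ind cf_out)

open Vale.Agent.P167.E6 (IsPolygon Encloses)

open Vale.Agent.P167.XDL (bS)

open Vale.Agent.P167.H519 (IsLim)

open Vale.Agent.P167.H825 (dv enl FlowIn)

open Vale.Agent.P167.H398.Q (CB NA Tch Bq_mono')

open Vale.Agent.P167.QX (fLp VisL)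

open Vale.Agent.P167.H506.Q (EF EF_nonneg)

open Vale.Agent.P167.H662.S6 (EF_cfg exists_good)

open Vale.Agent.P167.Enl (nm_tri nm_sub_comm mem_Bq' isPolygon_qN encloses_qN qN)

open Vale.Agent.P167.H825.S (small_pow ratio_le ratio_le' arm_two radii Bq_shift)

variable {X : Type} {RS : RSys X} {Kx : Type} [Fintype Kx] [DecidableEq Kx] {F : Fct RS Kx}
  {Kt : Finset Kx} {Φ : FrS X} {θ β : ℝ} {l : ℕ} {p : ZMod l → ℤ × ℤ} {S₀ : Finset (ℤ × ℤ)}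
  {g δ : ℝ} {n : ℕ} {P : Measure Cfg}

/-! ### frozen configurations -/

omit [Fintype Kx] [DecidableEq Kx] in
theorem FrS.frz_iff {σ : Cfg} (hσ : Φ.Frz RS δ n σ) {ω : Cfg} :
    Φ.Frz RS δ n ω ↔ ∀ v ∈ Φ.U RS δ n, ω v = σ v := by
  constructor
  · intro h v hv
    obtain ⟨i, hi⟩ := mem_uIA.1 hv
    rw [h i v hi, hσ i v hi]
  · intro h i v hv
    rw [h v (mem_uIA.2 ⟨i, hv⟩)]
    exact hσ i v hv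

omit [Fintype Kx] [DecidableEq Kx] in
theorem FrS.cnf_of {R R' R'' : ℤ} {ω : Cfg} (h : CnfA univ (Φ.h δ n) R R' ω) (hR : R' ≤ R'') :
    Φ.Cnf δ n R R'' ω := by
  intro ℓ hl hv
  obtain ⟨x, -, hx⟩ := h ℓ hl hv
  exact ⟨x, fun v hv' => Bq_mono' hR (hx v hv')⟩

/-! ### geometry -/

section geo

variable (h : Φ.GeoN RS F Kt θ β p S₀ g δ n)

include h in
theorem FrS.GeoN.box_dis {R : ℤ} (hR : (2 * R : ℝ) < g * n) (x y : Φ.H) (hxy : x ≠ y) :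
    Disjoint (Bq (Φ.h δ n x) R) (Bq (Φ.h δ n y) R) := by
  rw [Finset.disjoint_left]
  intro v hv hv'
  have h1 := h.seph x y hxy
  have h2 := mem_Bq' hv
  have h3 := mem_Bq' hv'
  have h4 := nm_tri (Φ.h δ n x) v (Φ.h δ n y)
  rw [nm_sub_comm (Φ.h δ n x) v] at h4
  have h5 : nm (Φ.h δ n x - Φ.h δ n y) ≤ 2 * R := by omega
  have h6 : (nm (Φ.h δ n x - Φ.h δ n y) : ℝ) ≤ 2 * R := by exact_mod_cast h5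
  linarith

include h in
/-- **The frozen squares at the holes.** -/
theorem FrS.GeoN.holK {σ : Cfg} (hσ : Φ.Frz RS δ n σ) {r R : ℤ} (hr : (⌊δ * n⌋₊ : ℤ) + 4 ≤ r)
    (h0 : 0 ≤ R) (hR : (2 * R : ℝ) < g * n) :
    HolK univ (Φ.b δ n) (Φ.h δ n) (Φ.U RS δ n) σ r R := by
  have hR0 : (0 : ℝ) ≤ R := by exact_mod_cast h0
  refine ⟨fun x _ v hv hx => ?_, fun x _ => h.shp x r R hr (by linarith),
    fun x _ y _ hxy => h.box_dis hR x y hxy⟩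
  obtain ⟨i, hi⟩ := mem_uIA.1 hv
  rw [hσ i v hi]
  refine h.col x i v hi ?_
  have h2 : (nm (v - Φ.h δ n x) : ℝ) ≤ R := by exact_mod_cast mem_Bq' hx
  linarith

/-! ### the factors -/

theorem FrS.Tt_nonneg (ρ : ℤ) (ω : Cfg) : 0 ≤ Φ.Tt RS F Kt δ n ρ ω :=
  prod_nonneg fun _ _ => prod_nonneg fun _ _ => F.nonneg _ _ _ _ _

theorem FrS.Tj_nonneg (ρ : ℤ) (ω : Cfg) : 0 ≤ Φ.Tj RS F Kt δ n ρ ω :=
  prod_nonneg fun _ _ => prod_nonneg fun _ _ => F.nonneg _ _ _ _ _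

include h in
/-- **The factors of the tips depend on the boxes of the holes.** -/
theorem FrS.GeoN.Tt_loc {ρ R : ℤ} (hR : 2 * δ * n + ρ ≤ R) :
    Loc (hBA univ (Φ.h δ n) R) (Φ.Tt RS F Kt δ n ρ) := by
  intro ω ω' hh
  unfold FrS.Tt
  refine prod_congr rfl fun i _ => prod_congr rfl fun k hk => ?_
  by_cases hs : F.Sp (Φ.r δ n i) k
  · obtain ⟨x, hx⟩ := h.tip i k hk hs
    refine F.loc _ _ _ _ ω ω' fun v hv => hh v (mem_hBX.2 ⟨x, mem_univ _, ?_⟩)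
    have h1 := Bq_shift (c := F.ctr (Φ.r δ n i) k) (y := Φ.h δ n x) (ρ := ρ) le_rfl hv
    refine Bq_mono' ?_ h1
    have h2 : ((nm (F.ctr (Φ.r δ n i) k - Φ.h δ n x) + ρ : ℤ) : ℝ) ≤ (R : ℝ) := by
      push_cast
      linarith
    exact_mod_cast h2
  · rw [F.plain hs, F.plain hs]

open Classical in
/-- The squares on which the other factors depend. -/
theorem FrS.Tj_loc (ρ : ℤ) :
    Loc ((univ.filter fun x : Φ.ι × Kx => x.2 ∉ Kt ∧ F.Sp (Φ.r δ n x.1) x.2).biUnion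
      fun x => Bq (F.ctr (Φ.r δ n x.1) x.2) ρ) (Φ.Tj RS F Kt δ n ρ) := by
  intro ω ω' hh
  unfold FrS.Tj
  refine prod_congr rfl fun i _ => prod_congr rfl fun k hk => ?_
  by_cases hs : F.Sp (Φ.r δ n i) k
  · exact F.loc _ _ _ _ ω ω' fun v hv => hh v (mem_biUnion.2
      ⟨(i, k), mem_filter.2 ⟨mem_univ _, mem_compl.1 hk, hs⟩, hv⟩)
  · rw [F.plain hs, F.plain hs]

theorem FrS.cb_Tj (ρ : ℤ) : CB (Φ.Tj RS F Kt δ n ρ) := CB.of_loc (FrS.Tj_loc ρ)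

include h in
/-- **The other factors do not read the boxes of the holes.** -/
theorem FrS.GeoN.Tj_ind {ρ R : ℤ} (hR : (R : ℝ) + ρ < g * n) :
    Ind (hBA univ (Φ.h δ n) R) (Φ.Tj RS F Kt δ n ρ) := by
  classical
  refine Loc.ind ?_ (FrS.Tj_loc ρ)
  rw [Finset.disjoint_left]
  intro v hv hv'
  obtain ⟨x, hx, h1⟩ := mem_biUnion.1 hv
  obtain ⟨y, -, h2⟩ := mem_hBX.1 hv'
  obtain ⟨-, hx1, hx2⟩ := mem_filter.1 hx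
  have h3 := h.oth x.1 x.2 hx1 hx2 y
  have h4 := mem_Bq' h1
  have h5 := mem_Bq' h2
  have h6 := nm_tri (F.ctr (Φ.r δ n x.1) x.2) v (Φ.h δ n y)
  rw [nm_sub_comm (F.ctr (Φ.r δ n x.1) x.2) v] at h6
  have h7 : nm (F.ctr (Φ.r δ n x.1) x.2 - Φ.h δ n y) ≤ R + ρ := by omega
  have h8 : (nm (F.ctr (Φ.r δ n x.1) x.2 - Φ.h δ n y) : ℝ) ≤ R + ρ := by exact_mod_cast h7
  linarith

end geo

/-! ### the lower bound -/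

/-- The data at one size: the inputs of `h7n`. -/
structure FrS.In7 (RS : RSys X) (F : Fct RS Kx) (Kt : Finset Kx) (Φ : FrS X) (θ : ℝ) (P : Measure Cfg)
    (δ : ℝ) (n : ℕ) (σ : Cfg) (A M CP : ℝ) (N₁ N₂ : Cfg → ℕ) (ρ R₁ R₂ R₃ R₄ : ℤ) : Prop where
  hA1 : 1 ≤ A
  hM : 0 < M
  hCP : 0 < CP
  hN1 : ∃ B : Finset (ℤ × ℤ), ∀ ω ω' : Cfg, (∀ v ∈ B, ω v = ω' v) → N₁ ω = N₁ ω'
  hN2 : ∃ B : Finset (ℤ × ℤ), ∀ ω ω' : Cfg, (∀ v ∈ B, ω v = ω' v) → N₂ ω = N₂ ω'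
  hd : ∀ ω, Good ω → Φ.Frz RS δ n ω → CnfA univ (Φ.h δ n) R₁ R₂ ω →
    Φ.TB RS θ δ n R₁ ω ≠ 0 →
    Φ.Tt RS F Kt δ n ⌊δ * n / 16⌋ ω ≤ A ^ (N₁ ω + 1) * |Φ.TB RS θ δ n R₁ ω|
  hm1 : Φ.E RS δ n P σ (fun ω => Φ.Tt RS F Kt δ n ⌊δ * n / 16⌋ ω * (A ^ (N₁ ω + 1)) ^ 2) ≤
      M * Φ.E RS δ n P σ (Φ.Tt RS F Kt δ n ⌊δ * n / 16⌋)
  hT : Φ.E RS δ n P σ (Φ.Tt RS F Kt δ n ⌊δ * n / 16⌋) ≤
    CP * Φ.E RS δ n P σ (fun ω => Φ.Tt RS F Kt δ n ⌊δ * n / 16⌋ ω *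
      {ω | Φ.TB RS θ δ n R₁ ω ≠ 0}.indicator 1 ω)
  ha : ∀ ω, Good ω → Φ.Frz RS δ n ω → 0 ≤ Φ.TO RS θ δ n R₃ ω
  he : ∀ ω, Good ω → Φ.Frz RS δ n ω → CnfA univ (Φ.h δ n) R₃ R₄ ω →
    Φ.TO RS θ δ n R₃ ω ≠ 0 →
    Φ.Tj RS F Kt δ n ρ ω ≤ A ^ (N₂ ω + 1) * Φ.TO RS θ δ n R₃ ω
  hm2 : Φ.E RS δ n P σ (fun ω => Φ.Tj RS F Kt δ n ρ ω * (A ^ (N₂ ω + 1)) ^ 2) ≤
      M * Φ.E RS δ n P σ (Φ.Tj RS F Kt δ n ρ)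
  hS : Φ.E RS δ n P σ (Φ.Tj RS F Kt δ n ρ) ≤
    CP * Φ.E RS δ n P σ (fun ω => Φ.Tj RS F Kt δ n ρ ω *
      {ω | Φ.TO RS θ δ n R₃ ω ≠ 0}.indicator 1 ω)

/-- **The lower bound for one size.** -/
theorem FrS.h7n (h0 : 0 < θ) (h1 : Ang θ) (hβ : Real.cos (θ / 2 + β) = Real.sin θ)
    (hP : IsLim (2 * Real.cos θ) P) (hG : ∀ᵐ ω ∂P, Good ω) {α C : ℝ}
    (hA : ArmS (2 * Real.cos θ) α C) (hC : 0 ≤ C) (hn : 0 < n) [NeZero l] (hp : IsPolygon p)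
    (hD : Encloses p S₀) (hgeo : Φ.GeoN RS F Kt θ β p S₀ g δ n) {σ : Cfg} (hσg : Good σ)
    (hσ : Φ.Frz RS δ n σ) {A M CP : ℝ} {N₁ N₂ : Cfg → ℕ} {ρ R₁ R₂ R₃ R₄ Rb : ℤ}
    (hI : Φ.In7 RS F Kt θ P δ n σ A M CP N₁ N₂ ρ R₁ R₂ R₃ R₄)
    (r1 : (⌊δ * n⌋₊ : ℤ) + 4 ≤ R₁) (r1' : 2 * δ * n + ((⌊δ * n / 16⌋ : ℤ) : ℝ) ≤ R₁)
    (r2 : R₁ + 2 < R₂) (r3 : R₂ ≤ R₃) (r4 : R₃ + 2 < R₄) (r5 : R₄ ≤ Rb)
    (r6 : (2 * Rb : ℝ) < g * n) (r7 : (Rb : ℝ) + ρ < g * n)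
    (hε : (univ : Finset Φ.H).card *
      (C * (((R₁ + 1 : ℤ) : ℝ) / ((R₂ - 1 : ℤ) : ℝ)) ^ α) ≤ 1 / (2 * CP))
    (hε' : (univ : Finset Φ.H).card *
      (C * (((R₃ + 1 : ℤ) : ℝ) / ((R₄ - 1 : ℤ) : ℝ)) ^ α) ≤ 1 / (2 * CP))
    (m1 : C * ((R₁ : ℝ) / Rb) ^ α < 1)
    (m2 : 8 * (univ : Finset Φ.H).card * (C * ((R₁ : ℝ) / Rb) ^ α) ≤ 1)
    (m3 : C * ((R₂ : ℝ) / R₃) ^ α < 1)
    (m4 : 8 * (univ : Finset Φ.H).card * (C * ((R₂ : ℝ) / R₃) ^ α) ≤ 1) :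
    Φ.E RS δ n P σ (fun ω => Φ.Tt RS F Kt δ n ⌊δ * n / 16⌋ ω * Φ.Tj RS F Kt δ n ρ ω) ≤
      64 * M ^ 2 * CP ^ 4 * Φ.E RS δ n P σ (fun ω => Φ.G RS θ β p S₀ δ n 0 R₃ R₄ ω *
        Φ.T2 RS θ δ n R₁ R₂ ω) := by
  classical
  obtain ⟨BN, hBN⟩ := hI.hN1
  obtain ⟨BN', hBN'⟩ := hI.hN2
  have hFr : ∀ {ω : Cfg}, (∀ v ∈ Φ.U RS δ n, ω v = σ v) → Φ.Frz RS δ n ω := fun h =>
    (FrS.frz_iff hσ).2 h
  have r0 : 0 ≤ (⌊δ * n⌋₊ : ℤ) := Int.natCast_nonneg _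
  exact h7_one (J := univ) (b := Φ.b δ n) (c := Φ.h δ n) (a := Φ.ph RS δ n 0)
    (K := Φ.U RS δ n) (D := enl S₀ n) (k := Φ.k n) (q := qN p n (Φ.t n)) (κ := σ)
    h0 h1 hβ hP hG hA hC (isPolygon_qN hn hp (Φ.t n)) (encloses_qN hn hp hD (Φ.t n)) hσg
    (rT := R₁) (T := Φ.Tt RS F Kt δ n ⌊δ * n / 16⌋) (FrS.Tt_nonneg _) (hgeo.Tt_loc r1')
    (Rb := Rb) (Jn := Φ.Tj RS F Kt δ n ρ) (FrS.Tj_nonneg _)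
    (FrS.cb_Tj _) (hgeo.Tj_ind r7)
    (hgeo.holK hσ r1 (by omega) r6) (by omega) le_rfl r2 r3 r4 r5 hI.hA1 hI.hM hI.hCP hBN
    (fun ω hω hf hc hne => hI.hd ω hω (hFr hf) hc hne) hI.hm1 hI.hT hε hBN'
    (fun ω hω hf => hI.ha ω hω (hFr hf))
    (fun ω hω hf hc hne => hI.he ω hω (hFr hf) hc hne) hI.hm2 hI.hS hε' m1 m2 m3 m4

/-- The radii of the lower bound. -/
theorem radii7 {g κL κ' κ3 κ₃ κ₄ t s₂ δ x₁ : ℝ} {n : ℕ} (hδ : 0 < δ) (hn : 16 ≤ δ * n)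
    (hn0 : (0 : ℝ) < n) (hκ₃ : 0 < κ₃) (hg0 : 0 < g)
    (ht0 : 0 < t) (ht1 : t ≤ 1 / 2)
    (hs12 : 4 ≤ t * s₂) (hs2 : 8 ≤ s₂) (hκ34 : κ₃ ≤ t * κ₄) (hκ₃t : κ₃ ≤ κ3)
    (d4 : δ * (32 * s₂) < g) (d5 : δ * s₂ < κL) (d6 : δ * s₂ < κ₃)
    (d7 : δ * (4 * s₂) < x₁ * κ₃) (d8 : δ < x₁ * g / 64) (m1 : κ₄ ≤ κL) (m2 : κ₄ ≤ g / 32)
    (k4 : κ' < g / 32) :
    ((⌊δ * (n : ℝ)⌋₊ : ℤ) + 4 ≤ ⌊4 * δ * n⌋ ∧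
      2 * δ * n + ((⌊δ * n / 16⌋ : ℤ) : ℝ) ≤ ((⌊4 * δ * n⌋ : ℤ) : ℝ) ∧
      ⌊4 * δ * n⌋ + 2 < ⌊s₂ * δ * n⌋ ∧ ⌊s₂ * δ * n⌋ ≤ ⌊κ₃ * n⌋ ∧ ⌊κ₃ * n⌋ + 2 < ⌊κ₄ * n⌋ ∧
      ⌊κ₄ * n⌋ ≤ ⌊g / 8 * n⌋ ∧ (2 * ((⌊g / 8 * n⌋ : ℤ) : ℝ)) < g * n ∧
      ((⌊g / 8 * n⌋ : ℤ) : ℝ) + ((⌊4 * κ' * n⌋ : ℤ) : ℝ) < g * n) ∧
    (⌊s₂ * δ * n⌋ ≤ ⌊κL * n⌋ ∧ ⌊κ₄ * n⌋ ≤ ⌊κL * n⌋ ∧ ((⌊κ₃ * n⌋ : ℤ) : ℝ) ≤ κ3 * n) ∧
    ((((⌊4 * δ * n⌋ + 1 : ℤ) : ℝ) / ((⌊s₂ * δ * n⌋ - 1 : ℤ) : ℝ)) ≤ 2 * t ∧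
      0 ≤ (((⌊4 * δ * n⌋ + 1 : ℤ) : ℝ) / ((⌊s₂ * δ * n⌋ - 1 : ℤ) : ℝ))) ∧
    ((((⌊κ₃ * n⌋ + 1 : ℤ) : ℝ) / ((⌊κ₄ * n⌋ - 1 : ℤ) : ℝ)) ≤ 2 * t ∧
      0 ≤ (((⌊κ₃ * n⌋ + 1 : ℤ) : ℝ) / ((⌊κ₄ * n⌋ - 1 : ℤ) : ℝ))) ∧
    (((⌊s₂ * δ * n⌋ : ℤ) : ℝ) / ((⌊κ₃ * n⌋ : ℤ) : ℝ) ≤ x₁ ∧
      0 ≤ ((⌊s₂ * δ * n⌋ : ℤ) : ℝ) / ((⌊κ₃ * n⌋ : ℤ) : ℝ)) ∧
    (((⌊4 * δ * n⌋ : ℤ) : ℝ) / ((⌊g / 8 * n⌋ : ℤ) : ℝ) ≤ x₁ ∧
      0 ≤ ((⌊4 * δ * n⌋ : ℤ) : ℝ) / ((⌊g / 8 * n⌋ : ℤ) : ℝ)) := by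
  obtain ⟨e1, e2, e3, e4, e5, e6, e7, e8, e9, e10, e12, e13, e14, e15⟩ :=
    radii hn hn0 le_rfl hs12 hs2 hκ34 d4 d5 d6 d7 d8 m1 m2 k4
  obtain ⟨r1, r2, r3⟩ := ratio_le ht0 ht1 e2 (by linarith)
  obtain ⟨r4, r5, r6⟩ := ratio_le ht0 ht1 e7 (by linarith)
  have r7 := ratio_le' (a := s₂ * δ * n) (b := κ₃ * n) (x := x₁) (by linarith)
    e12 (by linarith)
  have r8 := ratio_le' (a := 4 * δ * n) (b := g / 8 * n) (x := x₁) (by positivity)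
    e13 (by linarith)
  have fl : ∀ x : ℝ, (⌊x⌋ : ℝ) ≤ x := Int.floor_le
  have fl' : ∀ x : ℝ, x < (⌊x⌋ : ℝ) + 1 := Int.lt_floor_add_one
  have hgn : 0 < g * n := by positivity
  refine ⟨⟨?_, ?_, ?_, Int.floor_le_floor e3, ?_, Int.floor_le_floor (by linarith), ?_, ?_⟩,
    ⟨Int.floor_le_floor e4, Int.floor_le_floor e8, (fl _).trans
      (mul_le_mul_of_nonneg_right hκ₃t hn0.le)⟩, ⟨r1, r2⟩, ⟨r4, r5⟩, r7, r8⟩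
  · have a0 : ((⌊δ * (n : ℝ)⌋₊ : ℤ) : ℝ) ≤ δ * n := by
      have := Nat.floor_le (by positivity : 0 ≤ δ * (n : ℝ))
      exact_mod_cast this
    refine Int.le_floor.2 ?_
    push_cast at a0 ⊢
    linarith
  · have b1 := fl (δ * n / 16)
    have b2 := fl' (4 * δ * n)
    linarith
  · have h2 := fl (4 * δ * n)
    have h3 := fl' (s₂ * δ * n)
    have h4 : 2 * (4 * δ * n) ≤ s₂ * δ * n := by
      have := mul_le_mul_of_nonneg_right hs2 (by positivity : 0 ≤ δ * (n : ℝ))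
      linarith
    have h5 : ((⌊4 * δ * n⌋ + 2 : ℤ) : ℝ) < ((⌊s₂ * δ * n⌋ : ℤ) : ℝ) := by
      push_cast
      linarith
    exact_mod_cast h5
  · have h2 := fl (κ₃ * n)
    have h3 := fl' (κ₄ * n)
    have h4 : 2 * (κ₃ * n) ≤ κ₄ * n := by
      have h7 : 0 ≤ κ₄ * n := by
        by_contra hc
        push Not at hc
        have : 0 < κ₃ * n := by positivity
        have := mul_nonpos_of_nonneg_of_nonpos ht0.le hc.le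
        linarith
      have := mul_le_mul_of_nonneg_right ht1 h7
      linarith
    have h5 : ((⌊κ₃ * n⌋ + 2 : ℤ) : ℝ) < ((⌊κ₄ * n⌋ : ℤ) : ℝ) := by
      push_cast
      linarith
    exact_mod_cast h5
  · have := fl (g / 8 * n)
    linarith
  · have b1 := fl (g / 8 * n)
    have b2 := fl (4 * κ' * n)
    linarith

/-- **(H7S) The lower bound.** -/
theorem FrS.h7sg (h0 : 0 < θ) (h1 : Ang θ) (hβ : Real.cos (θ / 2 + β) = Real.sin θ)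
    (hP : IsLim (2 * Real.cos θ) P) (hG : ∀ᵐ ω ∂P, Good ω) [NeZero l] (hp : IsPolygon p)
    (hD : Encloses p S₀) (hGeo : Φ.Geo RS F Kt θ β p S₀) (hL : Φ.L2Sg RS F Kt θ S₀)
    (hT : Φ.P2Tg RS F Kt θ P) (hS : Φ.P2Sg RS F Kt θ P) (hH : Φ.H2Sg RS F Kt θ S₀ P) :
    Φ.H7Sg RS F Kt θ β p S₀ P := by
  classical
  have hPp : IsProbabilityMeasure P := hP.1
  obtain ⟨α, C, hα, hC, hA, -⟩ := h1.kit.armS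
  obtain ⟨g, hg0, hg1, δG, hδG, hGeo⟩ := hGeo
  obtain ⟨κL, hκL, hL⟩ := hL
  obtain ⟨κP, hκP, hS⟩ := hS
  obtain ⟨κH, hκH, hH⟩ := hH 1 0 one_pos
  obtain ⟨CT, δT, hCT, hδT, hT⟩ := hT
  refine ⟨min (min κL κP) (min κH (g / 32)), by positivity, fun κ' hκ' hκ'1 => ?_⟩
  have k1 : κ' < κL := hκ'1.trans_le ((min_le_left _ _).trans (min_le_left _ _))
  have k2 : κ' < κP := hκ'1.trans_le ((min_le_left _ _).trans (min_le_right _ _))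
  have k3 : κ' < κH := hκ'1.trans_le ((min_le_right _ _).trans (min_le_left _ _))
  have k4 : κ' < g / 32 := hκ'1.trans_le ((min_le_right _ _).trans (min_le_right _ _))
  obtain ⟨A, δL, hA1, hδL, hL⟩ := hL κ' hκ' k1
  obtain ⟨CS, δP, κ3, hCS, hδP, hκ3, hS⟩ := hS κ' hκ' k2
  obtain ⟨M, δH, hM, hδH, hH⟩ := hH κ' hκ' k3 A hA1
  obtain ⟨CP, hCPT, hCPS⟩ : ∃ CP : ℝ, CT ≤ CP ∧ CS ≤ CP := ⟨max CT CS, le_max_left _ _,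
    le_max_right _ _⟩
  have hCP : 0 < CP := hCT.trans_le hCPT
  obtain ⟨N, hNdef⟩ : ∃ N : ℝ, N = ((univ : Finset Φ.H).card : ℝ) := ⟨_, rfl⟩
  have hN0 : 0 ≤ N := by rw [hNdef]; exact Nat.cast_nonneg _
  obtain ⟨x₀, hx₀, hx₀'⟩ := small_pow (N := N) (ε := 1 / (2 * CP)) hα hC.le hN0
    (by positivity)
  obtain ⟨x₁, hx₁, hx₁'⟩ := small_pow (N := 8 * N + 1) (ε := 1 / 2) hα hC.le (by positivity)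
    (by norm_num)
  obtain ⟨t, ht0, ht1, ht2, ht3⟩ : ∃ t : ℝ, 0 < t ∧ t ≤ 1 / 2 ∧ t ≤ κ3 ∧ 2 * t ≤ x₀ := by
    refine ⟨min (1 / 2) (min κ3 (x₀ / 2)), by positivity, min_le_left _ _,
      (min_le_right _ _).trans (min_le_left _ _), ?_⟩
    have : min (1 / 2) (min κ3 (x₀ / 2)) ≤ x₀ / 2 := (min_le_right _ _).trans (min_le_right _ _)
    linarith
  refine ⟨64 * M ^ 2 * CP ^ 4, t, by positivity, ht0, by linarith, ?_⟩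
  intro s₂ κ₃ κ₄ hs12 hκ₃ hκ34 hκ₃t hκ₄
  have m1 : κ₄ ≤ κL := hκ₄.trans ((min_le_left _ _).trans (min_le_left _ _))
  have m2 : κ₄ ≤ g / 32 := hκ₄.trans ((min_le_right _ _).trans (min_le_right _ _))
  have hs2 : 8 ≤ s₂ := by
    by_contra hc
    push Not at hc
    rcases le_or_gt s₂ 0 with h | h
    · linarith [mul_nonpos_of_nonneg_of_nonpos ht0.le h]
    · linarith [mul_le_mul_of_nonneg_right ht1 h.le]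
  have hs20 : 0 < s₂ := by linarith
  refine ⟨min (min (min δL δP) (min δG δT)) (min δH (min (g / (32 * s₂)) (min (κL / s₂)
    (min (κ₃ / s₂) (min (x₁ * κ₃ / (4 * s₂)) (x₁ * g / 64)))))), by positivity, ?_⟩
  intro δ hδ hδ'
  simp only [lt_min_iff] at hδ'
  obtain ⟨⟨⟨d1, d2⟩, dG, dT⟩, d3, d4, d5, d6, d7, d8⟩ := hδ'
  rw [lt_div_iff₀ (by positivity)] at d4 d5 d6 d7
  filter_upwards [hL δ hδ d1, hS δ hδ d2, hH δ hδ d3, hT δ hδ dT, hGeo δ hδ dG,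
    eventually_ge_atTop ⌈16 / δ⌉₊] with n nL nS nH nT nG nn
  have hn : 16 ≤ δ * n := by
    have h1 : 16 / δ ≤ n := (Nat.le_ceil _).trans (by exact_mod_cast nn)
    rw [div_le_iff₀ hδ] at h1
    linarith
  have hn0 : (0 : ℝ) < n := by
    by_contra h
    push Not at h
    linarith [mul_nonpos_of_nonneg_of_nonpos hδ.le h]
  intro σ hσ
  obtain ⟨σ', hσ'g, hσ'⟩ := exists_good (Φ.U RS δ n) σ
  have hσ'f : Φ.Frz RS δ n σ' := (FrS.frz_iff hσ).2 hσ'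
  have eE : ∀ f : Cfg → ℝ, Φ.E RS δ n P σ f = Φ.E RS δ n P σ' f := fun f => by
    unfold FrS.E
    exact (EF_cfg hσ' f).symm
  rw [eE, eE]
  obtain ⟨Z, B₁, B₂, N₁, N₂, hZ, hN1, hN2, hMaj1, hMaj2, -, hm1, hm2⟩ := nH σ' hσ'f
  -- the radii
  obtain ⟨⟨a1, a2, a3, a4, a5, a6, a7, a8⟩, ⟨b1, b2, b3⟩, ⟨c1, c2⟩, ⟨c3, c4⟩, ⟨c5, c6⟩, c7, c8⟩ :=
    radii7 hδ hn hn0 hκ₃ hg0 ht0 ht1 hs12 hs2 hκ34 (hκ₃t.trans ht2) d4 d5 d6 d7 d8 m1 m2 k4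
  have arm1 := hx₀' _ c2 (c1.trans ht3)
  have arm2 := hx₀' _ c4 (c3.trans ht3)
  have arm3 := arm_two hN0 (mul_nonneg hC.le (Real.rpow_nonneg c6 _)) (hx₁' _ c6 c5)
  have arm4 := arm_two hN0 (mul_nonneg hC.le (Real.rpow_nonneg c8 _)) (hx₁' _ c8 c7)
  rw [hNdef] at arm1 arm2 arm3 arm4
  have hR3' : (⌊δ * (n : ℝ)⌋₊ : ℤ) + 4 ≤ ⌊κ₃ * n⌋ := by omega
  refine FrS.h7n h0 h1 hβ hP hG hA hC.le (by exact_mod_cast hn0) hp hD nG hσ'g hσ'f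
    (N₁ := N₁) (N₂ := N₂) (A := A) ?_ a1 a2 a3 a4 a5 a6 a7 a8 arm1 arm2 arm4.1 arm4.2 arm3.1 arm3.2
  refine ⟨hA1, hM, hCP, ⟨B₁, hN1⟩, ⟨B₂, hN2⟩, fun ω hω hf hc hne => ?_, hm1,
    (nT σ' hσ'f).trans ?_, fun ω hω hf => ?_, fun ω hω hf hc hne => ?_, hm2,
    (nS σ' hσ'f _ hR3' b3).trans ?_⟩
  · have h2 := (nL ω hω hf).2.2.1 (FrS.cnf_of hc b1)
    refine (h2.2 (N₁ ω) (hMaj1 ω hω) hne).trans ?_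
    exact mul_le_mul_of_nonneg_left (le_abs_self _) (pow_pos (by linarith) _).le
  · refine mul_le_mul_of_nonneg_right hCPT (EF_nonneg fun ω => ?_)
    exact mul_nonneg (FrS.Tt_nonneg _ _) ind01A
  · exact TO_nonnegA hR3' fun ℓ h2 h3 => ((nL ω hω hf).1 ℓ h2 h3).1
  · exact (nL ω hω hf).2.2.2 _ Z (N₂ ω) hR3' (FrS.cnf_of hc b2) hZ (hMaj2 ω hω) hne
  · refine mul_le_mul_of_nonneg_right hCPS (EF_nonneg fun ω => ?_)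
    exact mul_nonneg (FrS.Tj_nonneg _ _) ind01A

end Vale.Agent.P167.N.ID
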