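import Vale.Agent.P167.N.ID.RowF
import Vale.Agent.P167.N.H506.Q.Loc3
import Vale.Agent.P167.H506.Q.Sp5

/-!
# P167, `0 < q < 1`, block 2A: comparison of the radii and moments, the factors of the rows

* `Row.T2_dec`: the factor of a power junction is of decreasing type (`RadDec`), all inputs of
  `rad_dec` with `C0 = 1`.
* `Row.T_anti`, `p1cg_row`: the factors decrease.
* `P1aK θ`: the comparison of the radii for the arms of the killed sites (input, networks).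
* `p1ag_row : P1aK θ → P1ag (rowS θ) (rowF hθ) θ`.
* `p1bg_row : P1ag (rowS θ) (rowF hθ) θ → P1bg (rowS θ) (rowF hθ) θ`.
-/

set_option autoImplicit false

namespace Vale.Agent.P167.N.ID

open Finset MeasureTheory Filter
open Vale.Agent.P167 Vale.Agent.P167.N
open Vale.Agent.P167.FK
open Vale.Agent.P167.FKA (Loc)
open Vale.Agent.P167.XDL (bS mem_bS)
open Vale.Agent.P167.H166 (bxx mem_bxx)
open Vale.Agent.P167.H562.QM (MajA OneC Nr)
open Vale.Agent.P167.H945.Q (face faces lrs)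
open Vale.Agent.P167.H506.Q (BF RadDec ov ov_card ov_new jn_diam comp_low lrs_mono hone_row
  faces_disj' Ex_pos Ex_pe LF bq_of_nm nm_of_bq)

variable {θ κ : ℝ} {n : ℕ} {r : Row}

/-! ### the power junctions -/

theorem bq_tri {x y v : ℤ × ℤ} {R : ℤ} (h : nm (x - y) ≤ 1) (hv : v ∈ Bq x R) :
    v ∈ Bq y (R + 1) := by
  rw [H506.Q.mem_bq] at hv ⊢
  simp only [nm, Prod.fst_sub, Prod.snd_sub, max_le_iff, abs_le] at h
  omega

/-- The boxes at the site of the junction as boxes at the square. -/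
theorem bf_zm (r : Row) : BF (r.sq r.k0) (fun R => Bq r.zm R) := by
  have h := r.near_st r.kf r.k0
  refine ⟨fun R v hv => ?_, fun R v hv => bq_tri h hv, fun R R' hR v hv => ?_,
    fun R => ⟨_, _, _, _, rfl⟩⟩
  · have h' : nm (r.sq r.k0 - r.zm) ≤ 1 := by rw [H945.Q.nm_comm]; exact h
    have := bq_tri h' hv
    simpa using this
  · rw [H506.Q.mem_bq] at hv ⊢
    omega

/-- **The factor of a power junction is of decreasing type.** -/
theorem Row.T2_dec (h0 : 0 < Real.cos θ) (h1 : 2 * Real.cos θ ≤ 1) (r : Row) (R : ℤ)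
    (I : Finset (ℤ × ℤ)) (hI : I = r.I) :
    RadDec r.zm I r.toRow.fr (2 * Real.cos θ) 1 R (r.T2 θ I) := by
  subst hI
  have hw : 0 < 2 * Real.cos θ := by linarith
  have hmono : ∀ {s s' : ℤ}, s ≤ s' → ∀ {A A' : Finset Ed} {ω : Cfg},
      (lrs r.I A A' (Bq r.zm s) ω).card ≤ (lrs r.I A A' (Bq r.zm s') ω).card :=
    fun h => card_le_card (lrs_mono ((bf_zm r).mono _ _ h))
  refine ⟨fun s _ _ => ?_, fun s _ _ ω => pow_nonneg hw.le _, fun s _ _ ω _ _ => pow_pos hw _,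
    fun s s' _ h _ ω _ _ => ?_, fun s s' h8 h _ ω _ _ N hN => ?_⟩
  · intro ω ω' h
    refine Row.T2_loc _ _ _ ω ω' fun v hv => h v (mem_union_left _ ?_)
    rw [H506.Q.mem_bq] at hv ⊢
    omega
  · rw [one_mul]
    exact pow_le_pow_of_le_one hw.le h1 (Nat.add_le_add (hmono h) (hmono h))
  · unfold Row.T2
    rw [pow_add, pow_add]
    refine comp_low hw h1 le_rfl le_rfl (hmono h) (hmono h) ?_
    rw [← ov_card faces_disj', ← ov_card faces_disj']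
    refine ov_new (Z := Bq r.zm (2 * s')) ?_ hN fun e he hx => ?_
    · intro v hv
      rw [H506.Q.mem_bq] at hv ⊢
      omega
    · exact jn_diam (bx := fun R => Bq r.zm R) (bf_zm r) h8 he hx

/-! ### the factors decrease -/

theorem TK_anti {I : Finset (ℤ × ℤ)} {z : ℤ × ℤ} {R R' : ℤ} (h : R ≤ R') (ω : Cfg) :
    TK I z R' ω ≤ TK I z R ω :=
  Set.indicator_le_indicator_of_subset (AZ_anti h) (fun _ => zero_le_one) ω

theorem Row.T_anti (h0 : 0 ≤ Real.cos θ) (h1 : 2 * Real.cos θ ≤ 1) (I : Finset (ℤ × ℤ)) (r : Row)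
    (k : Bool) {R R' : ℤ} (h : R ≤ R') (ω : Cfg) : r.T θ I k R' ω ≤ r.T θ I k R ω := by
  unfold Row.T
  split_ifs
  · exact TK_anti h ω
  · exact le_rfl
  · unfold Row.T2
    refine pow_le_pow_of_le_one (by linarith) h1 (Nat.add_le_add (card_le_card (lrs_mono ?_))
      (card_le_card (lrs_mono ?_))) <;> exact (bf_zm r).mono _ _ h
  · exact TK_anti h ω

theorem Row.T_le_one (h0 : 0 ≤ Real.cos θ) (h1 : 2 * Real.cos θ ≤ 1) (I : Finset (ℤ × ℤ)) (r : Row)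
    (k : Bool) (R : ℤ) (ω : Cfg) : r.T θ I k R ω ≤ 1 := by
  unfold Row.T
  split_ifs
  · exact TK_le_one _ _ _ _
  · exact le_rfl
  · exact pow_le_one₀ (by linarith) h1
  · exact TK_le_one _ _ _ _

/-- **`P1cg` for the rows.** -/
theorem p1cg_row (hθ : 0 ≤ Real.cos θ) (h0 : 0 < 2 * Real.cos θ) (h1 : 2 * Real.cos θ ≤ 1) :
    P1cg (rowS θ) (rowF hθ) θ := by
  intro Λ _
  refine ⟨1, 0, one_pos, fun r k ρ ρ' _ _ _ h _ _ η hη _ => ?_⟩
  rw [one_mul]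
  exact FKA.Ex_mono h0 fun S _ => r.T_anti hθ h1 _ _ h _

/-! ### the comparison of the radii -/

/-- **The comparison of the radii for the arms of the killed sites**: all boundary conditions.
Tips (`k = true`), bases and junctions which kill (`k = false`). -/
def P1aK (θ : ℝ) : Prop :=
  ∀ Λ : ℝ, 1 ≤ Λ → ∃ C ρ₀ : ℝ, 0 < C ∧ ∀ (r : Row) (k : Bool) (ρ ρ' : ℤ),
    r.Val θ → r.Sp k → (k = false → ¬ r.K2 θ) → ρ₀ ≤ ρ → ρ ≤ ρ' → (ρ' : ℝ) ≤ Λ * ρ →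
    8 * ρ' ≤ r.mg → ∀ η : Cfg, Good η → (∀ v ∈ r.I, η v = r.toRow.fr v) →
      Ex (2 * Real.cos θ) (Bq (r.ctr k) (4 * ρ') \ r.I) η (TK r.I (r.ctr k) ρ) ≤
        C * Ex (2 * Real.cos θ) (Bq (r.ctr k) (4 * ρ') \ r.I) η (TK r.I (r.ctr k) ρ')

theorem Row.T_K {k : Bool} (h : r.Sp k) (hk : k = false → ¬ r.K2 θ) (I : Finset (ℤ × ℤ))
    (R : ℤ) : r.T θ I k R = TK I (r.ctr k) R := by
  funext ω
  unfold Row.T Row.ctr
  cases k
  · have hp : ¬ r.Plain := h.resolve_left Bool.false_ne_true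
    rw [if_neg Bool.false_ne_true, if_neg hp, if_neg (hk rfl), if_neg Bool.false_ne_true]
  · rw [if_pos rfl, if_pos rfl]

theorem Row.T_2 {k : Bool} (h : r.Sp k) (hk : k = false) (h2 : r.K2 θ) (I : Finset (ℤ × ℤ)) :
    r.T θ I k = r.T2 θ I := by
  subst hk
  have hp : ¬ r.Plain := h.resolve_left Bool.false_ne_true
  funext R ω
  unfold Row.T
  rw [if_neg Bool.false_ne_true, if_neg hp, if_pos h2]

/-- **`P1ag` for the rows.** -/
theorem p1ag_row (hθ : 0 ≤ Real.cos θ) (hQ : Kit (2 * Real.cos θ)) (hR : RSW (2 * Real.cos θ))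
    (hK : P1aK θ) : P1ag (rowS θ) (rowF hθ) θ := by
  intro Λ hΛ
  obtain ⟨C1, ρ1, hC1, H1⟩ := hK Λ hΛ
  obtain ⟨C2, ρ2, hC2, -, H2⟩ := Vale.Agent.P167.N.H506.Q.rad_dec hQ hR hQ.pos hQ.le
    zero_le_one Λ
  refine ⟨max C1 C2, max ρ1 ρ2, lt_max_of_lt_left hC1, fun r k ρ ρ' hv hs h1 h2 h3 h4 η hη hf => ?_⟩
  have hnn : 0 ≤ Ex (2 * Real.cos θ) (Bq (r.ctr k) (4 * ρ') \ r.I) η (r.T θ r.I k ρ') :=
    FKA.Ex_nonneg hQ.pos fun S _ => (rowF hθ).nonneg r.I r k ρ' _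
  show Ex (2 * Real.cos θ) (Bq (r.ctr k) (4 * ρ') \ r.I) η (r.T θ r.I k ρ) ≤
    max C1 C2 * Ex (2 * Real.cos θ) (Bq (r.ctr k) (4 * ρ') \ r.I) η (r.T θ r.I k ρ')
  by_cases hk : k = false ∧ r.K2 θ
  · refine le_trans ?_ (mul_le_mul_of_nonneg_right (le_max_right C1 C2) hnn)
    rw [Row.T_2 hs hk.1 hk.2]
    have hc : r.ctr k = r.zm := by
      rw [hk.1]
      rfl
    rw [hc]
    exact H2 r.zm r.I r.toRow.fr (r.T2 θ r.I) ρ ρ'
      (Row.T2_dec (by linarith [hQ.pos]) hQ.le r ρ' r.I rfl) ((le_max_right _ _).trans h1) h2 h3 η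
      hη hf (hone_row hf _ _)
  · refine le_trans ?_ (mul_le_mul_of_nonneg_right (le_max_left C1 C2) hnn)
    have hk' : k = false → ¬ r.K2 θ := fun h h' => hk ⟨h, h'⟩
    rw [Row.T_K hs hk', Row.T_K hs hk']
    exact H1 r k ρ ρ' hv hs hk' ((le_max_left _ _).trans h1) h2 h3 h4 η hη hf

/-! ### moments -/

/-- **`P1bg` for the rows.** -/
theorem p1bg_row (hθ : 0 ≤ Real.cos θ) (hQ : Kit (2 * Real.cos θ)) (hR : RSW (2 * Real.cos θ))
    (hA : P1ag (rowS θ) (rowF hθ) θ) : P1bg (rowS θ) (rowF hθ) θ := by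
  intro ε s hε
  obtain ⟨e1, he1, H⟩ := Vale.Agent.P167.N.H506.Q.num_one hQ hR
  obtain ⟨ε', hε'⟩ : ∃ ε' : ℝ, ε' = min ε 1 := ⟨_, rfl⟩
  have hε0 : 0 < ε' := by rw [hε']; exact lt_min hε one_pos
  have hε1 : ε' ≤ 1 := by rw [hε']; exact min_le_right _ _
  have hεε : ε' ≤ ε := by rw [hε']; exact min_le_left _ _
  obtain ⟨CM, ρM, hCM, hρM, H⟩ := H ε' 2 s hε0 (by norm_num)
  obtain ⟨e, he⟩ : ∃ e, e = min (e1 * ε' / (1 + |s|)) 1 := ⟨_, rfl⟩
  have hs1 : 0 < 1 + |s| := by positivity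
  have he0 : 0 < e := by rw [he]; exact lt_min (by positivity) one_pos
  have he1' : e ≤ 1 := by rw [he]; exact min_le_right _ _
  have hee : e ≤ e1 * ε' / (1 + |s|) := by rw [he]; exact min_le_left _ _
  obtain ⟨CA, ρA, hCA, HA⟩ := hA (2 / e) (by rw [le_div_iff₀ he0]; linarith)
  refine ⟨CM * CA, max ρM (max (2 / e) ((ρA + 1) / e)), by positivity,
    fun r k ρ hv hs h1 h2 => ?_⟩
  have hρ1 : ρM ≤ (ρ : ℝ) := (le_max_left _ _).trans h1
  have hρ2 : 2 / e ≤ (ρ : ℝ) := (le_max_left _ _).trans ((le_max_right _ _).trans h1)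
  have hρ3 : (ρA + 1) / e ≤ (ρ : ℝ) := (le_max_right _ _).trans ((le_max_right _ _).trans h1)
  have hρ0 : (0 : ℝ) < ρ := hρM.trans_le hρ1
  obtain ⟨N, n1, n2, n3⟩ := H ρ hρ1 (r.ctr k) (2 * ρ) (by push_cast; exact le_rfl)
  have hW : ε' * (ρ : ℝ) + ((2 * ρ : ℤ) : ℝ) < ((4 * ρ : ℤ) : ℝ) := by
    have : ε' * (ρ : ℝ) ≤ 1 * ρ := mul_le_mul_of_nonneg_right hε1 hρ0.le
    push_cast
    linarith
  refine ⟨N, n1 (4 * ρ) hW, fun ω _ => H945.Q.MajA.mono (n2 ω)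
    (mul_le_mul_of_nonneg_right hεε hρ0.le), fun η hη hf => ?_⟩
  -- the small radius
  obtain ⟨b, hb⟩ : ∃ b : ℤ, b = ⌊e * ρ⌋ := ⟨_, rfl⟩
  have hb1 : (b : ℝ) ≤ e * ρ := by rw [hb]; exact Int.floor_le _
  have hb2 : e * ρ - 1 ≤ b := by rw [hb]; exact (Int.sub_one_lt_floor _).le
  rw [div_le_iff₀ he0] at hρ2 hρ3
  have hb3 : (ρ : ℝ) ≤ 2 / e * b := by
    rw [div_mul_eq_mul_div, le_div_iff₀ he0]
    linarith
  have hb4 : b ≤ ρ := by
    have : (b : ℝ) ≤ ρ := hb1.trans (by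
      have := mul_le_mul_of_nonneg_right he1' hρ0.le
      linarith)
    exact_mod_cast this
  have hQ0 := hQ.pos
  have hnn : ∀ R ω, 0 ≤ r.T θ r.I k R ω := fun R ω => (rowF hθ).nonneg r.I r k R ω
  show Ex (2 * Real.cos θ) (Bq (r.ctr k) (4 * ρ) \ r.I) η
      (fun ω => r.T θ r.I k ρ ω * Real.exp (s * (N ω : ℝ))) ≤
    CM * CA * Ex (2 * Real.cos θ) (Bq (r.ctr k) (4 * ρ) \ r.I) η (r.T θ r.I k ρ)
  calc Ex (2 * Real.cos θ) (Bq (r.ctr k) (4 * ρ) \ r.I) η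
        (fun ω => r.T θ r.I k ρ ω * Real.exp (s * (N ω : ℝ)))
      ≤ Ex (2 * Real.cos θ) (Bq (r.ctr k) (4 * ρ) \ r.I) η
          (fun ω => r.T θ r.I k b ω * Real.exp (s * (N ω : ℝ))) :=
        FKA.Ex_mono hQ0 fun S _ => mul_le_mul_of_nonneg_right (r.T_anti hθ hQ.le _ _ hb4 _)
          (Real.exp_pos _).le
    _ ≤ CM * Ex (2 * Real.cos θ) (Bq (r.ctr k) (4 * ρ) \ r.I) η (r.T θ r.I k b) := by
        refine n3 (4 * ρ) r.I η hW hη (hone_row hf _ _) b _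
          (hb1.trans (mul_le_mul_of_nonneg_right hee hρ0.le)) (hnn b) ?_
        intro ω ω' h
        exact (rowF hθ).loc r.I r k b ω ω' fun v hv => h v (mem_union_left _ hv)
    _ ≤ CM * (CA * Ex (2 * Real.cos θ) (Bq (r.ctr k) (4 * ρ) \ r.I) η (r.T θ r.I k ρ)) :=
        mul_le_mul_of_nonneg_left (HA r k b ρ hv hs (by linarith) hb4 hb3 h2 η hη hf) hCM.le
    _ = _ := by ring

end Vale.Agent.P167.N.ID
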