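import Vale.Agent.P167.N.ID.ArmRow
import Vale.Agent.P167.N.ID.P1K2
import Vale.Agent.P167.N.Base.Vr

/-!
# P167, `0 < q < 1`, block 2A: the comparison of the radii of the arms of the killed sites

`p1aK : Kit (2 * Real.cos θ) → P1aK θ`.
-/

set_option autoImplicit false

namespace Vale.Agent.P167.N.ID

open Finset
open Vale.Agent.P167 Vale.Agent.P167.N
open Vale.Agent.P167.FK
open Vale.Agent.P167.H632 (pr pr_or pr_not)
open Vale.Agent.P167.N.NET (VRS vrs_of)

variable {θ : ℝ}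

theorem cz_pr (z : ℤ × ℤ) : (z.1 + z.2) % 2 = pr (cz z) := by
  unfold cz
  by_cases h : Even (z.1 + z.2)
  · rw [decide_eq_true h]
    rw [Int.even_iff] at h
    exact h
  · rw [decide_eq_false h]
    rw [Int.even_iff] at h
    show _ = (1 : ℤ)
    omega

/-- **The comparison of the radii for the arms of the killed sites.** -/
theorem p1aK (hQ : Kit (2 * Real.cos θ)) : P1aK θ := by
  intro Λ _
  obtain ⟨C, hC, H⟩ := row_rad hQ.pos hQ.le (vrs_of hQ.pos hQ.le (N.vr hQ)) Λ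
  refine ⟨C, 32, hC, ?_⟩
  intro r k ρ ρ' hv hs _ hρ hρρ hΛ hmg η hη _
  have hρ' : 32 ≤ ρ := by exact_mod_cast hρ
  have hbox : ∀ z : ℤ × ℤ, Bq z (2 * ρ') \ r.I ⊆ Bq z (4 * ρ') \ r.I := by
    intro z v hv
    rw [mem_sdiff] at hv ⊢
    refine ⟨?_, hv.2⟩
    have := hv.1
    rw [mem_Bz] at this ⊢
    omega
  cases k
  · have hp : ¬ r.Plain := hs.resolve_left Bool.false_ne_true
    have hk0 := hv.k0_le hp
    rw [Row.mg_not hp] at hmg
    exact H r r.kf r.k0 ρ ρ' hρ' hρρ hΛ (Or.inr ⟨by omega, by omega⟩) _ _ η (cz_pr _) (hbox _) hη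
  · have hL := r.mg_le
    have hke : r.ke r.p = 0 ∨ r.ke r.p = r.L := by
      unfold Row.ke
      cases r.p
      · left; rfl
      · right; rfl
    exact H r (r.gc r.p) (r.ke r.p) ρ ρ' hρ' hρρ hΛ (Or.inl ⟨hke, by omega⟩) _ _ η (cz_pr _)
      (hbox _) hη

end Vale.Agent.P167.N.ID
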