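import Vale.Agent.P167.N.ID.PsFrA

/-!
# P167, block ID, (P2S): the picture at the special sites

* `cz_zP`, `cz_zQ`: the colours of the sites.
* `flat_zP`, `flat_zA`, `flat_zB`, `flat_zQ`: the picture at the special sites.
* `farh_*`, `dist_*`: distances.
-/

set_option autoImplicit false

namespace Vale.Agent.P167.N.ID

open Finset Filter Topology
open Vale.Agent.P167.FK (Bq)
open Vale.Agent.P167.E6 (IsPolygon Encloses dir face region)
open Vale.Agent.P167.H825 (pdir ptau enl domP Box dirOf Marks FlowIn epos rnd bsite)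
open Vale.Agent.P167.H825.Q (srow Bc)
open Vale.Agent.P167.H662 (hsite)
open Vale.Agent.P167.H199 (mks Gap exists_Gap c0)
open Vale.Agent.P167.H680.T (uI mem_uI par)
open Vale.Agent.P167.H433 (lc LR LQ Flat3 Fre FreD zP zA zB)
open Vale.Agent.P167.Enl (sW eW tB kOf uN lt_n BGap exists_BGap vp vz oz vz_eq oz_eq rb_of gn_big
  fin4_cases theta_nonneg theta_le_one pA vp_pA vp_same nm_tri nm_sub_comm nm_nonneg op_near frmQ
  mem_frmQ mem_Bq' dir0 dir1 dir2 dir3 enl_side)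

variable {l : ℕ} {p : ZMod l → ℤ × ℤ} {S₀ : Finset (ℤ × ℤ)} {b : Box} {tp : ℝ} {bc : Bc}
  {ia : ℕ} {ta : ℝ} {θ β g δ : ℝ} {n : ℕ}

/-! ### the colours of the sites -/

theorem even_lc (r : Fin 4) (v : ℤ × ℤ) :
    Even ((lc r v 0 1).1 + (lc r v 0 1).2) ↔ ¬ Even (v.1 + v.2) := by
  have h : ∀ a : ℤ, (Even (a + 1) ↔ ¬ Even a) := fun a => Int.even_add_one
  have h' : ∀ a : ℤ, (Even (a - 1) ↔ ¬ Even a) := fun a => by
    rw [Int.even_sub_one]
  obtain ⟨x, y⟩ := v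
  rcases fin4_cases r with rfl | rfl | rfl | rfl
  · show Even ((x - 0) + (y - 1)) ↔ ¬ Even (x + y)
    rw [← h', show x - 0 + (y - 1) = x + y - 1 by ring]
  · show Even ((x + 1) + (y - 0)) ↔ ¬ Even (x + y)
    rw [← h, show x + 1 + (y - 0) = x + y + 1 by ring]
  · show Even ((x + 0) + (y + 1)) ↔ ¬ Even (x + y)
    rw [← h, show x + 0 + (y + 1) = x + y + 1 by ring]
  · show Even ((x - 1) + (y + 0)) ↔ ¬ Even (x + y)
    rw [← h', show x - 1 + (y + 0) = x + y - 1 by ring]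

/-- The colour of the site outside of a site. -/
theorem cz_lc (r : Fin 4) {v : ℤ × ℤ} {s : ℝ} (h : par v = s) (hs : s = 1 ∨ s = -1) :
    cz (lc r v 0 1) = decide (s = -1) := by
  unfold cz
  rw [decide_eq_decide, even_lc]
  unfold par at h
  rcases hs with rfl | rfl
  · constructor
    · intro h1
      rw [if_neg h1] at h
      norm_num at h
    · intro h1
      norm_num at h1
  · refine ⟨fun _ => rfl, fun _ h1 => ?_⟩
    rw [if_pos h1] at h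
    norm_num at h

theorem cz_zP (p : ZMod l → ℤ × ℤ) (n : ℕ) (tp : ℝ) :
    cz (zP p n tp .free) = false ∧ cz (zP p n tp .wired) = true := by
  refine ⟨(cz_lc _ (par_tG p n tp (Or.inl rfl)) (Or.inl rfl)).trans ?_,
    (cz_lc _ (par_tG p n tp (Or.inr rfl)) (Or.inr rfl)).trans ?_⟩
  · rw [decide_eq_false]
    norm_num
  · rw [decide_eq_true]
    rfl

theorem cz_zQ (b : Box) (n : ℕ) : cz (zBx p b n ia) = decide (cT p ia = -1) :=
  cz_lc _ (par_tG pQ (bM p * n) (tqB (bQ b (bM p))) (cT_or p ia)) (cT_or p ia)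

/-! ### distances of the points of the sides -/

section far

variable {Q : Marks}

/-- **The distance of a point from the marks.** -/
theorem far_marks (hp : IsPolygon p) (hQ : Q.Ok) (hg1 : g ≤ 1) (hn : 0 < n) (hg0 : 0 ≤ g) {i : ℕ}
    (hi : i < l) {τ : ℝ} (h0 : 0 ≤ τ) (h1 : τ ≤ 1) (hτ : ∀ j ≤ Q.m + 1, g ≤ |Q.θ i j - τ|) {t : ℕ}
    (t1 : ⌊τ * n⌋₊ ≤ t) (t2 : t ≤ ⌊τ * n⌋₊ + 1) (x : Fin l × Fin (Q.m + 1)) :
    g * n - 2 ≤ (nm (vp p n i t - hsite p Q n x) : ℝ) := by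
  have hn0 : (0 : ℝ) ≤ n := Nat.cast_nonneg n
  have f3 : (⌊τ * n⌋₊ : ℝ) ≤ τ * n := Nat.floor_le (mul_nonneg h0 hn0)
  have f4 : τ * n < ⌊τ * n⌋₊ + 1 := Nat.lt_floor_add_one _
  have t1' : (⌊τ * n⌋₊ : ℝ) ≤ t := by exact_mod_cast t1
  have t2' : (t : ℝ) ≤ ⌊τ * n⌋₊ + 1 := by exact_mod_cast t2
  have a0 := hτ 0 (by omega)
  rw [hQ.zero, zero_sub, abs_neg, abs_of_nonneg h0] at a0
  have a1 := hτ (Q.m + 1) le_rfl
  rw [hQ.one, abs_of_nonneg (by linarith)] at a1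
  have m1 : g * n ≤ τ * n := mul_le_mul_of_nonneg_right a0 hn0
  have m2 : g * n ≤ (1 - τ) * n := mul_le_mul_of_nonneg_right a1 hn0
  have m3 : g * n ≤ 1 * n := mul_le_mul_of_nonneg_right hg1 hn0
  have hpn : pA n Q x < n := Enl.pA_lt hQ hn x
  rw [← vp_pA]
  by_cases hx : (x.1 : ℕ) = i
  · rw [hx, vp_same]
    have e1 : (pA n Q x : ℝ) ≤ Q.θ i x.2 * n := by
      unfold pA
      rw [hx]
      exact Nat.floor_le (mul_nonneg (theta_nonneg hQ i (by omega)) hn0)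
    have e2 : Q.θ i x.2 * n < pA n Q x + 1 := by
      unfold pA
      rw [hx]
      exact Nat.lt_floor_add_one _
    have e3 := hτ x.2 (by omega)
    push_cast
    rcases le_or_gt (Q.θ i x.2) τ with h | h
    · rw [abs_of_nonpos (by linarith)] at e3
      have e4 : g * n ≤ (τ - Q.θ i x.2) * n := mul_le_mul_of_nonneg_right (by linarith) hn0
      refine le_trans ?_ (le_abs_self _)
      linarith
    · rw [abs_of_pos (by linarith)] at e3
      have e4 : g * n ≤ (Q.θ i x.2 - τ) * n := mul_le_mul_of_nonneg_right e3 hn0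
      refine le_trans ?_ (neg_le_abs _)
      linarith
  · have h4 : ⌈g * n - 2⌉ ≤ (t : ℤ) := Int.ceil_le.2 (by push_cast; linarith)
    have h5 : ⌈g * n - 2⌉ ≤ (n : ℤ) - t := Int.ceil_le.2 (by push_cast; linarith)
    have h7 : ⌈g * n - 2⌉ ≤ (n : ℤ) := Int.ceil_le.2 (by push_cast; linarith)
    have h6 := Enl.vp_far hp hi x.1.2 (fun h' => hx h'.symm) (σ := t) (σ' := pA n Q x)
      (m := ⌈g * n - 2⌉) (n := n) (by omega) (by omega) h4 h5 h7
    exact (Int.le_ceil _).trans (by exact_mod_cast h6)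

end far

/-- The base: distance from the marks. -/
theorem PolN.far0 (H : PolN p S₀ b tp bc g δ n) {t : ℕ} (t1 : ⌊tp * n⌋₊ ≤ t)
    (t2 : t ≤ ⌊tp * n⌋₊ + 1) (x : Fin l × Fin 3) :
    g * n - 2 ≤ (nm (vp p n 0 t - hsite p (mks p b tp) n x) : ℝ) := by
  have hl : 0 < l := by have := H.hp.1; omega
  obtain ⟨b1, b2, b3, b4, b5⟩ := gn_big H.hQ H.hg H.hδg H.hn hl
  have hg0 : 0 ≤ g := by linarith [H.hδ, H.hδg]
  exact far_marks H.hp H.hQ b3 b5 hg0 hl H.hQ.tp0.le H.hQ.tp1.le H.hg.2 t1 t2 x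

/-- The junction: distance from the marks. -/
theorem PolN.farA (H : PolN p S₀ b tp (.dob ia ta) g δ n) (x : Fin l × Fin 3) :
    g * n - 2 ≤ (nm (vp p n ia ⌊ta * n⌋₊ - hsite p (mks p b tp) n x) : ℝ) := by
  have hl : 0 < l := by have := H.hp.1; omega
  obtain ⟨b1, b2, b3, b4, b5⟩ := gn_big H.hQ H.hg H.hδg H.hn hl
  obtain ⟨k1, k2, k3, k4, k5⟩ := H.hbg
  have hg0 : 0 ≤ g := by linarith [H.hδ, H.hδg]
  exact far_marks H.hp H.hQ b3 b5 hg0 k2 k3.le k4.le k5 le_rfl (Nat.le_succ _) x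

/-- The site outside. -/
theorem lc_near (r : Fin 4) (v : ℤ × ℤ) : nm (lc r v 0 1 - v) ≤ 1 := by
  rw [lc01, add_sub_cancel_left]
  rcases fin4_cases r with rfl | rfl | rfl | rfl <;> decide

/-! ### local coordinates -/

theorem mem_LQ0 {z v : ℤ × ℤ} {a b p q : ℤ} : (v ∈ LQ 0 z a b p q ↔
    z.1 - b ≤ v.1 ∧ v.1 < z.1 - a ∧ z.2 - q ≤ v.2 ∧ v.2 < z.2 - p) ∧
    (v ∈ LQ 1 z a b p q ↔ z.1 + p ≤ v.1 ∧ v.1 < z.1 + q ∧ z.2 - b ≤ v.2 ∧ v.2 < z.2 - a) ∧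
    (v ∈ LQ 2 z a b p q ↔ z.1 + a ≤ v.1 ∧ v.1 < z.1 + b ∧ z.2 + p ≤ v.2 ∧ v.2 < z.2 + q) ∧
    (v ∈ LQ 3 z a b p q ↔ z.1 - q ≤ v.1 ∧ v.1 < z.1 - p ∧ z.2 + a ≤ v.2 ∧ v.2 < z.2 + b) :=
  ⟨H262.mem_Rsq, H262.mem_Rsq, H262.mem_Rsq, H262.mem_Rsq⟩

theorem lc_eq (x y : ℤ) : lc 0 (x, y) 0 1 = (x, y - 1) ∧ lc 1 (x, y) 0 1 = (x + 1, y) ∧
    lc 2 (x, y) 0 1 = (x, y + 1) ∧ lc 3 (x, y) 0 1 = (x - 1, y) := by
  refine ⟨?_, ?_, ?_, ?_⟩
  · show ((x - 0, y - 1) : ℤ × ℤ) = _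
    rw [sub_zero]
  · show ((x + 1, y - 0) : ℤ × ℤ) = _
    rw [sub_zero]
  · show ((x + 0, y + 1) : ℤ × ℤ) = _
    rw [add_zero]
  · show ((x - 1, y + 0) : ℤ × ℤ) = _
    rw [add_zero]

/-- The squares outside of a line in local coordinates. -/
theorem oz_LQ {r : Fin 4} {V v : ℤ × ℤ} {R : ℤ} (hv : v ∈ Bq (lc r V 0 1) R) :
    (∃ s : ℤ, v = oz V r s) ↔ v ∈ LQ r (lc r V 0 1) (-R) R (-1) 0 := by
  obtain ⟨x, y⟩ := V
  obtain ⟨v1, v2⟩ := v
  obtain ⟨l0, l1, l2, l3⟩ := lc_eq x y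
  obtain ⟨m0, m1, m2, m3⟩ := @mem_LQ0 (lc r (x, y) 0 1) (v1, v2) (-R) R (-1) 0
  have o := fun s => oz_eq (x, y) s
  rw [mem_bq'] at hv
  rcases fin4_cases r with rfl | rfl | rfl | rfl
  · rw [m0, l0]
    rw [l0] at hv
    simp only at hv ⊢
    constructor
    · rintro ⟨s, h⟩
      rw [(o s).1, Prod.mk.injEq] at h
      omega
    · intro h
      refine ⟨v1 - x, ?_⟩
      rw [(o _).1, Prod.mk.injEq]
      simp only
      omega
  · rw [m1, l1]
    rw [l1] at hv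
    simp only at hv ⊢
    constructor
    · rintro ⟨s, h⟩
      rw [(o s).2.1, Prod.mk.injEq] at h
      simp only at h
      omega
    · intro h
      refine ⟨v2 - y, ?_⟩
      rw [(o _).2.1, Prod.mk.injEq]
      simp only
      omega
  · rw [m2, l2]
    rw [l2] at hv
    simp only at hv ⊢
    constructor
    · rintro ⟨s, h⟩
      rw [(o s).2.2.1, Prod.mk.injEq] at h
      simp only at h
      omega
    · intro h
      refine ⟨x - 1 - v1, ?_⟩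
      rw [(o _).2.2.1, Prod.mk.injEq]
      simp only
      omega
  · rw [m3, l3]
    rw [l3] at hv
    simp only at hv ⊢
    constructor
    · rintro ⟨s, h⟩
      rw [(o s).2.2.2, Prod.mk.injEq] at h
      simp only at h
      omega
    · intro h
      refine ⟨y - 1 - v2, ?_⟩
      rw [(o _).2.2.2, Prod.mk.injEq]
      simp only
      omega

/-- The half-planes in local coordinates. -/
theorem hpl_LQ {r : Fin 4} {V v : ℤ × ℤ} {R : ℤ} (hv : v ∈ Bq (lc r V 0 1) R) :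
    H167.Q.hpl r V v ↔ v ∈ LQ r (lc r V 0 1) (-R) R (-R) (-1) := by
  obtain ⟨x, y⟩ := V
  obtain ⟨v1, v2⟩ := v
  obtain ⟨l0, l1, l2, l3⟩ := lc_eq x y
  obtain ⟨m0, m1, m2, m3⟩ := @mem_LQ0 (lc r (x, y) 0 1) (v1, v2) (-R) R (-R) (-1)
  rw [mem_bq'] at hv
  rcases fin4_cases r with rfl | rfl | rfl | rfl
  · rw [m0, l0]
    rw [l0] at hv
    show y ≤ v2 ↔ _
    simp only at hv ⊢
    omega
  · rw [m1, l1]
    rw [l1] at hv
    show v1 < x ↔ _
    simp only at hv ⊢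
    omega
  · rw [m2, l2]
    rw [l2] at hv
    show v2 < y ↔ _
    simp only at hv ⊢
    omega
  · rw [m3, l3]
    rw [l3] at hv
    show x ≤ v1 ↔ _
    simp only at hv ⊢
    omega

/-- The boxes at the two sites. -/
theorem Bq_lc {r : Fin 4} {V v : ℤ × ℤ} {R : ℤ} (hv : v ∈ Bq (lc r V 0 1) R) : v ∈ Bq V (R + 1) := by
  obtain ⟨x, y⟩ := V
  obtain ⟨l0, l1, l2, l3⟩ := lc_eq x y
  rw [mem_bq'] at hv ⊢
  rcases fin4_cases r with rfl | rfl | rfl | rfl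
  · rw [l0] at hv
    simp only at hv ⊢
    omega
  · rw [l1] at hv
    simp only at hv ⊢
    omega
  · rw [l2] at hv
    simp only at hv ⊢
    omega
  · rw [l3] at hv
    simp only at hv ⊢
    omega

/-! ### the rows far from the marks -/

section flat

variable {Q : Marks}

/-- **The squares of the frame at a point of a side far from the marks.** -/
theorem frm_flat (hp : IsPolygon p) (hQ : Q.Ok) (hd : 1 ≤ ⌊δ * n⌋₊) {i σ : ℕ} (hi : i < l)
    (hσ : σ ≤ n) {R : ℤ}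
    (hfar : ∀ x : Fin l × Fin (Q.m + 1),
      R + ⌊δ * n⌋₊ + 2 ≤ nm (vp p n i σ - hsite p Q n x)) {v : ℤ × ℤ}
    (hv : v ∈ Bq (vp p n i σ) R) : v ∈ frmQ p Q n ⌊δ * n⌋₊ ↔
      ∃ s : ℤ, v = oz (vp p n i σ) (pdir p i) s := by
  have hv1 := Enl.mem_Bq' hv
  have hR0 : 0 ≤ R := (nm_nonneg _).trans hv1
  have e0 : hsite p Q n ((⟨i, hi⟩, 0) : Fin l × Fin (Q.m + 1)) = vp p n i (0 : ℤ) := by
    show vp p n i (⌊Q.θ i 0 * n⌋₊ : ℤ) = _
    rw [Enl.fl_zero hQ]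
    rfl
  have h0 := hfar (⟨i, hi⟩, 0)
  rw [e0, vp_same, sub_zero, abs_of_nonneg (by omega)] at h0
  obtain ⟨z1, hz1⟩ := Enl.next_mark (n := n) hp hQ hi (le_refl Q.m)
  have h1 := hfar z1
  rw [hz1, Enl.fl_one hQ, vp_same, abs_of_nonpos (by omega)] at h1
  constructor
  · intro hf
    obtain ⟨y, τ, h2, h3, rfl⟩ := mem_frmQ.1 hf
    have hτ := Enl.lt_n hQ hd (Nat.lt_succ_iff.1 y.2.isLt) h2 h3
    have h4 : nm (vp p n y.1 τ - vp p n i σ) ≤ R + 1 := by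
      have a1 := op_near (p := p) (n := n) y.1 τ
      have a2 := nm_tri (vp p n y.1 τ) (Enl.op p n y.1 τ) (vp p n i σ)
      rw [nm_sub_comm (vp p n y.1 τ) (Enl.op p n y.1 τ)] at a2
      omega
    by_cases hy : (y.1 : ℕ) = i
    · refine ⟨τ - σ, ?_⟩
      rw [hy]
      show face (vz _ _ _) _ = face (vz (vz _ _ _) _ _) _
      congr 1
      unfold vz
      rw [add_assoc, ← add_smul]
      congr 2
      ring
    · exfalso
      have h5 := Enl.vp_far hp hi y.1.2 (fun h => hy h.symm) (σ := σ) (σ' := τ) (m := R + 2)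
        (n := n) (by omega) (by omega) (by omega) (by omega) (by omega)
      rw [nm_sub_comm] at h5
      omega
  · rintro ⟨s, rfl⟩
    have h2 : |s| ≤ R + 1 := by
      have a1 := Enl.face_near (vz (vp p n i σ) (pdir p i) s) (pdir p i - 1)
      have a2 := nm_tri (vz (vp p n i σ) (pdir p i) s) (oz (vp p n i σ) (pdir p i) s)
        (vp p n i σ)
      have a3 : nm (vz (vp p n i σ) (pdir p i) s - vp p n i σ) = |s| := by
        unfold vz
        rw [add_sub_cancel_left, Enl.nm_dir]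
      rw [nm_sub_comm (vz (vp p n i σ) (pdir p i) s) (oz (vp p n i σ) (pdir p i) s), a3] at a2
      change nm (oz (vp p n i σ) (pdir p i) s - vz (vp p n i σ) (pdir p i) s) ≤ 1 at a1
      omega
    rw [abs_le] at h2
    have h3 : oz (vp p n i σ) (pdir p i) s = Enl.op p n i ((σ + s).toNat : ℤ) := by
      rw [Int.toNat_of_nonneg (by omega)]
      show face (vz (vz _ _ _) _ _) _ = face (vz _ _ _) _
      congr 1
      unfold vz
      rw [add_assoc, ← add_smul]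
    rw [h3]
    rcases Enl.gap_step (n := n) (d := ⌊δ * n⌋₊) (p := p) hp hQ hi (τ := (σ + s).toNat)
      (by omega) with
      ⟨y, hy, k1, k2⟩ | ⟨x, hx⟩
    · exact mem_frmQ.2 ⟨y, _, k1, k2, by rw [hy]⟩
    · exfalso
      have h4 := hfar x
      have h5 := nm_tri (vp p n i σ) (vp p n i ((σ + s).toNat : ℤ)) (hsite p Q n x)
      rw [vp_same, Int.toNat_of_nonneg (by omega), sub_add_cancel_left, abs_neg] at h5
      rw [Int.toNat_of_nonneg (by omega)] at hx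
      have h6 : |s| ≤ R + 1 := abs_le.2 h2
      omega

/-- **The picture at a point of a side far from the marks.** -/
theorem frm_flat3 (hp : IsPolygon p) (hD : Encloses p S₀) (hQ : Q.Ok) (hn : 0 < n)
    (hd : 1 ≤ ⌊δ * n⌋₊) {i σ : ℕ} (hi : i < l)
    (hσ : σ ≤ n) {R : ℤ}
    (hfar : ∀ x : Fin l × Fin (Q.m + 1),
      R + 1 + ⌊δ * n⌋₊ + 2 ≤ nm (vp p n i σ - hsite p Q n x)) :
    Flat3 (pdir p i) (lc (pdir p i) (vp p n i σ) 0 1) R (frmQ p Q n ⌊δ * n⌋₊) (enl S₀ n) := by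
  intro v hv
  have hv' := Bq_lc hv
  have e0 : hsite p Q n ((⟨i, hi⟩, 0) : Fin l × Fin (Q.m + 1)) = vp p n i (0 : ℤ) := by
    show vp p n i (⌊Q.θ i 0 * n⌋₊ : ℤ) = _
    rw [Enl.fl_zero hQ]
    rfl
  have h0 := hfar (⟨i, hi⟩, 0)
  rw [e0, vp_same, sub_zero, abs_of_nonneg (by omega)] at h0
  obtain ⟨z1, hz1⟩ := Enl.next_mark (n := n) hp hQ hi (le_refl Q.m)
  have h1 := hfar z1
  rw [hz1, Enl.fl_one hQ, vp_same, abs_of_nonpos (by omega)] at h1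
  refine ⟨?_, ?_⟩
  · rw [frm_flat hp hQ hd hi hσ hfar hv', oz_LQ hv]
  · rw [enl_side hp hD hn (i := i) (t := (σ : ℤ)) (ρ := R + 1) (by omega) (by omega) hv', hpl_LQ hv]

end flat

/-! ### local decomposition -/

/-- Every square in local coordinates at a site. -/
theorem loc_ex (r : Fin 4) (V v : ℤ × ℤ) : ∃ s D : ℤ, v = V + s • dir r + D • dir (r - 1) ∧
    |s| ≤ nm (v - V) ∧ |D| ≤ nm (v - V) := by
  obtain ⟨x, y⟩ := V
  obtain ⟨v1, v2⟩ := v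
  have e : nm ((v1, v2) - (x, y)) = max |v1 - x| |v2 - y| := rfl
  have m0 : (0 : Fin 4) - 1 = 3 := rfl
  have m1 : (1 : Fin 4) - 1 = 0 := rfl
  have m2 : (2 : Fin 4) - 1 = 1 := rfl
  have m3 : (3 : Fin 4) - 1 = 2 := rfl
  rw [e]
  rcases fin4_cases r with rfl | rfl | rfl | rfl
  · refine ⟨v1 - x, y - v2, ?_, le_max_left _ _, by rw [abs_sub_comm]; exact le_max_right _ _⟩
    rw [m0, dir0, dir3]
    simp only [Prod.smul_mk, smul_eq_mul, Prod.mk_add_mk, Prod.mk.injEq]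
    constructor <;> ring
  · refine ⟨v2 - y, v1 - x, ?_, le_max_right _ _, le_max_left _ _⟩
    rw [m1, dir0, dir1]
    simp only [Prod.smul_mk, smul_eq_mul, Prod.mk_add_mk, Prod.mk.injEq]
    constructor <;> ring
  · refine ⟨x - v1, v2 - y, ?_, by rw [abs_sub_comm]; exact le_max_left _ _, le_max_right _ _⟩
    rw [m2, dir1, dir2]
    simp only [Prod.smul_mk, smul_eq_mul, Prod.mk_add_mk, Prod.mk.injEq]
    constructor <;> ring
  · refine ⟨y - v2, x - v1, ?_, by rw [abs_sub_comm]; exact le_max_right _ _,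
      by rw [abs_sub_comm]; exact le_max_left _ _⟩
    rw [m3, dir2, dir3]
    simp only [Prod.smul_mk, smul_eq_mul, Prod.mk_add_mk, Prod.mk.injEq]
    constructor <;> ring

/-- **Squares over the middle of a side are off the spoke.** -/
theorem off_spk (hp : IsPolygon p) {i t : ℕ} {s D : ℤ} (h1 : 1 ≤ t + s) (h2 : t + s + 1 ≤ n)
    {v : ℤ × ℤ} (hv : v = vp p n i t + s • dir (pdir p i) + D • dir (pdir p i - 1))
    (hx : v.1 = n * (p (iT p)).1) : n * (p (iT p)).2 ≤ v.2 := by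
  have a1 := (lowV_iT hp).le i
  have a2 := (lowV_iT hp).le ((i : ZMod l) + 1)
  have hs := Enl.pdir_step hp i
  obtain ⟨k0, k1, k2, k3⟩ := vz_eq ((n : ℤ) • p i) (t : ℤ)
  have hn : (0 : ℤ) < n := by omega
  have key : ∀ {a c : ℤ}, (n : ℤ) * a < n * c → (n : ℤ) * c < n * (a + 1) → False := by
    intro a c h3 h4
    have h5 := lt_of_mul_lt_mul_left h3 hn.le
    have h6 := lt_of_mul_lt_mul_left h4 hn.le
    omega
  have m0 : (0 : Fin 4) - 1 = 3 := rfl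
  have m1 : (1 : Fin 4) - 1 = 0 := rfl
  have m2 : (2 : Fin 4) - 1 = 1 := rfl
  have m3 : (3 : Fin 4) - 1 = 2 := rfl
  unfold Enl.vp at hv
  generalize pdir p i = r at hs hv
  rw [hs] at a2
  have a1' : (p (iT p)).2 ≤ (p (i : ZMod l)).2 := by omega
  have a2' : (p (iT p)).2 ≤ (p (i : ZMod l) + dir r).2 := by omega
  generalize hxy : p (i : ZMod l) = w at *
  obtain ⟨x, y⟩ := w
  rcases fin4_cases r with rfl | rfl | rfl | rfl
  · exfalso
    rw [k0, m0, dir0, dir3] at hv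
    simp only [Prod.smul_mk, smul_eq_mul, Prod.mk_add_mk, mul_zero, mul_one, add_zero] at hv
    rw [hv] at hx
    simp only at hx
    exact key (a := x) (c := (p (iT p)).1) (by rw [← hx]; omega) (by rw [← hx]; linarith)
  · rw [k1, m1, dir0, dir1] at hv
    simp only [Prod.smul_mk, smul_eq_mul, Prod.mk_add_mk, mul_zero, mul_one, add_zero] at hv
    rw [hv]
    simp only at a1' ⊢
    have : (n : ℤ) * (p (iT p)).2 ≤ n * y := mul_le_mul_of_nonneg_left a1' hn.le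
    omega
  · exfalso
    rw [k2, m2, dir1, dir2] at hv
    simp only [Prod.smul_mk, smul_eq_mul, Prod.mk_add_mk, mul_zero, mul_one, add_zero] at hv
    rw [hv] at hx
    simp only at hx
    exact key (a := x - 1) (c := (p (iT p)).1) (by rw [← hx]; linarith) (by rw [← hx]; linarith)
  · rw [k3, m3, dir2, dir3] at hv
    rw [dir3] at a2'
    simp only [Prod.smul_mk, smul_eq_mul, Prod.mk_add_mk, mul_zero, mul_one, add_zero] at hv a2'
    rw [hv]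
    simp only at a2' ⊢
    have : (n : ℤ) * (p (iT p)).2 ≤ n * (y + -1) := mul_le_mul_of_nonneg_left a2' hn.le
    linarith

/-! ### the frames -/

theorem U_frP [NeZero l] : (frP θ β p S₀ b tp bc).U (rowS θ) δ n =
    frmQ p (mks p b tp) n ⌊δ * n⌋₊ := by
  rw [← uI_shp]
  exact uI_of (θ := θ) (r := fun x : Fin l × Fin 3 => rP θ β p b tp bc n ⌊δ * n⌋₊ x)
    fun x => frowJ_I

theorem mem_UD [NeZero l] {v : ℤ × ℤ} : v ∈ (frD θ β p S₀ b tp ia ta).U (rowS θ) δ n ↔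
    v ∈ frmQ p (mks p b tp) n ⌊δ * n⌋₊ ∨ v ∈ frmQ pQ (mksQ p b) (bM p * n) ⌊δ * n⌋₊ ∨
      v ∈ (spk p n ⌊δ * n⌋₊).I := by
  rw [← mem_shD]
  have h : (frD θ β p S₀ b tp ia ta).U (rowS θ) δ n = uI (shD p b tp n ⌊δ * n⌋₊) :=
    uI_of (θ := θ) (r := fun x : IxD l => rD θ β p b tp ia ta n ⌊δ * n⌋₊ x) fun x => rD_I x _
  rw [h]

theorem PolN.num (H : PolN p S₀ b tp bc g δ n) : 0 < l ∧ 64 ≤ g * n ∧
    (⌊δ * n⌋₊ : ℝ) ≤ g * n / 4 ∧ g ≤ 1 ∧ 16 ≤ ⌊δ * n⌋₊ ∧ 0 < n := by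
  have hl : 0 < l := by have := H.hp.1; omega
  exact ⟨hl, gn_big H.hQ H.hg H.hδg H.hn hl⟩

/-- The distance from the ends of the side. -/
theorem PolN.lat (H : PolN p S₀ b tp bc g δ n) {i t : ℕ} (hi : i < l) (ht : t ≤ n)
    (hf : ∀ x : Fin l × Fin 3, g * n - 2 ≤ (nm (vp p n i t - hsite p (mks p b tp) n x) : ℝ)) :
    g * n - 2 ≤ (t : ℝ) ∧ g * n - 2 ≤ (n : ℝ) - t := by
  have e0 : hsite p (mks p b tp) n ((⟨i, hi⟩, 0) : Fin l × Fin 3) = vp p n i (0 : ℤ) := by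
    show vp p n i (⌊(mks p b tp).θ i 0 * n⌋₊ : ℤ) = _
    rw [Enl.fl_zero H.hQ]
    rfl
  have h0 := hf (⟨i, hi⟩, 0)
  rw [e0, vp_same, sub_zero, abs_of_nonneg (by omega)] at h0
  obtain ⟨z1, hz1⟩ := Enl.next_mark (n := n) H.hp H.hQ hi (le_refl (mks p b tp).m)
  have h1 := hf z1
  rw [hz1, Enl.fl_one H.hQ, vp_same, abs_of_nonpos (by omega)] at h1
  push_cast at h0 h1
  exact ⟨h0, by linarith⟩

/-- The picture at a point of a side far from the marks. -/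
theorem PolN.flat (H : PolN p S₀ b tp bc g δ n) {i t : ℕ} (hi : i < l) (ht : t ≤ n)
    (hf : ∀ x : Fin l × Fin 3, g * n - 2 ≤ (nm (vp p n i t - hsite p (mks p b tp) n x) : ℝ))
    {R : ℤ} (hR : (R : ℝ) ≤ g / 16 * n) :
    Flat3 (pdir p i) (lc (pdir p i) (vp p n i t) 0 1) R (frmQ p (mks p b tp) n ⌊δ * n⌋₊)
      (enl S₀ n) := by
  obtain ⟨hl, b1, b2, b3, b4, b5⟩ := H.num
  refine frm_flat3 H.hp H.hD H.hQ b5 (by omega) hi ht fun x => ?_
  have h1 := hf x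
  have h2 : ((R + 1 + ⌊δ * n⌋₊ + 2 : ℤ) : ℝ) ≤
      (nm (vp p n i t - hsite p (mks p b tp) n x) : ℝ) := by
    push_cast
    linarith
  exact_mod_cast h2

/-- **The picture at the base**: free and wired frames. -/
theorem flat_zP [NeZero l] (H : PolN p S₀ b tp bc g δ n) {R : ℤ} (hR : (R : ℝ) ≤ g / 16 * n) :
    Flat3 (pdir p 0) (zP p n tp bc) R ((frP θ β p S₀ b tp bc).U (rowS θ) δ n) (enl S₀ n) := by
  obtain ⟨hl, b1, b2, b3, b4, b5⟩ := H.num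
  rw [U_frP]
  exact H.flat hl (tP_lt H.hQ H.hg H.hδg H.hn).le (H.far0 (tP_le p n tp bc).1 (tP_le p n tp bc).2) hR

/-- The distance of the site outside from the marks. -/
theorem lc_far {r : Fin 4} {V w : ℤ × ℤ} (hg : 64 ≤ g * n) (h : g * n - 2 ≤ (nm (V - w) : ℝ)) :
    g / 16 * n ≤ (nm (lc r V 0 1 - w) : ℝ) := by
  have h1 := nm_tri V (lc r V 0 1) w
  have h2 := lc_near r V
  rw [nm_sub_comm] at h2
  have h3 : nm (V - w) ≤ 1 + nm (lc r V 0 1 - w) := by omega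
  have h4 : (nm (V - w) : ℝ) ≤ 1 + nm (lc r V 0 1 - w) := by exact_mod_cast h3
  linarith

theorem farh_zP [NeZero l] (H : PolN p S₀ b tp bc g δ n) (x : Fin l × Fin 3) :
    g / 16 * n ≤ (nm (zP p n tp bc - (frP θ β p S₀ b tp bc).h δ n x) : ℝ) := by
  obtain ⟨hl, b1, b2, b3, b4, b5⟩ := H.num
  exact lc_far b1 (H.far0 (tP_le p n tp bc).1 (tP_le p n tp bc).2 x)

/-! ### Dobrushin frames -/

section D

/-- Squares near the polygon are not in the rows of the box. -/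
theorem DobN.offQ (H : DobN p S₀ b tp g δ n) {v : ℤ × ℤ}
    (hv : (0 ≤ v.1 ∧ v.1 < bM p * n) ∧ 0 ≤ v.2 ∧ v.2 < bM p * n) :
    v ∉ frmQ pQ (mksQ p b) (bM p * n) ⌊δ * n⌋₊ := by
  intro h
  obtain ⟨x, hx⟩ := DobN.frmQ_row (tp := tp) h
  have h1 := H.rowQ_mem' hx
  omega

/-- The picture at a point of a side far from the marks: Dobrushin frames. -/
theorem DobN.flat [NeZero l] (H : DobN p S₀ b tp g δ n)
    (hbg : BGap l (mks p b tp) g (.dob ia ta)) {i t : ℕ} (hi : i < l) (ht : t ≤ n)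
    (hf : ∀ x : Fin l × Fin 3, g * n - 2 ≤ (nm (vp p n i t - hsite p (mks p b tp) n x) : ℝ))
    {R : ℤ} (hR : (R : ℝ) ≤ g / 16 * n) :
    Flat3 (pdir p i) (lc (pdir p i) (vp p n i t) 0 1) R ((frD θ β p S₀ b tp ia ta).U (rowS θ) δ n)
      (enl S₀ n) := by
  have HP := H.pol hbg
  obtain ⟨hl, b1, b2, b3, b4, b5⟩ := HP.num
  have hfl := HP.flat hi ht hf hR
  have hgn : g / 16 * n ≤ 1 / 16 * n := mul_le_mul_of_nonneg_right (by linarith)
    (Nat.cast_nonneg n)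
  have hg1 : g * n ≤ 1 * n := mul_le_mul_of_nonneg_right b3 (Nat.cast_nonneg n)
  have hRn : 2 * R + 4 ≤ (n : ℤ) := by
    have : (2 * (R : ℝ) + 4) ≤ n := by linarith
    exact_mod_cast this
  obtain ⟨h0, h1⟩ := HP.lat hi ht hf
  have h0' : R + 3 ≤ (t : ℤ) := by
    have : (R : ℝ) + 3 ≤ t := by linarith
    exact_mod_cast this
  have h1' : R + 3 ≤ (n : ℤ) - t := by
    have : (R : ℝ) + 3 ≤ (n : ℝ) - t := by linarith
    exact_mod_cast this
  intro v hv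
  have hv' := Enl.mem_Bq' (Bq_lc hv)
  refine ⟨?_, (hfl v hv).2⟩
  rw [← (hfl v hv).1, mem_UD]
  have hV := vp_mem (n := n) H.hp H.hN (i := i) ht
  constructor
  · rintro (h | h | h)
    · exact h
    · exfalso
      refine H.offQ ?_ h
      rw [nm_le_iff] at hv'
      simp only [Prod.fst_sub, Prod.snd_sub] at hv'
      omega
    · exfalso
      obtain ⟨c1, c2, c3⟩ := mem_spk.1 h
      obtain ⟨s, D, k1, k2, k3⟩ := loc_ex (pdir p i) (vp p n i t) v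
      have k4 := abs_le.1 (k2.trans hv')
      have := off_spk H.hp (by omega) (by omega) k1 c1
      omega
  · exact Or.inl

/-- **The picture at the junction.** -/
theorem flat_zA [NeZero l] (H : DobN p S₀ b tp g δ n) (hbg : BGap l (mks p b tp) g (.dob ia ta))
    {R : ℤ} (hR : (R : ℝ) ≤ g / 16 * n) : Flat3 (pdir p ia) (zA p n ia ta) R
      ((frD θ β p S₀ b tp ia ta).U (rowS θ) δ n) (enl S₀ n) :=
  H.flat hbg hbg.2.1 (Enl.dob_lt hbg.2.2.1 hbg.2.2.2.1 H.basic.2.2.1).le (H.pol hbg).farA hR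

/-- **The picture at the base.** -/
theorem flat_zB [NeZero l] (H : DobN p S₀ b tp g δ n) (hbg : BGap l (mks p b tp) g (.dob ia ta))
    {R : ℤ} (hR : (R : ℝ) ≤ g / 16 * n) : Flat3 (pdir p 0) (zB p n tp) R
      ((frD θ β p S₀ b tp ia ta).U (rowS θ) δ n) (enl S₀ n) :=
  H.flat hbg (by have := H.hp.1; omega) (tP_lt (bc := .dob ia ta) H.hQ H.hg H.hδg H.hn).le
    ((H.pol hbg).far0 le_rfl (Nat.le_succ _)) hR

/-- The position of the base of the box. -/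
theorem zBx_co (b : Box) (n : ℕ) : (zBx p b n ia).2 = bM p * n + 1 ∧
    (zBx p b n ia).1 = bM p * n - tG pQ (bM p * n) (tqB (bQ b (bM p))) (cT p ia) := by
  unfold zBx Enl.vp
  rw [pdir_pQ.1, lc01, (vz_eq _ _).2.2.1]
  have e0 : pQ ((0 : ℕ) : ZMod 4) = (1, 1) := rfl
  have m2 : (2 : Fin 4) - 1 = 1 := rfl
  rw [e0, m2, dir1]
  push_cast
  simp

/-- The base of the box: distance from the marks. -/
theorem DobN.farQ (H : DobN p S₀ b tp g δ n) (x : Fin 4 × Fin 3) :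
    g * n - 2 ≤ (nm (vp pQ (bM p * n) 0 (tG pQ (bM p * n) (tqB (bQ b (bM p))) (cT p ia)) -
      hsite pQ (mksQ p b) (bM p * n) x) : ℝ) := by
  obtain ⟨b1, b3, b5, b6, b7⟩ := H.basic
  have hN : 0 < bM p * n := Nat.mul_pos (by omega) b5
  have h := far_marks (n := bM p * n) pQ_poly H.hQ' b3 hN b6.le (by norm_num : 0 < 4) H.hQ'.tp0.le
    H.hQ'.tp1.le H.hg'.2 (tG_le pQ (bM p * n) (tqB (bQ b (bM p))) (cT p ia)).1
    (tG_le pQ (bM p * n) (tqB (bQ b (bM p))) (cT p ia)).2 x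
  refine le_trans ?_ h
  have h1 : (n : ℝ) ≤ ((bM p * n : ℕ) : ℝ) := by exact_mod_cast Nat.le_mul_of_pos_left n (by omega)
  have h2 : g * n ≤ g * ((bM p * n : ℕ) : ℝ) := mul_le_mul_of_nonneg_left h1 b6.le
  linarith

/-- **The picture at the base of the box.** -/
theorem flat_zQ [NeZero l] (H : DobN p S₀ b tp g δ n) {R : ℤ} (hR : (R : ℝ) ≤ g / 16 * n)
    {v : ℤ × ℤ} (hv : v ∈ Bq (zBx p b n ia) R) :
    (v ∈ (frD θ β p S₀ b tp ia ta).U (rowS θ) δ n ↔ v ∈ LQ (pdir pQ 0) (zBx p b n ia) (-R) R (-1) 0) ∧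
      v ∉ enl S₀ n := by
  obtain ⟨b1, b3, b5, b6, b7⟩ := H.basic
  obtain ⟨c1, c2, c3, c4⟩ := H.box
  obtain ⟨d1, d2, d3⟩ := dfl H.hn
  have hN : 0 < bM p * n := Nat.mul_pos (by omega) b5
  have hgn : g / 16 * n ≤ 1 / 16 * n := mul_le_mul_of_nonneg_right (by linarith)
    (Nat.cast_nonneg n)
  have hδn : 4 * δ * n ≤ g * n := mul_le_mul_of_nonneg_right H.hδg (Nat.cast_nonneg n)
  have hRn : 16 * R ≤ (n : ℤ) := by
    have : (16 * (R : ℝ)) ≤ n := by linarith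
    exact_mod_cast this
  have hfar : ∀ x : Fin 4 × Fin ((mksQ p b).m + 1),
      R + 1 + ⌊δ / bM p * ((bM p * n : ℕ) : ℝ)⌋₊ + 2 ≤
        nm (vp pQ (bM p * n) 0 (tG pQ (bM p * n) (tqB (bQ b (bM p))) (cT p ia)) -
      hsite pQ (mksQ p b) (bM p * n) x) := by
    intro x
    rw [c4]
    have h1 := H.farQ (ia := ia) x
    have h2 : ((R + 1 + ⌊δ * n⌋₊ + 2 : ℤ) : ℝ) ≤
        (nm (vp pQ (bM p * n) 0 (tG pQ (bM p * n) (tqB (bQ b (bM p))) (cT p ia)) -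
      hsite pQ (mksQ p b) (bM p * n) x) : ℝ) := by
      push_cast
      linarith
    exact_mod_cast h2
  have ht := t_lt (l := 4) (t := tG pQ (bM p * n) (tqB (bQ b (bM p))) (cT p ia)) H.hQ' H.hg' c2 c3
    (tG_le pQ (bM p * n) (tqB (bQ b (bM p))) (cT p ia)).2
  have hfl := frm_flat3 (S₀ := {(0, 0)}) pQ_poly pQ_encl H.hQ' hN (by rw [c4]; omega)
    (by norm_num : 0 < 4) ht.le hfar v hv
  rw [c4] at hfl
  have hv' := Enl.mem_Bq' hv
  obtain ⟨z2, z1⟩ := zBx_co (p := p) (ia := ia) b n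
  rw [nm_le_iff] at hv'
  simp only [Prod.fst_sub, Prod.snd_sub] at hv'
  refine ⟨?_, fun h => ?_⟩
  · have hfl1 : v ∈ frmQ pQ (mksQ p b) (bM p * n) ⌊δ * n⌋₊ ↔
        v ∈ LQ (pdir pQ 0) (zBx p b n ia) (-R) R (-1) 0 := hfl.1
    rw [← hfl1, mem_UD]
    constructor
    · rintro (h | h | h)
      · exfalso
        obtain ⟨x, hx⟩ := DobN.frmP_row h
        have := H.rowP_mem hx
        omega
      · exact h
      · exfalso
        have := spk_mem H.hp H.hN h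
        omega
    · exact fun h => Or.inr (Or.inl h)
  · have := H.enl_in h
    omega

/-- The holes of the box and the foot are far from the polygon. -/
theorem DobN.farB (H : DobN p S₀ b tp g δ n) (x : (Fin 4 × Fin 3) ⊕ Unit) {v : ℤ × ℤ}
    (hv : (2 * (n : ℤ) ≤ v.1 + 1 ∧ v.1 + 2 * n ≤ bM p * n + 1) ∧ 2 * (n : ℤ) ≤ v.2 + 1 ∧
      v.2 + 2 * n ≤ bM p * n + 1) : (n : ℤ) ≤ nm (v - hoD p b tp n (.inr x)) := by
  have h := H.hoQ x
  obtain ⟨b1, b3, b5, b6, b7⟩ := H.basic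
  rw [le_nm_iff]
  simp only [Prod.fst_sub, Prod.snd_sub]
  omega

theorem DobN.g16 (H : DobN p S₀ b tp g δ n) : g / 16 * n ≤ n := by
  obtain ⟨b1, b3, b5, b6, b7⟩ := H.basic
  have hn0 : (0 : ℝ) ≤ n := Nat.cast_nonneg n
  have : g / 16 * n ≤ 1 * n := mul_le_mul_of_nonneg_right (by linarith) hn0
  linarith

/-- The site outside of a point of the polygon is in the box. -/
theorem DobN.in1 (H : DobN p S₀ b tp g δ n) {i t : ℕ} (ht : t ≤ n) :
    (2 * (n : ℤ) ≤ (lc (pdir p i) (vp p n i t) 0 1).1 + 1 ∧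
      (lc (pdir p i) (vp p n i t) 0 1).1 + 2 * n ≤ bM p * n + 1) ∧
      2 * (n : ℤ) ≤ (lc (pdir p i) (vp p n i t) 0 1).2 + 1 ∧
      (lc (pdir p i) (vp p n i t) 0 1).2 + 2 * n ≤ bM p * n + 1 := by
  have h1 := vp_mem (n := n) H.hp H.hN (i := i) ht
  have h2 := lc_near (pdir p i) (vp p n i t)
  rw [nm_le_iff] at h2
  simp only [Prod.fst_sub, Prod.snd_sub] at h2
  omega

theorem DobN.farh (H : DobN p S₀ b tp g δ n) (hbg : BGap l (mks p b tp) g (.dob ia ta)) {i t : ℕ}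
    (ht : t ≤ n)
    (hf : ∀ x : Fin l × Fin 3, g * n - 2 ≤ (nm (vp p n i t - hsite p (mks p b tp) n x) : ℝ))
    (x : HxD l) : g / 16 * n ≤ (nm (lc (pdir p i) (vp p n i t) 0 1 - hoD p b tp n x) : ℝ) := by
  obtain ⟨hl, b1, b2, b3, b4, b5⟩ := (H.pol hbg).num
  rcases x with x | x
  · exact lc_far b1 (hf x)
  · have h := H.farB x (H.in1 (i := i) ht)
    have h' : (n : ℝ) ≤ nm (lc (pdir p i) (vp p n i t) 0 1 - hoD p b tp n (.inr x)) := by
      exact_mod_cast h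
    exact H.g16.trans h'

theorem farh_zA [NeZero l] (H : DobN p S₀ b tp g δ n) (hbg : BGap l (mks p b tp) g (.dob ia ta))
    (x : HxD l) :
    g / 16 * n ≤ (nm (zA p n ia ta - (frD θ β p S₀ b tp ia ta).h δ n x) : ℝ) :=
  H.farh hbg (Enl.dob_lt hbg.2.2.1 hbg.2.2.2.1 H.basic.2.2.1).le (H.pol hbg).farA x

theorem farh_zB [NeZero l] (H : DobN p S₀ b tp g δ n) (hbg : BGap l (mks p b tp) g (.dob ia ta))
    (x : HxD l) :
    g / 16 * n ≤ (nm (zB p n tp - (frD θ β p S₀ b tp ia ta).h δ n x) : ℝ) :=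
  H.farh hbg (tP_lt (bc := .dob ia ta) H.hQ H.hg H.hδg H.hn).le
    ((H.pol hbg).far0 le_rfl (Nat.le_succ _)) x

theorem farh_zQ [NeZero l] (H : DobN p S₀ b tp g δ n) (x : HxD l) :
    g / 16 * n ≤ (nm (zBx p b n ia - (frD θ β p S₀ b tp ia ta).h δ n x) : ℝ) := by
  obtain ⟨b1, b3, b5, b6, b7⟩ := H.basic
  obtain ⟨z2, z1⟩ := zBx_co (p := p) (ia := ia) b n
  have hMn : 2 * (n : ℤ) ≤ bM p * n := by
    have : (2 : ℤ) ≤ bM p := by exact_mod_cast b7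
    nlinarith
  rcases x with x | x | x
  · refine H.g16.trans ?_
    have h1 := H.hsP x
    have : (n : ℤ) ≤ nm (zBx p b n ia - hsite p (mks p b tp) n x) := by
      rw [le_nm_iff]
      simp only [Prod.fst_sub, Prod.snd_sub]
      omega
    exact_mod_cast this
  · exact lc_far b1 (H.farQ x)
  · refine H.g16.trans ?_
    have h1 := ft_mem (n := n) H.hp H.hN
    have : (n : ℤ) ≤ nm (zBx p b n ia - ftD p n) := by
      rw [le_nm_iff]
      simp only [Prod.fst_sub, Prod.snd_sub]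
      omega
    exact_mod_cast this

/-! ### distances -/

theorem dist_zAB (H : DobN p S₀ b tp g δ n) (hbg : BGap l (mks p b tp) g (.dob ia ta)) :
    g / 16 * n ≤ (nm (zA p n ia ta - zB p n tp) : ℝ) := by
  have HP := H.pol hbg
  obtain ⟨hl, b1, b2, b3, b4, b5⟩ := HP.num
  obtain ⟨k1, k2, k3, k4, k5⟩ := id hbg
  have hn0 : (0 : ℝ) ≤ n := Nat.cast_nonneg n
  obtain ⟨h0, h1⟩ := HP.lat k2 (Enl.dob_lt k3 k4 b5).le HP.farA
  have m3 : g * n ≤ 1 * n := mul_le_mul_of_nonneg_right b3 hn0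
  have h4 : ⌈g * n - 2⌉ ≤ (⌊ta * n⌋₊ : ℤ) := Int.ceil_le.2 (by push_cast; linarith)
  have h5 : ⌈g * n - 2⌉ ≤ (n : ℤ) - ⌊ta * n⌋₊ := Int.ceil_le.2 (by push_cast; linarith)
  have h7 : ⌈g * n - 2⌉ ≤ (n : ℤ) := Int.ceil_le.2 (by push_cast; linarith)
  have ht := tP_lt (bc := .dob ia ta) H.hQ H.hg H.hδg H.hn
  change ⌊tp * n⌋₊ < n at ht
  have h6 := Enl.vp_far H.hp k2 hl k1.ne' (σ := ⌊ta * n⌋₊) (σ' := ⌊tp * n⌋₊) (m := ⌈g * n - 2⌉)
    (n := n) (by omega) (by omega) h4 h5 h7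
  have h8 := lc_near (pdir p ia) (vp p n ia ⌊ta * n⌋₊)
  have h9 := lc_near (pdir p 0) (vp p n 0 ⌊tp * n⌋₊)
  have t1 := nm_tri (vp p n ia ⌊ta * n⌋₊) (zA p n ia ta) (vp p n 0 ⌊tp * n⌋₊)
  have t2 := nm_tri (zA p n ia ta) (zB p n tp) (vp p n 0 ⌊tp * n⌋₊)
  rw [nm_sub_comm (vp p n ia ⌊ta * n⌋₊) (zA p n ia ta)] at t1
  change nm (zA p n ia ta - vp p n ia ⌊ta * n⌋₊) ≤ 1 at h8
  change nm (zB p n tp - vp p n 0 ⌊tp * n⌋₊) ≤ 1 at h9
  have h10 : ⌈g * n - 2⌉ - 2 ≤ nm (zA p n ia ta - zB p n tp) := by omega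
  have h11 : (⌈g * n - 2⌉ : ℝ) - 2 ≤ nm (zA p n ia ta - zB p n tp) := by exact_mod_cast h10
  have h12 := Int.le_ceil (g * n - 2)
  linarith

theorem dist_zAQ (H : DobN p S₀ b tp g δ n) (hbg : BGap l (mks p b tp) g (.dob ia ta)) :
    (n : ℤ) ≤ nm (zA p n ia ta - zBx p b n ia) := by
  obtain ⟨b1, b3, b5, b6, b7⟩ := H.basic
  obtain ⟨z2, z1⟩ := zBx_co (p := p) (ia := ia) b n
  have h := H.in1 (i := ia) (Enl.dob_lt hbg.2.2.1 hbg.2.2.2.1 b5).le
  change (2 * (n : ℤ) ≤ (zA p n ia ta).1 + 1 ∧ (zA p n ia ta).1 + 2 * n ≤ bM p * n + 1) ∧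
    2 * (n : ℤ) ≤ (zA p n ia ta).2 + 1 ∧ (zA p n ia ta).2 + 2 * n ≤ bM p * n + 1 at h
  rw [le_nm_iff]
  simp only [Prod.fst_sub, Prod.snd_sub]
  omega

theorem dist_zBQ (H : DobN p S₀ b tp g δ n) : (n : ℤ) ≤ nm (zB p n tp - zBx p b n ia) := by
  obtain ⟨b1, b3, b5, b6, b7⟩ := H.basic
  obtain ⟨z2, z1⟩ := zBx_co (p := p) (ia := ia) b n
  have h := H.in1 (i := 0) (tP_lt (bc := .dob ia 0) H.hQ H.hg H.hδg H.hn).le
  change (2 * (n : ℤ) ≤ (zB p n tp).1 + 1 ∧ (zB p n tp).1 + 2 * n ≤ bM p * n + 1) ∧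
    2 * (n : ℤ) ≤ (zB p n tp).2 + 1 ∧ (zB p n tp).2 + 2 * n ≤ bM p * n + 1 at h
  rw [le_nm_iff]
  simp only [Prod.fst_sub, Prod.snd_sub]
  omega

end D

end Vale.Agent.P167.N.ID
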