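import Vale.Agent.P167.N.ID.WinLoop
import Vale.Agent.P167.H871.Q.Far

/-!
# P167, `q < 1`, START: cells of a frame of rows

`Cell K B E n P u τ`: a region `E` of the plane off the frozen squares `K` with the closed boundary path
`P` (the region on the left; `τ = 1`: bounded, `τ = -1`: unbounded); off the boxes `B` of the holes
every step of the path has a frozen square on its right, and the rows are straight. `LC`: a loop which
does not visit `B`. Exits (`Ex`) and entries of such a loop.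
-/

set_option autoImplicit false

namespace Vale.Agent.P167.N.ID

open Finset
open Vale.Agent.P167.BR
open Vale.Agent.P167.FK
open Vale.Agent.P167.Top
open Vale.Agent.P167.H871
open Vale.Agent.P167.H871.Q
open Vale.Agent.P167.A (plane)
open Vale.Agent.P167.XDL (bS mem_bS)
open Vale.Agent.P167.H199 (strand ret mem_strand loop_nx loop_iter ret_min ret_le
  strand_sub sum_strand Returns strand_unique)
open Vale.Agent.P167.H680.S (nxt nxt_mem trS sum_rule)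
open Vale.Agent.P167.QX (returns_loop card_out_in fLp wS VisL)

variable {ω : Cfg} {ℓ : Finset Ed} {K : Finset (ℤ × ℤ)} {B E : Set (ℤ × ℤ)} {n : ℕ}
  {P : ℕ → ℤ × ℤ} {u : ℕ → ℤ} {τ : ℤ} {b x y : Ed} {i j k : ℕ}

/-- The square on the right of the step `k`. -/
def oq (P : ℕ → ℤ × ℤ) (u : ℕ → ℤ) (k : ℕ) : ℤ × ℤ := sqL (P k) (u k - 1)

/-- The square on the left of the step `k`. -/
def iq (P : ℕ → ℤ × ℤ) (u : ℕ → ℤ) (k : ℕ) : ℤ × ℤ := sqL (P k) (u k)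

/-- The medial edge `x` crosses the step `k`. -/
def At (P : ℕ → ℤ × ℤ) (u : ℕ → ℤ) (x : Ed) (k : ℕ) : Prop := P4 x = M4 (P k) (u k)

/-- **A cell** `E` of the frozen squares `K`, boundary path `P` (cell on the left). -/
structure Cell (K : Finset (ℤ × ℤ)) (B E : Set (ℤ × ℤ)) (n : ℕ) (P : ℕ → ℤ × ℤ) (u : ℕ → ℤ)
    (τ : ℤ) : Prop where
  hn : 2 < n
  bd : Bd E n P u τ
  cov : Cov E P u
  dis : ∀ v ∈ K, v ∉ E
  sid : ∀ k < n, oq P u k ∈ K ∨ oq P u k ∈ B ∨ iq P u k ∈ B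
  fwd : ∀ k, oq P u k ∈ K → oq P u k ∉ B → oq P u k + vec (u k) ∉ B →
    oq P u (k + 1) ∈ K ∧ u (k + 1) = u k
  bwd : ∀ k, oq P u (k + 1) ∈ K → oq P u (k + 1) ∉ B → oq P u (k + 1) - vec (u (k + 1)) ∉ B →
    oq P u k ∈ K ∧ u (k + 1) = u k
  thin : ∀ k < n, oq P u k ∈ K → oq P u k ∉ B → oq P u k + vec (u k - 1) ∉ K

/-- A loop of a good configuration which does not visit `B`. -/
structure LC (B : Set (ℤ × ℤ)) (ω : Cfg) (ℓ : Finset Ed) : Prop where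
  hg : Good ω
  hl : IsLoop ω ℓ
  hv : ¬ VisL B ℓ

namespace LC

variable (C : LC B ω ℓ)

include C

theorem pre (hx : x ∈ ℓ) : ∃ y ∈ ℓ, nx ω y = x := by
  have h1 := C.hl.image
  rw [← h1, mem_image] at hx
  exact hx

theorem hd_off (hx : x ∈ ℓ) : hdv x ∉ B := fun h => C.hv ⟨x, hx, h⟩

theorem tl_off (hx : x ∈ ℓ) : tlv x ∉ B := by
  obtain ⟨y, hy, rfl⟩ := C.pre hx
  rw [tlv_nx]
  exact C.hd_off hy

theorem nx_mem (hx : x ∈ ℓ) : nx ω x ∈ ℓ := loop_nx C.hl hx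

theorem it_mem (hx : x ∈ ℓ) (k : ℕ) : (nx ω)^[k] x ∈ ℓ := loop_iter C.hl hx k

theorem rets (hb : b ∈ bS K) (hbℓ : b ∈ ℓ) : Returns (nx ω) (bS K) b := returns_loop C.hl hbℓ hb

end LC

/-- The exit `b` of a loop into the cell: it starts at the step `i` and ends at the step `j`. -/
structure Ex (K : Finset (ℤ × ℤ)) (E : Set (ℤ × ℤ)) (n : ℕ) (P : ℕ → ℤ × ℤ) (u : ℕ → ℤ) (ω : Cfg)
    (b : Ed) (i j : ℕ) : Prop where
  hi : i < n
  hj : j < n
  at1 : At P u b i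
  at2 : At P u (nxt (bS K) ω b) j
  tl : tlv b = oq P u i
  tlK : tlv b ∈ K
  hd : hdv (nxt (bS K) ω b) = oq P u j
  hdK : hdv (nxt (bS K) ω b) ∈ K
  hm : 1 ≤ ret (nx ω) (bS K) b
  ins : ∀ k < ret (nx ω) (bS K) b, hdv ((nx ω)^[k] b) ∈ E
  lst : tlv (nxt (bS K) ω b) ∈ E

/-! ### shifts of the period -/

theorem Bd.mod {σ : ℤ} (h : Bd E n P u σ) (k : ℕ) : P (k % n) = P k ∧ u (k % n) % 4 = u k % 4 := by
  obtain ⟨h1, h2⟩ := h.perN (k % n) (k / n)
  rw [Nat.mod_add_div] at h1 h2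
  refine ⟨h2.symm, ?_⟩
  rw [h1, mul_assoc]
  omega

theorem oq_mod {σ : ℤ} (h : Bd E n P u σ) (k : ℕ) : oq P u (k % n) = oq P u k := by
  obtain ⟨h1, h2⟩ := Bd.mod h k
  unfold oq
  rw [h1, sqL_congr (d' := u k - 1) (by omega)]

theorem iq_mod {σ : ℤ} (h : Bd E n P u σ) (k : ℕ) : iq P u (k % n) = iq P u k := by
  obtain ⟨h1, h2⟩ := Bd.mod h k
  unfold iq
  rw [h1, sqL_congr h2]

theorem at_mod {σ : ℤ} (h : Bd E n P u σ) {k : ℕ} (hx : At P u x k) : At P u x (k % n) := by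
  obtain ⟨h1, h2⟩ := Bd.mod h k
  unfold At at hx ⊢
  rw [hx, h1]
  exact M4_congr h2.symm

theorem at_idx {σ : ℤ} (h : Bd E n P u σ) {k l : ℕ} (hk : k < n) (hl : l < n) (h1 : At P u x k)
    (h2 : At P u x l) : k = l := by
  rcases lt_trichotomy k l with h3 | h3 | h3
  · exact absurd (h1.symm.trans h2) (M4_ne h h3 (by omega))
  · exact h3
  · exact absurd (h2.symm.trans h1) (M4_ne h h3 (by omega))

theorem at_ed {σ : ℤ} (_ : Bd E n P u σ) {k : ℕ} (h1 : At P u x k) (h2 : At P u y k) : x = y :=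
  P4_inj (h1.trans h2.symm)

/-- Every edge across the boundary crosses a step. -/
theorem exists_at {σ : ℤ} (h : Bd E n P u σ) (hn : 0 < n) (hc : Cov E P u)
    (hx : (hdv x ∈ E ∧ tlv x ∉ E) ∨ (tlv x ∈ E ∧ hdv x ∉ E)) : ∃ k < n, At P u x k := by
  obtain ⟨r1, r2, r3, r4, r5, r6⟩ := rs_eq x
  rcases hx with ⟨h1, h2⟩ | ⟨h1, h2⟩
  · obtain ⟨k, hk, hk2⟩ := hc (ls x) (hd4 x - 1) (by rw [← r3]; exact h1)
      (by rw [show hd4 x - 1 - 1 = hd4 x - 2 by ring, ← r4]; exact h2)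
    refine ⟨k % n, Nat.mod_lt _ hn, at_mod h ?_⟩
    show P4 x = M4 (P k) (u k)
    rw [r2, hk]
    exact M4_congr hk2.symm
  · obtain ⟨k, hk, hk2⟩ := hc (rs x) (hd4 x + 1) (by rw [← r6]; exact h1)
      (by rw [show hd4 x + 1 - 1 = hd4 x by ring, ← r5]; exact h2)
    refine ⟨k % n, Nat.mod_lt _ hn, at_mod h ?_⟩
    show P4 x = M4 (P k) (u k)
    rw [hk, r2, r1, ← M4_rev (ls x) (hd4 x - 1)]
    exact M4_congr (by omega)

/-- An edge across a step: its squares. -/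
theorem at_sq {σ : ℤ} (h : Bd E n P u σ) (hx : At P u x k) :
    (hdv x ∈ E ∧ hdv x = iq P u k ∧ tlv x = oq P u k ∧ ls x = P k ∧ rs x = P (k + 1)) ∨
      (tlv x ∈ E ∧ tlv x = iq P u k ∧ hdv x = oq P u k ∧ ls x = P (k + 1) ∧ rs x = P k) := by
  by_cases hd : hdv x ∈ E
  · obtain ⟨h1, h2, -, h4, h5⟩ := cross_in h hx hd
    exact Or.inl ⟨hd, h4, h5, h1, h2⟩
  · obtain ⟨h1, h2, -, h4, h5⟩ := cross_out h hx hd
    exact Or.inr ⟨h5 ▸ h.left k, h5, h4, h1, h2⟩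

theorem oq_notin {σ : ℤ} (h : Bd E n P u σ) (k : ℕ) : oq P u k ∉ E := h.right k

theorem iq_in {σ : ℤ} (h : Bd E n P u σ) (k : ℕ) : iq P u k ∈ E := h.left k

namespace Cell

variable (F : Cell K B E n P u τ)

include F

theorem n0 : 0 < n := by have := F.hn; omega

/-- A side of the cell on a loop off the boxes is a side of the frozen squares. -/
theorem side_K (C : LC B ω ℓ) (hx : x ∈ ℓ)
    (h : (hdv x ∈ E ∧ tlv x ∉ E) ∨ (tlv x ∈ E ∧ hdv x ∉ E)) : x ∈ bS K := by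
  obtain ⟨k, hk, hk2⟩ := exists_at F.bd F.n0 F.cov h
  have h1 := C.hd_off hx
  have h2 := C.tl_off hx
  rw [mem_bS]
  rcases at_sq F.bd hk2 with ⟨a1, a2, a3, -, -⟩ | ⟨a1, a2, a3, -, -⟩
  · right
    rcases F.sid k hk with h3 | h3 | h3
    · exact ⟨fun h4 => F.dis _ h4 a1, a3 ▸ h3⟩
    · exact absurd (a3 ▸ h3) h2
    · exact absurd (a2 ▸ h3) h1
  · left
    rcases F.sid k hk with h3 | h3 | h3
    · exact ⟨a3 ▸ h3, fun h4 => F.dis _ h4 a1⟩
    · exact absurd (a3 ▸ h3) h1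
    · exact absurd (a2 ▸ h3) h2

/-- The strand of an exit stays in the cell. -/
theorem stays (C : LC B ω ℓ) (hbℓ : b ∈ ℓ) {k : ℕ} (hk : k < ret (nx ω) (bS K) b) :
    hdv ((nx ω)^[k] b) ∈ E ↔ hdv b ∈ E := by
  induction k with
  | zero => rfl
  | succ k ih =>
    rw [← ih (by omega)]
    by_contra hne
    have h2 : tlv ((nx ω)^[k + 1] b) = hdv ((nx ω)^[k] b) := by
      rw [Function.iterate_succ_apply', tlv_nx]
    have h1 := F.side_K C (C.it_mem hbℓ (k + 1)) (by rw [h2]; tauto)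
    exact ret_min (by omega) hk h1

/-- **The exits into the cell.** -/
theorem exit (C : LC B ω ℓ) (hbℓ : b ∈ ℓ) (h1 : hdv b ∈ E) (h2 : tlv b ∈ K) :
    ∃ i j, Ex K E n P u ω b i j := by
  have h3 : hdv b ∉ K := fun h => F.dis _ h h1
  have hb : b ∈ bS K := mem_bS.2 (Or.inr ⟨h3, h2⟩)
  have hr := C.rets hb hbℓ
  obtain ⟨hm, hS⟩ := hr.spec
  have hlast := QX.exc_last h3 hr
  have hin : ∀ k < ret (nx ω) (bS K) b, hdv ((nx ω)^[k] b) ∈ E := fun k hk =>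
    (F.stays C hbℓ hk).2 h1
  have htl : tlv (nxt (bS K) ω b) ∈ E := by
    obtain ⟨m, hm'⟩ : ∃ m, ret (nx ω) (bS K) b = m + 1 := ⟨ret (nx ω) (bS K) b - 1, by omega⟩
    unfold nxt
    rw [hm', Function.iterate_succ_apply', tlv_nx]
    exact hin m (by omega)
  obtain ⟨i, hi, hi2⟩ := exists_at F.bd F.n0 F.cov (x := b)
    (Or.inl ⟨h1, fun h => F.dis _ h2 h⟩)
  obtain ⟨j, hj, hj2⟩ := exists_at F.bd F.n0 F.cov (x := nxt (bS K) ω b)
    (Or.inr ⟨htl, fun h => F.dis _ hlast.1 h⟩)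
  have e1 : tlv b = oq P u i := by
    rcases at_sq F.bd hi2 with ⟨-, -, a3, -⟩ | ⟨a1, -⟩
    · exact a3
    · exact absurd a1 (F.dis _ h2)
  have e2 : hdv (nxt (bS K) ω b) = oq P u j := by
    rcases at_sq F.bd hj2 with ⟨a1, -⟩ | ⟨-, -, a3, -⟩
    · exact absurd a1 (F.dis _ hlast.1)
    · exact a3
  exact ⟨i, j, hi, hj, hi2, hj2, e1, h2, e2, hlast.1, hm, hin, htl⟩

/-- **The entries from the cell**: pure arcs. -/
theorem entry_closed (C : LC B ω ℓ) (hbℓ : b ∈ ℓ) (h1 : hdv b ∈ K) (hk : At P u b k)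
    (h3 : ω (hdv b) = false) : oq P u (k + 1) ∈ K ∧ u (k + 1) = u k ∧
      hdv (nx ω b) = oq P u (k + 1) ∧
      (ω (oq P u (k + 1)) = false → At P u (nxt (bS K) ω b) (k + 1) ∧
        hdv (nxt (bS K) ω b) ∈ E ∧ tlv (nxt (bS K) ω b) = oq P u (k + 1) ∧
        trS (bS K) ω b = u (k + 1) - u k + 2) := by
  have hE : hdv b ∉ E := F.dis _ h1
  obtain ⟨c1, c2, c3, c4, c5⟩ := cross_out F.bd hk hE
  have t1 : trn ω b = 1 := by unfold trn; rw [if_neg (by rw [h3]; decide)]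
  have d1 : hd4 (nx ω b) % 4 = u k % 4 := by
    have := hd4_nx ω b
    rw [t1] at this
    omega
  have e1 : hdv (nx ω b) = oq P u k + vec (u k) := by
    rw [hdv_tlv (nx ω b), tlv_nx, c4, vec_congr d1]; rfl
  obtain ⟨f1, f2⟩ := F.fwd k (by rw [← show hdv b = oq P u k from c4]; exact h1) (by rw [← show hdv b = oq P u k from c4]; exact C.hd_off hbℓ)
    (by rw [← e1]; exact C.hd_off (C.nx_mem hbℓ))
  have e2 : oq P u (k + 1) = oq P u k + vec (u k) := by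
    unfold oq
    rw [F.bd.step, f2, sqL_vec]
  refine ⟨f1, f2, e1.trans e2.symm, fun h4 => ?_⟩
  have e3 : hdv (nx ω b) = oq P u (k + 1) := e1.trans e2.symm
  obtain ⟨g1, g2, g3, g4⟩ := arc_closed F.bd F.dis hk h1 h3 f2.le
    (Or.inr ⟨e3 ▸ f1, by rw [e3]; exact h4⟩)
  refine ⟨g1, g2, ?_, g4⟩
  rcases at_sq F.bd (show At P u _ (k + 1) from g1) with ⟨-, -, a3, -⟩ | ⟨-, -, a3, -⟩
  · exact a3
  · exact absurd (a3 ▸ g2) (oq_notin F.bd _)

/-- **The entries from the cell**, open. -/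
theorem entry_open (C : LC B ω ℓ) (hbℓ : b ∈ ℓ) (h1 : hdv b ∈ K) (hk : At P u b (k + 1))
    (h3 : ω (hdv b) = true) : oq P u k ∈ K ∧ u (k + 1) = u k ∧
      hdv (nx ω b) = oq P u k ∧
      (ω (oq P u k) = true → At P u (nxt (bS K) ω b) k ∧
        hdv (nxt (bS K) ω b) ∈ E ∧ tlv (nxt (bS K) ω b) = oq P u k ∧
        trS (bS K) ω b = u k - u (k + 1) - 2) := by
  have hE : hdv b ∉ E := F.dis _ h1
  obtain ⟨c1, c2, c3, c4, c5⟩ := cross_out F.bd hk hE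
  have t1 : trn ω b = -1 := by unfold trn; rw [if_pos h3]
  have d1 : hd4 (nx ω b) % 4 = (u (k + 1) + 2) % 4 := by
    have := hd4_nx ω b
    rw [t1] at this
    omega
  have e1 : hdv (nx ω b) = oq P u (k + 1) - vec (u (k + 1)) := by
    rw [hdv_tlv (nx ω b), tlv_nx, c4, vec_congr d1, vec_back, sub_eq_add_neg]; rfl
  obtain ⟨f1, f2⟩ := F.bwd k (by rw [← show hdv b = oq P u (k + 1) from c4]; exact h1)
    (by rw [← show hdv b = oq P u (k + 1) from c4]; exact C.hd_off hbℓ)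
    (by rw [← e1]; exact C.hd_off (C.nx_mem hbℓ))
  have e2 : oq P u (k + 1) = oq P u k + vec (u k) := by
    unfold oq
    rw [F.bd.step, f2, sqL_vec]
  have e3 : hdv (nx ω b) = oq P u k := by rw [e1, e2, f2]; abel
  refine ⟨f1, f2, e3, fun h4 => ?_⟩
  obtain ⟨g1, g2, g3, g4⟩ := arc_open F.bd F.dis hk h1 h3 f2.le
    (Or.inr ⟨e3 ▸ f1, by rw [e3]; exact h4⟩)
  refine ⟨g1, g2, ?_, g4⟩
  rcases at_sq F.bd (show At P u _ k from g1) with ⟨-, -, a3, -⟩ | ⟨-, -, a3, -⟩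
  · exact a3
  · exact absurd (a3 ▸ g2) (oq_notin F.bd _)

end Cell

/-- The turning of a strand of a region. -/
theorem turn_gen (hτ : τ = 1 ∨ τ = -1) (hb : Bd E n P u τ) (h : Ex K E n P u ω b i j)
    (hdis : ∀ v ∈ K, v ∉ E) : i ≠ j ∧
      ∃ c : ℤ, trS (bS K) ω b = u j - u i + c ∧
        ((i < j ∧ (c = -2 ∨ (τ = -1 ∧ c = 6))) ∨ (j < i ∧ (c = 2 ∨ (τ = -1 ∧ c = -6)))) := by
  have hT : dl ω b (ret (nx ω) (bS K) b) - hd4 b = trS (bS K) ω b := by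
    unfold dl trS; ring
  have ht : tlv b ∉ E := hdis _ h.tlK
  have hh : hdv ((nx ω)^[ret (nx ω) (bS K) b] b) ∉ E := hdis _ h.hdK
  have hi := h.hi
  have hj := h.hj
  rcases lt_trichotomy i j with h1 | h1 | h1
  · refine ⟨h1.ne, ?_⟩
    obtain ⟨q, q1, q2, q3⟩ := dom_turn hb h.hm h1 (by omega) h.at1 h.at2 h.ins ht hh
    rw [hT] at q1
    exact ⟨-2 + 4 * q, by rw [q1]; ring, Or.inl ⟨h1, by rcases hτ with rfl | rfl <;> omega⟩⟩
  · exfalso
    subst h1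
    have h0 : nxt (bS K) ω b = b := P4_inj (h.at2.trans h.at1.symm)
    have h3 := h.hdK
    rw [h0] at h3
    have h4 := h.ins 0 (by have := h.hm; omega)
    exact hdis _ h3 h4
  · refine ⟨h1.ne', ?_⟩
    have h5 := hb.per j
    have h6 := hb.perP j
    obtain ⟨q, q1, q2, q3⟩ := dom_turn hb h.hm (i := i) (j := j + n) (by omega) (by omega) h.at1
      (by
        show P4 (nxt (bS K) ω b) = _
        rw [h5, h6, h.at2]; exact M4_congr (by omega)) h.ins ht hh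
    rw [hT, h5] at q1
    exact ⟨-2 + 4 * q + 4 * τ, by rw [q1]; ring, Or.inr ⟨h1, by rcases hτ with rfl | rfl <;> omega⟩⟩

end Vale.Agent.P167.N.ID
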