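import Vale.Agent.P167.N.ID.CutBd
import Vale.Agent.P167.N.ID.CellA

/-!
# P167, `q < 1`, START: gluing of cells along a strip

The region `R` between the box and the domain with its rows, cut along the column of the spoke, is a
cell: from the interior cell of the box, the exterior cell of the domain and the squares of the spoke.
-/

set_option autoImplicit false

namespace Vale.Agent.P167.N.ID

open Finset
open Vale.Agent.P167.Top
open Vale.Agent.P167.H871
open Vale.Agent.P167.H871.Q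

variable {K K₁ K₂ K₃ : Finset (ℤ × ℤ)} {B E F : Set (ℤ × ℤ)} {a b H n : ℕ}
  {P P₁ P₂ : ℕ → ℤ × ℤ} {u u₁ u₂ : ℕ → ℤ} {x y : ℤ}

/-! ### periods -/

theorem oq_per {σ : ℤ} (h : Bd E n P u σ) (k q : ℕ) : oq P u (k + n * q) = oq P u k := by
  obtain ⟨h1, h2⟩ := h.perN k q
  unfold oq
  rw [h1, h2]
  exact sqL_congr (by rw [mul_assoc]; omega)

theorem vec_per {σ : ℤ} (h : Bd E n P u σ) (k q : ℕ) : vec (u (k + n * q)) = vec (u k) := by
  rw [(h.perN k q).1]
  exact vec_congr (by rw [mul_assoc]; omega)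

theorem fwd_of {σ : ℤ} (hb : Bd E n P u σ) (hn : 0 < n)
    (h : ∀ k < n, oq P u k ∈ K → oq P u k ∉ B → oq P u k + vec (u k) ∉ B →
      oq P u (k + 1) ∈ K ∧ u (k + 1) = u k) (k : ℕ) (h1 : oq P u k ∈ K) (h2 : oq P u k ∉ B)
    (h3 : oq P u k + vec (u k) ∉ B) : oq P u (k + 1) ∈ K ∧ u (k + 1) = u k := by
  have e : k = k % n + n * (k / n) := (Nat.mod_add_div k n).symm
  have e' : k + 1 = k % n + 1 + n * (k / n) := by omega
  rw [e, oq_per hb] at h1 h2
  rw [e, oq_per hb, vec_per hb] at h3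
  obtain ⟨g1, g2⟩ := h _ (Nat.mod_lt k hn) h1 h2 h3
  rw [e', oq_per hb]
  refine ⟨g1, ?_⟩
  rw [(hb.perN (k % n + 1) (k / n)).1, g2, ← (hb.perN (k % n) (k / n)).1, ← e]

theorem bwd_of {σ : ℤ} (hb : Bd E n P u σ) (hn : 0 < n)
    (h : ∀ k < n, oq P u (k + 1) ∈ K → oq P u (k + 1) ∉ B →
      oq P u (k + 1) - vec (u (k + 1)) ∉ B → oq P u k ∈ K ∧ u (k + 1) = u k) (k : ℕ)
    (h1 : oq P u (k + 1) ∈ K) (h2 : oq P u (k + 1) ∉ B)
    (h3 : oq P u (k + 1) - vec (u (k + 1)) ∉ B) : oq P u k ∈ K ∧ u (k + 1) = u k := by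
  have e : k = k % n + n * (k / n) := (Nat.mod_add_div k n).symm
  have e' : k + 1 = k % n + 1 + n * (k / n) := by omega
  rw [e', oq_per hb] at h1 h2
  rw [e', oq_per hb, vec_per hb] at h3
  obtain ⟨g1, g2⟩ := h _ (Nat.mod_lt k hn) h1 h2 h3
  refine ⟨?_, ?_⟩
  · rw [e, oq_per hb]
    exact g1
  · rw [e', (hb.perN (k % n + 1) (k / n)).1, g2, ← (hb.perN (k % n) (k / n)).1, ← e]

/-- **Shift of the first step of a cell.** -/
theorem Cell.shift (h : Cell K B E n P u 1) (c : ℕ) :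
    Cell K B E n (fun k => P (k + c)) (fun k => u (k + c)) 1 := by
  have hn : 0 < n := by have := h.hn; omega
  have hmod : ∀ k, ∃ r < n, ∃ q, k + c = r + n * q := fun k =>
    ⟨(k + c) % n, Nat.mod_lt _ hn, (k + c) / n, (Nat.mod_add_div (k + c) n).symm⟩
  have hoq : ∀ k, oq (fun k => P (k + c)) (fun k => u (k + c)) k = oq P u (k + c) := fun _ => rfl
  have hiq : ∀ k, iq (fun k => P (k + c)) (fun k => u (k + c)) k = iq P u (k + c) := fun _ => rfl
  have hiqp : ∀ k q, iq P u (k + n * q) = iq P u k := fun k q => by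
    obtain ⟨h1, h2⟩ := h.bd.perN k q
    unfold iq
    rw [h1, h2]
    exact sqL_congr (by rw [mul_assoc]; omega)
  refine ⟨h.hn, bd_shift h.bd c, h.cov.shift h.bd hn c, h.dis, fun k _ => ?_, fun k => ?_,
    fun k => ?_, fun k _ => ?_⟩
  · obtain ⟨r, hr, q, e⟩ := hmod k
    rw [hoq, hiq, e, oq_per h.bd, hiqp]
    exact h.sid r hr
  · rw [hoq, hoq]
    show oq P u (k + c) ∈ K → oq P u (k + c) ∉ B → oq P u (k + c) + vec (u (k + c)) ∉ B →
      oq P u (k + 1 + c) ∈ K ∧ u (k + 1 + c) = u (k + c)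
    rw [show k + 1 + c = k + c + 1 by ring]
    exact h.fwd _
  · rw [hoq, hoq]
    show oq P u (k + 1 + c) ∈ K → oq P u (k + 1 + c) ∉ B →
      oq P u (k + 1 + c) - vec (u (k + 1 + c)) ∉ B → oq P u (k + c) ∈ K ∧ u (k + 1 + c) = u (k + c)
    rw [show k + 1 + c = k + c + 1 by ring]
    exact h.bwd _
  · obtain ⟨r, hr, q, e⟩ := hmod k
    rw [hoq]
    show oq P u (k + c) ∈ K → oq P u (k + c) ∉ B → oq P u (k + c) + vec (u (k + c) - 1) ∉ K
    have e2 : vec (u (k + c) - 1) = vec (u r - 1) := by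
      rw [e, (h.bd.perN r q).1]
      exact vec_congr (by rw [mul_assoc]; omega)
    rw [e2, e, oq_per h.bd]
    exact h.thin r hr

/-! ### the reversed path -/

/-- The reversed path, sites. -/
def revP (n : ℕ) (P : ℕ → ℤ × ℤ) (k : ℕ) : ℤ × ℤ := P ((n - 1) * (k + 1) + 1)

/-- The reversed path, directions. -/
def revU (n : ℕ) (u : ℕ → ℤ) (k : ℕ) : ℤ := u ((n - 1) * (k + 1)) - 4 * 1 * ((k : ℤ) + 1) + 2

theorem rev_at (h : Bd F (b + 1) P u 1) {i : ℕ} (hi : i ≤ b) :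
    revP (b + 1) P i = P (b + 1 - i) ∧ revU (b + 1) u i = u (b - i) - 2 := by
  unfold revP revU
  obtain ⟨d, rfl⟩ : ∃ d, b = i + d := ⟨b - i, by omega⟩
  have e1 : (i + d + 1 - 1) * (i + 1) + 1 = (i + d + 1 - i) + (i + d + 1) * i := by
    rw [Nat.add_sub_cancel, show i + d + 1 - i = d + 1 by omega]
    ring
  have e2 : (i + d + 1 - 1) * (i + 1) = (i + d - i) + (i + d + 1) * i := by
    rw [Nat.add_sub_cancel, show i + d - i = d by omega]
    ring
  rw [e1, e2, (h.perN _ i).2, (h.perN _ i).1]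
  exact ⟨rfl, by ring⟩

/-- The data of the gluing. -/
structure Glue (K₁ K₂ K₃ : Finset (ℤ × ℤ)) (B E F : Set (ℤ × ℤ)) (a b H : ℕ)
    (P₁ P₂ : ℕ → ℤ × ℤ) (u₁ u₂ : ℕ → ℤ) (x y : ℤ) : Prop where
  C : Cut E F a b H P₁ P₂ u₁ u₂ x y
  F₁ : Cell K₁ B E (a + 1) P₁ u₁ 1
  F₂ : Cell K₂ B Fᶜ (b + 1) (revP (b + 1) P₂) (revU (b + 1) u₂) (-1)
  fe : F ⊆ E
  k3 : ∀ v ∈ K₃, v ∈ strip x y H
  s3 : ∀ v ∈ strip x y H, v ∈ K₃ ∨ v ∈ B
  e1 : oq P₁ u₁ 1 ∈ B
  e2 : oq P₁ u₁ a ∈ B
  e3 : iq P₂ u₂ 1 ∈ B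
  e4 : iq P₂ u₂ b ∈ B
  e5 : (x, y) ∈ B
  e6 : (x, y + H - 1) ∈ B
  d12 : ∀ v ∈ K₁, ∀ t, v + vec t ∉ K₂
  d13 : ∀ v ∈ K₁, ∀ t, v + vec t ∉ K₃
  d23 : ∀ v ∈ K₂, ∀ t, v + vec t ∉ K₃

namespace Glue

variable (G : Glue K₁ K₂ K₃ B E F a b H P₁ P₂ u₁ u₂ x y)

include G

/-- The squares next to the steps of the curve. -/
theorem sq1 {m : ℕ} (h1 : 1 ≤ m) (h2 : m ≤ a) :
    oq (CP a b H P₁ P₂ x y) (CU a b H u₁ u₂) (m - 1) = oq P₁ u₁ m ∧
      iq (CP a b H P₁ P₂ x y) (CU a b H u₁ u₂) (m - 1) = iq P₁ u₁ m := by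
  obtain ⟨g1, g2⟩ := G.C.i1 h1 h2
  unfold oq iq
  rw [g1, g2]
  exact ⟨rfl, rfl⟩

omit G in
theorem sq2 {j : ℕ} (h1 : j < H) :
    oq (CP a b H P₁ P₂ x y) (CU a b H u₁ u₂) (a + j) = (x, y + (j : ℤ)) ∧
      iq (CP a b H P₁ P₂ x y) (CU a b H u₁ u₂) (a + j) = (x - 1, y + (j : ℤ)) := by
  obtain ⟨g1, g2⟩ := Cut.i2 (a := a) (b := b) (P₁ := P₁) (P₂ := P₂) (u₁ := u₁) (u₂ := u₂)
    (x := x) (y := y) h1
  unfold oq iq
  rw [g1, g2]
  exact ⟨(Cut.sq_vals _ _ (5 - 1)).1 (by norm_num), (Cut.sq_vals _ _ 5).2.1 (by norm_num)⟩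

theorem sq3 {i : ℕ} (h1 : i < b) :
    oq (CP a b H P₁ P₂ x y) (CU a b H u₁ u₂) (a + H + i) =
        oq (revP (b + 1) P₂) (revU (b + 1) u₂) i ∧
      iq (CP a b H P₁ P₂ x y) (CU a b H u₁ u₂) (a + H + i) =
        iq (revP (b + 1) P₂) (revU (b + 1) u₂) i ∧
      CU a b H u₁ u₂ (a + H + i) = revU (b + 1) u₂ i + 4 := by
  obtain ⟨g1, g2, -⟩ := G.C.i3 (m := b - i) (by omega) (by omega)
  rw [show b - (b - i) = i by omega] at g1 g2
  obtain ⟨r1, r2⟩ := rev_at G.C.b2 (i := i) (by omega)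
  unfold oq iq
  rw [g1, g2, r1, r2, show b - i + 1 = b + 1 - i by omega]
  exact ⟨sqL_congr (by omega), sqL_congr (by omega), by ring⟩

omit G in
theorem sq4 {i : ℕ} (h1 : i < H) :
    oq (CP a b H P₁ P₂ x y) (CU a b H u₁ u₂) (a + H + b + i) = (x, y + (H : ℤ) - 1 - i) ∧
      iq (CP a b H P₁ P₂ x y) (CU a b H u₁ u₂) (a + H + b + i) = (x + 1, y + (H : ℤ) - 1 - i) ∧
      CU a b H u₁ u₂ (a + H + b + i) = 3 := by
  obtain ⟨g1, g2, -⟩ := Cut.i4 (a := a) (b := b) (P₁ := P₁) (P₂ := P₂) (u₁ := u₁) (u₂ := u₂)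
    (x := x) (y := y) (H := H) (j := H - 1 - i) (by omega)
  rw [show H - 1 - (H - 1 - i) = i by omega] at g1 g2
  unfold oq iq
  rw [g1, g2, (Cut.sq_vals _ _ (3 - 1)).2.2.1 (by norm_num),
    (Cut.sq_vals _ _ 3).2.2.2 (by norm_num)]
  refine ⟨?_, ?_, rfl⟩
  · ext
    · simp
    · simp only
      omega
  · ext
    · simp
    · simp only
      omega

theorem st_E {v : ℤ × ℤ} (hv : v ∈ strip x y H) : v ∈ E ∧ v ∉ F := by
  obtain ⟨h1, h2, h3⟩ := hv
  have := G.C.sq v.1 (v.2 - y) (by omega) (by omega) (by omega) (by omega)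
  rw [add_sub_cancel] at this
  exact this

theorem m1 {v : ℤ × ℤ} (hv : v ∉ E) (h : v ∈ K₁ ∪ K₂ ∪ K₃) : v ∈ K₁ := by
  rw [mem_union, mem_union] at h
  rcases h with (h | h) | h
  · exact h
  · exact absurd (G.fe (not_not.1 (G.F₂.dis v h))) hv
  · exact absurd (G.st_E (G.k3 v h)).1 hv

theorem m2 {v : ℤ × ℤ} (hv : v ∈ F) (h : v ∈ K₁ ∪ K₂ ∪ K₃) : v ∈ K₂ := by
  rw [mem_union, mem_union] at h
  rcases h with (h | h) | h
  · exact absurd (G.fe hv) (G.F₁.dis v h)
  · exact h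
  · exact absurd hv (G.st_E (G.k3 v h)).2

omit G in
theorem sub1 {v : ℤ × ℤ} (h : v ∈ K₁) : v ∈ K₁ ∪ K₂ ∪ K₃ :=
  mem_union_left _ (mem_union_left _ h)

omit G in
theorem sub2 {v : ℤ × ℤ} (h : v ∈ K₂) : v ∈ K₁ ∪ K₂ ∪ K₃ :=
  mem_union_left _ (mem_union_right _ h)

omit G in
theorem sub3 {v : ℤ × ℤ} (h : v ∈ K₃) : v ∈ K₁ ∪ K₂ ∪ K₃ := mem_union_right _ h

theorem s3' {z : ℤ} {j : ℤ} (hz : z = x) (h1 : y ≤ j) (h2 : j < y + H) (h3 : (z, j) ∉ B) :
    (z, j) ∈ K₁ ∪ K₂ ∪ K₃ :=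
  sub3 ((G.s3 _ ⟨hz, h1, h2⟩).resolve_right h3)

omit G in
theorem vec_symm (v : ℤ × ℤ) (t : ℤ) : v + vec t + vec (t + 2) = v := by
  rw [vec_back]
  abel

/-- **The cell of the region.** -/
theorem cell : Cell (K₁ ∪ K₂ ∪ K₃) B ((E \ F) \ strip x y H) (a + H + b + H)
    (CP a b H P₁ P₂ x y) (CU a b H u₁ u₂) 1 := by
  have ha := G.C.ha
  have hb := G.C.hb
  have hH := G.C.hH
  have hcase := fun k hk => Cut.hcase (a := a) (b := b) (H := H) k hk
  have c1 : ∀ k, k < a → k = (k + 1) - 1 := fun k _ => by omega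
  have v5 : vec 5 = (0, 1) := rfl
  have v3 : vec 3 = (0, -1) := rfl
  have hcu1 : ∀ m, 1 ≤ m → m ≤ a → CU a b H u₁ u₂ (m - 1) = u₁ m := fun m h1 h2 =>
    (G.C.i1 h1 h2).2
  have hcu2 : ∀ j, j < H → CU a b H u₁ u₂ (a + j) = 5 := fun j h1 =>
    (Cut.i2 (a := a) (b := b) (P₁ := P₁) (P₂ := P₂) (u₁ := u₁) (u₂ := u₂) (x := x) (y := y) h1).2
  have hcu4 : ∀ i, i < H → CU a b H u₁ u₂ (a + H + b + i) = 3 := fun i h1 =>
    (sq4 (P₁ := P₁) (P₂ := P₂) (x := x) (y := y) h1).2.2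
  refine ⟨by omega, G.C.bd, G.C.cov, ?_, ?_, fwd_of G.C.bd (by omega) ?_,
    bwd_of G.C.bd (by omega) ?_, ?_⟩
  · intro v hv hR
    rw [mem_union, mem_union] at hv
    rcases hv with (h | h) | h
    · exact G.F₁.dis v h hR.1.1
    · exact G.F₂.dis v h hR.1.2
    · exact hR.2 (G.k3 v h)
  · -- sides
    intro k hk
    rcases hcase k hk with g | ⟨j, hj, g⟩ | ⟨i, hi, g⟩ | ⟨i, hi, g⟩
    · rw [c1 k g, (G.sq1 (m := k + 1) (by omega) (by omega)).1,
        (G.sq1 (m := k + 1) (by omega) (by omega)).2]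
      rcases G.F₁.sid (k + 1) (by omega) with h | h | h
      · exact Or.inl (sub1 h)
      · exact Or.inr (Or.inl h)
      · exact Or.inr (Or.inr h)
    · rw [g, (sq2 hj).1]
      rcases G.s3 (x, y + j) ⟨rfl, by simp, by simp [hj]⟩ with h | h
      · exact Or.inl (sub3 h)
      · exact Or.inr (Or.inl h)
    · rw [g, (G.sq3 hi).1, (G.sq3 hi).2.1]
      rcases G.F₂.sid i (by omega) with h | h | h
      · exact Or.inl (sub2 h)
      · exact Or.inr (Or.inl h)
      · exact Or.inr (Or.inr h)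
    · rw [g, (sq4 hi).1]
      rcases G.s3 (x, y + H - 1 - i) ⟨rfl, by simp only; omega, by simp only; omega⟩ with h | h
      · exact Or.inl (sub3 h)
      · exact Or.inr (Or.inl h)
  · -- forward
    intro k hk h1 h2 h3
    rcases hcase k hk with g | ⟨j, hj, g⟩ | ⟨i, hi, g⟩ | ⟨i, hi, g⟩
    · have e0 := (G.sq1 (m := k + 1) (by omega) (by omega)).1
      have e1 := hcu1 (k + 1) (by omega) (by omega)
      rw [← c1 k g] at e0 e1
      rw [e0] at h1 h2 h3
      rw [e1] at h3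
      have h4 := G.m1 (G.C.b1.right (k + 1)) h1
      obtain ⟨f1, f2⟩ := G.F₁.fwd (k + 1) h4 h2 h3
      rcases (by omega : k + 1 < a ∨ k + 1 = a) with g' | g'
      · have e2 := (G.sq1 (m := k + 2) (by omega) (by omega)).1
        have e3 := hcu1 (k + 2) (by omega) (by omega)
        rw [show k + 2 - 1 = k + 1 by omega] at e2 e3
        rw [e2, e3, e1]
        exact ⟨sub1 f1, f2⟩
      · rw [g'] at h2
        exact absurd G.e2 h2
    · subst g
      rw [(sq2 hj).1] at h2 h3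
      rw [hcu2 j hj, v5] at h3
      rcases (by omega : j + 1 < H ∨ j + 1 = H) with g' | g'
      · have e2 := (sq2 (a := a) (b := b) (P₁ := P₁) (P₂ := P₂) (u₁ := u₁) (u₂ := u₂) (x := x)
          (y := y) g').1
        rw [← add_assoc] at e2
        rw [e2, hcu2 j hj, show a + j + 1 = a + (j + 1) by ring, hcu2 (j + 1) g']
        refine ⟨G.s3' rfl (by omega) (by push_cast; omega) ?_, rfl⟩
        convert h3 using 2
        ext
        · simp
        · simp only [Prod.snd_add]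
          push_cast
          ring
      · exfalso
        apply h2
        have := G.e6
        rwa [show y + (H : ℤ) - 1 = y + j by omega] at this
    · subst g
      rw [(G.sq3 hi).1] at h1 h2 h3
      rw [(G.sq3 hi).2.2, vec_congr (d' := revU (b + 1) u₂ i) (by omega)] at h3
      have h4 := G.m2 (not_not.1 (G.F₂.bd.right i)) h1
      obtain ⟨f1, f2⟩ := G.F₂.fwd i h4 h2 h3
      rcases (by omega : i + 1 < b ∨ i + 1 = b) with g' | g'
      · have e2 := G.sq3 g'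
        rw [← add_assoc] at e2
        rw [e2.1, e2.2.2, (G.sq3 hi).2.2, f2]
        exact ⟨sub2 f1, rfl⟩
      · exfalso
        apply h2
        obtain ⟨r1, r2⟩ := rev_at G.C.b2 (i := i) (by omega)
        have e3 : oq (revP (b + 1) P₂) (revU (b + 1) u₂) i = iq P₂ u₂ 1 := by
          unfold oq iq
          rw [r1, r2, show b + 1 - i = 1 + 1 by omega, show b - i = 1 by omega, G.C.b2.step 1,
            ← sqL_next' (P₂ 1) (u₂ 1)]
          exact sqL_congr (by omega)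
        rw [e3]
        exact G.e3
    · subst g
      rw [(sq4 hi).1] at h2 h3
      rw [hcu4 i hi, v3] at h3
      rcases (by omega : i + 1 < H ∨ i + 1 = H) with g' | g'
      · have e2 := sq4 (a := a) (b := b) (P₁ := P₁) (P₂ := P₂) (u₁ := u₁) (u₂ := u₂) (x := x)
          (y := y) g'
        rw [← add_assoc] at e2
        rw [e2.1, e2.2.2, hcu4 i hi]
        refine ⟨G.s3' rfl (by omega) (by omega) ?_, rfl⟩
        convert h3 using 2
        ext
        · simp
        · simp only [Prod.snd_add]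
          push_cast
          ring
      · exfalso
        apply h2
        have := G.e5
        rwa [show y = y + (H : ℤ) - 1 - i by omega] at this
  · -- backward
    intro k hk h1 h2 h3
    rcases (by omega : k + 1 < a + H + b + H ∨ k + 1 = a + H + b + H) with hk' | hk'
    swap
    · exfalso
      have e0 := oq_per G.C.bd 0 1
      rw [mul_one, zero_add, ← hk', show (0 : ℕ) = 1 - 1 from rfl,
        (G.sq1 (m := 1) le_rfl (by omega)).1] at e0
      rw [e0] at h2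
      exact h2 G.e1
    rcases hcase (k + 1) hk' with g | ⟨j, hj, g⟩ | ⟨i, hi, g⟩ | ⟨i, hi, g⟩
    · have e0 := (G.sq1 (m := k + 2) (by omega) (by omega)).1
      have e1 := hcu1 (k + 2) (by omega) (by omega)
      have e0' := (G.sq1 (m := k + 1) (by omega) (by omega)).1
      have e1' := hcu1 (k + 1) (by omega) (by omega)
      rw [show k + 2 - 1 = k + 1 by omega] at e0 e1
      rw [Nat.add_sub_cancel] at e0' e1'
      rw [e0] at h1 h2 h3
      rw [e1] at h3
      have h4 := G.m1 (G.C.b1.right (k + 2)) h1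
      obtain ⟨f1, f2⟩ := G.F₁.bwd (k + 1) h4 h2 h3
      rw [e0', e1, e1']
      exact ⟨sub1 f1, f2⟩
    · rcases Nat.eq_zero_or_pos j with g' | g'
      · exfalso
        subst g'
        rw [g, (sq2 hj).1] at h2
        apply h2
        have := G.e5
        simpa using this
      · have g2 : k = a + (j - 1) := by omega
        rw [g, (sq2 hj).1, hcu2 j hj, v5] at h3
        rw [g, hcu2 j hj, g2, hcu2 (j - 1) (by omega), (sq2 (j := j - 1) (by omega)).1]
        refine ⟨G.s3' rfl (by omega) (by omega) ?_, rfl⟩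
        convert h3 using 2
        ext
        · simp
        · simp only [Prod.snd_sub]
          omega
    · rcases Nat.eq_zero_or_pos i with g' | g'
      · exfalso
        subst g'
        rw [g, (G.sq3 hi).1] at h2
        apply h2
        obtain ⟨r1, r2⟩ := rev_at G.C.b2 (i := 0) (by omega)
        have e3 : oq (revP (b + 1) P₂) (revU (b + 1) u₂) 0 = iq P₂ u₂ b := by
          unfold oq iq
          rw [r1, r2, Nat.sub_zero, Nat.sub_zero, G.C.b2.step b, ← sqL_next' (P₂ b) (u₂ b)]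
          exact sqL_congr (by omega)
        rw [e3]
        exact G.e4
      · obtain ⟨i', rfl⟩ : ∃ i', i = i' + 1 := ⟨i - 1, by omega⟩
        have g2 : k = a + H + i' := by omega
        rw [g, (G.sq3 hi).1] at h1 h2 h3
        rw [(G.sq3 hi).2.2, vec_congr (d' := revU (b + 1) u₂ (i' + 1)) (by omega)] at h3
        have h4 := G.m2 (not_not.1 (G.F₂.bd.right (i' + 1))) h1
        obtain ⟨f1, f2⟩ := G.F₂.bwd i' h4 h2 h3
        rw [g, (G.sq3 hi).2.2, g2, (G.sq3 (i := i') (by omega)).1,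
          (G.sq3 (i := i') (by omega)).2.2, f2]
        exact ⟨sub2 f1, rfl⟩
    · rcases Nat.eq_zero_or_pos i with g' | g'
      · exfalso
        subst g'
        rw [g, (sq4 hi).1] at h2
        apply h2
        have := G.e6
        simpa using this
      · have g2 : k = a + H + b + (i - 1) := by omega
        rw [g, (sq4 hi).1, hcu4 i hi, v3] at h3
        rw [g, hcu4 i hi, g2, hcu4 (i - 1) (by omega), (sq4 (i := i - 1) (by omega)).1]
        refine ⟨G.s3' rfl (by omega) (by omega) ?_, rfl⟩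
        convert h3 using 2
        ext
        · simp
        · simp only [Prod.snd_sub]
          omega
  · -- thin
    intro k hk h1 h2 h3
    rcases hcase k hk with g | ⟨j, hj, g⟩ | ⟨i, hi, g⟩ | ⟨i, hi, g⟩
    · have e0 := (G.sq1 (m := k + 1) (by omega) (by omega)).1
      have e1 := hcu1 (k + 1) (by omega) (by omega)
      rw [← c1 k g] at e0 e1
      rw [e0] at h1 h2 h3
      rw [e1] at h3
      have h4 := G.m1 (G.C.b1.right (k + 1)) h1
      rw [mem_union, mem_union] at h3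
      rcases h3 with (h3 | h3) | h3
      · exact G.F₁.thin (k + 1) (by omega) h4 h2 h3
      · exact G.d12 _ h4 _ h3
      · exact G.d13 _ h4 _ h3
    · subst g
      rw [(sq2 hj).1] at h3
      rw [hcu2 j hj] at h3
      have e3 : ((x, y + (j : ℤ)) + vec (5 - 1) : ℤ × ℤ) = (x + 1, y + (j : ℤ)) := by
        ext <;> simp [vec, dx, dy]
      rw [e3] at h3
      obtain ⟨s1, s2⟩ := G.C.sq (x + 1) j (by omega) le_rfl (by omega) (by omega)
      rw [mem_union, mem_union] at h3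
      rcases h3 with (h3 | h3) | h3
      · exact G.F₁.dis _ h3 s1
      · exact G.F₂.dis _ h3 s2
      · have := (G.k3 _ h3).1
        simp only at this
        omega
    · subst g
      rw [(G.sq3 hi).1] at h1 h2 h3
      rw [(G.sq3 hi).2.2, vec_congr (d' := revU (b + 1) u₂ i - 1) (by omega)] at h3
      have h4 := G.m2 (not_not.1 (G.F₂.bd.right i)) h1
      rw [mem_union, mem_union] at h3
      rcases h3 with (h3 | h3) | h3
      · have h5 := G.d12 _ h3 (revU (b + 1) u₂ i - 1 + 2)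
        rw [vec_symm] at h5
        exact h5 h4
      · exact G.F₂.thin i (by omega) h4 h2 h3
      · exact G.d23 _ h4 _ h3
    · subst g
      rw [(sq4 hi).1, hcu4 i hi] at h3
      have e3 : ((x, y + (H : ℤ) - 1 - i) + vec (3 - 1) : ℤ × ℤ) =
          (x - 1, y + ((H : ℤ) - 1 - i)) := by
        ext
        · simp [vec, dx]; ring
        · simp [vec, dy]; ring
      rw [e3] at h3
      obtain ⟨s1, s2⟩ := G.C.sq (x - 1) ((H : ℤ) - 1 - i) le_rfl (by omega) (by omega) (by omega)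
      rw [mem_union, mem_union] at h3
      rcases h3 with (h3 | h3) | h3
      · exact G.F₁.dis _ h3 s1
      · exact G.F₂.dis _ h3 s2
      · have := (G.k3 _ h3).1
        simp only at this
        omega

end Glue

end Vale.Agent.P167.N.ID
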