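import Vale.Agent.P167.N.ID.CellM
import Vale.Agent.P167.N.ID.CellR

/-!
# P167, `q < 1`, START (P2S): the sites of the exterior cell and of the region `R`

`CD.Out`: an exterior cell with the base at the step `0`. `CD.Mid`: the site of the junction `a` and
sites of the contour of `R` between the two bases.
-/

set_option autoImplicit false

namespace Vale.Agent.P167.N.ID

open Vale.Agent.P167.H871
open Vale.Agent.P167.H871.Q

/-- **The exterior cell** of the filled set `I`, base `z`. -/
structure CD.Out (c : CD) (I : Finset (ℤ × ℤ)) (z : ℤ × ℤ) : Prop where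
  ex : ∃ (P₀ : ℕ → ℤ × ℤ) (u₀ : ℕ → ℤ), Bd (I : Set (ℤ × ℤ)) c.n P₀ u₀ 1 ∧
    Cov (I : Set (ℤ × ℤ)) P₀ u₀ ∧ c.P = revP c.n P₀ ∧ c.u = revU c.n u₀
  hn : 2 < c.n
  zc : c.zc = 0
  zo : c.zo = 0
  hz : c.P 0 = z

/-- **The region between the box and the domain**: the junction `a` and the sites `S` between the two
bases (on the side of the junction `b`). -/
structure CD.Mid (c : CD) (za : ℤ × ℤ) (S : Set (ℤ × ℤ)) : Prop where
  a : c.P 0 = za
  s : ∀ s ∈ S, ∃ k, c.zc ≤ k ∧ k ≤ c.zo ∧ c.P k = s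

end Vale.Agent.P167.N.ID
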