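import Vale.Agent.P167.N.ID.PhP
import Vale.Agent.P167.N.ID.TOneG
import Vale.Agent.P167.N.ID.CDOut

/-!
# P167, `q < 1`, START (P2S): the product over the loops off the holes, free and wired frames

`oneF_out`: the cells of `frP` (`PhP.oneF_frP`) with the path around the exterior. `to_frP`: the
product over the loops off the holes is not zero if the outer site of the base is joined to far away
and a big annulus is not crossed.
-/

set_option autoImplicit false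

namespace Vale.Agent.P167.N.ID

open Finset
open Vale.Agent.P167.Top
open Vale.Agent.P167.H871
open Vale.Agent.P167.H871.Q
open Vale.Agent.P167.A (plane)
open Vale.Agent.P167.FK (Bq)
open Vale.Agent.P167.H199 (Gap ah at' mks)
open Vale.Agent.P167.H662 (hsite)
open Vale.Agent.P167.H825.Q (Bc stΦ stτ)
open Vale.Agent.P167.H680.T (WallG WCG sgb sq par mem_uI)
open Vale.Agent.P167.H398.Q (hB)
open Vale.Agent.P167.E6 (IsPolygon Encloses dir face)
open Vale.Agent.P167.H825 (pdir enl ptau Marks Box)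
open Vale.Agent.P167.XDL (bS mem_bS)
open Vale.Agent.P167.Enl (sW eW tB tB_lt kOf uN qN PN bd_qN qN_nat pW uW pW_eq uW_eq pW_vp uW_same
  uW_mod vec_pred vp frmQ mem_frmQ sR eR row_dat row_num sR_num row_bds gn_big sqL_op frmQ_disj
  mem_hB)

variable {l : ℕ} {θ β : ℝ} {p : ZMod l → ℤ × ℤ} {S₀ : Finset (ℤ × ℤ)} {Q : Marks} {n t d : ℕ}
  {bc : Bc} {J : ℕ → Bool} {C c : ℝ} {g δ : ℝ} {b : Box} {tp : ℝ}

/-- **The cells of the frames of the free and wired boundary conditions**, for every set `B` which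
contains the boxes of the holes. -/
theorem oneF_out [NeZero l] (hp : IsPolygon p) (hD : Encloses p S₀) (hN : Nrm p)
    (hQ : (mks p b tp).Ok) (hg : Gap (mks p b tp) l g) (hδ : 0 < δ) (hδg : 4 * δ ≤ g)
    (hn : 16 ≤ δ * n) (hbc : bc = .free ∨ bc = .wired) :
    ∃ (cD cX : CD), (∀ B : Set (ℤ × ℤ),
      ((frP θ β p S₀ b tp bc).hB δ n ((⌊δ * n⌋₊ : ℤ) + 4) : Set (ℤ × ℤ)) ⊆ B →
      OneF θ β ((frP θ β p S₀ b tp bc).U (rowS θ) δ n) B ((frP θ β p S₀ b tp bc).ph (rowS θ) δ n 0)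
        (enl S₀ n) ((enl S₀ n ∪ (frP θ β p S₀ b tp bc).U (rowS θ) δ n : Finset (ℤ × ℤ)) :
          Set (ℤ × ℤ))ᶜ cD cX) ∧
      (∀ η : Cfg, (frP θ β p S₀ b tp bc).Frz (rowS θ) δ n η → ∀ B : Set (ℤ × ℤ),
        cD.Clr ((frP θ β p S₀ b tp bc).U (rowS θ) δ n) B η ∧
        cX.Clr ((frP θ β p S₀ b tp bc).U (rowS θ) δ n) B η) ∧
      cX.Out (enl S₀ n ∪ (frP θ β p S₀ b tp bc).U (rowS θ) δ n)
        (vp p n 0 (tP p n tp bc : ℤ) + dir (pdir p 0 - 1)) := by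
  have hl : 0 < l := by have := hp.1; omega
  obtain ⟨-, -, -, c4, b5⟩ := gn_big hQ hg hδg hn hl
  set t := tP p n tp bc with ht0
  have t1 : tB n (mks p b tp) ≤ t := (tP_le p n tp bc).1
  have t2 : t ≤ tB n (mks p b tp) + 1 := (tP_le p n tp bc).2
  have ht : t < n := t_lt hQ hg hδg hn t2
  have hln : n ≤ l * n := Nat.le_mul_of_pos_left n hl
  have hb : bc.Ok l (mks p b tp) := by rcases hbc with rfl | rfl <;> trivial
  -- the frozen squares
  have hKe : (frP θ β p S₀ b tp bc).U (rowS θ) δ n = frmQ p (mks p b tp) n ⌊δ * n⌋₊ := by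
    ext v
    rw [mem_frmJ (θ := θ) (β := β) (t := t) (bc := bc) (J := fun _ => true) (C := 0) (c := 1)]
    exact mem_uI
  have hKi : ∀ v, v ∈ frmQ p (mks p b tp) n ⌊δ * n⌋₊ ↔
      ∃ i, v ∈ (rP θ β p b tp bc n ⌊δ * n⌋₊ i).I := fun v =>
    mem_frmJ (θ := θ) (β := β) (t := t) (bc := bc) (J := fun _ => true) (C := 0) (c := 1)
  have hgeo := geoS_poly hp hD hQ hg hδ hδg hn hN
  have hsep : ∀ i j, i ≠ j → ∀ u ∈ (rP θ β p b tp bc n ⌊δ * n⌋₊ i).I,
      ∀ v ∈ (rP θ β p b tp bc n ⌊δ * n⌋₊ j).I, 1 < nm (u - v) := by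
    intro i j hij u hu v hv
    have h1 := hgeo.sepr i j hij u (by rw [← frowJ_I (θ := θ) (β := β) (t := t) (bc := bc)
      (J := fun _ => true) (C := 0) (c := 1)]; exact hu) v
      (by rw [← frowJ_I (θ := θ) (β := β) (t := t) (bc := bc)
      (J := fun _ => true) (C := 0) (c := 1)]; exact hv)
    have h2 : (8 : ℝ) ≤ nm (u - v) := by linarith
    have h3 : (8 : ℤ) ≤ nm (u - v) := by exact_mod_cast h2
    omega
  have hS : Sys θ (rP θ β p b tp bc n ⌊δ * n⌋₊) (frmQ p (mks p b tp) n ⌊δ * n⌋₊)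
      ((frP θ β p S₀ b tp bc).ph (rowS θ) δ n 0) :=
    sys_of (z := fun _ => 0) hKi hsep
  have hr : ∀ i j, i < l → j ≤ (mks p b tp).m → ∃ y, rP θ β p b tp bc n ⌊δ * n⌋₊ y =
      frowJ θ β p (mks p b tp) n ⌊δ * n⌋₊ t bc (fun _ => true) 0 1 i j := fun i j hi hj =>
    ⟨(⟨i, hi⟩, ⟨j, by change j ≤ 2 at hj; omega⟩), rfl⟩
  have hKD : ∀ v ∈ frmQ p (mks p b tp) n ⌊δ * n⌋₊, v ∉ enl S₀ n := fun v hv h =>
    Finset.disjoint_left.1 (frmQ_disj hp hD hQ hg hδ hδg hn) h hv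
  -- the exterior
  obtain ⟨n', P', u', ι, hP⟩ := exists_BPf hp hD hQ hg hδ hδg hn
  have hn' := n'_pos hP hp b5
  have hO := oneCol_P (l := l) (n := n) (t := t) (β := β) hbc
  obtain ⟨j, j1, j2, j3⟩ := mid_row (p := p) hQ hg hδ hδg hn hl hQ.tp0.le hQ.tp1.le hg.2 t1 t2
  have hin : InR (l * ((mks p b tp).m + 1)) (sR p n (mks p b tp) ⌊δ * n⌋₊)
      (eR p n (mks p b tp) ⌊δ * n⌋₊) t := mid_inR hl j1 j2 j3 (by omega) (by omega)
  rw [hKe, show ((enl S₀ n ∪ frmQ p (mks p b tp) n ⌊δ * n⌋₊ : Finset (ℤ × ℤ)) : Set (ℤ × ℤ)) =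
    (enl S₀ n : Set (ℤ × ℤ)) ∪ (frmQ p (mks p b tp) n ⌊δ * n⌋₊ : Set (ℤ × ℤ)) from coe_union _ _]
  refine ⟨⟨l * n, fun k => qN p n t (k : ZMod (l * n)), uN p n t, bc.ka l n t, 0, 0, 0⟩,
    ⟨n', revP n' (sP P' (ι t)), revU n' (sU u' (ι t) 4), k1 n' (sB bc), 0, 0, 0⟩,
    ?_, ?_, ?_⟩
  · intro B hB0
    have hB' : (hB p (mks p b tp) n (⌊δ * n⌋₊ + 4) : Set (ℤ × ℤ)) ⊆ B := by
      intro v hv
      refine hB0 ?_
      obtain ⟨x, hx⟩ := mem_hB.1 (mem_coe.1 hv)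
      exact mem_coe.2 (mem_biUnion.2 ⟨x, mem_univ _, hx⟩)
    have hX := cellX_lit hp hD hQ hg hδ hδg hn hP hB' (j₀ := t) (by omega) (κ := 4)
      (by norm_num)
    refine ⟨⟨cellD_lit hp hD hQ hg hδ hδg hn hB' t, ?_, by show 0 < l * n; omega,
      by show 0 < l * n; omega, phsD hp hD hQ hg hδ hδg hn hS hb ht hr hKD fun k h => h,
      fun h => absurd h (by norm_num)⟩,
      ⟨hX, ?_, by show 0 < n'; omega, by show 0 < n'; omega,
      phsX hp hD hQ hg hδ hδg hn hP hS hb ht hB' (Or.inl rfl) hr (fun _ => rfl) hO hX.bd hX.dis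
        fun k h => h,
      fun _ => gdX hp hQ hg hδg hn hP ht hin (tP_even hbc p n tp)⟩, ?_, ?_, ?_, ?_⟩
    · show bc.ka l n t ≤ l * n
      rcases hbc with rfl | rfl
      · exact le_rfl
      · exact Nat.zero_le _
    · show k1 n' (sB bc) ≤ n'
      unfold k1
      split_ifs <;> omega
    · show bc.ka l n t = 0 ∨ bc.ka l n t = l * n
      rcases hbc with rfl | rfl
      · exact Or.inr rfl
      · exact Or.inl rfl
    · show k1 n' (sB bc) = 0 ∨ k1 n' (sB bc) = n'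
      unfold k1
      split_ifs
      · exact Or.inr rfl
      · exact Or.inl rfl
    · intro v hv _
      by_cases h : v ∈ enl S₀ n
      · exact Or.inl h
      · right
        rintro (h' | h')
        · exact h h'
        · exact hv h'
    · intro v hv h
      exact h (Or.inl hv)
  · intro η hη B
    have hcol : ColP p (mks p b tp) n ⌊δ * n⌋₊ t (bc.ka l n t) η := by
      intro y τ h1 h2
      have hm : Enl.op p n y.1 τ ∈ (frowJ θ β p (mks p b tp) n ⌊δ * n⌋₊ t bc (fun _ => true) 0 1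
          (y.1 : ℕ) (y.2 : ℕ)).I := mem_frowJ.2 ⟨τ, h1, h2, rfl⟩
      have h3 : η (Enl.op p n y.1 τ) = (frowJ θ β p (mks p b tp) n ⌊δ * n⌋₊ t bc
          (fun _ => true) 0 1 (y.1 : ℕ) (y.2 : ℕ)).toRow.fr (Enl.op p n y.1 τ) := hη y _ hm
      rw [h3]
      exact frowJ_fr hp hD hQ hb (by omega) ht y.1.2 (Nat.lt_succ_iff.1 y.2.2) h1 h2
    refine ⟨clrD hp hD hQ hg hδ hδg hn hcol ht fun k h => h, ?_⟩
    have hcX : ∀ v ∈ frmQ p (mks p b tp) n ⌊δ * n⌋₊, η v = decide (sB bc ≠ 1) := ?_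
    · exact clrX (p := p) (Q := mks p b tp) (n := n) (t := t) (δ := δ) (n' := n') (P' := P')
        (u' := u') (ι := ι) (s := sB bc) hcX fun k h => h
    intro v hv
    obtain ⟨y, τ, h1, h2, rfl⟩ := mem_frmQ.1 hv
    rw [hcol y τ h1 h2]
    have hτ : τ < n := by
      have := (Enl.rows_marks (p := p) hQ hg hδ hδg hn).hi y
      omega
    have h5 := Enl.kOf_lt y.1.2 hτ ht
    rcases hbc with hbc | hbc
    · rw [hbc]
      show decide (¬ kOf l n t y.1 τ < l * n) = decide ((1 : ℝ) ≠ 1)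
      rw [decide_eq_false (not_not.2 h5), decide_eq_false (by norm_num)]
    · rw [hbc]
      show decide (¬ kOf l n t y.1 τ < 0) = decide ((-1 : ℝ) ≠ 1)
      rw [decide_eq_true (Nat.not_lt_zero _), decide_eq_true (by norm_num)]
  · have ht' := tB_lt (n := n) hQ b5
    have hbd : Bd ((enl S₀ n ∪ frmQ p (mks p b tp) n ⌊δ * n⌋₊ : Finset (ℤ × ℤ)) : Set (ℤ × ℤ)) n'
        (sP P' (ι t)) (sU u' (ι t) 4) 1 := by
      have h1 := bd_base hP.bd (ι t) (κ := 4) (by norm_num)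
      rw [rws_frm hp hD hQ hg hδ hδg hn, ← coe_union] at h1
      exact h1
    have hcv : Cov ((enl S₀ n ∪ frmQ p (mks p b tp) n ⌊δ * n⌋₊ : Finset (ℤ × ℤ)) : Set (ℤ × ℤ))
        (sP P' (ι t)) (sU u' (ι t) 4) := by
      have h1 := cov_base hP.cov hP.bd (by omega) (ι t) (κ := 4) (by norm_num)
      rw [rws_frm hp hD hQ hg hδ hδg hn, ← coe_union] at h1
      exact h1
    refine ⟨⟨sP P' (ι t), sU u' (ι t) 4, hbd, hcv, rfl, rfl⟩, hn', rfl, rfl, ?_⟩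
    show revP n' (sP P' (ι t)) 0 = _
    obtain ⟨b', hb'⟩ : ∃ b', n' = b' + 1 := ⟨n' - 1, by omega⟩
    have e0 : revP n' (sP P' (ι t)) 0 = P' (ι t) := by
      subst hb'
      unfold revP sP
      simp only [Nat.add_sub_cancel, zero_add, mul_one]
      rw [show b' + 1 + ι t = ι t + (b' + 1) by ring, hP.bd.perP]
    rw [e0, hP.far t (by omega) hin]
    have h2 := pW_vp (p := p) b5 ht' hl (i := 0) (σ := t) ht
    rw [zero_mul, zero_add] at h2
    have h3 := uW_mod hp hD b5 ht' (i := 0) (σ := t) ht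
    rw [zero_mul, zero_add] at h3
    rw [h2, vec_pred h3]

/-- The outer site of the base of a free or wired frame. -/
noncomputable def zXP (p : ZMod l → ℤ × ℤ) (n : ℕ) (tp : ℝ) (bc : Bc) : ℤ × ℤ :=
  vp p n 0 (tP p n tp bc : ℤ) + dir (pdir p 0 - 1)

/-- The boxes of the holes increase. -/
theorem FrS.hB_mono {Y : Type} (Φ : FrS Y) {δ : ℝ} {n : ℕ} {R R' : ℤ} (h : R ≤ R') :
    (Φ.hB δ n R : Set (ℤ × ℤ)) ⊆ (Φ.hB δ n R' : Set (ℤ × ℤ)) := by
  intro v hv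
  rw [mem_coe] at hv ⊢
  obtain ⟨x, h1, h2⟩ := mem_biUnion.1 hv
  refine mem_biUnion.2 ⟨x, h1, ?_⟩
  simp only [Bq, Finset.mem_product, Finset.mem_Ico] at h2 ⊢
  omega

/-- **(P2S), free and wired frames, the deterministic part.** -/
theorem to_frP [NeZero l] (hp : IsPolygon p) (hD : Encloses p S₀) (hN : Nrm p)
    (hQ : (mks p b tp).Ok) (hg : Gap (mks p b tp) l g) (hδ : 0 < δ) (hδg : 4 * δ ≤ g)
    (hn : 16 ≤ δ * n) (hbc : bc = .free ∨ bc = .wired) (hs : Real.sin θ ≠ 0)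
    (hcos : Real.cos θ ≠ 0) {R₃ : ℤ} (hR : (⌊δ * n⌋₊ : ℤ) + 4 ≤ R₃) {ω : Cfg} (hω : FK.Good ω)
    (hfz : (frP θ β p S₀ b tp bc).Frz (rowS θ) δ n ω)
    (hA : ∃ e' e'' t M M', ArmX (enl S₀ n ∪ (frP θ β p S₀ b tp bc).U (rowS θ) δ n)
      (zXP p n tp bc) ω e' e'' t M M') :
    (frP θ β p S₀ b tp bc).TO (rowS θ) θ δ n R₃ ω ≠ 0 := by
  obtain ⟨cD, cX, h1, h2, h3⟩ := oneF_out (θ := θ) (β := β) hp hD hN hQ hg hδ hδg hn hbc
  have F := h1 _ ((frP θ β p S₀ b tp bc).hB_mono (δ := δ) (n := n) hR)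
  obtain ⟨hcD, hcX⟩ := h2 ω hfz ((frP θ β p S₀ b tp bc).hB δ n R₃ : Set (ℤ × ℤ))
  obtain ⟨⟨P₀, u₀, g1, g2, g3, g4⟩, g5, g6, g7, g8⟩ := h3
  refine F.TO_ne hcD hcX hω hs hcos fun ℓ C => ?_
  refine nk_of g5 g1 g2 subset_union_right rfl g3 g4 C (by omega) (by omega) (fun _ => ?_)
    fun _ => ?_
  · rw [g6, g8]
    exact hA
  · rw [g7, g8]
    exact hA

end Vale.Agent.P167.N.ID
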