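import Vale.Agent.P167.N.Kit
import Vale.Agent.P167.N.H506.Q.EF
import Vale.Agent.P167.N.H506.Q.Hole
import Vale.Agent.P167.H825.S.Low
import Vale.Agent.P167.H825.S.Fin

/-!
# P167, `q < 1`, START: the lower bound, independent of the rows

`HArm`: the arms at the holes are rare, given the frozen squares, against the function `T`.
`low_gen`: a lower bound by a majorant on the event that there are no arms at the holes.
`mix_gen`: the functions near the holes and off the holes are almost independent.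
`h7_gen`: the lower bound.
-/

set_option autoImplicit false

namespace Vale.Agent.P167.N.ID

open Finset MeasureTheory

open Vale.Agent.P167 Vale.Agent.P167.N

open Vale.Agent.P167.FK

open Vale.Agent.P167.FKA (Loc Ind)

open Vale.Agent.P167.H519 (IsLim)

open Vale.Agent.P167.QX (QL)

open Vale.Agent.P167.H398.Q

open Vale.Agent.P167.H506.Q (EF RM fac_le fac)

variable {q : ℝ} {K : Finset (ℤ × ℤ)} {κ : Cfg} {P : Measure Cfg} {ι : Type}

theorem i01 (S : Set Cfg) (ω : Cfg) :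
    0 ≤ (S.indicator 1 ω : ℝ) ∧ (S.indicator 1 ω : ℝ) ≤ 1 := by
  by_cases hS : ω ∈ S
  · rw [Set.indicator_of_mem hS]; exact ⟨zero_le_one, le_rfl⟩
  · rw [Set.indicator_of_notMem hS]; exact ⟨le_rfl, zero_le_one⟩

/-- The indicator of the event that a function is not zero. -/
theorem cb_ne {F : Cfg → ℝ} (h : CB F) : CB ({ω | F ω ≠ 0}.indicator (1 : Cfg → ℝ)) := by
  classical
  obtain ⟨h1, -⟩ := h
  refine ⟨(h1.comp fun x => if x ≠ 0 then (1 : ℝ) else 0).congr fun ω _ => ?_, 1, fun ω _ => ?_⟩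
  · by_cases h2 : F ω ≠ 0
    · rw [if_pos h2, Set.indicator_of_mem (show ω ∈ {ω | F ω ≠ 0} from h2)]; rfl
    · rw [if_neg h2, Set.indicator_of_notMem (show ω ∉ {ω | F ω ≠ 0} from h2)]
  · obtain ⟨h3, h4⟩ := i01 {ω | F ω ≠ 0} ω
    rw [abs_of_nonneg h3]
    exact h4

/-- The arms at the holes are rare, given the frozen squares, against the functions which do not
depend on the annuli. -/
def HArm (P : Measure Cfg) (K : Finset (ℤ × ℤ)) (κ : Cfg) (J : Finset ι) (b : ι → Bool)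
    (c : ι → ℤ × ℤ) (r R : ℤ) (ε : ℝ) : Prop :=
  ∀ i ∈ J, ∀ T : Cfg → ℝ, (∀ ω, 0 ≤ T ω) → CB T → Ind ((Bq (c i) R \ Bq (c i) r) \ K) T →
    EF P K κ (fun ω => T ω * {ω | Arm (b i) (c i) r R ω}.indicator 1 ω) ≤ ε * EF P K κ T

/-- **The mean off the arms.** -/
theorem mean_NA [IsFiniteMeasure P] (hg : ∀ᵐ ω ∂P, Good ω) {J : Finset ι} {c : ι → ℤ × ℤ}
    {b : ι → Bool} {r R : ℤ} {ε : ℝ} (h : HArm P K κ J b c r R ε) {T ψ : Cfg → ℝ}
    (hT0 : ∀ ω, 0 ≤ T ω) (cT : CB T) (hTi : ∀ i ∈ J, Ind ((Bq (c i) R \ Bq (c i) r) \ K) T)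
    (cψ : CB ψ) (hψ : ∀ ω, 0 ≤ ψ ω ∧ ψ ω ≤ 1) :
    EF P K κ (fun ω => T ω * ψ ω) ≤
      EF P K κ (fun ω => T ω * (ψ ω * (NA J b c r R).indicator 1 ω)) +
        J.card * ε * EF P K κ T := by
  classical
  refine (fn_EF hg).union (CB.const 0) J (A := fun i => {ω | Arm (b i) (c i) r R ω}.indicator 1)
    cT (cψ.mul cb_NA) (fun i _ => CB.of_loc (Arm.loc (b i) (c i) r R)) cψ (fun ω _ => hT0 ω)
    (fun ω _ => ?_) fun i hi => h i hi T hT0 cT (hTi i hi)
  obtain ⟨h1, h2⟩ := hψ ω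
  have h3 : ∀ i, (0 : ℝ) ≤ ({ω | Arm (b i) (c i) r R ω}.indicator 1 ω) := fun i =>
    Set.indicator_nonneg (fun _ _ => zero_le_one) _
  by_cases hn : ω ∈ NA J b c r R
  · rw [Set.indicator_of_mem hn, Pi.one_apply, mul_one]
    have := Finset.sum_nonneg fun i (_ : i ∈ J) => h3 i
    linarith
  · rw [Set.indicator_of_notMem hn, mul_zero, zero_add]
    unfold NA at hn
    rw [Set.mem_ofPred_eq] at hn
    push Not at hn
    obtain ⟨i, hi, ha⟩ := hn
    have h4 := Finset.single_le_sum (fun j (_ : j ∈ J) => h3 j) hi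
    rw [Set.indicator_of_mem (show ω ∈ {ω | Arm (b i) (c i) r R ω} from ha),
      Pi.one_apply] at h4
    exact h2.trans h4

/-- **The lower bound for one factor.** `T`: the factor, `B`: the product over the loops (`B ≠ 0`
with positive probability given `T`), `D`: this product on the event that there are no arms. -/
theorem low_gen [IsFiniteMeasure P] (hg : ∀ᵐ ω ∂P, Good ω) {J : Finset ι} {c : ι → ℤ × ℤ}
    {b : ι → Bool} {r R : ℤ} {ε : ℝ} (h : HArm P K κ J b c r R ε) {T B D : Cfg → ℝ}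
    (hT0 : ∀ ω, 0 ≤ T ω) (cT : CB T) (hTi : ∀ i ∈ J, Ind ((Bq (c i) R \ Bq (c i) r) \ K) T)
    (cB : CB B) (cD : CB D) {A M CP : ℝ} (hA : 1 ≤ A) (hM : 0 < M) (hCP : 0 < CP) {N : Cfg → ℕ}
    {BN : Finset (ℤ × ℤ)} (hN : ∀ ω ω' : Cfg, (∀ v ∈ BN, ω v = ω' v) → N ω = N ω')
    (hd : ∀ ω, Good ω → (∀ v ∈ K, ω v = κ v) → ω ∈ NA J b c r R → B ω ≠ 0 →
      T ω ≤ A ^ (N ω + 1) * D ω)
    (hD : ∀ ω, Good ω → (∀ v ∈ K, ω v = κ v) → 0 ≤ D ω)
    (h2 : EF P K κ (fun ω => T ω * (A ^ (N ω + 1)) ^ 2) ≤ M * EF P K κ T)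
    (hP : EF P K κ T ≤ CP * EF P K κ (fun ω => T ω * {ω | B ω ≠ 0}.indicator 1 ω))
    (hε : J.card * ε ≤ 1 / (2 * CP)) : EF P K κ T ≤ 4 * M * CP ^ 2 * EF P K κ D := by
  classical
  have hA0 : 0 < A := by linarith
  have e0 : 0 ≤ EF P K κ T := H506.Q.EF_nonneg hT0
  have key := mean_NA hg h hT0 cT hTi (cb_ne cB) fun ω => i01 _ ω
  have h3 : (1 / (2 * CP)) * EF P K κ T ≤ EF P K κ (fun ω =>
      T ω * ({ω | B ω ≠ 0}.indicator 1 ω * (NA J b c r R).indicator 1 ω)) := by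
    have a1 := mul_le_mul_of_nonneg_right hε e0
    have a2 : 1 / CP * EF P K κ T ≤ EF P K κ (fun ω => T ω * {ω | B ω ≠ 0}.indicator 1 ω) := by
      rw [one_div, inv_mul_le_iff₀ hCP]
      exact hP
    have a3 : (1 : ℝ) / CP = 1 / (2 * CP) + 1 / (2 * CP) := by field_simp; norm_num
    rw [a3, add_mul] at a2
    linarith
  have := (fn_EF (K := K) (κ := κ) hg).low cT
    (H := fun ω => A ^ (N ω + 1)) (CB.of_loc (B := BN) fun ω ω' h => by
      show A ^ (N ω + 1) = A ^ (N ω' + 1)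
      rw [hN ω ω' h])
    ((cb_ne cB).mul (cb_NA (J := J) (b := b) (c := c) (r := r) (R := R))) cD hM
    (by positivity : (0 : ℝ) < 1 / (2 * CP)) (fun ω _ => hT0 ω) (fun ω _ => one_le_pow₀ hA)
    (fun ω _ => ?_) (fun ω hω => ?_) h2 h3
  · calc _ ≤ M / (1 / (2 * CP)) ^ 2 * _ := this
      _ = _ := by field_simp; ring
  · have b1 := i01 {ω | B ω ≠ 0} ω
    have b2 := i01 (NA J b c r R) ω
    exact ⟨mul_nonneg b1.1 b2.1, mul_le_one₀ b1.2 b2.1 b2.2⟩
  · have h5 := hD ω hω.1 hω.2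
    have h6 : 0 ≤ A ^ (N ω + 1) * D ω := mul_nonneg (pow_pos hA0 _).le h5
    by_cases hN' : ω ∈ NA J b c r R
    · rw [Set.indicator_of_mem hN', Pi.one_apply, mul_one]
      by_cases hne : B ω ≠ 0
      · rw [Set.indicator_of_mem (show ω ∈ {ω | B ω ≠ 0} from hne), Pi.one_apply, mul_one]
        exact hd ω hω.1 hω.2 hN' hne
      · rw [Set.indicator_of_notMem (show ω ∉ {ω | B ω ≠ 0} from hne), mul_zero]
        exact h6
    · rw [Set.indicator_of_notMem hN', mul_zero, mul_zero]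
      exact h6

/-- **Mixing at the holes**, ratio form with the constant `2`. -/
theorem mix_gen (hQ : Kit q) (hP : IsLim q P) (hg : ∀ᵐ ω ∂P, Good ω) {J : Finset ι}
    {c : ι → ℤ × ℤ} {r R : ℤ} {ε : ℝ}
    (h : RM q K κ ((J.biUnion fun i => Bq (c i) R) \ K) ((J.biUnion fun i => Bq (c i) r) \ K)
      (fac J.card ε)) (hε0 : 0 ≤ ε) (hε1 : ε < 1) (hε : 8 * J.card * ε ≤ 1) {T G : Cfg → ℝ}
    (hT0 : ∀ ω, 0 ≤ T ω) (hT : Loc (J.biUnion fun i => Bq (c i) r) T) (hG0 : ∀ ω, 0 ≤ G ω)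
    (cG : CB G) (hG : Ind ((J.biUnion fun i => Bq (c i) R) \ K) G) :
    EF P K κ (fun ω => G ω * T ω) ≤ 2 * (EF P K κ G * EF P K κ T) ∧
      EF P K κ G * EF P K κ T ≤ 2 * EF P K κ (fun ω => G ω * T ω) := by
  obtain ⟨M, hM⟩ := cG.2
  have hT' : Loc (((J.biUnion fun i => Bq (c i) r) \ K) ∪ K) T := by
    rw [Finset.sdiff_union_self_eq_union]
    exact fun ω ω' hh => hT ω ω' fun v hv => hh v (mem_union_left _ hv)
  obtain ⟨h1, h2⟩ := Vale.Agent.P167.N.H506.Q.RM.EF_ratio hQ h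
    Finset.sdiff_disjoint hP hg hT0 hT' hG0 cG.1 hM hG
  have h3 := fac_le hε0 hε hε1
  have h4 : fac J.card ε ≤ 2 := by linarith
  exact ⟨h1.trans (mul_le_mul_of_nonneg_right h4 (mul_nonneg (H506.Q.EF_nonneg hG0)
    (H506.Q.EF_nonneg hT0))), h2.trans (mul_le_mul_of_nonneg_right h4
    (H506.Q.EF_nonneg fun ω => mul_nonneg (hG0 ω) (hT0 ω)))⟩

/-- The expectations given the frozen squares only depend on the good configurations with the
frozen values. -/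
theorem EF_okc [IsFiniteMeasure P] (hg : ∀ᵐ ω ∂P, Good ω) {F G : Cfg → ℝ} (hF : CB F) (hG : CB G)
    (h : ∀ ω, Good ω → (∀ v ∈ K, ω v = κ v) → F ω = G ω) : EF P K κ F = EF P K κ G :=
  le_antisymm ((fn_EF hg).mono hF hG fun ω hω => (h ω hω.1 hω.2).le)
    ((fn_EF hg).mono hG hF fun ω hω => (h ω hω.1 hω.2).ge)

/-- **Mixing at the holes**, lower bound, for a function which is nonnegative on the good
configurations with the frozen values. -/
theorem mix_low (hQ : Kit q) (hP : IsLim q P) (hg : ∀ᵐ ω ∂P, Good ω) {J : Finset ι}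
    {c : ι → ℤ × ℤ} {r R : ℤ} {ε : ℝ}
    (h : RM q K κ ((J.biUnion fun i => Bq (c i) R) \ K) ((J.biUnion fun i => Bq (c i) r) \ K)
      (fac J.card ε)) (hε0 : 0 ≤ ε) (hε1 : ε < 1) (hε : 8 * J.card * ε ≤ 1) {T G : Cfg → ℝ}
    (hT0 : ∀ ω, 0 ≤ T ω) (hT : Loc (J.biUnion fun i => Bq (c i) r) T) (cG : CB G)
    (hG0 : ∀ ω, Good ω → (∀ v ∈ K, ω v = κ v) → 0 ≤ G ω)
    (hG : ∀ ω ω' : Cfg, Good ω → Good ω' → (∀ v ∉ J.biUnion fun i => Bq (c i) R, ω v = ω' v) →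
      G ω = G ω') :
    EF P K κ G * EF P K κ T ≤ 2 * EF P K κ (fun ω => G ω * T ω) := by
  classical
  have hPp : IsProbabilityMeasure P := hP.1
  have cGg := (cb_Gg cG).abs
  have hpos : ∀ ω : Cfg, Good ω → (∀ v ∈ K, ω v = κ v) → |Gg G ω| = G ω := by
    intro ω hω hωσ
    rw [Gg_good hω, abs_of_nonneg (hG0 ω hω hωσ)]
  have hind : Ind ((J.biUnion fun i => Bq (c i) R) \ K) fun ω => |Gg G ω| := by
    intro ω ω' hh
    have hh' : ∀ v ∉ J.biUnion fun i => Bq (c i) R, ω v = ω' v := fun v hv =>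
      hh v fun hv' => hv (mem_sdiff.1 hv').1
    show |Gg G ω| = |Gg G ω'|
    unfold Gg
    by_cases hgo : Good ω
    · have hgo' := good_of hh' hgo
      rw [if_pos hgo, if_pos hgo', hG ω ω' hgo hgo' hh']
    · rw [if_neg hgo, if_neg fun hgo' => hgo ((good_iff hh').2 hgo')]
  have cT : CB T := CB.of_loc hT
  have key := (mix_gen hQ hP hg h hε0 hε1 hε hT0 hT (fun ω => abs_nonneg _) cGg hind).2
  rw [EF_okc hg cGg cG hpos, EF_okc hg (cGg.mul cT) (cG.mul cT) fun ω h2 h3 => by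
    show |Gg G ω| * T ω = G ω * T ω
    rw [hpos ω h2 h3]] at key
  exact key

/-- **The lower bound**, from the bounds for the two factors and mixing. -/
theorem h7_gen {T J DT DJ : Cfg → ℝ} {a b : ℝ} (ha : 0 ≤ a) (hb : 0 ≤ b)
    (hT0 : ∀ ω, 0 ≤ T ω) (hJ0 : ∀ ω, 0 ≤ J ω)
    (sT : EF P K κ T ≤ a * EF P K κ DT) (sJ : EF P K κ J ≤ b * EF P K κ DJ)
    (m1 : EF P K κ (fun ω => J ω * T ω) ≤ 2 * (EF P K κ J * EF P K κ T))
    (m2 : EF P K κ DJ * EF P K κ DT ≤ 2 * EF P K κ (fun ω => DJ ω * DT ω)) :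
    EF P K κ (fun ω => T ω * J ω) ≤ 4 * a * b * EF P K κ (fun ω => DJ ω * DT ω) := by
  have p1 := H506.Q.EF_nonneg (P := P) (K := K) (κ := κ) hT0
  have p2 := H506.Q.EF_nonneg (P := P) (K := K) (κ := κ) hJ0
  have u1 := mul_le_mul sJ sT p1 (p2.trans sJ)
  have e : EF P K κ (fun ω => T ω * J ω) = EF P K κ (fun ω => J ω * T ω) := by
    congr 1
    funext ω
    ring
  rw [e]
  calc _ ≤ 2 * (EF P K κ J * EF P K κ T) := m1
    _ ≤ 2 * ((b * _) * (a * _)) := mul_le_mul_of_nonneg_left u1 zero_le_two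
    _ = 2 * a * b * (EF P K κ DJ * EF P K κ DT) := by ring
    _ ≤ 2 * a * b * (2 * _) := mul_le_mul_of_nonneg_left m2 (by positivity)
    _ = _ := by ring

end Vale.Agent.P167.N.ID
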