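import Vale.Agent.P167.N.Base.ArmMDef
import Vale.Agent.P167.N.ID.LowA
import Vale.Agent.P167.N.H506.Q.ArmF
import Vale.Agent.P167.H601.Q.Split

/-!
# P167, `q < 1`, START: the arm inputs of the abstract closed frame, from the arm bounds

* `hin_of`: the arms inside of a domain are rare (hypothesis `hin` of `cls_gen`, `h6_gen`).
* `harm_of`: the arms at the holes are rare given the frozen squares (`HArm` of `low_gen`).
-/

set_option autoImplicit false

namespace Vale.Agent.P167.N.ID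

open Finset MeasureTheory

open Vale.Agent.P167 Vale.Agent.P167.N

open Vale.Agent.P167.FK Vale.Agent.P167.FKA

open Vale.Agent.P167.H519 (IsLim)

open Vale.Agent.P167.H632 (cs pr)

open Vale.Agent.P167.H635 (Ann mem_Ann)

open Vale.Agent.P145.FB (PStep PConn)

open Vale.Agent.P167.H398.Q (Arm NA CB)

open Vale.Agent.P167.H601.Q (InA ArmI fc par)

open Relation (ReflTransGen)

variable {Q α C : ℝ} {K D : Finset (ℤ × ℤ)} {κ η : Cfg} {P : Measure Cfg} {ι : Type}
  {x : ℤ × ℤ} {r R : ℤ} {b : Bool}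

theorem fc_cs (b : Bool) (ω : Cfg) : fc b ω = cs (!b) ω := by
  ext v
  show ω v ≠ b ↔ ω v = !b
  cases b <;> simp

theorem par_pr {b : Bool} {s : ℤ × ℤ} (h : par b s) : (s.1 + s.2) % 2 = pr (!b) := by
  unfold par at h
  cases b
  · simpa [pr] using Int.even_iff.1 h
  · simpa [pr] using Int.odd_iff.1 h

/-- An arm inside of `D` uses only squares of `D` in the annulus. -/
theorem ina_armE (hrR : r ≤ R) : InA b x r R D ⊆ ArmE (!b) x r R (D ∩ Ann x r R) := by
  rintro ω ⟨u, v, h1, h2, h3, h4⟩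
  rw [← armE_ann hrR]
  refine ⟨u, v, par_pr h1, h2, h3, ?_⟩
  rw [← fc_cs]
  exact ReflTransGen.mono (fun a b k => k.1) _ _ h4.2

/-- **The arms inside of a domain are rare.** -/
theorem hin_of (hQ0 : 0 < Q) (h : ArmM Q α C) (hr : 1 ≤ r) (hrR : r ≤ R) (hη : Good η)
    (hs : H635.Shp D x r R) :
    Ex Q D η ((InA b x r R D).indicator 1) ≤ C * ((r : ℝ) / R) ^ α :=
  (Pr_mono hQ0 (ina_armE hrR)).trans
    ((h.at (e := !b) hr hrR hs).pr hQ0 hη inter_subset_left)

/-- **The arms at the holes are rare**, given the frozen squares. -/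
theorem harm_of (hQ : Kit Q) (hP : IsLim Q P) (hg : ∀ᵐ ω ∂P, Good ω) (h : ArmS Q α C)
    {J : Finset ι} {b : ι → Bool} {c : ι → ℤ × ℤ} (hr : 1 ≤ r) (hrR : r ≤ R)
    (hcol : ∀ i ∈ J, ∀ v ∈ K, v ∈ Bq (c i) R → κ v = b i)
    (hs : ∀ i ∈ J, Shp (K : Set (ℤ × ℤ)) (c i) r R) :
    HArm P K κ J b c r R (C * ((r : ℝ) / R) ^ α) := by
  intro i hi T hT0 cT hT
  obtain ⟨hq, M, hM⟩ := cT
  have hc : ∀ v ∈ K, v ∈ Bq (c i) R \ Bq (c i) r → κ v = b i := fun v hv hv' =>
    hcol i hi v hv (mem_sdiff.1 hv').1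
  cases hb : b i with
  | false =>
    rw [hb] at hc
    exact Vale.Agent.P167.N.H506.Q.EF_arm_cl hQ hP hg h hr hrR hc (hs i hi) hT0 hq hM hT
  | true =>
    rw [hb] at hc
    exact Vale.Agent.P167.N.H506.Q.EF_arm_op hQ hP hg h hr hrR hc (hs i hi) hT0 hq hM hT

end Vale.Agent.P167.N.ID
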