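import Vale.Agent.P167.N.ID.ArmDef
import Vale.Agent.P167.H192.TA.Str
import Vale.Agent.P167.H871.Q.Alt
import Vale.Agent.P167.QX.Hole

/-!
# P167, the range `0 < q < 1`: no strand over a site of the contour, so an arm

`q`: the contour of `I`, `z = q t` a site of colour `c`. If no strand goes over `z` inside of `B` on
the side of the colour `c`, then `z` is joined by the colour `c` to the outside of `B`. (Follow the
strands with the neighbouring site of colour `c` joined to `z`; no topology.)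
-/

namespace Vale.Agent.P167.N.ID

open Finset Relation
open Vale.Agent.P167
open Vale.Agent.P145.FB (PStep)
open Vale.Agent.P167.FK
open Vale.Agent.P167.E6 (IsPolygon Encloses)
open Vale.Agent.P167.H871 (IsC Bd)
open Vale.Agent.P167.Top
open Vale.Agent.P167.H632 (cs pr)
open Vale.Agent.P167.H192.TA (Pw sc sc_nx)
open Vale.Agent.P167.BR (be be_even be_odd)
open Vale.Agent.P167.XDL (bS mem_bS exists_idx be_ne)
open Vale.Agent.P167.H199 (strand ret Returns ret_min ret_le)
open Vale.Agent.P167.QX (exc_last out_stays returns_good)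
open Vale.Agent.P167.H871.Q (Foot Stays)

variable {n : ℕ} {q : ZMod n → ℤ × ℤ} {I : Finset (ℤ × ℤ)} {u : ℕ → ℤ} {ω : Cfg}
  {B : Finset (ℤ × ℤ)} {c : Bool} {e : Ed} {t : ℕ} {z : ℤ × ℤ}

/-- No connection of colour `c` from `z` to the outside of `B`. -/
def NoArm (c : Bool) (I B : Finset (ℤ × ℤ)) (z : ℤ × ℤ) (ω : Cfg) : Prop :=
  ∀ s v, Pw (cs c ω ∩ ↑(B \ I)) z s → IsC v s → v ∈ B

theorem sc_isC (c : Bool) (e : Ed) : IsC (hdv e) (sc c e) ∧ IsC (tlv e) (sc c e) :=
  H135.Z.sd_isC c e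

/-- A strand whose site of colour `c` is joined to `z` stays in `B`, and its last site is joined to
`z`. -/
theorem strand_in (hN : NoArm c I B z ω) (h1 : hdv e ∉ I) (_hr : Returns (nx ω) (bS I) e)
    (h : Pw (cs c ω ∩ ↑(B \ I)) z (sc c e)) :
    Stays I (B : Set (ℤ × ℤ)) ω e ∧
      Pw (cs c ω ∩ ↑(B \ I)) z (sc c ((nx ω)^[ret (nx ω) (bS I) e] e)) := by
  have key : ∀ k ≤ ret (nx ω) (bS I) e,
      (∀ l < k, hdv ((nx ω)^[l] e) ∈ B) ∧ Pw (cs c ω ∩ ↑(B \ I)) z (sc c ((nx ω)^[k] e)) := by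
    intro k
    induction k with
    | zero => intro _; exact ⟨fun l hl => absurd hl (by omega), h⟩
    | succ k ih =>
      intro hk
      obtain ⟨h2, h3⟩ := ih (by omega)
      have h4 : hdv ((nx ω)^[k] e) ∈ B := hN _ _ h3 (sc_isC c _).1
      have h5 : hdv ((nx ω)^[k] e) ∉ I := out_stays h1 (by omega)
      refine ⟨fun l hl => ?_, ?_⟩
      · rcases Nat.lt_or_ge l k with h6 | h6
        · exact h2 l h6
        · rw [le_antisymm (by omega : l ≤ k) h6]
          exact h4
      · rw [Function.iterate_succ_apply']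
        rcases sc_nx (ω := ω) (D := B \ I) (e := (nx ω)^[k] e) c
          (mem_sdiff.2 ⟨h4, h5⟩) with h6 | h6
        · rw [h6]
          exact h3
        · exact h3.tail h6
  exact ⟨fun k hk => mem_coe.2 ((key _ le_rfl).1 k hk), (key _ le_rfl).2⟩

/-- Finite chains. -/
theorem chain_end {S : Set ℕ} (hS : S.Finite) {f : ℕ → ℕ} {t : ℕ} (ht : t ∈ S)
    (hf : ∀ i ∈ S, f i ∈ S) (hne : ∀ i ∈ S, f i ≠ t)
    (hinj : ∀ i ∈ S, ∀ j ∈ S, f i = f j → i = j) : False := by
  have := hS.to_subtype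
  have hi : Function.Injective fun i : S => (⟨f i.1, hf i.1 i.2⟩ : S) := by
    rintro ⟨i, h1⟩ ⟨j, h2⟩ h
    exact Subtype.ext (hinj i h1 j h2 (congrArg Subtype.val h))
  obtain ⟨⟨i, h1⟩, h2⟩ := Finite.surjective_of_injective hi ⟨t, ht⟩
  exact hne i h1 (congrArg Subtype.val h2)

/-- The last edges of different strands are different. -/
theorem last_inj {S : Finset Ed} {e e' : Ed} (he : e ∈ S) (he' : e' ∈ S)
    (hr : Returns (nx ω) S e) (hr' : Returns (nx ω) S e')
    (h : (nx ω)^[ret (nx ω) S e] e = (nx ω)^[ret (nx ω) S e'] e') : e = e' := by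
  have key : ∀ (e e' : Ed), e ∈ S → e' ∈ S → Returns (nx ω) S e → Returns (nx ω) S e' →
      ret (nx ω) S e ≤ ret (nx ω) S e' →
      (nx ω)^[ret (nx ω) S e] e = (nx ω)^[ret (nx ω) S e'] e' → e = e' := by
    intro e e' he he' hr hr' hle h
    have h1 : e = (nx ω)^[ret (nx ω) S e' - ret (nx ω) S e] e' := by
      apply (s_nx ω).1.iterate (ret (nx ω) S e)
      rw [h, ← Function.iterate_add_apply, Nat.add_sub_cancel' hle]
    rcases Nat.eq_zero_or_pos (ret (nx ω) S e' - ret (nx ω) S e) with h2 | h2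
    · rw [h1, h2]
      rfl
    · have h3 := hr.spec.1
      exact absurd (h1 ▸ he) (ret_min h2 (by omega))
  rcases le_total (ret (nx ω) S e) (ret (nx ω) S e') with hle | hle
  · exact key e e' he he' hr hr' hle h
  · exact (key e' e he' he hr' hr hle h.symm).symm

section poly

variable (hq : IsPolygon q) (hI : Encloses q I)
  (hu : Bd (I : Set (ℤ × ℤ)) n (fun k => q (k : ZMod n)) u 1)

include hq hI hu

/-- The feet of a strand. -/
theorem exists_foot (h1 : hdv e ∉ I) (he : e ∈ bS I) (hr : Returns (nx ω) (bS I) e) {i : ℕ}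
    (hi : i < n) (hie : e = be q (i : ZMod n)) : ∃ j, Foot q I ω e i j := by
  obtain ⟨j, hj, h2⟩ := exists_idx hq hI hu hr.spec.2
  refine ⟨j, hi, hj, h1, ?_, hr, hie, h2⟩
  rw [mem_bS] at he
  rcases he with h | h
  · exact absurd h.1 h1
  · exact h.2

/-- **A dual site.** -/
theorem chain_odd (hg : Good ω) (ht : t < n) (hodd : ¬ Even ((q (t : ZMod n)).1 + (q (t : ZMod n)).2))
    (hN : NoArm false I B (q (t : ZMod n)) ω)
    (hlast : ∀ w, (w = hdv (be q ((n - 1 : ℕ) : ZMod n)) ∨ w = tlv (be q ((n - 1 : ℕ) : ZMod n))) →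
      w ∉ I → w ∉ B) :
    ∃ e i j, Foot q I ω e i j ∧ t ≤ i ∧ j < t ∧ Stays I (B : Set (ℤ × ℤ)) ω e := by
  by_contra hcon
  push Not at hcon
  obtain ⟨S, hS⟩ : ∃ S : Set ℕ, S = {i | t ≤ i ∧ i < n ∧
    ¬ Even ((q (i : ZMod n)).1 + (q (i : ZMod n)).2) ∧
    Pw (cs false ω ∩ ↑(B \ I)) (q (t : ZMod n)) (q (i : ZMod n))} := ⟨_, rfl⟩
  have hfin : S.Finite := (Set.finite_lt_nat n).subset fun i hi => by
    rw [hS] at hi
    exact hi.2.1
  have step : ∀ i ∈ S, ∃ j, Foot q I ω (be q (i : ZMod n)) i j ∧ t ≤ j ∧ j + 1 < n ∧ j + 1 ∈ S := by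
    intro i hi
    rw [hS] at hi
    obtain ⟨h1, h2, h3, h4⟩ := hi
    obtain ⟨g1, g2, g3, g4⟩ := be_odd hq hI h3
    have hbs : be q (i : ZMod n) ∈ bS I := by
      rw [mem_bS]
      exact Or.inr ⟨g4, g3⟩
    have hr := returns_good hg hbs (ω := ω)
    obtain ⟨j, F⟩ := exists_foot hq hI hu g4 hbs hr h2 rfl
    have h5 : Pw (cs false ω ∩ ↑(B \ I)) (q (t : ZMod n)) (sc false (be q (i : ZMod n))) := by
      show Pw _ _ (rs (be q (i : ZMod n)))
      rw [g1]
      exact h4
    obtain ⟨h6, h7⟩ := strand_in hN g4 hr h5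
    have h8 : t ≤ j := by
      by_contra hlt
      exact hcon _ i j F h1 (by omega) h6
    have h9 := F.even hq hI
    obtain ⟨k1, k2, k3, k4⟩ := be_even hq hI h9
    rw [F.e2] at h7
    change Pw _ _ (rs (be q (j : ZMod n))) at h7
    rw [k2] at h7
    have hjn : j + 1 < n := by
      rcases Nat.lt_or_ge (j + 1) n with h | h
      · exact h
      · exfalso
        have hj : j = n - 1 := by have := F.hj; omega
        rw [hj] at k4
        refine hlast _ (Or.inr rfl) k4 ?_
        have h10 := H871.Q.tl_last hr h6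
        rw [F.e2, hj] at h10
        exact mem_coe.1 h10
    refine ⟨j, F, h8, hjn, ?_⟩
    rw [hS]
    refine ⟨by omega, hjn, ?_, ?_⟩
    · have hp := h7.parity
      push_cast
      rw [Int.even_iff] at hodd ⊢
      omega
    · rw [Nat.cast_succ]
      exact h7
  choose! f hf1 hf2 hf3 hf4 using step
  refine chain_end hfin (f := fun i => f i + 1) (t := t) ?_ hf4 (fun i hi => ?_) ?_
  · rw [hS]
    exact ⟨le_rfl, ht, hodd, ReflTransGen.refl⟩
  · have := hf2 i hi
    omega
  · intro i hi j hj hij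
    have hij' : f i = f j := by simpa using hij
    have h1 := hf1 i hi
    have h2 := hf1 j hj
    have h3 := h1.e2
    have h4 := h2.e2
    rw [hij'] at h3
    have e1 : be q (i : ZMod n) ∈ bS I := H871.Q.be_bS hq hI i
    have e2 : be q (j : ZMod n) ∈ bS I := H871.Q.be_bS hq hI j
    have h5 := last_inj e1 e2 h1.rt h2.rt (h3.trans h4.symm)
    by_contra hne
    exact be_ne hq h1.hi h2.hi hne h5

/-- **A primal site.** -/
theorem chain_even (hg : Good ω) (ht0 : 0 < t) (ht : t ≤ n)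
    (hev : Even ((q (t : ZMod n)).1 + (q (t : ZMod n)).2))
    (hN : NoArm true I B (q (t : ZMod n)) ω)
    (hfirst : ∀ w, (w = hdv (be q 0) ∨ w = tlv (be q 0)) → w ∉ I → w ∉ B) :
    ∃ e i j, Foot q I ω e i j ∧ i < t ∧ t ≤ j ∧ Stays I (B : Set (ℤ × ℤ)) ω e := by
  by_contra hcon
  push Not at hcon
  obtain ⟨S, hS⟩ : ∃ S : Set ℕ, S = {i | i < t ∧
    ¬ Even ((q (i : ZMod n)).1 + (q (i : ZMod n)).2) ∧
    Pw (cs true ω ∩ ↑(B \ I)) (q (t : ZMod n)) (q ((i + 1 : ℕ) : ZMod n))} := ⟨_, rfl⟩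
  have hfin : S.Finite := (Set.finite_lt_nat t).subset fun i hi => by
    rw [hS] at hi
    exact hi.1
  have par : ∀ k : ℕ, (Even ((q ((k + 1 : ℕ) : ZMod n)).1 + (q ((k + 1 : ℕ) : ZMod n)).2) ↔
      ¬ Even ((q (k : ZMod n)).1 + (q (k : ZMod n)).2)) := by
    intro k
    by_cases h : Even ((q (k : ZMod n)).1 + (q (k : ZMod n)).2)
    · obtain ⟨-, g2, -, -⟩ := be_even hq hI h
      have h2 := (H135.Z.sd_par false (be q (k : ZMod n)))
      change ((rs (be q (k : ZMod n))).1 + (rs (be q (k : ZMod n))).2) % 2 = 1 at h2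
      rw [g2] at h2
      push_cast
      simp only [h, not_true_eq_false, iff_false, Int.not_even_iff]
      exact h2
    · obtain ⟨-, g2, -, -⟩ := be_odd hq hI h
      have h2 := (H135.Z.sd_par true (be q (k : ZMod n)))
      change ((ls (be q (k : ZMod n))).1 + (ls (be q (k : ZMod n))).2) % 2 = 0 at h2
      rw [g2] at h2
      push_cast
      simp only [h, not_false_eq_true, iff_true, Int.even_iff]
      exact h2
  have step : ∀ i ∈ S, ∃ j, Foot q I ω (be q (i : ZMod n)) i (j + 1) ∧ j + 1 < t ∧ j ∈ S := by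
    intro i hi
    rw [hS] at hi
    obtain ⟨h2, h3, h4⟩ := hi
    obtain ⟨g1, g2, g3, g4⟩ := be_odd hq hI h3
    have hbs : be q (i : ZMod n) ∈ bS I := by
      rw [mem_bS]
      exact Or.inr ⟨g4, g3⟩
    have hr := returns_good hg hbs (ω := ω)
    obtain ⟨j, F⟩ := exists_foot hq hI hu g4 hbs hr (by omega) rfl
    have h5 : Pw (cs true ω ∩ ↑(B \ I)) (q (t : ZMod n)) (sc true (be q (i : ZMod n))) := by
      show Pw _ _ (ls (be q (i : ZMod n)))
      rw [g2]
      rw [Nat.cast_succ] at h4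
      exact h4
    obtain ⟨h6, h7⟩ := strand_in hN g4 hr h5
    have h8 : j < t := by
      by_contra hlt
      exact hcon _ i j F h2 (by omega) h6
    have h9 := F.even hq hI
    obtain ⟨k1, k2, k3, k4⟩ := be_even hq hI h9
    rw [F.e2] at h7
    change Pw _ _ (ls (be q (j : ZMod n))) at h7
    rw [k1] at h7
    rcases Nat.eq_zero_or_pos j with hj | hj
    · exfalso
      rw [hj, Nat.cast_zero] at k4
      refine hfirst _ (Or.inr rfl) k4 ?_
      have h10 := H871.Q.tl_last hr h6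
      rw [F.e2, hj, Nat.cast_zero] at h10
      exact mem_coe.1 h10
    · obtain ⟨m, rfl⟩ : ∃ m, j = m + 1 := ⟨j - 1, by omega⟩
      refine ⟨m, F, h8, ?_⟩
      rw [hS]
      exact ⟨by omega, (par m).1 h9, h7⟩
  choose! f hf1 hf2 hf3 using step
  refine chain_end hfin (f := f) (t := t - 1) ?_ hf3 (fun i hi => ?_) ?_
  · rw [hS]
    obtain ⟨m, rfl⟩ : ∃ m, t = m + 1 := ⟨t - 1, by omega⟩
    refine ⟨by omega, (par m).1 hev, ?_⟩
    simp only [Nat.add_sub_cancel]
    exact ReflTransGen.refl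
  · have := hf2 i hi
    omega
  · intro i hi j hj hij
    have h1 := hf1 i hi
    have h2 := hf1 j hj
    have h3 := h1.e2
    have h4 := h2.e2
    rw [hij] at h3
    have e1 : be q (i : ZMod n) ∈ bS I := H871.Q.be_bS hq hI i
    have e2 : be q (j : ZMod n) ∈ bS I := H871.Q.be_bS hq hI j
    have h5 := last_inj e1 e2 h1.rt h2.rt (h3.trans h4.symm)
    by_contra hne
    exact be_ne hq h1.hi h2.hi hne h5

end poly

end Vale.Agent.P167.N.ID
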