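import Vale.Agent.P167.N.ID.ArmDef
import Vale.Agent.P167.N.NET.QuadE
import Vale.Agent.P167.N.NET.Vrs

/-!
# P167, the range `0 < q < 1`: extension of the arm of a site (abstract form)

`G`: squares around the site `z`. First the arm is joined by the tube `T₁` to the arc `A₃` (next to
the wall), then the path from `z` to `A₃` is joined by the tube `T₂` to `B₂`.
-/

set_option autoImplicit false

namespace Vale.Agent.P167.N.ID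

open Finset Relation
open Vale.Agent.P167
open Vale.Agent.P145.FB (PStep)
open Vale.Agent.P167.FK
open Vale.Agent.P167.H871 (IsC)
open Vale.Agent.P167.H632 (cs pr IncC nm_le le_nm)
open Vale.Agent.P167.H192.TA (Pw)
open Vale.Agent.P167.N.NET
open Vale.Agent.P167.FKA (Ex_mono)

variable {Q : ℝ} {e : Bool} {I G D T₁ T₂ : Finset (ℤ × ℤ)} {z : ℤ × ℤ} {R : ℤ} {η : Cfg}
  {A₁ A₃ F S₂ S₄ S₂' S₄' A B₂ A' : Set (ℤ × ℤ)}

/-- **Extension of an arm, abstract form**, with a factor `W`. -/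
theorem ext_core (hQ : 0 < Q) (hQ1 : Q ≤ 1) (hη : Good η) (hGD : G ⊆ D) (hT₁ : T₁ ⊆ G)
    (hT₂ : T₂ ⊆ D)
    (H : Quad e ↑G {z} F S₂ S₄) (hG : Fan e ↑G) (hA : A ⊆ Bd e T₁) (hAG : Beg e ↑G S₂ A)
    (hB : A₃ ⊆ Bd e T₁) (hBG : ∀ y ∈ A₃, y ∈ Vc e ↑G → Nx e ↑G S₄ y)
    (H' : Quad e ↑G {z} A₃ S₂' S₄') (hA' : A' ⊆ Bd e T₂) (hAG' : Beg e ↑G S₂' A')
    (hTG' : Exi e ↑G S₄' ↑T₂) (hB' : B₂ ⊆ Bd e T₂)
    (hBG' : ∀ y ∈ B₂, y ∈ Vc e ↑G → Nx e ↑G S₄' y)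
    {W : Cfg → ℝ} (hW0 : ∀ ω, 0 ≤ W ω)
    (hW : ∀ ω ω' : Cfg, (∀ v, v ∉ T₁ ∪ T₂ → ω' v = ω v) → W ω' = W ω) :
    VT Q e T₁ A A₃ * VT Q e T₂ A' B₂ * Ex Q D η (fun ω => W ω * (Jn e ↑G {z} F).indicator 1 ω) ≤
      Ex Q D η (fun ω => W ω * (Jn e ↑(G ∪ T₂) {z} B₂).indicator 1 ω) := by
  have n2 := VT_nonneg (Q := Q) hQ e T₂ A' B₂
  have ind_mono : ∀ {X Y : Set Cfg}, X ⊆ Y → ∀ ω : Cfg,
      X.indicator (1 : Cfg → ℝ) ω ≤ Y.indicator (1 : Cfg → ℝ) ω := fun {X Y} h ω =>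
    Set.indicator_le_indicator_of_subset h (fun _ => zero_le_one) ω
  have h1 := net1 (e := e) hQ hQ1 hη (hT₁.trans hGD) hGD H hG hA hAG
    (fun t ht ht' => absurd (mem_coe.2 (hT₁ (mem_coe.1 ht))) ht') hB hBG hW0
    (F := W) (fun ω ω' h => hW ω ω' fun v hv => h v fun h' =>
      hv (mem_union_left _ (mem_sdiff.1 h').1))
  have h2 : Ex Q D η (fun ω => W ω * (HK1 e ↑G ↑T₁ {z} F A₃).indicator 1 ω) ≤
      Ex Q D η (fun ω => W ω * (Jn e ↑G {z} A₃).indicator 1 ω) := by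
    refine Ex_mono hQ fun S _ => mul_le_mul_of_nonneg_left (ind_mono ?_ _) (hW0 _)
    refine HK1_sub.trans (Jn.mono ?_ (Set.Subset.refl _) (Set.Subset.refl _))
    exact Set.union_subset (Set.Subset.refl _) (coe_subset.2 hT₁)
  have h3 := net1 (e := e) hQ hQ1 hη hT₂ hGD H' hG hA' hAG' hTG' hB' hBG' hW0
    (F := W) (fun ω ω' h => hW ω ω' fun v hv => h v fun h' =>
      hv (mem_union_right _ (mem_sdiff.1 h').1))
  have h4 : Ex Q D η (fun ω => W ω * (HK1 e ↑G ↑T₂ {z} A₃ B₂).indicator 1 ω) ≤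
      Ex Q D η (fun ω => W ω * (Jn e ↑(G ∪ T₂) {z} B₂).indicator 1 ω) := by
    refine Ex_mono hQ fun S _ => mul_le_mul_of_nonneg_left (ind_mono ?_ _) (hW0 _)
    rw [coe_union]
    exact HK1_sub
  calc VT Q e T₁ A A₃ * VT Q e T₂ A' B₂ *
        Ex Q D η (fun ω => W ω * (Jn e ↑G {z} F).indicator 1 ω)
      = VT Q e T₂ A' B₂ * (VT Q e T₁ A A₃ *
        Ex Q D η (fun ω => W ω * (Jn e ↑G {z} F).indicator 1 ω)) := by ring
    _ ≤ VT Q e T₂ A' B₂ * Ex Q D η (fun ω => W ω * (Jn e ↑G {z} A₃).indicator 1 ω) :=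
        mul_le_mul_of_nonneg_left (h1.trans h2) n2
    _ ≤ _ := h3.trans h4

/-- The arm of `z` as a connection. -/
theorem AZ_sub_Jn (hp : (z.1 + z.2) % 2 = pr e)
    (hF : ∀ s : ℤ × ℤ, (s.1 + s.2) % 2 = pr e → R ≤ nm (s - z) → s ∈ F) :
    AZ e I z R ⊆ Jn e ↑(Bq z R \ I) {z} F := by
  rintro ω ⟨s, h1, h2⟩
  exact ⟨z, rfl, s, hF s (by rw [← hp]; exact (Pw.parity h2).symm) h1, h2⟩

theorem Jn_sub_AZ {G' : Set (ℤ × ℤ)} (hG : G' ⊆ ↑(Bq z R \ I)) (hB : ∀ s ∈ B₂, R ≤ nm (s - z)) :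
    Jn e G' {z} B₂ ⊆ AZ e I z R := by
  rintro ω ⟨u, rfl, s, hs, h⟩
  exact ⟨s, hB s hs, h.mono (Set.inter_subset_inter_right _ hG)⟩

end Vale.Agent.P167.N.ID
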