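import Vale.Agent.P167.N.ID.ArmTip

/-!
# P167, the range `0 < q < 1`: extension of the arm of a site of a face of a horizontal row
-/

set_option autoImplicit false

namespace Vale.Agent.P167.N.ID

open Finset Relation
open Vale.Agent.P167
open Vale.Agent.P145.FB (PStep)
open Vale.Agent.P167.FK
open Vale.Agent.P167.H871 (IsC)
open Vale.Agent.P167.H632 (cs pr pr_or pr_not IncC nm_le le_nm)
open Vale.Agent.P167.H192.TA (Pw)
open Vale.Agent.P167.N.NET
open Vale.Agent.P167.FKA (Ex_mono)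
open Vale.Agent.P167.H262 (Rsq mem_Rsq)
open Vale.Agent.P167.E6 (IsPolygon Encloses)
open Vale.Agent.P167.H825.Q (Row)
open Vale.Agent.P167.H871.Q (rqr rqr_polygon rqr_encloses)

variable {Q : ℝ} {e c : Bool} {I G D B : Finset (ℤ × ℤ)} {z : ℤ × ℤ} {N a b : ℕ} {X Y k : ℤ}
  {η : Cfg}

/-- Membership in an arc of the upper face. -/
theorem mem_up {s : ℤ × ℤ} (hN : 1 ≤ N) (h1 : (s.1 + s.2) % 2 = pr c) (h2 : s.2 = Y + 1)
    (h4 : X - N ≤ s.1) (h3 : s.1 ≤ X) (ha : a ≤ X - s.1) (hb : X - s.1 ≤ b) :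
    s ∈ Ar (rqr (rw0 X Y N) true) c a b := by
  refine ⟨h1, (X - s.1).toNat, by omega, by omega, ?_⟩
  rw [rw0_up hN (by omega)]
  ext
  · show X - (((X - s.1).toNat : ℕ) : ℤ) = s.1
    omega
  · exact h2.symm

/-- **One step at the line `y = Y`** (above of it), with a factor `W`. -/
theorem flat_step (hQ : 0 < Q) (hQ1 : Q ≤ 1) (hV : VRS Q) : ∃ κ : ℝ, 0 < κ ∧ κ ≤ 1 ∧
    ∀ (e : Bool) (X Y : ℤ) (z : ℤ × ℤ) (k : ℕ) (I D : Finset (ℤ × ℤ)) (η : Cfg) (W : Cfg → ℝ),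
      1 ≤ k → z = (X, Y + 1) → (z.1 + z.2) % 2 = pr e →
      (∀ v ∈ Bq z (32 * k), v ∈ I ↔ v.2 = Y) → Bq z (32 * k) \ I ⊆ D → Good η →
      (∀ ω, 0 ≤ W ω) → (∀ ω ω' : Cfg, (∀ v, v ∉ Bq z (32 * k) → ω' v = ω v) → W ω' = W ω) →
      κ * Ex Q D η (fun ω => W ω * (AZ e I z (16 * k)).indicator 1 ω) ≤
        Ex Q D η (fun ω => W ω * (AZ e I z (32 * k)).indicator 1 ω) := by
  obtain ⟨κ₁, h1, h1', hR⟩ := VT_arch hQ hQ1 hV 8
  obtain ⟨κ₂, h2, h2', hS⟩ := hV 33
  refine ⟨κ₁ * κ₂, mul_pos h1 h2, mul_le_one₀ h1' h2.le h2', ?_⟩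
  intro e X Y z k I D η W hk hz hp hI hD hη hW0 hW
  have hN : 1 ≤ (rw0 (X + 32 * k) Y (64 * k)).L := by show 1 ≤ 64 * k; omega
  have hnn : 2 * (rw0 (X + 32 * k) Y (64 * k)).L + 2 = 2 * (64 * k) + 2 := rfl
  have hzX : z.1 = X := by rw [hz]
  have hzY : z.2 = Y + 1 := by rw [hz]
  have hpe := pr_or e
  have hpn := pr_not e
  -- the domain of the quads
  have hGe : Bq z (16 * k) \ I = Bq z (16 * k) \ (rw0 (X + 32 * k) Y (64 * k)).I := by
    ext v
    rw [mem_sdiff, mem_sdiff, mem_rw0]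
    refine and_congr_right fun hv => not_congr ?_
    rw [mem_Bz] at hv
    rw [hI v (by rw [mem_Bz]; omega)]
    push_cast
    omega
  have hB : ∀ p : ℕ, 17 * k ≤ p → p ≤ 47 * k → ∀ v, IsC v (rqr (rw0 (X + 32 * k) Y (64 * k)) true
      (p : ZMod (2 * (rw0 (X + 32 * k) Y (64 * k)).L + 2))) → v ∈ Bq z (16 * k) := by
    intro p p1 p2 v hv
    rw [rw0_up (by omega) (by omega)] at hv
    rw [mem_Bz]
    unfold IsC at hv
    dsimp only at hv
    omega
  have h0 : ∃ v, v ∉ Bq z (16 * k) ∧ IsC v (rqr (rw0 (X + 32 * k) Y (64 * k)) true 0) := by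
    refine ⟨(X + 32 * k, Y), ?_, ?_⟩
    · rw [mem_Bz]
      dsimp only
      omega
    · have := rw0_up (X := X + 32 * k) (Y := Y) (N := 64 * k) (by omega) (p := 0) (by omega)
      rw [Nat.cast_zero] at this
      rw [this]
      unfold IsC
      dsimp only
      push_cast
      omega
  have h0' : ∃ v, v ∉ Bq z (16 * k) ∧ IsC v (rqr (rw0 (X + 32 * k) Y (64 * k)) true 1) := by
    refine ⟨(X + 32 * k - 1, Y), ?_, ?_⟩
    · rw [mem_Bz]
      dsimp only
      omega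
    · have := rw0_up (X := X + 32 * k) (Y := Y) (N := 64 * k) (by omega) (p := 1) (by omega)
      rw [Nat.cast_one] at this
      rw [this]
      unfold IsC
      dsimp only
      push_cast
      omega
  have hAr : Ar (rqr (rw0 (X + 32 * k) Y (64 * k)) true) e (32 * k) (32 * k) = {z} := by
    rw [ar_up (by omega) (by omega)]
    ext s
    constructor
    · rintro ⟨s1, s2, s3, s4⟩
      push_cast at s2 s3
      show _ = _
      ext <;> omega
    · rintro rfl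
      refine ⟨hzY, ?_, ?_, hp⟩ <;> push_cast <;> omega
  have Q1 := quad_ext (c := e) (a := 17 * k) (b := 32 * k) (m := 32 * k) (d := 47 * k)
    (rqr_polygon (b := true) hN) (rqr_encloses hN) (bq_box z (16 * k)) (by omega) le_rfl (by omega)
    (by omega) hB h0 h0'
  have Q2 := quad_ext' (c := !e) (a := 32 * k) (b := 32 * k) (m := 36 * k) (d := 40 * k)
    (rqr_polygon (b := true) hN) (rqr_encloses hN) (bq_box z (16 * k)) le_rfl (by omega) (by omega)
    (by omega) (fun p p1 p2 => hB p (by omega) (by omega)) h0 h0'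
  simp only [Bool.not_not] at Q2
  have hA3 : Ar (rqr (rw0 (X + 32 * k) Y (64 * k)) true) e (36 * k) (40 * k) =
      Hs e (Y + 1) (X - 8 * k) (X - 4 * k) := by
    rw [ar_up (by omega) (by omega)]
    congr 1 <;> push_cast <;> ring
  rw [hAr] at Q1 Q2
  rw [hA3] at Q2
  rw [← hGe] at Q1 Q2
  have hfan : Fan e ↑(Bq z (16 * k) \ I) := by
    rw [hGe]
    exact fan_slit _ _ _ _ _
  have mG : ∀ v, v ∈ Bq z (16 * k) \ I ↔ ((X - 16 * k ≤ v.1 ∧ v.1 < X + 16 * k) ∧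
      z.2 - 16 * k ≤ v.2 ∧ v.2 < z.2 + 16 * k) ∧ v.2 ≠ Y := by
    intro v
    rw [hGe, mem_sdiff, mem_Bz, mem_rw0, hzX]
    push_cast
    omega
  have mR : ∀ v ∈ Rsq (X - 3 * k) (X - 2 * k) (Y + 1) (Y + 1 + 32 * k), v ∈ Bq z (32 * k) \ I := by
    intro v hv
    rw [mem_Rsq] at hv
    have hv1 : v ∈ Bq z (32 * k) := by
      rw [mem_Bz]
      omega
    rw [mem_sdiff]
    refine ⟨hv1, ?_⟩
    rw [hI v hv1]
    omega
  have mT : ∀ v ∈ arch (X - 8 * k) (X - 4 * k) (X + 4 * k) (X + 8 * k) (Y + 1) (Y + 1) (Y + 4 * k)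
      (Y + 8 * k), v ∈ Bq z (16 * k) \ I := by
    intro v hv
    rw [mem_arch] at hv
    rw [mG]
    omega
  have hGD : Bq z (16 * k) \ I ⊆ D := by
    intro v hv
    refine hD ?_
    rw [mem_sdiff] at hv ⊢
    refine ⟨?_, hv.2⟩
    have := hv.1
    rw [mem_Bz] at this ⊢
    omega
  have bA : ∀ a' b' : ℤ, Hs e (Y + 1) a' b' ⊆ Bd e (arch (X - 8 * k) (X - 4 * k) (X + 4 * k)
      (X + 8 * k) (Y + 1) (Y + 1) (Y + 4 * k) (Y + 8 * k)) := fun a' b' => by
    refine bd_bot fun v hv => ?_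
    rw [mem_arch] at hv
    omega
  have key := ext_core (Q := Q) (e := e) (G := Bq z (16 * k) \ I) (D := D)
    (T₁ := arch (X - 8 * k) (X - 4 * k) (X + 4 * k) (X + 8 * k) (Y + 1) (Y + 1) (Y + 4 * k)
      (Y + 8 * k))
    (T₂ := Rsq (X - 3 * k) (X - 2 * k) (Y + 1) (Y + 1 + 32 * k)) (z := z) (η := η)
    (A := Hs e (Y + 1) (X + 4 * k) (X + 8 * k)) (A' := Hs e (Y + 1) (X - 3 * k) (X - 2 * k))
    (B₂ := Hs e (Y + 1 + 32 * k) (X - 3 * k) (X - 2 * k)) hQ hQ1 hη hGD mT (fun v hv => hD (mR v hv))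
    Q1 hfan (bA _ _) ?_ (bA _ _) ?_ Q2
    (bd_bot fun v hv => (mem_Rsq.1 hv).2.2.1) ?_ ?_ (bd_top fun v hv => (mem_Rsq.1 hv).2.2.2) ?_
    hW0 ?_
  · have e1 : κ₁ ≤ VT Q e (arch (X - 8 * k) (X - 4 * k) (X + 4 * k) (X + 8 * k) (Y + 1) (Y + 1)
        (Y + 4 * k) (Y + 8 * k)) (Hs e (Y + 1) (X + 4 * k) (X + 8 * k))
        (Hs e (Y + 1) (X - 8 * k) (X - 4 * k)) :=
      (hR e (X - 8 * k) (X - 4 * k) (X + 4 * k) (X + 8 * k) (Y + 1) (Y + 1) (Y + 4 * k)
      (Y + 8 * k) (by omega) (by omega) (by omega) (by omega) (by omega) (by omega)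
      (by push_cast; omega) (by push_cast; omega) (by push_cast; omega)).2
    have e2 : κ₂ ≤ VT Q e (Rsq (X - 3 * k) (X - 2 * k) (Y + 1) (Y + 1 + 32 * k))
        (Hs e (Y + 1) (X - 3 * k) (X - 2 * k)) (Hs e (Y + 1 + 32 * k) (X - 3 * k) (X - 2 * k)) :=
      (hS e (X - 3 * k) (X - 2 * k) (Y + 1) (Y + 1 + 32 * k) (by omega) (by omega)).2
        (by push_cast; omega)
    have e3 := mul_le_mul e1 e2 h2.le (VT_nonneg hQ _ _ _ _)
    have i1 : ∀ ω : Cfg, (AZ e I z (16 * k)).indicator (1 : Cfg → ℝ) ω ≤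
        (Jn e ↑(Bq z (16 * k) \ I) {z} (Fr (rqr (rw0 (X + 32 * k) Y (64 * k)) true) e
          (Bq z (16 * k)) (17 * k) (47 * k))).indicator 1 ω := fun ω =>
      Set.indicator_le_indicator_of_subset (AZ_sub_Jn hp fun s hs hs' => far_Fr hs hs')
        (fun _ => zero_le_one) ω
    have i2 : ∀ ω : Cfg, (Jn e ↑((Bq z (16 * k) \ I) ∪
        Rsq (X - 3 * k) (X - 2 * k) (Y + 1) (Y + 1 + 32 * k)) {z}
          (Hs e (Y + 1 + 32 * k) (X - 3 * k) (X - 2 * k))).indicator (1 : Cfg → ℝ) ω ≤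
        (AZ e I z (32 * k)).indicator 1 ω := fun ω => by
      refine Set.indicator_le_indicator_of_subset (Jn_sub_AZ ?_ ?_) (fun _ => zero_le_one) ω
      · rw [coe_subset]
        refine union_subset ?_ mR
        intro v hv
        rw [mem_sdiff] at hv ⊢
        refine ⟨?_, hv.2⟩
        have := hv.1
        rw [mem_Bz] at this ⊢
        omega
      · rintro s ⟨s1, s2, s3, s4⟩
        rw [le_nm]
        simp only [Prod.fst_sub, Prod.snd_sub]
        omega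
    have nE : 0 ≤ Ex Q D η (fun ω => W ω * (Jn e ↑(Bq z (16 * k) \ I) {z}
        (Fr (rqr (rw0 (X + 32 * k) Y (64 * k)) true) e (Bq z (16 * k))
          (17 * k) (47 * k))).indicator 1 ω) :=
      FKA.Ex_nonneg hQ fun S _ => mul_nonneg (hW0 _) (Set.indicator_nonneg (fun _ _ => zero_le_one) _)
    calc κ₁ * κ₂ * Ex Q D η (fun ω => W ω * (AZ e I z (16 * k)).indicator 1 ω)
        ≤ κ₁ * κ₂ * Ex Q D η (fun ω => W ω * (Jn e ↑(Bq z (16 * k) \ I) {z}
        (Fr (rqr (rw0 (X + 32 * k) Y (64 * k)) true) e (Bq z (16 * k))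
          (17 * k) (47 * k))).indicator 1 ω) :=
          mul_le_mul_of_nonneg_left
            (Ex_mono hQ fun S _ => mul_le_mul_of_nonneg_left (i1 _) (hW0 _)) (mul_pos h1 h2).le
      _ ≤ _ := mul_le_mul_of_nonneg_right e3 nE
      _ ≤ _ := key
      _ ≤ _ := Ex_mono hQ fun S _ => mul_le_mul_of_nonneg_left (i2 _) (hW0 _)
  · -- the arch starts on the right
    rintro x ⟨x1, x2, x3, x4⟩
    refine ⟨(x.1, Y + 1), ?_, by unfold Cor; dsimp only; omega, (x.1 + 1, Y + 1), ?_,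
      by unfold Cor; dsimp only; omega⟩
    · rw [mem_coe, mG]
      dsimp only
      omega
    · refine mem_up (by omega) ?_ rfl ?_ ?_ ?_ ?_ <;> dsimp only <;> push_cast <;> omega
  · -- it ends on the left
    rintro x ⟨x1, x2, x3, x4⟩ -
    refine ⟨(x.1, Y + 1), ?_, by unfold Cor; dsimp only; omega, (x.1 + 1, Y + 1), ?_,
      by unfold Cor; dsimp only; omega⟩
    · rw [mem_coe, mG]
      dsimp only
      omega
    · refine mem_up (by omega) ?_ rfl ?_ ?_ ?_ ?_ <;> dsimp only <;> push_cast <;> omega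
  · -- the second tube starts on the left
    rintro x ⟨x1, x2, x3, x4⟩
    refine ⟨(x.1, Y + 1), ?_, by unfold Cor; dsimp only; omega, (x.1 + 1, Y + 1), ?_,
      by unfold Cor; dsimp only; omega⟩
    · rw [mem_coe, mG]
      dsimp only
      omega
    · refine mem_up (by omega) ?_ rfl ?_ ?_ ?_ ?_ <;> dsimp only <;> push_cast <;> omega
  · -- it leaves the box through the top side
    intro v hv hvG y hy hyG
    obtain ⟨w, hw, hwy⟩ := hyG
    rw [mem_coe] at hv hvG hw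
    rw [mG] at hvG
    have hw' := hw
    rw [mG] at hw'
    rw [mem_Rsq] at hv
    have hy' := hy
    have hwy' := hwy
    unfold Cor at hy' hwy'
    refine ⟨w, hw, hwy, (2 * w.1 + 1 - y.1, y.2), ⟨?_, Or.inl ⟨(w.1, w.2 + 1), ?_, ?_⟩⟩, ?_⟩
    · dsimp only
      omega
    · rw [mem_Bz]
      dsimp only
      omega
    · unfold IsC
      dsimp only
      omega
    · unfold Cor
      dsimp only
      omega
  · -- its end is far
    rintro x ⟨x1, x2, x3, x4⟩ ⟨w, hw, hwy⟩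
    rw [mem_coe, mG] at hw
    unfold Cor at hwy
    omega
  · -- the factor
    intro ω ω' h
    refine hW ω ω' fun v hv => h v fun hv' => hv ?_
    rcases mem_union.1 hv' with h3 | h3
    · have := (mem_sdiff.1 (mT v h3)).1
      rw [mem_Bz] at this ⊢
      omega
    · exact (mem_sdiff.1 (mR v h3)).1

end Vale.Agent.P167.N.ID
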