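import Vale.Agent.P167.N.ID.ArmFlat
import Vale.Agent.P167.H760.Q.Tr

/-!
# P167, the range `0 < q < 1`: extension of arms, all directions
-/

set_option autoImplicit false

namespace Vale.Agent.P167.N.ID

open Finset Relation
open Vale.Agent.P167
open Vale.Agent.P145.FB (PStep)
open Vale.Agent.P167.FK
open Vale.Agent.P167.H632 (cs pr pr_or pr_not IncC nm_le le_nm)
open Vale.Agent.P167.H192.TA (Pw)
open Vale.Agent.P167.N.NET (VRS)
open Vale.Agent.P167.H760.Tr (rS_apply rQ_apply)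
open Vale.Agent.P167.H760.Tr (rot)

variable {Q κ : ℝ} {e : Bool} {I D : Finset (ℤ × ℤ)} {z v u : ℤ × ℤ} {R X Y : ℤ} {k : ℕ} {η ω : Cfg}
  {F Sl : Set (ℤ × ℤ)}

theorem rot_S (z : ℤ × ℤ) : rot.S z = (-z.2, z.1) := rS_apply z

theorem rot_Q (v : ℤ × ℤ) : rot.Q v = (-v.2 - 1, v.1) := rQ_apply v

theorem rot_step {u v : ℤ × ℤ} : PStep (rot.Q '' F) (rot.S u) (rot.S v) ↔ PStep F u v := by
  obtain ⟨u1, u2⟩ := u
  obtain ⟨v1, v2⟩ := v
  unfold PStep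
  rw [rot_S, rot_S]
  dsimp only
  constructor
  · rintro ⟨h1, h2, h3⟩
    refine ⟨by omega, by omega, ?_⟩
    obtain ⟨w, hw, h4⟩ := h3
    rw [rot_Q] at h4
    have h5 := congrArg Prod.fst h4
    have h6 := congrArg Prod.snd h4
    dsimp only at h5 h6
    have : (min u1 v1, min u2 v2) = w := by
      ext
      · dsimp only
        omega
      · dsimp only
        omega
    rwa [this]
  · rintro ⟨h1, h2, h3⟩
    refine ⟨by omega, by omega, ⟨_, h3, ?_⟩⟩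
    rw [rot_Q]
    ext
    · dsimp only
      omega
    · dsimp only

theorem rot_pw {u v : ℤ × ℤ} : Pw (rot.Q '' F) (rot.S u) (rot.S v) ↔ Pw F u v := by
  constructor
  · intro h
    have key : ∀ w, Pw (rot.Q '' F) (rot.S u) w → Pw F u (rot.S.symm w) := by
      intro w hw
      induction hw with
      | refl => rw [Equiv.symm_apply_apply]
      | @tail y z _ hyz ih =>
        refine ih.tail ?_
        rw [← rot.S.apply_symm_apply y, ← rot.S.apply_symm_apply z, rot_step] at hyz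
        exact hyz
    have := key _ h
    rwa [Equiv.symm_apply_apply] at this
  · intro h
    exact (show Relation.ReflTransGen (PStep F) u v from h).lift rot.S fun a b hab =>
      rot_step.2 hab

theorem rot_C (ω : Cfg) (v : ℤ × ℤ) : rot.C ω (rot.Q v) = ω v := rot.C_apply ω v

theorem rot_cs (c : Bool) (ω : Cfg) : cs c (rot.C ω) = rot.Q '' cs c ω := by
  ext u
  obtain ⟨v, rfl⟩ := rot.Q.surjective u
  rw [rot.Q.injective.mem_set_image]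
  show rot.C ω (rot.Q v) = c ↔ ω v = c
  rw [rot_C]

theorem rot_Bq {z v : ℤ × ℤ} : rot.Q v ∈ Bq (rot.S z) R ↔ v ∈ Bq z R := by
  rw [mem_Bz, mem_Bz, rot_S, rot_Q]
  dsimp only
  omega

/-- Arms under the rotation. -/
theorem rot_AZ : rot.C ω ∈ AZ e I (rot.S z) R ↔ ω ∈ AZ e (rot.pre I) z R := by
  unfold AZ
  rw [Set.mem_ofPred_eq, Set.mem_ofPred_eq]
  have h : cs e (rot.C ω) ∩ ↑(Bq (rot.S z) R \ I) = rot.Q '' (cs e ω ∩ ↑(Bq z R \ rot.pre I)) := by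
    rw [rot_cs, Set.image_inter rot.Q.injective]
    congr 1
    ext u
    obtain ⟨v, rfl⟩ := rot.Q.surjective u
    rw [rot.Q.injective.mem_set_image, mem_coe, mem_coe, mem_sdiff, mem_sdiff, rot_Bq,
      rot.mem_pre]
  rw [h]
  constructor
  · rintro ⟨s, h1, h2⟩
    obtain ⟨s, rfl⟩ := rot.S.surjective s
    rw [rot.dS] at h1
    exact ⟨s, h1, rot_pw.1 h2⟩
  · rintro ⟨s, h1, h2⟩
    exact ⟨rot.S s, by rwa [rot.dS], rot_pw.2 h2⟩

/-- One step of the extension of the arm of `z`, the obstacle being `Sl` near `z`. -/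
def Stp (Q κ : ℝ) (Sl : Set (ℤ × ℤ)) (z : ℤ × ℤ) (k : ℕ) : Prop :=
  ∀ (e : Bool) (I D : Finset (ℤ × ℤ)) (η : Cfg) (W : Cfg → ℝ), (z.1 + z.2) % 2 = pr e →
    (∀ v ∈ Bq z (32 * k), v ∈ I ↔ v ∈ Sl) → Bq z (32 * k) \ I ⊆ D → Good η →
      (∀ ω, 0 ≤ W ω) → (∀ ω ω' : Cfg, (∀ v, v ∉ Bq z (32 * k) → ω' v = ω v) → W ω' = W ω) →
      κ * Ex Q D η (fun ω => W ω * (AZ e I z (16 * k)).indicator 1 ω) ≤
        Ex Q D η (fun ω => W ω * (AZ e I z (32 * k)).indicator 1 ω)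

theorem rot_ind (ω : Cfg) : (AZ e I (rot.S z) R).indicator (1 : Cfg → ℝ) (rot.C ω) =
    (AZ e (rot.pre I) z R).indicator 1 ω := by
  by_cases h : ω ∈ AZ e (rot.pre I) z R
  · rw [Set.indicator_of_mem h, Set.indicator_of_mem (rot_AZ.2 h)]
    rfl
  · rw [Set.indicator_of_notMem h, Set.indicator_of_notMem fun h1 => h (rot_AZ.1 h1)]

/-- **Rotation of a step.** -/
theorem Stp.rot (h : Stp Q κ Sl z k) {Sl' : Set (ℤ × ℤ)} {z' : ℤ × ℤ} (hz : z' = (-z.2, z.1))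
    (hS : ∀ v, (-v.2 - 1, v.1) ∈ Sl' ↔ v ∈ Sl) : Stp Q κ Sl' z' k := by
  have hz2 : z' = H760.Tr.rot.S z := by rw [hz, rot_S]
  subst hz2
  intro e I D η W hp hI hD hη hW0 hW
  have key := h e (H760.Tr.rot.pre I) (H760.Tr.rot.pre D) (H760.Tr.rot.Ci η)
    (fun ω => W (H760.Tr.rot.C ω)) ?_ ?_ ?_ ?_ (fun ω => hW0 _) ?_
  · rw [← H760.Tr.rot.Ex_pre Q D η, ← H760.Tr.rot.Ex_pre Q D η]
    simp only [rot_ind]
    exact key
  · rw [rot_S] at hp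
    rw [← hp]
    dsimp only
    omega
  · intro v hv
    rw [H760.Tr.rot.mem_pre, hI _ (rot_Bq.2 hv), rot_Q]
    exact hS v
  · intro v hv
    rw [mem_sdiff, H760.Tr.rot.mem_pre] at hv
    rw [H760.Tr.rot.mem_pre]
    exact hD (mem_sdiff.2 ⟨rot_Bq.2 hv.1, hv.2⟩)
  · refine H760.Tr.rot.good_T' ?_
    rw [H760.Tr.rot.C_Ci]
    exact hη
  · intro ω ω' hh
    refine hW _ _ fun v hv => ?_
    obtain ⟨u, rfl⟩ := H760.Tr.rot.Q.surjective v
    rw [rot_C, rot_C]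
    exact hh u fun hu => hv (rot_Bq.2 hu)

/-- **One step at the tips of the straight rows**, all directions. -/
theorem stp_tip (hQ : 0 < Q) (hQ1 : Q ≤ 1) (hV : VRS Q) : ∃ κ : ℝ, 0 < κ ∧ κ ≤ 1 ∧
    ∀ (X Y : ℤ) (k : ℕ) (z : ℤ × ℤ), 1 ≤ k →
      ((z = (X, Y) ∨ z = (X, Y + 1)) → Stp Q κ {v | v.2 = Y ∧ v.1 < X} z k) ∧
      ((z = (X, Y) ∨ z = (X + 1, Y)) → Stp Q κ {v | v.1 = X ∧ v.2 < Y} z k) ∧
      ((z = (X, Y) ∨ z = (X, Y + 1)) → Stp Q κ {v | v.2 = Y ∧ X ≤ v.1} z k) ∧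
      ((z = (X, Y) ∨ z = (X + 1, Y)) → Stp Q κ {v | v.1 = X ∧ Y ≤ v.2} z k) := by
  obtain ⟨κ, h1, h2, H⟩ := tip_step hQ hQ1 hV
  refine ⟨κ, h1, h2, ?_⟩
  have g0 : ∀ (X Y : ℤ) (k : ℕ) (z : ℤ × ℤ), 1 ≤ k → (z = (X, Y) ∨ z = (X, Y + 1)) →
      Stp Q κ {v | v.2 = Y ∧ v.1 < X} z k := fun X Y k z hk hz e I D η W hp hI hD hη hW0 hW =>
    H e X Y z k I D η W hk hz hp hI hD hη hW0 hW
  have g1 : ∀ (X Y : ℤ) (k : ℕ) (z : ℤ × ℤ), 1 ≤ k → (z = (X, Y) ∨ z = (X + 1, Y)) →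
      Stp Q κ {v | v.1 = X ∧ v.2 < Y} z k := by
    intro X Y k z hk hz
    refine (g0 Y (-X - 1) k (z.2, -z.1) hk ?_).rot (by simp) fun v => ?_
    · rcases hz with rfl | rfl
      · right; ext <;> dsimp only; ring
      · left; ext <;> dsimp only; ring
    · simp only [Set.mem_ofPred_eq]
      omega
  have g2 : ∀ (X Y : ℤ) (k : ℕ) (z : ℤ × ℤ), 1 ≤ k → (z = (X, Y) ∨ z = (X, Y + 1)) →
      Stp Q κ {v | v.2 = Y ∧ X ≤ v.1} z k := by
    intro X Y k z hk hz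
    refine (g1 Y (-X) k (z.2, -z.1) hk ?_).rot (by simp) fun v => ?_
    · rcases hz with rfl | rfl
      · left; ext <;> dsimp only
      · right; ext <;> dsimp only
    · simp only [Set.mem_ofPred_eq]
      omega
  have g3 : ∀ (X Y : ℤ) (k : ℕ) (z : ℤ × ℤ), 1 ≤ k → (z = (X, Y) ∨ z = (X + 1, Y)) →
      Stp Q κ {v | v.1 = X ∧ Y ≤ v.2} z k := by
    intro X Y k z hk hz
    refine (g2 Y (-X - 1) k (z.2, -z.1) hk ?_).rot (by simp) fun v => ?_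
    · rcases hz with rfl | rfl
      · right; ext <;> dsimp only; ring
      · left; ext <;> dsimp only; ring
    · simp only [Set.mem_ofPred_eq]
      omega
  exact fun X Y k z hk => ⟨g0 X Y k z hk, g1 X Y k z hk, g2 X Y k z hk, g3 X Y k z hk⟩

/-- **One step at the faces of the straight rows**, all directions. -/
theorem stp_flat (hQ : 0 < Q) (hQ1 : Q ≤ 1) (hV : VRS Q) : ∃ κ : ℝ, 0 < κ ∧ κ ≤ 1 ∧
    ∀ (X Y : ℤ) (k : ℕ) (z : ℤ × ℤ), 1 ≤ k →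
      ((z.2 = Y ∨ z.2 = Y + 1) → Stp Q κ {v | v.2 = Y} z k) ∧
      ((z.1 = X ∨ z.1 = X + 1) → Stp Q κ {v | v.1 = X} z k) := by
  obtain ⟨κ, h1, h2, H⟩ := flat_step hQ hQ1 hV
  refine ⟨κ, h1, h2, ?_⟩
  have g0 : ∀ (Y : ℤ) (k : ℕ) (z : ℤ × ℤ), 1 ≤ k → z.2 = Y + 1 →
      Stp Q κ {v | v.2 = Y} z k := fun Y k z hk hz e I D η W hp hI hD hη hW0 hW =>
    H e z.1 Y z k I D η W hk (by rw [← hz]) hp hI hD hη hW0 hW
  have g1 : ∀ (X : ℤ) (k : ℕ) (z : ℤ × ℤ), 1 ≤ k → z.1 = X → Stp Q κ {v | v.1 = X} z k := by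
    intro X k z hk hz
    refine (g0 (-X - 1) k (z.2, -z.1) hk (by dsimp only; omega)).rot (by simp) fun v => ?_
    simp only [Set.mem_ofPred_eq]
    omega
  have g2 : ∀ (Y : ℤ) (k : ℕ) (z : ℤ × ℤ), 1 ≤ k → z.2 = Y → Stp Q κ {v | v.2 = Y} z k := by
    intro Y k z hk hz
    refine (g1 Y k (z.2, -z.1) hk (by dsimp only; omega)).rot (by simp) fun v => ?_
    simp only [Set.mem_ofPred_eq]
  have g3 : ∀ (X : ℤ) (k : ℕ) (z : ℤ × ℤ), 1 ≤ k → z.1 = X + 1 → Stp Q κ {v | v.1 = X} z k := by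
    intro X k z hk hz
    refine (g2 (-X - 1) k (z.2, -z.1) hk (by dsimp only; omega)).rot (by simp) fun v => ?_
    simp only [Set.mem_ofPred_eq]
    omega
  exact fun X Y k z hk => ⟨fun h => h.elim (g2 Y k z hk) (g0 Y k z hk),
    fun h => h.elim (g1 X k z hk) (g3 X k z hk)⟩

end Vale.Agent.P167.N.ID
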