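import Vale.Agent.P167.N.ID.Thk
import Vale.Agent.P167.H680.T.RowQ

/-!
# P167, `0 < q < 1`, block 2A: the rows with one killed and one regular tip

`Row`: the rows of `H825/Q/Rows` (one line of squares; orientation `o`, first square `x`, length `L`,
mean raw outward phase `c`, jump `j` and colour factor `η` from the square `k0` on, colour `s`) with
one more datum `g`: the face (`true`: upper/right, `false`: lower/left) with the bigger phase.

* **Faces**: raw outward phases `c ± θ / 4` (`+` on the face `g`), `+ j` from `k0` on, stagger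
  constant `± (3 θ - π) / 4` (sign = colour of the square). With `A` = upper face of a horizontal
  row/left face of a vertical row and `B` the other face, the difference `A - B` is `J = θ / 2` if
  `g = o` and `J = -θ / 2` otherwise.
* **End sides**: the mean phase (`c`, resp. `c + j`) and the stagger constant `± (θ - π) / 4`.
* `p = xor o g` is the killed end (`false`: start, `true`: end): all strands of a loop over its good
  corner `zt` (good: odd for closed squares, even for open squares) are killed; the other end is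
  regular.
* **Base rows** (`|j| = θ`, `η = 1`): the strands of the face `kf` over the site `zb` of the column
  `k0` are killed; this site is good (hence the site of the other face in the column `k0`, over
  which the jump is invisible, is bad).

The class is closed under translations and reflections (raw phases kept, colours exchanged by odd
translations and by reflections, parity of the sites kept by the reflections).
-/

namespace Vale.Agent.P167.N.ID

open Finset Filter Topology MeasureTheory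
open Vale.Agent.P167.H592
open Vale.Agent.P167.XDL (bS mem_bS)
open Vale.Agent.P167.H680.T (WallG wtr wrf wrX wrD sq sgb mem_bS_sq par par_mul par_cases
  par_add par_neg mem_image_inv mem_image_add rx rd rx_rx rd_rd RD Cls Orb clL clL_ok)

/-- A row of squares, one killed and one regular tip. -/
@[ext] structure Row extends H825.Q.Row where
  /-- the face with the bigger phase: `true`: upper/right face -/
  g : Bool

/-- The killed end: `false`: start, `true`: end. -/
def Row.p (r : Row) : Bool := xor r.o r.g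

/-- The site before the column `k` on the face `b` (`true`: upper/right). -/
def Row.st (r : Row) (b : Bool) (k : ℕ) : ℤ × ℤ :=
  if r.o then (r.x.1 + k, r.x.2 + if b then 1 else 0) else (r.x.1 + (if b then 1 else 0), r.x.2 + k)

/-- The face whose site at the jump is killed, for `|j| = θ`. -/
noncomputable def Row.kf (r : Row) : Bool := if 0 < r.j then r.o else !r.o

/-- The phase of the side of the face `b` before the jump. -/
noncomputable def Row.cf (θ : ℝ) (r : Row) (b : Bool) : ℝ := r.c + if b = r.g then θ / 4 else -(θ / 4)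

/-- The mean phase at the ends (`false`: start, `true`: end). -/
noncomputable def Row.me (r : Row) (e : Bool) : ℝ := if e then r.c + r.j else r.c

/-- The colour at the ends. -/
noncomputable def Row.se (r : Row) (e : Bool) : ℝ := if e then r.s * r.η else r.s

/-- The index of the corners of the ends. -/
def Row.ke (r : Row) (e : Bool) : ℕ := if e then r.L else 0

/-- The raw outward phase of the sides. -/
noncomputable def Row.Φ (θ : ℝ) (r : Row) : Ed → ℝ
  | Sum.inl v => if r.o then r.me (decide (r.x.1 ≤ v.1)) else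
      r.cf θ (decide (r.x.1 ≤ v.1)) + if (r.k0 : ℤ) ≤ v.2 - r.x.2 then r.j else 0
  | Sum.inr v => if r.o then
      r.cf θ (decide (r.x.2 ≤ v.2)) + (if (r.k0 : ℤ) ≤ v.1 - r.x.1 then r.j else 0) else
      r.me (decide (r.x.2 ≤ v.2))

/-- The stagger of the sides: `± (3 θ - π) / 4` on the faces, `± (θ - π) / 4` on the end sides. -/
noncomputable def Row.σ (θ : ℝ) (r : Row) : Ed → ℝ
  | Sum.inl v => if r.o then r.se (decide (r.x.1 ≤ v.1)) * ((θ - Real.pi) / 4) else
      r.s * (if (r.k0 : ℤ) ≤ v.2 - r.x.2 then r.η else 1) * ((3 * θ - Real.pi) / 4)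
  | Sum.inr v => if r.o then
      r.s * (if (r.k0 : ℤ) ≤ v.1 - r.x.1 then r.η else 1) * ((3 * θ - Real.pi) / 4) else
      r.se (decide (r.x.2 ≤ v.2)) * ((θ - Real.pi) / 4)

/-- **The wall of a row.** -/
noncomputable def Row.wall (θ : ℝ) (r : Row) (z : ℝ) : WallG := thk r.I (r.Φ θ) (r.σ θ) z

/-- **The kinds of rows.** Plain rows; rows with a junction of the free and the wired part
(`|j| = (π - θ)/2` or `|π - 3 θ|/2`, the colour changes); rows with the base point of the free or of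
the wired functional (`|j| = θ`, the colour does not change, the killed site is good). The special
point is at distance at least `κ n` from the ends. -/
structure Row.Ok (θ κ : ℝ) (n : ℕ) (r : Row) : Prop where
  /-- the length -/
  len : κ * n ≤ r.L
  /-- the colour -/
  s : r.s = 1 ∨ r.s = -1
  /-- the kind -/
  kind : (r.j = 0 ∧ r.η = 1) ∨
    ((((|r.j| = (Real.pi - θ) / 2 ∨ |r.j| = |Real.pi - 3 * θ| / 2) ∧ r.η = -1) ∨
      (|r.j| = θ ∧ r.η = 1)) ∧ κ * n ≤ r.k0 ∧ r.k0 + κ * n ≤ r.L)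
  /-- the killed site of a base is good -/
  gd : r.η = 1 → r.j ≠ 0 → par (r.st r.kf r.k0) * r.s = -1

theorem Row.Ok.mono {θ κ κ' : ℝ} {n : ℕ} {r : Row} (h : κ' * n ≤ κ * n) (hr : r.Ok θ κ n) :
    r.Ok θ κ' n where
  len := h.trans hr.len
  s := hr.s
  kind := by
    rcases hr.kind with h1 | ⟨h1, h2, h3⟩
    · exact Or.inl h1
    · exact Or.inr ⟨h1, by linarith, by linarith⟩
  gd := hr.gd

/-- The walls of the rows, with the normalisations `Zr n r` as labels. -/
def rowP (θ : ℝ) (Zr : ℕ → Row → ℝ) (κ : ℝ) (n : ℕ) (w : WallG) : Prop :=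
  ∃ r : Row, r.Ok θ κ n ∧ w = r.wall θ (Zr n r)

/-- **The class of the thick walls** (all images under translations and reflections of the walls of
rows). -/
def clR (θ : ℝ) (Zr : ℕ → Row → ℝ) : Cls := clL (rowP θ Zr)

theorem clR_ok {θ : ℝ} {Zr : ℕ → Row → ℝ}
    (hpos : ∀ {κ : ℝ}, 0 < κ → ∀ᶠ n : ℕ in Filter.atTop, ∀ r : Row, r.Ok θ κ n → 0 < Zr n r) :
    (clR θ Zr).Ok := by
  refine clL_ok ?_ ?_
  · rintro κ κ' n w h ⟨r, hr, rfl⟩
    exact ⟨r, hr.mono h, rfl⟩
  · intro κ hκ
    filter_upwards [hpos hκ] with n hn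
    rintro w ⟨r, hr, rfl⟩
    exact hn r hr

/-! ### the special sites -/

/-- The face of the good corner of the end `e`. -/
noncomputable def Row.gc (r : Row) (e : Bool) : Bool :=
  decide (par (r.st true (r.ke e)) * r.se e = -1)

/-- The killed site of the tip: the good corner of the killed end. -/
noncomputable def Row.zt (r : Row) : ℤ × ℤ := r.st (r.gc r.p) (r.ke r.p)

/-- The killed site of the base. -/
noncomputable def Row.zb (r : Row) : ℤ × ℤ := r.st r.kf r.k0

/-- Plain rows: no special point. -/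
def Row.Plain (r : Row) : Prop := r.j = 0 ∧ r.η = 1

/-- The index of the first square behind the special point, as a margin: the distance of the
special point from the ends (plain rows: the length). -/
noncomputable def Row.mg (r : Row) : ℕ := by
  classical exact if r.Plain then r.L else min r.k0 (r.L - r.k0)

/-! ### images -/

/-- Translation. -/
noncomputable def Row.tr (r : Row) (v : ℤ × ℤ) : Row := { r with x := r.x + v, s := par v * r.s }

/-- Reflection in the diagonal. -/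
noncomputable def Row.rD (r : Row) : Row := { r with o := !r.o, x := (r.x.2, r.x.1), s := -r.s }

/-- Reflection in the columns. -/
noncomputable def Row.rX (r : Row) : Row :=
  if r.o then { r with
    x := (2 - r.x.1 - r.L, r.x.2), c := r.c + r.j, j := -r.j, k0 := r.L - r.k0, s := -(r.s * r.η) }
  else { r with x := (1 - r.x.1, r.x.2), s := -r.s, g := !r.g }

theorem Row.mem_I (r : Row) {v : ℤ × ℤ} : v ∈ r.I ↔
    if r.o then v.2 = r.x.2 ∧ r.x.1 ≤ v.1 ∧ v.1 < r.x.1 + r.L
    else v.1 = r.x.1 ∧ r.x.2 ≤ v.2 ∧ v.2 < r.x.2 + r.L :=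
  RD.mem_D (H680.T.toRD r.toRow 0)

theorem Row.mem_bS (r : Row) {e : Ed} : e ∈ bS r.I ↔
    match e with
    | Sum.inl v => if r.o then v.2 = r.x.2 ∧ 0 < r.L ∧ (v.1 = r.x.1 - 1 ∨ v.1 = r.x.1 + r.L - 1)
        else (v.1 = r.x.1 ∨ v.1 = r.x.1 - 1) ∧ r.x.2 ≤ v.2 ∧ v.2 < r.x.2 + r.L
    | Sum.inr v => if r.o then (v.2 = r.x.2 ∨ v.2 = r.x.2 - 1) ∧ r.x.1 ≤ v.1 ∧ v.1 < r.x.1 + r.L
        else v.1 = r.x.1 ∧ 0 < r.L ∧ (v.2 = r.x.2 - 1 ∨ v.2 = r.x.2 + r.L - 1) := by
  rw [mem_bS_sq]
  rcases e with v | v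
  · show ((v.1 + 1, v.2) ∈ r.I ∧ v ∉ r.I) ∨ ((v.1 + 1, v.2) ∉ r.I ∧ v ∈ r.I) ↔ _
    rw [r.mem_I, r.mem_I]
    cases r.o
    · simp only [Bool.false_eq_true, if_false]
      omega
    · simp only [if_true]
      omega
  · show ((v.1, v.2 + 1) ∈ r.I ∧ v ∉ r.I) ∨ ((v.1, v.2 + 1) ∉ r.I ∧ v ∈ r.I) ↔ _
    rw [r.mem_I, r.mem_I]
    cases r.o
    · simp only [Bool.false_eq_true, if_false]
      omega
    · simp only [if_true]
      omega

variable {θ κ : ℝ} {n : ℕ} {r : Row} {z : ℝ}

/-! ### translations -/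

theorem Row.tr_I (r : Row) (v : ℤ × ℤ) : (r.tr v).I = r.I.image (· + v) := by
  ext u
  rw [mem_image_add, Row.mem_I, Row.mem_I]
  show (if r.o then u.2 = r.x.2 + v.2 ∧ r.x.1 + v.1 ≤ u.1 ∧ u.1 < r.x.1 + v.1 + r.L
    else u.1 = r.x.1 + v.1 ∧ r.x.2 + v.2 ≤ u.2 ∧ u.2 < r.x.2 + v.2 + r.L) ↔
    if r.o then u.2 - v.2 = r.x.2 ∧ r.x.1 ≤ u.1 - v.1 ∧ u.1 - v.1 < r.x.1 + r.L
    else u.1 - v.1 = r.x.1 ∧ r.x.2 ≤ u.2 - v.2 ∧ u.2 - v.2 < r.x.2 + r.L
  split_ifs <;> constructor <;> rintro ⟨h1, h2, h3⟩ <;> exact ⟨by omega, by omega, by omega⟩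

theorem Row.st_tr (r : Row) (v : ℤ × ℤ) (b : Bool) (k : ℕ) : (r.tr v).st b k = r.st b k + v := by
  unfold Row.st
  show (if r.o then (r.x.1 + v.1 + k, r.x.2 + v.2 + if b then 1 else 0)
    else (r.x.1 + v.1 + (if b then 1 else 0), r.x.2 + v.2 + k) : ℤ × ℤ) = _
  cases r.o <;> refine Prod.ext ?_ ?_ <;> simp <;> ring

theorem Row.Φ_tr (r : Row) (v : ℤ × ℤ) (e : Ed) : (r.tr v).Φ θ e = r.Φ θ (shE (-v) e) := by
  have key : ∀ a b c : ℤ, decide (b + c ≤ a) = decide (b ≤ a + -c) := fun a b c => by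
    congr 1
    exact propext ⟨fun h => by omega, fun h => by omega⟩
  have key2 : ∀ a b c : ℤ, a - (b + c) = a + -c - b := fun a b c => by ring
  rcases e with u | u
  · show (if r.o then r.me (decide (r.x.1 + v.1 ≤ u.1)) else
      r.cf θ (decide (r.x.1 + v.1 ≤ u.1)) + if (r.k0 : ℤ) ≤ u.2 - (r.x.2 + v.2) then r.j else 0) =
      if r.o then r.me (decide (r.x.1 ≤ u.1 + -v.1)) else
      r.cf θ (decide (r.x.1 ≤ u.1 + -v.1)) + if (r.k0 : ℤ) ≤ u.2 + -v.2 - r.x.2 then r.j else 0
    rw [key, key2]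
  · show (if r.o then r.cf θ (decide (r.x.2 + v.2 ≤ u.2)) +
      (if (r.k0 : ℤ) ≤ u.1 - (r.x.1 + v.1) then r.j else 0) else
      r.me (decide (r.x.2 + v.2 ≤ u.2))) =
      if r.o then r.cf θ (decide (r.x.2 ≤ u.2 + -v.2)) +
      (if (r.k0 : ℤ) ≤ u.1 + -v.1 - r.x.1 then r.j else 0) else
      r.me (decide (r.x.2 ≤ u.2 + -v.2))
    rw [key, key2]

theorem Row.se_tr (r : Row) (v : ℤ × ℤ) (e : Bool) : (r.tr v).se e = par v * r.se e := by
  show (if e then par v * r.s * r.η else par v * r.s) = par v * if e then r.s * r.η else r.s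
  split_ifs <;> ring

theorem Row.σ_tr (r : Row) (v : ℤ × ℤ) (e : Ed) :
    (r.tr v).σ θ e = par v * r.σ θ (shE (-v) e) := by
  have key : ∀ a b c : ℤ, decide (b + c ≤ a) = decide (b ≤ a + -c) := fun a b c => by
    congr 1
    exact propext ⟨fun h => by omega, fun h => by omega⟩
  have key2 : ∀ a b c : ℤ, a - (b + c) = a + -c - b := fun a b c => by ring
  rcases e with u | u
  · show (if r.o then (r.tr v).se (decide (r.x.1 + v.1 ≤ u.1)) * ((θ - Real.pi) / 4) else
      par v * r.s * (if (r.k0 : ℤ) ≤ u.2 - (r.x.2 + v.2) then r.η else 1) *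
        ((3 * θ - Real.pi) / 4)) =
      par v * if r.o then r.se (decide (r.x.1 ≤ u.1 + -v.1)) * ((θ - Real.pi) / 4) else
      r.s * (if (r.k0 : ℤ) ≤ u.2 + -v.2 - r.x.2 then r.η else 1) * ((3 * θ - Real.pi) / 4)
    rw [key, key2, Row.se_tr]
    cases r.o
    · simp only [Bool.false_eq_true, if_false]
      ring
    · simp only [if_true]
      ring
  · show (if r.o then par v * r.s * (if (r.k0 : ℤ) ≤ u.1 - (r.x.1 + v.1) then r.η else 1) *
        ((3 * θ - Real.pi) / 4) else
      (r.tr v).se (decide (r.x.2 + v.2 ≤ u.2)) * ((θ - Real.pi) / 4)) =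
      par v * if r.o then r.s * (if (r.k0 : ℤ) ≤ u.1 + -v.1 - r.x.1 then r.η else 1) *
        ((3 * θ - Real.pi) / 4) else
      r.se (decide (r.x.2 ≤ u.2 + -v.2)) * ((θ - Real.pi) / 4)
    rw [key, key2, Row.se_tr]
    cases r.o
    · simp only [Bool.false_eq_true, if_false]
      ring
    · simp only [if_true]
      ring

theorem Row.wtr_wall (r : Row) (v : ℤ × ℤ) : wtr (r.wall θ z) v = (r.tr v).wall θ z := by
  unfold Row.wall
  rw [wtr_thk, Row.tr_I]
  exact thk_congr (fun e _ => (Row.Φ_tr r v e).symm) fun e _ => (Row.σ_tr r v e).symm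

theorem Row.Ok.tr (h : r.Ok θ κ n) (v : ℤ × ℤ) : (r.tr v).Ok θ κ n := by
  refine ⟨h.len, ?_, h.kind, fun h1 h2 => ?_⟩
  · show par v * r.s = 1 ∨ par v * r.s = -1
    rcases par_cases v with h1 | h1 <;> rcases h.s with h2 | h2 <;> rw [h1, h2] <;> norm_num
  · have h3 := h.gd h1 h2
    show par ((r.tr v).st r.kf r.k0) * (par v * r.s) = -1
    rw [Row.st_tr, par_add]
    linear_combination h3 + par (r.st r.kf r.k0) * r.s * par_mul v

/-! ### reflection in the diagonal -/

theorem Row.rD_I (r : Row) : r.rD.I = r.I.image rd := by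
  ext u
  rw [mem_image_inv rd_rd, Row.mem_I, Row.mem_I]
  show (if (!r.o) = true then u.2 = r.x.1 ∧ r.x.2 ≤ u.1 ∧ u.1 < r.x.2 + r.L
    else u.1 = r.x.2 ∧ r.x.1 ≤ u.2 ∧ u.2 < r.x.1 + r.L) ↔
    if r.o then u.1 = r.x.2 ∧ r.x.1 ≤ u.2 ∧ u.2 < r.x.1 + r.L
    else u.2 = r.x.1 ∧ r.x.2 ≤ u.1 ∧ u.1 < r.x.2 + r.L
  cases r.o <;> simp

theorem par_rd (v : ℤ × ℤ) : par (rd v) = par v := by
  unfold par
  have : (rd v).1 + (rd v).2 = v.1 + v.2 := add_comm v.2 v.1
  rw [this]

theorem Row.st_rD (r : Row) (b : Bool) (k : ℕ) : r.rD.st b k = rd (r.st b k) := by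
  unfold Row.st
  show (if (!r.o) = true then (r.x.2 + k, r.x.1 + if b then 1 else 0)
    else (r.x.2 + (if b then 1 else 0), r.x.1 + k) : ℤ × ℤ) = _
  cases r.o <;> rfl

theorem Row.p_rD (r : Row) : r.rD.p = !r.p := by
  show xor (!r.o) r.g = !(xor r.o r.g)
  cases r.o <;> cases r.g <;> rfl

theorem Row.se_rD (r : Row) (e : Bool) : r.rD.se e = -r.se e := by
  show (if e then -r.s * r.η else -r.s) = -if e then r.s * r.η else r.s
  split_ifs <;> ring

theorem Row.Φ_rD (r : Row) (e : Ed) : r.rD.Φ θ e = r.Φ θ (rdE e) := by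
  rcases e with u | u
  · show (if (!r.o) = true then r.me (decide (r.x.2 ≤ u.1)) else
      r.cf θ (decide (r.x.2 ≤ u.1)) + if (r.k0 : ℤ) ≤ u.2 - r.x.1 then r.j else 0) =
      if r.o then r.cf θ (decide (r.x.2 ≤ u.1)) + (if (r.k0 : ℤ) ≤ u.2 - r.x.1 then r.j else 0) else
      r.me (decide (r.x.2 ≤ u.1))
    cases r.o <;> rfl
  · show (if (!r.o) = true then r.cf θ (decide (r.x.1 ≤ u.2)) +
      (if (r.k0 : ℤ) ≤ u.1 - r.x.2 then r.j else 0) else r.me (decide (r.x.1 ≤ u.2))) =
      if r.o then r.me (decide (r.x.1 ≤ u.2)) else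
      r.cf θ (decide (r.x.1 ≤ u.2)) + if (r.k0 : ℤ) ≤ u.1 - r.x.2 then r.j else 0
    cases r.o <;> rfl

theorem Row.σ_rD (r : Row) (e : Ed) : r.rD.σ θ e = -r.σ θ (rdE e) := by
  rcases e with u | u
  · show (if (!r.o) = true then r.rD.se (decide (r.x.2 ≤ u.1)) * ((θ - Real.pi) / 4) else
      -r.s * (if (r.k0 : ℤ) ≤ u.2 - r.x.1 then r.η else 1) * ((3 * θ - Real.pi) / 4)) =
      -if r.o then r.s * (if (r.k0 : ℤ) ≤ u.2 - r.x.1 then r.η else 1) *
        ((3 * θ - Real.pi) / 4) else r.se (decide (r.x.2 ≤ u.1)) * ((θ - Real.pi) / 4)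
    rw [Row.se_rD]
    cases r.o
    · simp only [Bool.not_false, if_true, Bool.false_eq_true, if_false]
      ring
    · simp only [Bool.not_true, if_true, Bool.false_eq_true, if_false]
      ring
  · show (if (!r.o) = true then -r.s * (if (r.k0 : ℤ) ≤ u.1 - r.x.2 then r.η else 1) *
        ((3 * θ - Real.pi) / 4) else r.rD.se (decide (r.x.1 ≤ u.2)) * ((θ - Real.pi) / 4)) =
      -if r.o then r.se (decide (r.x.1 ≤ u.2)) * ((θ - Real.pi) / 4) else
        r.s * (if (r.k0 : ℤ) ≤ u.1 - r.x.2 then r.η else 1) * ((3 * θ - Real.pi) / 4)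
    rw [Row.se_rD]
    cases r.o
    · simp only [Bool.not_false, if_true, Bool.false_eq_true, if_false]
      ring
    · simp only [Bool.not_true, if_true, Bool.false_eq_true, if_false]
      ring

theorem Row.wrD_wall (r : Row) : wrD (r.wall θ z) = r.rD.wall θ z := by
  unfold Row.wall
  rw [wrD_thk, Row.rD_I]
  exact thk_congr (fun e _ => (Row.Φ_rD r e).symm) fun e _ => (Row.σ_rD r e).symm

/-- The sites of the two faces in the same column have opposite parities. -/
theorem Row.par_not (r : Row) (b : Bool) (k : ℕ) : par (r.st (!b) k) = -par (r.st b k) := by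
  have h : ∀ a c : ℤ, (Even (a + (c + 1)) ↔ ¬ Even (a + c)) := fun a c => by
    rw [← add_assoc, Int.even_add_one]
  have h' : ∀ a c : ℤ, (Even (a + 1 + c) ↔ ¬ Even (a + c)) := fun a c => by
    rw [add_right_comm, Int.even_add_one]
  unfold par Row.st
  cases r.o <;> cases b <;>
    simp only [Bool.false_eq_true, if_false, if_true, Bool.not_false, Bool.not_true, add_zero,
      h, h'] <;> split_ifs <;> simp_all

theorem Row.Ok.rD (h : r.Ok θ κ n) : r.rD.Ok θ κ n := by
  refine ⟨h.len, ?_, h.kind, fun h1 h2 => ?_⟩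
  · show -r.s = 1 ∨ -r.s = -1
    rcases h.s with h2 | h2 <;> rw [h2] <;> norm_num
  · have h3 := h.gd h1 h2
    have h4 : r.rD.kf = !r.kf := by
      show (if 0 < r.j then !r.o else !!r.o) = !(if 0 < r.j then r.o else !r.o)
      split_ifs <;> rfl
    show par (r.rD.st r.rD.kf r.k0) * (-r.s) = -1
    rw [h4, Row.st_rD, par_rd, Row.par_not]
    linear_combination h3

/-! ### reflection in the columns -/

theorem Row.rX_t (h : r.o = true) : r.rX = { r with
    x := (2 - r.x.1 - r.L, r.x.2), c := r.c + r.j, j := -r.j, k0 := r.L - r.k0, s := -(r.s * r.η) } :=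
  if_pos h

theorem Row.rX_f (h : r.o = false) :
    r.rX = { r with x := (1 - r.x.1, r.x.2), s := -r.s, g := !r.g } :=
  if_neg (by rw [h]; exact Bool.false_ne_true)

theorem Row.rX_I (r : Row) : r.rX.I = r.I.image rx := by
  ext u
  rw [mem_image_inv rx_rx, Row.mem_I, Row.mem_I]
  cases ho : r.o
  · rw [Row.rX_f ho]
    show (if r.o then _ else u.1 = 1 - r.x.1 ∧ r.x.2 ≤ u.2 ∧ u.2 < r.x.2 + r.L) ↔ _
    rw [ho]
    simp only [Bool.false_eq_true, if_false]
    show _ ↔ 1 - u.1 = r.x.1 ∧ r.x.2 ≤ u.2 ∧ u.2 < r.x.2 + r.L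
    constructor <;> rintro ⟨h1, h2, h3⟩ <;> exact ⟨by omega, h2, h3⟩
  · rw [Row.rX_t ho]
    show (if r.o then u.2 = r.x.2 ∧ 2 - r.x.1 - r.L ≤ u.1 ∧ u.1 < 2 - r.x.1 - r.L + r.L else _) ↔ _
    rw [ho]
    simp only [if_true]
    show _ ↔ u.2 = r.x.2 ∧ r.x.1 ≤ 1 - u.1 ∧ 1 - u.1 < r.x.1 + r.L
    constructor <;> rintro ⟨h1, h2, h3⟩ <;> exact ⟨h1, by omega, by omega⟩

/-- The admissible rows: the jump is inside of the row, or there is none. -/
theorem Row.Ok.eta (h : r.Ok θ κ n) : r.η = 1 ∨ r.η = -1 := by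
  rcases h.kind with h | ⟨h | h, -⟩
  · exact Or.inl h.2
  · exact Or.inr h.2
  · exact Or.inl h.2

theorem Row.Ok.cs (h : r.Ok θ κ n) (hκ : 0 ≤ κ * n) : (r.j = 0 ∧ r.η = 1) ∨ r.k0 ≤ r.L := by
  rcases h.kind with h | ⟨-, h1, h2⟩
  · exact Or.inl h
  · right
    have : (r.k0 : ℝ) ≤ r.L := by linarith
    exact_mod_cast this

theorem par_rx' (a b : ℤ) : par (2 - a, b) = par (a, b) := by
  unfold par
  have h : Even (2 - a + b) ↔ Even (a + b) := by
    rw [Int.even_add, Int.even_add, Int.even_sub]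
    simp
  simp only [h]

theorem Row.me_rX_t (ho : r.o = true) (e : Bool) : r.rX.me e = r.me (!e) := by
  rw [Row.rX_t ho]
  show (if e then r.c + r.j + -r.j else r.c + r.j) = if (!e) = true then r.c + r.j else r.c
  cases e <;> simp

theorem Row.se_rX_t (ho : r.o = true) (hη : r.η = 1 ∨ r.η = -1) (e : Bool) :
    r.rX.se e = -r.se (!e) := by
  have hη2 : r.η * r.η = 1 := by rcases hη with h | h <;> rw [h] <;> norm_num
  rw [Row.rX_t ho]
  show (if e then -(r.s * r.η) * r.η else -(r.s * r.η)) = -if (!e) = true then r.s * r.η else r.s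
  cases e
  · simp
  · simp only [if_true, Bool.not_true, Bool.false_eq_true, if_false]
    linear_combination -r.s * hη2

theorem Row.se_rX_f (ho : r.o = false) (e : Bool) : r.rX.se e = -r.se e := by
  rw [Row.rX_f ho]
  show (if e then -r.s * r.η else -r.s) = -if e then r.s * r.η else r.s
  cases e <;> simp

theorem Row.p_rX (r : Row) : r.rX.p = if r.o then r.p else !r.p := by
  cases ho : r.o
  · rw [Row.rX_f ho]
    show xor r.o (!r.g) = if false = true then _ else !(xor r.o r.g)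
    cases r.o <;> cases r.g <;> rfl
  · rw [Row.rX_t ho]
    rfl

theorem Row.Φ_rX (h : r.Ok θ κ n) (hκ : 0 ≤ κ * n) {e : Ed} (he : e ∈ bS r.rX.I) :
    r.rX.Φ θ e = r.Φ θ (rxE e) := by
  rw [Row.mem_bS] at he
  cases ho : r.o
  · have hd : ∀ a : ℤ, decide (r.x.1 ≤ -a) = !decide (1 - r.x.1 ≤ a) := fun a => by
      by_cases h1 : 1 - r.x.1 ≤ a
      · rw [decide_eq_true h1, decide_eq_false (by omega)]
        rfl
      · rw [decide_eq_false h1, decide_eq_true (by omega)]
        rfl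
    have hcf : ∀ b, r.rX.cf θ b = r.cf θ (!b) := fun b => by
      rw [Row.rX_f ho]
      show (r.c + if b = !r.g then θ / 4 else -(θ / 4)) = r.c + if (!b) = r.g then θ / 4 else -(θ / 4)
      cases b <;> cases r.g <;> rfl
    rcases e with u | u
    · have e1 : r.rX.Φ θ (Sum.inl u) = r.rX.cf θ (decide (1 - r.x.1 ≤ u.1)) +
          if (r.k0 : ℤ) ≤ u.2 - r.x.2 then r.j else 0 := by
        rw [Row.rX_f ho]
        show (if r.o then _ else _) = _
        rw [ho]
        rfl
      have e2 : r.Φ θ (rxE (Sum.inl u)) = r.cf θ (decide (r.x.1 ≤ -u.1)) +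
          if (r.k0 : ℤ) ≤ u.2 - r.x.2 then r.j else 0 := by
        show (if r.o then _ else _) = _
        rw [ho]
        rfl
      rw [e1, e2, hcf, hd]
    · have e1 : r.rX.Φ θ (Sum.inr u) = r.me (decide (r.x.2 ≤ u.2)) := by
        rw [Row.rX_f ho]
        show (if r.o then _ else _) = _
        rw [ho]
        rfl
      have e2 : r.Φ θ (rxE (Sum.inr u)) = r.me (decide (r.x.2 ≤ u.2)) := by
        show (if r.o then _ else _) = _
        rw [ho]
        rfl
      rw [e1, e2]
  · have hcf : ∀ b, r.rX.cf θ b = r.cf θ b + r.j := fun b => by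
      rw [Row.rX_t ho]
      show (r.c + r.j + if b = r.g then θ / 4 else -(θ / 4)) =
        (r.c + if b = r.g then θ / 4 else -(θ / 4)) + r.j
      ring
    rcases e with u | u
    · have e1 : r.rX.Φ θ (Sum.inl u) = r.rX.me (decide (2 - r.x.1 - r.L ≤ u.1)) := by
        rw [Row.rX_t ho]
        show (if r.o then _ else _) = _
        rw [ho]
        rfl
      have e2 : r.Φ θ (rxE (Sum.inl u)) = r.me (decide (r.x.1 ≤ -u.1)) := by
        show (if r.o then _ else _) = _
        rw [ho]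
        rfl
      rw [e1, e2, Row.me_rX_t ho]
      congr 1
      rw [Row.rX_t ho] at he
      change (if r.o then u.2 = r.x.2 ∧ 0 < r.L ∧ (u.1 = 2 - r.x.1 - r.L - 1 ∨
        u.1 = 2 - r.x.1 - r.L + r.L - 1) else _) at he
      rw [ho] at he
      simp only [if_true] at he
      by_cases h1 : 2 - r.x.1 - (r.L : ℤ) ≤ u.1
      · rw [decide_eq_true h1, decide_eq_false (by omega)]
        rfl
      · rw [decide_eq_false h1, decide_eq_true (by omega)]
        rfl
    · have e1 : r.rX.Φ θ (Sum.inr u) = r.rX.cf θ (decide (r.x.2 ≤ u.2)) +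
          if ((r.L - r.k0 : ℕ) : ℤ) ≤ u.1 - (2 - r.x.1 - r.L) then -r.j else 0 := by
        rw [Row.rX_t ho]
        show (if r.o then _ else _) = _
        rw [ho]
        rfl
      have e2 : r.Φ θ (rxE (Sum.inr u)) = r.cf θ (decide (r.x.2 ≤ u.2)) +
          if (r.k0 : ℤ) ≤ 1 - u.1 - r.x.1 then r.j else 0 := by
        show (if r.o then _ else _) = _
        rw [ho]
        rfl
      rw [e1, e2, hcf]
      rw [Row.rX_t ho] at he
      change (if r.o then (u.2 = r.x.2 ∨ u.2 = r.x.2 - 1) ∧ 2 - r.x.1 - r.L ≤ u.1 ∧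
        u.1 < 2 - r.x.1 - r.L + r.L else _) at he
      rw [ho] at he
      simp only [if_true] at he
      rcases h.cs hκ with h3 | h3
      · rw [h3.1, neg_zero]
        split_ifs <;> ring
      · have h5 : (((r.L - r.k0 : ℕ) : ℤ) ≤ u.1 - (2 - r.x.1 - r.L)) ↔
            ¬ (r.k0 : ℤ) ≤ 1 - u.1 - r.x.1 := by omega
        by_cases h4 : (r.k0 : ℤ) ≤ 1 - u.1 - r.x.1
        · rw [if_pos h4, if_neg fun h6 => h5.1 h6 h4]
          ring
        · rw [if_neg h4, if_pos (h5.2 h4)]
          ring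

theorem Row.σ_rX (h : r.Ok θ κ n) (hκ : 0 ≤ κ * n) {e : Ed} (he : e ∈ bS r.rX.I) :
    r.rX.σ θ e = -r.σ θ (rxE e) := by
  have hη2 : r.η * r.η = 1 := by rcases h.eta with h | h <;> rw [h] <;> norm_num
  rw [Row.mem_bS] at he
  cases ho : r.o
  · rcases e with u | u
    · have e1 : r.rX.σ θ (Sum.inl u) = -r.s * (if (r.k0 : ℤ) ≤ u.2 - r.x.2 then r.η else 1) *
          ((3 * θ - Real.pi) / 4) := by
        rw [Row.rX_f ho]
        show (if r.o then _ else _) = _
        rw [ho]
        rfl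
      have e2 : r.σ θ (rxE (Sum.inl u)) = r.s * (if (r.k0 : ℤ) ≤ u.2 - r.x.2 then r.η else 1) *
          ((3 * θ - Real.pi) / 4) := by
        show (if r.o then _ else _) = _
        rw [ho]
        rfl
      rw [e1, e2]
      ring
    · have e1 : r.rX.σ θ (Sum.inr u) = r.rX.se (decide (r.x.2 ≤ u.2)) * ((θ - Real.pi) / 4) := by
        rw [Row.rX_f ho]
        show (if r.o then _ else _) = _
        rw [ho]
        rfl
      have e2 : r.σ θ (rxE (Sum.inr u)) = r.se (decide (r.x.2 ≤ u.2)) * ((θ - Real.pi) / 4) := by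
        show (if r.o then _ else _) = _
        rw [ho]
        rfl
      rw [e1, e2, Row.se_rX_f ho]
      ring
  · rcases e with u | u
    · have e1 : r.rX.σ θ (Sum.inl u) = r.rX.se (decide (2 - r.x.1 - r.L ≤ u.1)) *
          ((θ - Real.pi) / 4) := by
        rw [Row.rX_t ho]
        show (if r.o then _ else _) = _
        rw [ho]
        rfl
      have e2 : r.σ θ (rxE (Sum.inl u)) = r.se (decide (r.x.1 ≤ -u.1)) * ((θ - Real.pi) / 4) := by
        show (if r.o then _ else _) = _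
        rw [ho]
        rfl
      rw [Row.rX_t ho] at he
      change (if r.o then u.2 = r.x.2 ∧ 0 < r.L ∧ (u.1 = 2 - r.x.1 - r.L - 1 ∨
        u.1 = 2 - r.x.1 - r.L + r.L - 1) else _) at he
      rw [ho] at he
      simp only [if_true] at he
      have e3 : decide (r.x.1 ≤ -u.1) = !decide (2 - r.x.1 - (r.L : ℤ) ≤ u.1) := by
        by_cases h1 : 2 - r.x.1 - (r.L : ℤ) ≤ u.1
        · rw [decide_eq_true h1, decide_eq_false (by omega)]
          rfl
        · rw [decide_eq_false h1, decide_eq_true (by omega)]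
          rfl
      rw [e1, e2, Row.se_rX_t ho h.eta, e3]
      ring
    · have e1 : r.rX.σ θ (Sum.inr u) = -(r.s * r.η) *
          (if ((r.L - r.k0 : ℕ) : ℤ) ≤ u.1 - (2 - r.x.1 - r.L) then r.η else 1) *
          ((3 * θ - Real.pi) / 4) := by
        rw [Row.rX_t ho]
        show (if r.o then _ else _) = _
        rw [ho]
        rfl
      have e2 : r.σ θ (rxE (Sum.inr u)) =
          r.s * (if (r.k0 : ℤ) ≤ 1 - u.1 - r.x.1 then r.η else 1) * ((3 * θ - Real.pi) / 4) := by
        show (if r.o then _ else _) = _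
        rw [ho]
        rfl
      rw [e1, e2]
      rw [Row.rX_t ho] at he
      change (if r.o then (u.2 = r.x.2 ∨ u.2 = r.x.2 - 1) ∧ 2 - r.x.1 - r.L ≤ u.1 ∧
        u.1 < 2 - r.x.1 - r.L + r.L else _) at he
      rw [ho] at he
      simp only [if_true] at he
      rcases h.cs hκ with h3 | h3
      · rw [h3.2]
        split_ifs <;> ring
      · have h5 : (((r.L - r.k0 : ℕ) : ℤ) ≤ u.1 - (2 - r.x.1 - r.L)) ↔
            ¬ (r.k0 : ℤ) ≤ 1 - u.1 - r.x.1 := by omega
        by_cases h4 : (r.k0 : ℤ) ≤ 1 - u.1 - r.x.1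
        · rw [if_pos h4, if_neg fun h6 => h5.1 h6 h4]
          ring
        · rw [if_neg h4, if_pos (h5.2 h4)]
          linear_combination (-r.s * ((3 * θ - Real.pi) / 4)) * hη2

theorem Row.wrX_wall (h : r.Ok θ κ n) (hκ : 0 ≤ κ * n) : wrX (r.wall θ z) = r.rX.wall θ z := by
  unfold Row.wall
  rw [wrX_thk, ← Row.rX_I]
  exact thk_congr (fun e he => (Row.Φ_rX h hκ he).symm) fun e he => by rw [Row.σ_rX h hκ he]

theorem Row.Ok.rX (h : r.Ok θ κ n) (hκ : 0 ≤ κ * n) : r.rX.Ok θ κ n := by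
  cases ho : r.o
  · rw [Row.rX_f ho]
    refine ⟨h.len, ?_, h.kind, fun h1 h2 => ?_⟩
    · show -r.s = 1 ∨ -r.s = -1
      rcases h.s with h2 | h2 <;> rw [h2] <;> norm_num
    · have h3 := h.gd h1 h2
      show par (if r.o then _ else ((1 - r.x.1 + (if r.kf then 1 else 0), r.x.2 + (r.k0 : ℤ)) :
        ℤ × ℤ)) * (-r.s) = -1
      rw [← Bool.not_not r.kf, Row.par_not] at h3
      rw [ho]
      simp only [Bool.false_eq_true, if_false]
      have h4 : par (1 - r.x.1 + (if r.kf then 1 else 0), r.x.2 + (r.k0 : ℤ)) =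
          par (r.st (!r.kf) r.k0) := by
        unfold Row.st
        rw [ho]
        simp only [Bool.false_eq_true, if_false]
        rw [← par_rx']
        congr 2
        cases r.kf
        · simp; ring
        · simp; ring
      rw [h4]
      linear_combination h3
  · have hη := h.eta
    rw [Row.rX_t ho]
    refine ⟨h.len, ?_, ?_, fun h1 h2 => ?_⟩
    · show -(r.s * r.η) = 1 ∨ -(r.s * r.η) = -1
      rcases h.s with h2 | h2 <;> rcases hη with h3 | h3 <;> rw [h2, h3] <;> norm_num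
    · show (-r.j = 0 ∧ r.η = 1) ∨
        ((((|-r.j| = (Real.pi - θ) / 2 ∨ |-r.j| = |Real.pi - 3 * θ| / 2) ∧ r.η = -1) ∨
        (|-r.j| = θ ∧ r.η = 1)) ∧ κ * n ≤ ((r.L - r.k0 : ℕ) : ℝ) ∧
          ((r.L - r.k0 : ℕ) : ℝ) + κ * n ≤ r.L)
      rw [abs_neg, neg_eq_zero]
      rcases h.kind with h1 | ⟨h1, h2, h3⟩
      · exact Or.inl h1
      · right
        have h4 : r.k0 ≤ r.L := by
          have : (r.k0 : ℝ) ≤ r.L := by linarith
          exact_mod_cast this
        rw [Nat.cast_sub h4]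
        exact ⟨h1, by linarith, by linarith⟩
    · have h1' : r.η = 1 := h1
      have h2' : r.j ≠ 0 := fun h => h2 (by show -r.j = 0; rw [h, neg_zero])
      have h3 := h.gd h1' h2'
      have hk : r.k0 ≤ r.L := by
        rcases h.cs hκ with h4 | h4
        · exact absurd h4.1 h2'
        · exact h4
      have h5 : (if 0 < -r.j then r.o else !r.o) = !r.kf := by
        unfold Row.kf
        rcases lt_or_gt_of_ne h2' with h6 | h6
        · rw [if_pos (by linarith), if_neg (by linarith), Bool.not_not]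
        · rw [if_neg (by linarith), if_pos h6]
      show par (if r.o then ((2 - r.x.1 - r.L + ((r.L - r.k0 : ℕ) : ℤ),
        r.x.2 + if (if 0 < -r.j then r.o else !r.o) = true then 1 else 0) : ℤ × ℤ) else _) *
        -(r.s * r.η) = -1
      rw [h5, h1', ho]
      simp only [if_true]
      have h4 : par (2 - r.x.1 - r.L + ((r.L - r.k0 : ℕ) : ℤ),
          r.x.2 + if (!r.kf) = true then 1 else 0) = par (r.st (!r.kf) r.k0) := by
        unfold Row.st
        rw [ho]
        simp only [if_true]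
        rw [← par_rx']
        congr 2
        rw [Nat.cast_sub hk]
        ring
      rw [h4, Row.par_not]
      linear_combination h3

/-! ### the class consists of the walls of rows -/

/-- Invariance of a normalisation of the rows under translations and reflections. -/
structure ZInvR (θ : ℝ) (Zr : ℕ → Row → ℝ) : Prop where
  tr : ∀ {κ : ℝ} {n : ℕ} {r : Row} (v : ℤ × ℤ), 0 ≤ κ * n → r.Ok θ κ n → Zr n (r.tr v) = Zr n r
  rD : ∀ {κ : ℝ} {n : ℕ} {r : Row}, 0 ≤ κ * n → r.Ok θ κ n → Zr n r.rD = Zr n r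
  rX : ∀ {κ : ℝ} {n : ℕ} {r : Row}, 0 ≤ κ * n → r.Ok θ κ n → Zr n r.rX = Zr n r

/-- The images of the wall of a row are the walls of rows with the same normalisation. -/
theorem orb_row {Zr : ℕ → Row → ℝ} (hZ : ZInvR θ Zr) (hκ : 0 ≤ κ * n) (hr : r.Ok θ κ n)
    {w : WallG} (h : Orb (r.wall θ z) w) :
    ∃ r' : Row, r'.Ok θ κ n ∧ w = r'.wall θ z ∧ Zr n r' = Zr n r := by
  induction h with
  | refl => exact ⟨r, hr, rfl, rfl⟩
  | tr v _ ih =>
    obtain ⟨r', h1, rfl, h2⟩ := ih
    exact ⟨r'.tr v, h1.tr v, r'.wtr_wall v, (hZ.tr v hκ h1).trans h2⟩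
  | rD _ ih =>
    obtain ⟨r', h1, rfl, h2⟩ := ih
    exact ⟨r'.rD, h1.rD, r'.wrD_wall, (hZ.rD hκ h1).trans h2⟩
  | rX _ ih =>
    obtain ⟨r', h1, rfl, h2⟩ := ih
    exact ⟨r'.rX, h1.rX hκ, Row.wrX_wall h1 hκ, (hZ.rX hκ h1).trans h2⟩

/-- **The walls of the class are the walls of admissible rows.** -/
theorem clR_P_iff {Zr : ℕ → Row → ℝ} (hZ : ZInvR θ Zr) (hκ : 0 ≤ κ * n) {w : WallG} :
    (clR θ Zr).P κ n w ↔ ∃ r : Row, r.Ok θ κ n ∧ w = r.wall θ (Zr n r) := by
  constructor
  · rintro ⟨w₀, ⟨r, hr, rfl⟩, h⟩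
    obtain ⟨r', h1, rfl, h2⟩ := orb_row hZ hκ hr h
    exact ⟨r', h1, by rw [h2]⟩
  · rintro ⟨r, hr, rfl⟩
    exact ⟨_, ⟨r, hr, rfl⟩, Orb.refl⟩

end Vale.Agent.P167.N.ID
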