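import Vale.Agent.P167.N.ID.ArmRot
import Vale.Agent.P167.N.ID.Row

/-!
# P167, the range `0 < q < 1`: extension of the arms of the killed sites of the rows
-/

set_option autoImplicit false

namespace Vale.Agent.P167.N.ID

open Finset
open Vale.Agent.P167
open Vale.Agent.P167.FK
open Vale.Agent.P167.H632 (pr pr_or pr_not)
open Vale.Agent.P167.N.NET (VRS)
open Vale.Agent.P167.FKA (Ex_mono)

variable {Q κ κ' : ℝ} {e : Bool} {I D : Finset (ℤ × ℤ)} {z : ℤ × ℤ} {k : ℕ} {η : Cfg}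
  {Sl : Set (ℤ × ℤ)}

theorem Stp.mono (hQ : 0 < Q) (h : Stp Q κ Sl z k) (hκ : κ' ≤ κ) : Stp Q κ' Sl z k := by
  intro e I D η W hp hI hD hη hW0 hW
  refine le_trans (mul_le_mul_of_nonneg_right hκ ?_) (h e I D η W hp hI hD hη hW0 hW)
  exact FKA.Ex_nonneg hQ fun S _ =>
    mul_nonneg (hW0 _) (Set.indicator_nonneg (fun _ _ => zero_le_one) _)

/-- **One step at a row**: the corners of the two ends and the sites of the faces. -/
theorem row_step (hQ : 0 < Q) (hQ1 : Q ≤ 1) (hV : VRS Q) : ∃ κ : ℝ, 0 < κ ∧ κ ≤ 1 ∧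
    ∀ (r : Row) (b : Bool) (j k : ℕ), 1 ≤ k →
      ((j = 0 ∨ j = r.L) ∧ 33 * k ≤ r.L ∨ 33 * k ≤ j ∧ j + 33 * k ≤ r.L) →
      ∀ (e : Bool) (D : Finset (ℤ × ℤ)) (η : Cfg) (W : Cfg → ℝ),
      ((r.st b j).1 + (r.st b j).2) % 2 = pr e → Bq (r.st b j) (32 * k) \ r.I ⊆ D → Good η →
      (∀ ω, 0 ≤ W ω) → (∀ ω ω' : Cfg, (∀ v, v ∉ Bq (r.st b j) (32 * k) → ω' v = ω v) →
        W ω' = W ω) →
      κ * Ex Q D η (fun ω => W ω * (AZ e r.I (r.st b j) (16 * k)).indicator 1 ω) ≤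
        Ex Q D η (fun ω => W ω * (AZ e r.I (r.st b j) (32 * k)).indicator 1 ω) := by
  obtain ⟨κ₁, h1, h1', H1⟩ := stp_tip hQ hQ1 hV
  obtain ⟨κ₂, h2, h2', H2⟩ := stp_flat hQ hQ1 hV
  refine ⟨min κ₁ κ₂, lt_min h1 h2, (min_le_left _ _).trans h1', ?_⟩
  intro r b j k hk hj e D η W hp hD hη hW0 hW
  have key : ∃ Sl : Set (ℤ × ℤ), (∀ v ∈ Bq (r.st b j) (32 * k), v ∈ r.I ↔ v ∈ Sl) ∧
      Stp Q (min κ₁ κ₂) Sl (r.st b j) k := by
    rcases hj with ⟨hj, hL⟩ | ⟨hj1, hj2⟩
    · -- the ends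
      have h0 : ∀ X Y : ℤ, ∀ z : ℤ × ℤ, _ := fun X Y z => H1 X Y k z hk
      cases ho : r.o
      · -- vertical
        have hst : r.st b j = (r.x.1 + (if b then 1 else 0), r.x.2 + j) := by
          unfold Row.st
          rw [ho]
          simp
        rcases hj with rfl | rfl
        · refine ⟨{v | v.1 = r.x.1 ∧ r.x.2 ≤ v.2}, fun v hv => ?_,
            ((h0 r.x.1 r.x.2 _).2.2.2 ?_).mono hQ (min_le_left _ _)⟩
          · rw [hst, mem_Bz] at hv
            rw [Row.mem_I, ho]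
            simp only [Bool.false_eq_true, if_false, Set.mem_ofPred_eq]
            push_cast at hv
            omega
          · rw [hst]
            cases b
            · left; simp
            · right; simp
        · refine ⟨{v | v.1 = r.x.1 ∧ v.2 < r.x.2 + r.L}, fun v hv => ?_,
            ((h0 r.x.1 (r.x.2 + r.L) _).2.1 ?_).mono hQ (min_le_left _ _)⟩
          · rw [hst, mem_Bz] at hv
            rw [Row.mem_I, ho]
            simp only [Bool.false_eq_true, if_false, Set.mem_ofPred_eq]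
            dsimp only at hv
            omega
          · rw [hst]
            cases b
            · left; simp
            · right; simp
      · -- horizontal
        have hst : r.st b j = (r.x.1 + j, r.x.2 + (if b then 1 else 0)) := by
          unfold Row.st
          rw [ho]
          simp
        rcases hj with rfl | rfl
        · refine ⟨{v | v.2 = r.x.2 ∧ r.x.1 ≤ v.1}, fun v hv => ?_,
            ((h0 r.x.1 r.x.2 _).2.2.1 ?_).mono hQ (min_le_left _ _)⟩
          · rw [hst, mem_Bz] at hv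
            rw [Row.mem_I, ho]
            simp only [if_true, Set.mem_ofPred_eq]
            push_cast at hv
            omega
          · rw [hst]
            cases b
            · left; simp
            · right; simp
        · refine ⟨{v | v.2 = r.x.2 ∧ v.1 < r.x.1 + r.L}, fun v hv => ?_,
            ((h0 (r.x.1 + r.L) r.x.2 _).1 ?_).mono hQ (min_le_left _ _)⟩
          · rw [hst, mem_Bz] at hv
            rw [Row.mem_I, ho]
            simp only [if_true, Set.mem_ofPred_eq]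
            dsimp only at hv
            omega
          · rw [hst]
            cases b
            · left; simp
            · right; simp
    · -- the faces
      cases ho : r.o
      · have hst : r.st b j = (r.x.1 + (if b then 1 else 0), r.x.2 + j) := by
          unfold Row.st
          rw [ho]
          simp
        refine ⟨{v | v.1 = r.x.1}, fun v hv => ?_,
            ((H2 r.x.1 0 k _ hk).2 ?_).mono hQ (min_le_right _ _)⟩
        · rw [hst, mem_Bz] at hv
          rw [Row.mem_I, ho]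
          simp only [Bool.false_eq_true, if_false, Set.mem_ofPred_eq]
          dsimp only at hv
          omega
        · rw [hst]
          cases b
          · left; simp
          · right; simp
      · have hst : r.st b j = (r.x.1 + j, r.x.2 + (if b then 1 else 0)) := by
          unfold Row.st
          rw [ho]
          simp
        refine ⟨{v | v.2 = r.x.2}, fun v hv => ?_,
            ((H2 0 r.x.2 k _ hk).1 ?_).mono hQ (min_le_right _ _)⟩
        · rw [hst, mem_Bz] at hv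
          rw [Row.mem_I, ho]
          simp only [if_true, Set.mem_ofPred_eq]
          dsimp only at hv
          omega
        · rw [hst]
          cases b
          · left; simp
          · right; simp
  obtain ⟨Sl, hSl, hst⟩ := key
  exact hst e r.I D η W hp hSl hD hη hW0 hW

/-- **Iteration of the steps.** -/
theorem row_iter (hQ : 0 < Q) (hQ1 : Q ≤ 1) (hV : VRS Q) : ∃ κ : ℝ, 0 < κ ∧ κ ≤ 1 ∧
    ∀ (r : Row) (b : Bool) (j k M : ℕ), 1 ≤ k →
      ((j = 0 ∨ j = r.L) ∧ M ≤ r.L ∨ M ≤ j ∧ j + M ≤ r.L) →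
      ∀ (e : Bool) (D : Finset (ℤ × ℤ)) (η : Cfg) (J : ℕ),
      ((r.st b j).1 + (r.st b j).2) % 2 = pr e → Bq (r.st b j) (16 * (2 ^ J * k : ℕ)) \ r.I ⊆ D →
      33 * (2 ^ J * k) ≤ 2 * M → Good η →
      κ ^ J * Ex Q D η ((AZ e r.I (r.st b j) (16 * k)).indicator 1) ≤
        Ex Q D η ((AZ e r.I (r.st b j) (16 * (2 ^ J * k : ℕ))).indicator 1) := by
  obtain ⟨κ, h1, h2, H⟩ := row_step hQ hQ1 hV
  refine ⟨κ, h1, h2, ?_⟩
  intro r b j k M hk hj e D η J hp
  induction J with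
  | zero =>
    intro _ _ _
    rw [pow_zero, one_mul, pow_zero, one_mul]
  | succ J ih =>
    intro hD hM hη
    have e1 : 2 ^ (J + 1) * k = 2 * (2 ^ J * k) := by ring
    obtain ⟨k', hk'⟩ : ∃ k' : ℕ, k' = 2 ^ J * k := ⟨_, rfl⟩
    rw [e1, ← hk'] at hM hD ⊢
    rw [← hk'] at ih
    have hk1 : 1 ≤ k' := by
      rw [hk']
      exact Nat.mul_pos (pow_pos two_pos J) hk
    have hD' : Bq (r.st b j) (16 * (k' : ℕ)) \ r.I ⊆ D := by
      intro v hv
      refine hD ?_
      rw [mem_sdiff] at hv ⊢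
      refine ⟨?_, hv.2⟩
      have := hv.1
      rw [mem_Bz] at this ⊢
      push_cast
      omega
    have h3 := ih hD' (by omega) hη
    have h4 := H r b j k' hk1 (by omega) e D η (fun _ => 1) hp (fun v hv => hD (by
      push_cast
      rw [← mul_assoc]
      norm_num
      rwa [mem_sdiff] at hv)) hη (fun _ => zero_le_one) (fun _ _ _ => rfl)
    simp only [one_mul] at h4
    calc κ ^ (J + 1) * Ex Q D η ((AZ e r.I (r.st b j) (16 * k)).indicator 1)
        = κ * (κ ^ J * Ex Q D η ((AZ e r.I (r.st b j) (16 * k)).indicator 1)) := by ring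
      _ ≤ κ * Ex Q D η ((AZ e r.I (r.st b j) (16 * (k' : ℕ))).indicator 1) :=
          mul_le_mul_of_nonneg_left h3 h1.le
      _ ≤ _ := h4
      _ = _ := by
          congr 2
          push_cast
          ring_nf

/-- **Comparison of the radii of the arms at a row.** -/
theorem row_rad (hQ : 0 < Q) (hQ1 : Q ≤ 1) (hV : VRS Q) (Λ : ℝ) : ∃ C : ℝ, 0 < C ∧
    ∀ (r : Row) (b : Bool) (j : ℕ) (ρ ρ' : ℤ), 32 ≤ ρ → ρ ≤ ρ' → (ρ' : ℝ) ≤ Λ * ρ →
      ((j = 0 ∨ j = r.L) ∧ 3 * ρ' ≤ r.L ∨ 3 * ρ' ≤ j ∧ j + 3 * ρ' ≤ r.L) →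
      ∀ (e : Bool) (D : Finset (ℤ × ℤ)) (η : Cfg),
      ((r.st b j).1 + (r.st b j).2) % 2 = pr e → Bq (r.st b j) (2 * ρ') \ r.I ⊆ D → Good η →
      Ex Q D η ((AZ e r.I (r.st b j) ρ).indicator 1) ≤
        C * Ex Q D η ((AZ e r.I (r.st b j) ρ').indicator 1) := by
  obtain ⟨κ, h1, h2, H⟩ := row_iter hQ hQ1 hV
  obtain ⟨J₀, hJ₀⟩ := pow_unbounded_of_one_lt (4 * Λ) (show (1 : ℝ) < 2 by norm_num)
  refine ⟨(κ ^ J₀)⁻¹, inv_pos.2 (pow_pos h1 _), ?_⟩
  intro r b j ρ ρ' hρ hρρ hΛ hj e D η hp hD hη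
  obtain ⟨k, hk⟩ : ∃ k : ℕ, k = (ρ / 16).toNat := ⟨_, rfl⟩
  have hk1 : 2 ≤ k := by omega
  have hkρ : (16 * k : ℤ) ≤ ρ := by omega
  have hkρ' : ρ ≤ 32 * (k : ℤ) := by omega
  -- the number of steps
  have hex : ∃ J : ℕ, ρ' ≤ 16 * ((2 ^ J * k : ℕ) : ℤ) := by
    refine ⟨ρ'.toNat, ?_⟩
    have h3 : ρ'.toNat < 2 ^ ρ'.toNat := Nat.lt_two_pow_self
    have h4 : 2 ^ ρ'.toNat ≤ 2 ^ ρ'.toNat * k := Nat.le_mul_of_pos_right _ (by omega)
    omega
  obtain ⟨J, hJ, hJmin⟩ : ∃ J : ℕ, ρ' ≤ 16 * ((2 ^ J * k : ℕ) : ℤ) ∧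
      16 * ((2 ^ J * k : ℕ) : ℤ) ≤ 2 * ρ' := by
    refine ⟨Nat.find hex, Nat.find_spec hex, ?_⟩
    rcases Nat.eq_zero_or_pos (Nat.find hex) with h0 | h0
    · rw [h0]
      push_cast
      omega
    · obtain ⟨J, hJ⟩ : ∃ J, Nat.find hex = J + 1 := ⟨_, (Nat.succ_pred_eq_of_pos h0).symm⟩
      have h3 := Nat.find_min hex (show J < Nat.find hex by omega)
      rw [hJ]
      have e1 : 2 ^ (J + 1) * k = 2 * (2 ^ J * k) := by ring
      rw [e1]
      omega
  have hJJ : J ≤ J₀ := by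
    have h3 : (16 : ℝ) * (2 ^ J * k) ≤ 2 * ρ' := by exact_mod_cast hJmin
    have h4 : (ρ : ℝ) ≤ 32 * k := by exact_mod_cast hkρ'
    have hk0 : (0 : ℝ) < k := by
      have : 0 < k := by omega
      exact_mod_cast this
    have hρ0 : (0 : ℝ) < ρ := by
      have : (0 : ℤ) < ρ := by omega
      exact_mod_cast this
    have hΛ0 : 0 < Λ := by
      by_contra hneg
      push Not at hneg
      have h6 : (ρ' : ℝ) ≤ 0 := hΛ.trans (mul_nonpos_of_nonpos_of_nonneg hneg hρ0.le)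
      have h7 : (ρ : ℝ) ≤ ρ' := by exact_mod_cast hρρ
      linarith
    have h5 : (2 : ℝ) ^ J ≤ 4 * Λ := by
      have h6 : (16 : ℝ) * 2 ^ J * k ≤ 64 * Λ * k := by nlinarith
      have h7 := le_of_mul_le_mul_right h6 hk0
      linarith
    have h6 : (2 : ℝ) ^ J < 2 ^ J₀ := h5.trans_lt hJ₀
    exact ((pow_lt_pow_iff_right₀ (by norm_num : (1 : ℝ) < 2)).1 h6).le
  have hM : ∃ M : ℕ, (M : ℤ) = 3 * ρ' := ⟨(3 * ρ').toNat, by omega⟩
  obtain ⟨M, hM⟩ := hM
  have key := H r b j k M (by omega) (by omega) e D η J hp (fun v hv => hD (by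
    rw [mem_sdiff] at hv ⊢
    refine ⟨?_, hv.2⟩
    have := hv.1
    rw [mem_Bz] at this ⊢
    omega)) (by omega) hη
  have i1 : Ex Q D η ((AZ e r.I (r.st b j) ρ).indicator 1) ≤
      Ex Q D η ((AZ e r.I (r.st b j) (16 * k)).indicator 1) := by
    refine Ex_mono hQ fun S _ => ?_
    exact Set.indicator_le_indicator_of_subset (AZ_anti hkρ) (fun _ => zero_le_one) _
  have i2 : Ex Q D η ((AZ e r.I (r.st b j) (16 * (2 ^ J * k : ℕ))).indicator 1) ≤
      Ex Q D η ((AZ e r.I (r.st b j) ρ').indicator 1) := by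
    refine Ex_mono hQ fun S _ => ?_
    exact Set.indicator_le_indicator_of_subset (AZ_anti hJ) (fun _ => zero_le_one) _
  have n1 : 0 ≤ Ex Q D η ((AZ e r.I (r.st b j) (16 * k)).indicator 1) :=
    FKA.Ex_nonneg hQ fun S _ => Set.indicator_nonneg (fun _ _ => zero_le_one) _
  have h3 : κ ^ J₀ ≤ κ ^ J := pow_le_pow_of_le_one h1.le h2 hJJ
  rw [← mul_le_mul_iff_right₀ (pow_pos h1 J₀), ← mul_assoc, mul_inv_cancel₀ (pow_pos h1 J₀).ne',
    one_mul]
  calc κ ^ J₀ * Ex Q D η ((AZ e r.I (r.st b j) ρ).indicator 1)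
      ≤ κ ^ J₀ * Ex Q D η ((AZ e r.I (r.st b j) (16 * k)).indicator 1) :=
        mul_le_mul_of_nonneg_left i1 (pow_pos h1 _).le
    _ ≤ κ ^ J * Ex Q D η ((AZ e r.I (r.st b j) (16 * k)).indicator 1) :=
        mul_le_mul_of_nonneg_right h3 n1
    _ ≤ _ := key.trans i2

end Vale.Agent.P167.N.ID
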