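import Vale.Agent.P167.N.ID.ArmExt
import Vale.Agent.P167.N.NET.Ring
import Vale.Agent.P167.H871.Q.Alt

/-!
# P167, the range `0 < q < 1`: extension of the arm of a corner of the tip of a horizontal row
-/

set_option autoImplicit false

namespace Vale.Agent.P167.N.ID

open Finset Relation
open Vale.Agent.P167
open Vale.Agent.P145.FB (PStep)
open Vale.Agent.P167.FK
open Vale.Agent.P167.H871 (IsC)
open Vale.Agent.P167.H632 (cs pr pr_or pr_not IncC nm_le le_nm)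
open Vale.Agent.P167.H192.TA (Pw)
open Vale.Agent.P167.N.NET
open Vale.Agent.P167.FKA (Ex_mono)
open Vale.Agent.P167.H262 (Rsq mem_Rsq)
open Vale.Agent.P167.E6 (IsPolygon Encloses)
open Vale.Agent.P167.H825.Q (Row)
open Vale.Agent.P167.H871.Q (rqr rqr_polygon rqr_encloses rqr_nat mem_rI fz0 fd P0 P1 P1_eq Ls)

variable {Q : ℝ} {e c : Bool} {I G D B : Finset (ℤ × ℤ)} {z : ℤ × ℤ} {N a b : ℕ} {X Y k : ℤ}
  {η : Cfg}

/-- The row `[X - N, X) × {Y}`. -/
noncomputable def rw0 (X Y : ℤ) (N : ℕ) : Row := ⟨true, (X - N, Y), N, 0, 0, 0, 0, 0⟩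

theorem mem_rw0 {v : ℤ × ℤ} : v ∈ (rw0 X Y N).I ↔ v.2 = Y ∧ X - N ≤ v.1 ∧ v.1 < X := by
  rw [mem_rI]
  simp only [rw0, if_true]
  constructor <;> rintro ⟨h1, h2, h3⟩ <;> refine ⟨h1, h2, ?_⟩ <;> omega

/-- The contour, starting with the lower face. -/
theorem rw0_low (hN : 1 ≤ N) {p : ℕ} (hp : p < 2 * N + 2) :
    rqr (rw0 X Y N) false (p : ZMod (2 * (rw0 X Y N).L + 2)) =
      if p ≤ N then (X - N + p, Y) else (X + N + 1 - p, Y + 1) := by
  rw [rqr_nat (r := rw0 X Y N) hN, P1_eq (show p < 2 * (rw0 X Y N).L + 2 from hp)]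
  unfold P0
  have e1 : (rw0 X Y N).L = N := rfl
  rw [e1]
  by_cases h : p ≤ N
  · rw [if_pos h, if_pos h]
    simp [Ls, fz0, fd, rw0, Top.dx, Top.dy]
  · rw [if_neg h, if_neg h, if_pos (by omega)]
    simp [Ls, fz0, fd, rw0, Top.dx, Top.dy]
    ring

/-- The contour, starting with the upper face. -/
theorem rw0_up (hN : 1 ≤ N) {p : ℕ} (hp : p ≤ N) :
    rqr (rw0 X Y N) true (p : ZMod (2 * (rw0 X Y N).L + 2)) = (X - p, Y + 1) := by
  rw [rqr_nat (r := rw0 X Y N) hN, P1_eq (show p < 2 * (rw0 X Y N).L + 2 by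
    show p < 2 * N + 2
    omega)]
  unfold P0
  have e1 : (rw0 X Y N).L = N := rfl
  rw [e1, if_pos hp]
  simp [Ls, fz0, fd, rw0, Top.dx, Top.dy]
  ring

/-- An arc of the lower face. -/
theorem ar_low (hN : 1 ≤ N) (hb : b ≤ N) :
    Ar (rqr (rw0 X Y N) false) c a b = Hs c Y (X - N + a) (X - N + b) := by
  ext s
  constructor
  · rintro ⟨h1, p, h2, h3, rfl⟩
    rw [rw0_low hN (by omega), if_pos (by omega)] at h1 ⊢
    refine ⟨rfl, ?_, ?_, h1⟩ <;> dsimp only <;> omega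
  · rintro ⟨h1, h2, h3, h4⟩
    refine ⟨h4, (s.1 - (X - N)).toNat, by omega, by omega, ?_⟩
    rw [rw0_low hN (by omega), if_pos (by omega)]
    ext
    · show X - N + (((s.1 - (X - N)).toNat : ℕ) : ℤ) = s.1
      omega
    · exact h1.symm

/-- An arc of the upper face. -/
theorem ar_top (hN : 1 ≤ N) (ha : N + 1 ≤ a) (hb : b ≤ 2 * N + 1) :
    Ar (rqr (rw0 X Y N) false) c a b = Hs c (Y + 1) (X + N + 1 - b) (X + N + 1 - a) := by
  ext s
  constructor
  · rintro ⟨h1, p, h2, h3, rfl⟩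
    rw [rw0_low hN (by omega), if_neg (by omega)] at h1 ⊢
    refine ⟨rfl, ?_, ?_, h1⟩ <;> dsimp only <;> omega
  · rintro ⟨h1, h2, h3, h4⟩
    refine ⟨h4, (X + N + 1 - s.1).toNat, by omega, by omega, ?_⟩
    rw [rw0_low hN (by omega), if_neg (by omega)]
    ext
    · show X + N + 1 - (((X + N + 1 - s.1).toNat : ℕ) : ℤ) = s.1
      omega
    · exact h1.symm

/-- An arc of the upper face, contour starting with the upper face. -/
theorem ar_up (hN : 1 ≤ N) (hb : b ≤ N) :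
    Ar (rqr (rw0 X Y N) true) c a b = Hs c (Y + 1) (X - b) (X - a) := by
  ext s
  constructor
  · rintro ⟨h1, p, h2, h3, rfl⟩
    rw [rw0_up hN (by omega)] at h1 ⊢
    refine ⟨rfl, ?_, ?_, h1⟩ <;> dsimp only <;> omega
  · rintro ⟨h1, h2, h3, h4⟩
    refine ⟨h4, (X - s.1).toNat, by omega, by omega, ?_⟩
    rw [rw0_up hN (by omega)]
    ext
    · show X - (((X - s.1).toNat : ℕ) : ℤ) = s.1
      omega
    · exact h1.symm

theorem bq_box (z : ℤ × ℤ) (R : ℤ) :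
    Bq z R = Ico (z.1 - R) (z.1 + R) ×ˢ Ico (z.2 - R) (z.2 + R) := rfl

/-- The far sites of the arm belong to the far side of the quad. -/
theorem far_Fr {n : ℕ} {q : ZMod n → ℤ × ℤ} {a d : ℕ} {R : ℤ} {s : ℤ × ℤ} (h : (s.1 + s.2) % 2 = pr e)
    (hs : R ≤ nm (s - z)) : s ∈ Fr q e (Bq z R) a d := ⟨h, Or.inl (isC_of_far hs)⟩

/-! ### The tip -/

section tip

variable (hz : z = (X, Y) ∨ z = (X, Y + 1)) (hp : (z.1 + z.2) % 2 = pr e)
  (hk : 1 ≤ k)

include hz hp in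
/-- The position of the site. -/
theorem ar_tip (hN : 1 ≤ N) : ∃ t : ℕ, (t = N ∨ t = N + 1) ∧
    Ar (rqr (rw0 X Y N) false) e t t = {z} ∧
    (z = (X, Y) ∧ t = N ∨ z = (X, Y + 1) ∧ t = N + 1) := by
  rcases hz with rfl | rfl
  · refine ⟨N, Or.inl rfl, ?_, Or.inl ⟨rfl, rfl⟩⟩
    ext s
    constructor
    · rintro ⟨h1, p, h2, h3, rfl⟩
      rw [rw0_low hN (by omega), if_pos (by omega)]
      show _ = _
      ext <;> dsimp only <;> omega
    · rintro rfl
      refine ⟨hp, N, le_rfl, le_rfl, ?_⟩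
      rw [rw0_low hN (by omega), if_pos (by omega)]
      ext <;> dsimp only <;> omega
  · refine ⟨N + 1, Or.inr rfl, ?_, Or.inr ⟨rfl, rfl⟩⟩
    ext s
    constructor
    · rintro ⟨h1, p, h2, h3, rfl⟩
      rw [rw0_low hN (by omega), if_neg (by omega)]
      show _ = _
      ext <;> dsimp only <;> omega
    · rintro rfl
      refine ⟨hp, N + 1, le_rfl, le_rfl, ?_⟩
      rw [rw0_low hN (by omega), if_neg (by omega)]
      ext
      · dsimp only
        push_cast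
        omega
      · rfl

theorem fan_slit (z : ℤ × ℤ) (R : ℤ) (X Y : ℤ) (N : ℕ) :
    Fan e ↑(Bq z R \ (rw0 X Y N).I) := by
  refine fan_of ?_ ?_
  · intro m n h1 h2
    rw [mem_coe, mem_sdiff, mem_Bz, mem_rw0] at h1 h2
    rw [mem_coe, mem_sdiff, mem_Bz, mem_rw0, mem_coe, mem_sdiff, mem_Bz, mem_rw0]
    dsimp only at *
    omega
  · intro m n h1 h2
    rw [mem_coe, mem_sdiff, mem_Bz, mem_rw0] at h1 h2
    rw [mem_coe, mem_sdiff, mem_Bz, mem_rw0, mem_coe, mem_sdiff, mem_Bz, mem_rw0]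
    dsimp only at *
    omega

end tip

/-- Membership in an arc of the lower face. -/
theorem mem_low {s : ℤ × ℤ} (hN : 1 ≤ N) (h1 : (s.1 + s.2) % 2 = pr c) (h2 : s.2 = Y)
    (h3 : s.1 ≤ X) (ha : a ≤ s.1 - (X - N)) (hb : s.1 - (X - N) ≤ b) :
    s ∈ Ar (rqr (rw0 X Y N) false) c a b := by
  refine ⟨h1, (s.1 - (X - N)).toNat, by omega, by omega, ?_⟩
  rw [rw0_low hN (by omega), if_pos (by omega)]
  ext
  · show X - N + (((s.1 - (X - N)).toNat : ℕ) : ℤ) = s.1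
    omega
  · exact h2.symm

/-- Membership in an arc of the upper face. -/
theorem mem_top {s : ℤ × ℤ} (hN : 1 ≤ N) (h1 : (s.1 + s.2) % 2 = pr c) (h2 : s.2 = Y + 1)
    (h3 : s.1 ≤ X) (h4 : X - N ≤ s.1) (ha : a ≤ X + N + 1 - s.1) (hb : X + N + 1 - s.1 ≤ b) :
    s ∈ Ar (rqr (rw0 X Y N) false) c a b := by
  refine ⟨h1, (X + N + 1 - s.1).toNat, by omega, by omega, ?_⟩
  rw [rw0_low hN (by omega), if_neg (by omega)]
  ext
  · show X + N + 1 - (((X + N + 1 - s.1).toNat : ℕ) : ℤ) = s.1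
    omega
  · exact h2.symm

/-- **One step at the tip of the slit `{y = Y, x < X}`**, with a factor `W`. -/
theorem tip_step (hQ : 0 < Q) (hQ1 : Q ≤ 1) (hV : VRS Q) : ∃ κ : ℝ, 0 < κ ∧ κ ≤ 1 ∧
    ∀ (e : Bool) (X Y : ℤ) (z : ℤ × ℤ) (k : ℕ) (I D : Finset (ℤ × ℤ)) (η : Cfg) (W : Cfg → ℝ),
      1 ≤ k → (z = (X, Y) ∨ z = (X, Y + 1)) → (z.1 + z.2) % 2 = pr e →
      (∀ v ∈ Bq z (32 * k), v ∈ I ↔ v.2 = Y ∧ v.1 < X) → Bq z (32 * k) \ I ⊆ D → Good η →
      (∀ ω, 0 ≤ W ω) → (∀ ω ω' : Cfg, (∀ v, v ∉ Bq z (32 * k) → ω' v = ω v) → W ω' = W ω) →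
      κ * Ex Q D η (fun ω => W ω * (AZ e I z (16 * k)).indicator 1 ω) ≤
        Ex Q D η (fun ω => W ω * (AZ e I z (32 * k)).indicator 1 ω) := by
  obtain ⟨κ₁, h1, h1', hR⟩ := VT_ring hQ hQ1 hV
  obtain ⟨κ₂, h2, h2', hS⟩ := hV 33
  refine ⟨κ₁ * κ₂, mul_pos h1 h2, mul_le_one₀ h1' h2.le h2', ?_⟩
  intro e X Y z k I D η W hk hz hp hI hD hη hW0 hW
  obtain ⟨t, ht, hAr, htz⟩ := ar_tip (N := 32 * k) hz hp (by omega)
  have hN : 1 ≤ (rw0 X Y (32 * k)).L := by show 1 ≤ 32 * k; omega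
  have hnn : 2 * (rw0 X Y (32 * k)).L + 2 = 2 * (32 * k) + 2 := rfl
  have hz1 : z.1 = X ∧ (z.2 = Y ∨ z.2 = Y + 1) := by
    rcases hz with rfl | rfl
    · exact ⟨rfl, Or.inl rfl⟩
    · exact ⟨rfl, Or.inr rfl⟩
  obtain ⟨hzX, hzY⟩ := hz1
  have hpe := pr_or e
  have hpn := pr_not e
  -- the domain of the quads
  have hGe : Bq z (16 * k) \ I = Bq z (16 * k) \ (rw0 X Y (32 * k)).I := by
    ext v
    rw [mem_sdiff, mem_sdiff, mem_rw0]
    refine and_congr_right fun hv => not_congr ?_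
    rw [mem_Bz] at hv
    rw [hI v (by rw [mem_Bz]; omega)]
    push_cast
    omega
  have hB : ∀ p : ℕ, 17 * k ≤ p → p ≤ 47 * k + 1 → ∀ v, IsC v (rqr (rw0 X Y (32 * k)) false
      (p : ZMod (2 * (rw0 X Y (32 * k)).L + 2))) → v ∈ Bq z (16 * k) := by
    intro p p1 p2 v hv
    rw [rw0_low (by omega) (by omega)] at hv
    rw [mem_Bz]
    unfold IsC at hv
    split_ifs at hv with h
    · dsimp only at hv
      push_cast at hv
      omega
    · dsimp only at hv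
      push_cast at hv
      omega
  have h0 : ∃ v, v ∉ Bq z (16 * k) ∧ IsC v (rqr (rw0 X Y (32 * k)) false 0) := by
    refine ⟨(X - 32 * k, Y), ?_, ?_⟩
    · rw [mem_Bz]
      dsimp only
      omega
    · have := rw0_low (X := X) (Y := Y) (N := 32 * k) (by omega) (p := 0) (by omega)
      rw [Nat.cast_zero] at this
      rw [this, if_pos (by omega)]
      unfold IsC
      dsimp only
      push_cast
      omega
  have h0' : ∃ v, v ∉ Bq z (16 * k) ∧ IsC v (rqr (rw0 X Y (32 * k)) false 1) := by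
    refine ⟨(X - 32 * k, Y), ?_, ?_⟩
    · rw [mem_Bz]
      dsimp only
      omega
    · have := rw0_low (X := X) (Y := Y) (N := 32 * k) (by omega) (p := 1) (by omega)
      rw [Nat.cast_one] at this
      rw [this, if_pos (by omega)]
      unfold IsC
      dsimp only
      push_cast
      omega
  have Q1 := (quad_ext (c := e) (a := 17 * k) (b := t) (m := t) (d := 47 * k + 1)
    (rqr_polygon (b := false) hN) (rqr_encloses hN) (bq_box z (16 * k)) (by omega) le_rfl (by omega)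
    (by omega) hB h0 h0').swap24
  have Q2 := (quad_ext' (c := !e) (a := 24 * k) (b := 28 * k) (m := t) (d := t)
    (rqr_polygon (b := false) hN) (rqr_encloses hN) (bq_box z (16 * k)) (by omega) (by omega) le_rfl
    (by omega) (fun p p1 p2 => hB p (by omega) (by omega)) h0 h0').swap13
  simp only [Bool.not_not] at Q2
  have hA3 : Ar (rqr (rw0 X Y (32 * k)) false) e (24 * k) (28 * k) =
      Hs e Y (X - 8 * k) (X - 4 * k) := by
    rw [ar_low (by omega) (by omega)]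
    congr 1 <;> push_cast <;> ring
  rw [hAr] at Q1 Q2
  rw [hA3] at Q2
  rw [← hGe] at Q1 Q2
  have hfan : Fan e ↑(Bq z (16 * k) \ I) := by
    rw [hGe]
    exact fan_slit _ _ _ _ _
  have mG : ∀ v, v ∈ Bq z (16 * k) \ I ↔ ((X - 16 * k ≤ v.1 ∧ v.1 < X + 16 * k) ∧
      z.2 - 16 * k ≤ v.2 ∧ v.2 < z.2 + 16 * k) ∧ ¬(v.2 = Y ∧ v.1 < X) := by
    intro v
    rw [hGe, mem_sdiff, mem_Bz, mem_rw0, hzX]
    push_cast
    omega
  have mR : ∀ v ∈ Rsq (X - 3 * k) (X - 2 * k) (z.2 - 32 * k) Y, v ∈ Bq z (32 * k) \ I := by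
    intro v hv
    rw [mem_Rsq] at hv
    have hv1 : v ∈ Bq z (32 * k) := by
      rw [mem_Bz]
      omega
    rw [mem_sdiff]
    refine ⟨hv1, ?_⟩
    rw [hI v hv1]
    omega
  have mT : ∀ v ∈ rng X Y k, v ∈ Bq z (16 * k) \ I := by
    intro v hv
    rw [mem_rng] at hv
    rw [mG]
    omega
  have hGD : Bq z (16 * k) \ I ⊆ D := by
    intro v hv
    refine hD ?_
    rw [mem_sdiff] at hv ⊢
    refine ⟨?_, hv.2⟩
    have := hv.1
    rw [mem_Bz] at this ⊢
    omega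
  have key := ext_core (Q := Q) (e := e) (G := Bq z (16 * k) \ I) (D := D) (T₁ := rng X Y k)
    (T₂ := Rsq (X - 3 * k) (X - 2 * k) (z.2 - 32 * k) Y) (z := z) (η := η)
    (A := Hs e (Y + 1) (X - 8 * k) (X - 4 * k)) (A' := Hs e Y (X - 3 * k) (X - 2 * k))
    (B₂ := Hs e (z.2 - 32 * k) (X - 3 * k) (X - 2 * k)) hQ hQ1 hη hGD mT (fun v hv => hD (mR v hv))
    Q1 hfan (rng_up (by omega)) ?_ (rng_low (by omega)) ?_ Q2
    (bd_top fun v hv => (mem_Rsq.1 hv).2.2.2) ?_ ?_ (bd_bot fun v hv => (mem_Rsq.1 hv).2.2.1) ?_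
    hW0 ?_
  · have e1 : κ₁ ≤ VT Q e (rng X Y k) (Hs e (Y + 1) (X - 8 * k) (X - 4 * k))
        (Hs e Y (X - 8 * k) (X - 4 * k)) := (hR e X Y k (by omega)).1
    have e2 : κ₂ ≤ VT Q e (Rsq (X - 3 * k) (X - 2 * k) (z.2 - 32 * k) Y)
        (Hs e Y (X - 3 * k) (X - 2 * k)) (Hs e (z.2 - 32 * k) (X - 3 * k) (X - 2 * k)) := by
      rw [VT_comm hQ]
      exact (hS e (X - 3 * k) (X - 2 * k) (z.2 - 32 * k) Y (by omega) (by omega)).2
        (by push_cast; omega)
    have e3 : κ₁ * κ₂ ≤ VT Q e (rng X Y k) (Hs e (Y + 1) (X - 8 * k) (X - 4 * k))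
        (Hs e Y (X - 8 * k) (X - 4 * k)) * VT Q e (Rsq (X - 3 * k) (X - 2 * k) (z.2 - 32 * k) Y)
        (Hs e Y (X - 3 * k) (X - 2 * k)) (Hs e (z.2 - 32 * k) (X - 3 * k) (X - 2 * k)) :=
      mul_le_mul e1 e2 h2.le (VT_nonneg hQ _ _ _ _)
    have i1 : ∀ ω : Cfg, (AZ e I z (16 * k)).indicator (1 : Cfg → ℝ) ω ≤
        (Jn e ↑(Bq z (16 * k) \ I) {z} (Fr (rqr (rw0 X Y (32 * k)) false) e (Bq z (16 * k))
          (17 * k) (47 * k + 1))).indicator 1 ω := fun ω =>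
      Set.indicator_le_indicator_of_subset (AZ_sub_Jn hp fun s hs hs' => far_Fr hs hs')
        (fun _ => zero_le_one) ω
    have i2 : ∀ ω : Cfg, (Jn e ↑((Bq z (16 * k) \ I) ∪
        Rsq (X - 3 * k) (X - 2 * k) (z.2 - 32 * k) Y) {z}
          (Hs e (z.2 - 32 * k) (X - 3 * k) (X - 2 * k))).indicator (1 : Cfg → ℝ) ω ≤
        (AZ e I z (32 * k)).indicator 1 ω := fun ω => by
      refine Set.indicator_le_indicator_of_subset (Jn_sub_AZ ?_ ?_) (fun _ => zero_le_one) ω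
      · rw [coe_subset]
        refine union_subset ?_ mR
        intro v hv
        rw [mem_sdiff] at hv ⊢
        refine ⟨?_, hv.2⟩
        have := hv.1
        rw [mem_Bz] at this ⊢
        omega
      · rintro s ⟨s1, s2, s3, s4⟩
        rw [le_nm]
        simp only [Prod.fst_sub, Prod.snd_sub]
        omega
    have nE : 0 ≤ Ex Q D η (fun ω => W ω * (Jn e ↑(Bq z (16 * k) \ I) {z}
        (Fr (rqr (rw0 X Y (32 * k)) false) e (Bq z (16 * k))
          (17 * k) (47 * k + 1))).indicator 1 ω) :=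
      FKA.Ex_nonneg hQ fun S _ => mul_nonneg (hW0 _) (Set.indicator_nonneg (fun _ _ => zero_le_one) _)
    calc κ₁ * κ₂ * Ex Q D η (fun ω => W ω * (AZ e I z (16 * k)).indicator 1 ω)
        ≤ κ₁ * κ₂ * Ex Q D η (fun ω => W ω * (Jn e ↑(Bq z (16 * k) \ I) {z}
        (Fr (rqr (rw0 X Y (32 * k)) false) e (Bq z (16 * k))
          (17 * k) (47 * k + 1))).indicator 1 ω) :=
          mul_le_mul_of_nonneg_left
            (Ex_mono hQ fun S _ => mul_le_mul_of_nonneg_left (i1 _) (hW0 _)) (mul_pos h1 h2).le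
      _ ≤ _ := mul_le_mul_of_nonneg_right e3 nE
      _ ≤ _ := key
      _ ≤ _ := Ex_mono hQ fun S _ => mul_le_mul_of_nonneg_left (i2 _) (hW0 _)
  · -- the ring tube starts at the upper face
    rintro x ⟨x1, x2, x3, x4⟩
    refine ⟨(x.1, Y + 1), ?_, by unfold Cor; dsimp only; omega, (x.1 + 1, Y + 1), ?_,
      by unfold Cor; dsimp only; omega⟩
    · rw [mem_coe, mG]
      dsimp only
      omega
    · refine mem_top (by omega) ?_ rfl ?_ ?_ ?_ ?_ <;> dsimp only <;> push_cast <;> omega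
  · -- the ring tube ends at the lower face
    rintro x ⟨x1, x2, x3, x4⟩ -
    refine ⟨(x.1, Y - 1), ?_, by unfold Cor; dsimp only; omega, (x.1 + 1, Y), ?_,
      by unfold Cor; dsimp only; omega⟩
    · rw [mem_coe, mG]
      dsimp only
      omega
    · refine mem_low (by omega) ?_ rfl ?_ ?_ ?_ <;> dsimp only <;> push_cast <;> omega
  · -- the second tube starts at the lower face
    rintro x ⟨x1, x2, x3, x4⟩
    refine ⟨(x.1, Y - 1), ?_, by unfold Cor; dsimp only; omega, (x.1 + 1, Y), ?_,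
      by unfold Cor; dsimp only; omega⟩
    · rw [mem_coe, mG]
      dsimp only
      omega
    · refine mem_low (by omega) ?_ rfl ?_ ?_ ?_ <;> dsimp only <;> push_cast <;> omega
  · -- it leaves the box through the bottom side
    intro v hv hvG y hy hyG
    obtain ⟨w, hw, hwy⟩ := hyG
    rw [mem_coe] at hv hvG hw
    rw [mG] at hvG
    have hw' := hw
    rw [mG] at hw'
    rw [mem_Rsq] at hv
    have hy' := hy
    have hwy' := hwy
    unfold Cor at hy' hwy'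
    refine ⟨w, hw, hwy, (2 * w.1 + 1 - y.1, y.2), ⟨?_, Or.inl ⟨(w.1, w.2 - 1), ?_, ?_⟩⟩, ?_⟩
    · dsimp only
      omega
    · rw [mem_Bz]
      dsimp only
      omega
    · unfold IsC
      dsimp only
      omega
    · unfold Cor
      dsimp only
      omega
  · -- its end is far
    rintro x ⟨x1, x2, x3, x4⟩ ⟨w, hw, hwy⟩
    rw [mem_coe, mG] at hw
    unfold Cor at hwy
    omega
  · -- the factor
    intro ω ω' h
    refine hW ω ω' fun v hv => h v fun hv' => hv ?_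
    rcases mem_union.1 hv' with h3 | h3
    · have := (mem_sdiff.1 (mT v h3)).1
      rw [mem_Bz] at this ⊢
      omega
    · exact (mem_sdiff.1 (mR v h3)).1

end Vale.Agent.P167.N.ID
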