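import Vale.Agent.P167.N.ID.HosG
import Vale.Agent.P167.N.H199.QOmQ

/-!
# P167, `q < 1`, block 2A: the output, from the two statements in terms of the law

For an arbitrary class of straight walls.
-/

set_option autoImplicit false

namespace Vale.Agent.P167.N.ID

open Finset Filter Topology MeasureTheory

open Vale.Agent.P167 Vale.Agent.P167.N

open Vale.Agent.P167.H519 (IsLim)

open Vale.Agent.P167.N.H825.Q (S2aQqN)

open Vale.Agent.P167.H680.T (WallG Cls)

variable {X : Type}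

/-- **The output of block 2A** from the two statements in terms of the law, for an arbitrary class of
straight walls. -/
theorem s2aQqN_G {RS : RSys X} {Ok : ℝ → ℕ → X → Prop} {θ β : ℝ} (h0 : 0 < θ) (h1 : Ang θ)
    {P : Measure Cfg} (hP : IsLim (2 * Real.cos θ) P) {Zp : ℕ → X → ℝ} {Cl : Cls} (hOk : Cl.Ok)
    (hlen : ∀ {κ : ℝ} {n : ℕ} {x : X}, Ok κ n x → κ * n ≤ (RS.shape x).L)
    (hCl : ∀ {κ : ℝ} {n : ℕ} {w : WallG}, 0 ≤ κ * n → Cl.P κ n w →
      ∃ x : X, Ok κ n x ∧ w = RS.wall x (RS.Zrow θ Zp n x))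
    (hZ : ∀ n w, Cl.Z n w = w.z) (hH : HOSRg RS Ok θ P Zp) (hS : STARTg θ β P Cl) :
    S2aQqN θ β := by
  have hlt := h1.lt
  have hpi := Real.pi_pos
  have := hP.1
  have hgd := Vale.Agent.P167.N.H199.good_aeQ h0.le h1 hP h0
  obtain ⟨om, hom⟩ := Vale.Agent.P167.N.H199.exists_omQ h0 h1 hP
  exact Vale.Agent.P167.N.H825.Q.s2aQqN_ofc h0 h1 hom hOk
    (H680.Q.centreQ h0 (by linarith) hom.isOm) (hosc_of h1 hP hgd hlen hCl hZ hH)
    (startc_of h0 h1 hP hgd hS)

end Vale.Agent.P167.N.ID
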