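import Vale.Agent.P167.N.ID.HosB
import Vale.Agent.P167.N.H199.QRatW
import Vale.Agent.P167.H945.Q.HosR

/-!
# P167, `q < 1`, HOS: the upper bound for an arbitrary system of straight walls

`hosr_g`: `L1g`, `P1ag`, `P1bg` imply `HOSRg`.
-/

set_option autoImplicit false

namespace Vale.Agent.P167.N.ID

open Finset MeasureTheory Filter

open Vale.Agent.P167 Vale.Agent.P167.N

open Vale.Agent.P167.BR hiding dv

open Vale.Agent.P167.FK

open Vale.Agent.P167.FKA (Loc Ind Loc.ind Ex_mono Ex_congr)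

open Vale.Agent.P167.H519 (IsLim)

open Vale.Agent.P167.H825 (dv epos)

open Vale.Agent.P167.H680.T (mem_uI sq_mem)

open Vale.Agent.P167.QX (RT QL)

open Vale.Agent.P167.H199 (Rsc nbh mem_nbh Cw Cw_mono Cw_pos subset_nbh)

open Vale.Agent.P167.H506.Q (EF fz LF EF_le EF_lin EF_nonneg fz_nonneg fz_le_one
  fz_one fz_zero fz_loc loc_bdd fz_int)

open Vale.Agent.P167.H562.QM (MajA)

open Vale.Agent.P167.H562.MAJ (Sm)

open Vale.Agent.P167.H945.Q (nm_sub_le nm_comm nm_of_Bq Bq_of_nm rsc_of sep_sq exists_sq fz_prod)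

variable {X : Type} {RS : RSys X} {Kx : Type} {F : Fct RS Kx} {θ : ℝ}

/-! ### one row: comparison of the radii -/

/-- The factors of one row with the radii `s`. -/
noncomputable def f1 (F : Fct RS Kx) (x : X) (s : Kx → ℤ) (k : Kx) (ω : Cfg) : ℝ :=
  F.T (RS.I x) x k (s k) ω

theorem f1_nonneg (F : Fct RS Kx) (x : X) (s : Kx → ℤ) (k : Kx) (ω : Cfg) : 0 ≤ f1 F x s k ω :=
  F.nonneg _ _ _ _ _

theorem f1_loc (F : Fct RS Kx) (x : X) (s : Kx → ℤ) (k : Kx) :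
    Loc (F.bx x k (s k)) (f1 F x s k) := F.loc' _ _ _ _

/-- One centre. -/
theorem row_stepA [Fintype Kx] [DecidableEq Kx] (F : Fct RS Kx) (h1 : Ang θ) {P : Measure Cfg}
    (hP : IsLim (2 * Real.cos θ) P) (hg : ∀ᵐ ω ∂P, Good ω) {x : X} (hx : F.Val x)
    (hm : 1 ≤ F.mg x) {k : Kx} {ρ ρ' : ℤ} {C : ℝ} (hC : 1 ≤ C)
    (h : F.Sp x k → ∀ η : Cfg, Good η → (∀ v ∈ RS.I x, η v = RS.fr x v) →
      Ex (2 * Real.cos θ) (Bq (F.ctr x k) (4 * ρ') \ RS.I x) η (F.T (RS.I x) x k ρ) ≤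
        C * Ex (2 * Real.cos θ) (Bq (F.ctr x k) (4 * ρ') \ RS.I x) η (F.T (RS.I x) x k ρ'))
    (hρ' : 1 ≤ ρ') (hm' : 8 * ρ' ≤ F.mg x) (s : Kx → ℤ) (hs : ∀ l, s l ≤ ρ') (hsk : s k = ρ) :
    EF P (RS.I x) (RS.fr x) (PG (f1 F x s)) ≤
      C * EF P (RS.I x) (RS.fr x) (PG (f1 F x (Function.update s k ρ'))) := by
  have e1 : ∀ (t : ℤ) (ω : Cfg), PG (f1 F x (Function.update s k t)) ω =
      (∏ l ∈ univ.erase k, f1 F x s l ω) * F.T (RS.I x) x k t ω := by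
    intro t ω
    unfold PG
    rw [← Finset.prod_erase_mul univ _ (mem_univ k)]
    congr 1
    · refine prod_congr rfl fun l hl => ?_
      unfold f1
      rw [Function.update_of_ne (ne_of_mem_erase hl)]
    · unfold f1
      rw [Function.update_self]
  have e2 : PG (f1 F x s) = fun ω => (∏ l ∈ univ.erase k, f1 F x s l ω) *
      F.T (RS.I x) x k ρ ω := by
    funext ω
    rw [← e1, ← hsk, Function.update_eq_self]
  have e3 : PG (f1 F x (Function.update s k ρ')) = fun ω =>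
      (∏ l ∈ univ.erase k, f1 F x s l ω) * F.T (RS.I x) x k ρ' ω := funext (e1 ρ')
  rw [e2, e3]
  by_cases hk : F.Sp x k
  · refine EF_chgG (K := RS.I x) (σ := RS.fr x) (Bx := fun l => F.bx x l (s l)) h1.kit hP hg
      (f1_nonneg F x s) (f1_loc F x s)
      (D1 := Bq (F.ctr x k) (4 * ρ') \ RS.I x) Finset.sdiff_disjoint ?_ ⟨_, F.loc _ _ _ _⟩
      ⟨_, F.loc _ _ _ _⟩ fun ζ hζ hk' => h hk ζ hζ hk'
    intro l hl
    rw [Finset.disjoint_left]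
    intro v hv hv'
    obtain ⟨hl', hv⟩ := Fct.mem_bx.1 hv
    have h2 := F.sep hx hm hl' hk hl
    have h3 := nm_of_Bq hv
    have h4 := nm_of_Bq (Finset.mem_sdiff.1 hv').1
    have h5 := nm_sub_le (F.ctr x l) v (F.ctr x k)
    rw [nm_comm (F.ctr x l) v] at h5
    have h6 : nm (F.ctr x l - F.ctr x k) ≤ ρ' + 4 * ρ' :=
      h5.trans (add_le_add (h3.trans (hs l)) h4)
    linarith
  · have e : ∀ R ω, F.T (RS.I x) x k R ω = 1 := fun R ω => F.plain hk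
    simp only [e, mul_one]
    have hE : 0 ≤ EF P (RS.I x) (RS.fr x) (fun ω => ∏ l ∈ univ.erase k, f1 F x s l ω) :=
      EF_nonneg fun ω => prod_nonneg fun _ _ => f1_nonneg _ _ _ _ _
    exact le_mul_of_one_le_left hE hC

/-- **One row: comparison of the radii.** -/
theorem row_radiiA [Fintype Kx] (F : Fct RS Kx) (h1 : Ang θ) {P : Measure Cfg}
    (hP : IsLim (2 * Real.cos θ) P) (hg : ∀ᵐ ω ∂P, Good ω) {x : X} (hx : F.Val x)
    (hm : 1 ≤ F.mg x) {ρ ρ' : ℤ} {C : ℝ} (hC : 1 ≤ C)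
    (h : ∀ k, F.Sp x k → ∀ η : Cfg, Good η → (∀ v ∈ RS.I x, η v = RS.fr x v) →
      Ex (2 * Real.cos θ) (Bq (F.ctr x k) (4 * ρ') \ RS.I x) η (F.T (RS.I x) x k ρ) ≤
        C * Ex (2 * Real.cos θ) (Bq (F.ctr x k) (4 * ρ') \ RS.I x) η (F.T (RS.I x) x k ρ'))
    (hρ : ρ ≤ ρ') (hρ' : 1 ≤ ρ') (hm' : 8 * ρ' ≤ F.mg x) :
    EF P (RS.I x) (RS.fr x) (PG (f1 F x fun _ => ρ)) ≤
      C ^ Fintype.card Kx * EF P (RS.I x) (RS.fr x) (PG (f1 F x fun _ => ρ')) := by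
  classical
  have hC0 : 0 ≤ C := by linarith
  have key : ∀ S : Finset Kx, EF P (RS.I x) (RS.fr x) (PG (f1 F x fun _ => ρ)) ≤
      C ^ S.card * EF P (RS.I x) (RS.fr x) (PG (f1 F x fun l => if l ∈ S then ρ' else ρ)) := by
    intro S
    induction S using Finset.induction_on with
    | empty => simp
    | insert a S ha ih =>
      refine ih.trans ?_
      rw [card_insert_of_notMem ha, pow_succ, mul_assoc]
      refine mul_le_mul_of_nonneg_left ?_ (pow_nonneg hC0 _)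
      have h2 := row_stepA F h1 hP hg hx hm (k := a) hC (h a) hρ' hm'
        (fun l => if l ∈ S then ρ' else ρ) (fun l => by
          show (if l ∈ S then ρ' else ρ) ≤ ρ'
          split_ifs
          · exact le_rfl
          · exact hρ) (if_neg ha)
      have e : Function.update (fun l => if l ∈ S then ρ' else ρ) a ρ' =
          fun l => if l ∈ insert a S then ρ' else ρ := by
        funext l
        by_cases hl : l = a
        · subst hl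
          rw [Function.update_self, if_pos (mem_insert_self _ _)]
        · rw [Function.update_of_ne hl]
          simp [hl]
      rw [e] at h2
      exact h2
  have := key univ
  simpa using this

theorem EF_int {P : Measure Cfg} {K : Finset (ℤ × ℤ)} {σ : Cfg} (hp : 0 < ∫ ω, fz K σ ω ∂P)
    {F1 F2 : Cfg → ℝ} {C : ℝ} (h : EF P K σ F1 ≤ C * EF P K σ F2) :
    ∫ ω, fz K σ ω * F1 ω ∂P ≤ C * ∫ ω, fz K σ ω * F2 ω ∂P := by
  unfold EF at h
  rw [← mul_div_assoc, div_le_div_iff_of_pos_right hp] at h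
  exact h

/-- **One row**, from the radius `κ n / 16` to the intrinsic radius. -/
theorem row_radA [Fintype Kx] (F : Fct RS Kx) (h1 : Ang θ) (ha : P1ag RS F θ)
    {P : Measure Cfg} (hP : IsLim (2 * Real.cos θ) P) (hg : ∀ᵐ ω ∂P, Good ω) {κ R : ℝ}
    (hκ : 0 < κ) :
    ∃ C : ℝ, 1 ≤ C ∧ ∀ᶠ n : ℕ in atTop, ∀ x : X, F.Val x → κ * n ≤ F.mg x →
      ((RS.shape x).L : ℝ) ≤ 2 * R * n + 1 →
      ∫ ω, fz (RS.I x) (RS.fr x) ω * ∏ k, F.T (RS.I x) x k ⌊κ * n / 16⌋ ω ∂P ≤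
        C * ∫ ω, fz (RS.I x) (RS.fr x) ω *
          ∏ k, F.T (RS.I x) x k ((F.mg x / 8 : ℕ) : ℤ) ω ∂P := by
  have hPp : IsProbabilityMeasure P := hP.1
  obtain ⟨Λ, hΛ⟩ : ∃ Λ : ℝ, Λ = max 1 (4 * (2 * |R| + 1) / κ) := ⟨_, rfl⟩
  obtain ⟨C, ρ₀, hC, hP1⟩ := ha Λ (by rw [hΛ]; exact le_max_left _ _)
  refine ⟨(max C 1) ^ Fintype.card Kx, one_le_pow₀ (le_max_right _ _), ?_⟩
  have hlim : Tendsto (fun n : ℕ => κ * (n : ℝ)) atTop atTop :=
    tendsto_natCast_atTop_atTop.const_mul_atTop hκ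
  filter_upwards [hlim.eventually_ge_atTop 100, hlim.eventually_ge_atTop (16 * (ρ₀ + 1)),
    eventually_ge_atTop 1] with n hn hnρ hn1
  intro x hx hmx hL
  have hn1' : (1 : ℝ) ≤ n := by exact_mod_cast hn1
  obtain ⟨m, hm⟩ : ∃ m, m = F.mg x := ⟨_, rfl⟩
  rw [← hm] at hmx ⊢
  have hm3 : m ≤ (RS.shape x).L := by rw [hm]; exact F.mg_le hx
  have hm2 : 1 ≤ m := by
    have : (1 : ℝ) ≤ m := by linarith
    exact_mod_cast this
  obtain ⟨ρ, hρ⟩ : ∃ ρ : ℤ, ρ = ⌊κ * n / 16⌋ := ⟨_, rfl⟩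
  have hρ1 : (ρ : ℝ) ≤ κ * n / 16 := by rw [hρ]; exact Int.floor_le _
  have hρ2 : κ * n / 16 - 1 < ρ := by rw [hρ]; exact Int.sub_one_lt_floor _
  rw [← hρ]
  obtain ⟨rd, hrd⟩ : ∃ rd : ℤ, rd = ((m / 8 : ℕ) : ℤ) := ⟨_, rfl⟩
  rw [← hrd]
  have h8 : ((m : ℝ) - 7) / 8 ≤ (rd : ℝ) := by
    rw [hrd, Int.cast_natCast]
    have : (m : ℝ) ≤ 8 * ((m / 8 : ℕ) : ℝ) + 7 := by
      have h9 : m ≤ 8 * (m / 8) + 7 := by omega
      exact_mod_cast h9
    linarith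
  have h9 : (rd : ℝ) ≤ m / 8 := by
    rw [hrd, Int.cast_natCast]
    have : 8 * ((m / 8 : ℕ) : ℝ) ≤ m := by
      have h9 : 8 * (m / 8) ≤ m := by omega
      exact_mod_cast h9
    linarith
  have hρrad : ρ ≤ rd := by
    have : (ρ : ℝ) ≤ (rd : ℝ) := by linarith
    exact_mod_cast this
  have hρpos : 1 ≤ ρ := by
    have : (0 : ℝ) < ρ := by linarith
    have : 0 < ρ := by exact_mod_cast this
    omega
  have hm8 : 8 * rd ≤ F.mg x := by
    rw [hrd, ← hm]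
    have : 8 * (m / 8) ≤ m := by omega
    exact_mod_cast this
  have hΛρ : (rd : ℝ) ≤ Λ * ρ := by
    have h10 : κ * n / 32 ≤ (ρ : ℝ) := by linarith
    have h11 : (m : ℝ) ≤ 2 * R * n + 1 := by
      have : (m : ℝ) ≤ (RS.shape x).L := by exact_mod_cast hm3
      linarith
    have h12 : R * n ≤ |R| * n := mul_le_mul_of_nonneg_right (le_abs_self R) (by linarith)
    have h13 : (m : ℝ) / 8 ≤ (2 * |R| + 1) * n / 8 := by nlinarith
    have h14 : 4 * (2 * |R| + 1) / κ * (κ * n / 32) = (2 * |R| + 1) * n / 8 := by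
      field_simp
      ring
    have h15 : 4 * (2 * |R| + 1) / κ ≤ Λ := by rw [hΛ]; exact le_max_right _ _
    have h16 : 0 ≤ Λ := le_trans (by positivity) h15
    calc (rd : ℝ) ≤ 4 * (2 * |R| + 1) / κ * (κ * n / 32) := by
          rw [h14]
          linarith
      _ ≤ Λ * (κ * n / 32) := mul_le_mul_of_nonneg_right h15 (by positivity)
      _ ≤ Λ * ρ := mul_le_mul_of_nonneg_left h10 h16
  have key := row_radiiA F h1 hP hg hx (by rw [← hm]; exact hm2) (ρ := ρ) (ρ' := rd)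
    (C := max C 1) (le_max_right _ _) (fun k hk η hη hf => by
      have h2 := hP1 x k ρ rd hx hk (by linarith) hρrad hΛρ hm8 η hη hf
      refine h2.trans (mul_le_mul_of_nonneg_right (le_max_left _ _) ?_)
      exact FKA.Ex_nonneg (by linarith [h1.kit.pos]) fun S _ => F.nonneg _ _ _ _ _)
    hρrad (by omega) hm8
  exact EF_int (Vale.Agent.P167.N.H506.Q.fz_pos h1.kit hP hg (RS.I x) (RS.fr x)) key

section dec

variable {ι : Type} [Fintype ι] {r : ι → X} {c : Ed → ℝ} {κ R B : ℝ} {n : ℕ}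

/-- The indicator of the frozen states of all rows. -/
theorem fz_prodA {σ : Cfg} (hσ : RS.Frz r σ) (ω : Cfg) :
    fz (RS.uI r) σ ω = ∏ i, fz (RS.I (r i)) (RS.fr (r i)) ω := by
  classical
  by_cases h : ∀ i, ∀ v ∈ RS.I (r i), ω v = RS.fr (r i) v
  · rw [fz_one fun v hv => ?_, prod_eq_one fun i _ => fz_one (h i)]
    obtain ⟨i, hi⟩ := mem_uIA.1 hv
    rw [h i v hi, hσ i v hi]
  · push Not at h
    obtain ⟨i, v, hv, hne⟩ := h
    rw [fz_zero fun hh => hne (by rw [hh v (mem_uIA.2 ⟨i, hv⟩), hσ i v hv]),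
      prod_eq_zero (mem_univ i) (fz_zero fun hh => hne (hh v hv))]

/-- **Decoupling of the rows.** -/
theorem decoupleA [Fintype Kx] (F : Fct RS Kx) (h1 : Ang θ) {P : Measure Cfg}
    (hP : IsLim (2 * Real.cos θ) P) {Λ : ℤ} {c' : ℝ} (hc' : Rsc (2 * Real.cos θ) Λ c')
    (hA : (RS.wc r c).Adm κ R B n) (hr : ∀ i, F.Val (r i) ∧ κ * n ≤ F.mg (r i))
    (hn : 100 ≤ κ * n) {σ : Cfg} (hσ : RS.Frz r σ) {ρ : ℤ} (hρ : (ρ : ℝ) ≤ κ * n / 16)
    (hρΛ : Λ ≤ ρ) (hρ1 : 1 ≤ ρ) {κw : ℤ} (hκw : 0 ≤ κw) (hw : 2 * R * n + 1 ≤ κw * ρ) :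
    ∫ ω, fz (RS.uI r) σ ω * PG (fA F r ρ) ω ∂P ≤
      Cw Λ κw c' (Fintype.card ι) *
        ∏ i, ∫ ω, fz (RS.I (r i)) (RS.fr (r i)) ω * ∏ k, F.T (RS.I (r i)) (r i) k ρ ω ∂P := by
  classical
  have hρκ : (ρ : ℝ) < κ * n - 1 := by linarith
  have hmg : ∀ i, 1 ≤ F.mg (r i) := fun i => by
    have h2 : (1 : ℝ) ≤ F.mg (r i) := by linarith [(hr i).2]
    exact_mod_cast h2
  have hL : ∀ i, 1 ≤ (RS.shape (r i)).L := fun i => (hmg i).trans (F.mg_le (hr i).1)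
  have hρ1' : (1 : ℝ) ≤ ρ := by exact_mod_cast hρ1
  have hκw' : (0 : ℝ) ≤ κw := by exact_mod_cast hκw
  have key := (Vale.Agent.P167.N.H199.walls_lim hP h1.kit hc' (κ := κw) (s := ρ + 1) hκw
    (by linarith) (univ : Finset ι)
    (W := fun i => RS.I (r i)) (x := fun i => (RS.shape (r i)).sq 0) (fun i _ w hw' => by
      obtain ⟨k, hk, rfl⟩ := exists_sq hw'
      have h2 := adm_lenA hA hL i
      have h3 : nm ((RS.shape (r i)).sq k - (RS.shape (r i)).sq 0) = k := by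
        rw [sep_sq]
        simp
      rw [h3]
      have h4 : (k : ℝ) ≤ (RS.shape (r i)).L := by exact_mod_cast hk.le
      have h5 : ((k : ℤ) : ℝ) ≤ ((κw * (ρ + 1) : ℤ) : ℝ) := by
        push_cast
        nlinarith
      exact_mod_cast h5) (fun i _ j _ hij v hv w hw' => by
      have h2 := adm_sepA hA hL hij hv hw'
      have h3 : ((6 * (ρ + 1) : ℤ) : ℝ) < (nm (v - w) : ℝ) := by
        push_cast
        linarith
      exact_mod_cast h3)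
    (F := fun i ω => fz (RS.I (r i)) (RS.fr (r i)) ω * ∏ k, F.T (RS.I (r i)) (r i) k ρ ω)
    (fun i _ ω => mul_nonneg (fz_nonneg _ _ _) (prod_nonneg fun k _ => F.nonneg _ _ _ _ _))
    (fun i _ => by
      intro ω ω' hw'
      have hsub : RS.I (r i) ⊆ nbh (RS.I (r i)) (ρ + 1) := subset_nbh (by omega)
      have e1 : fz (RS.I (r i)) (RS.fr (r i)) ω = fz (RS.I (r i)) (RS.fr (r i)) ω' :=
        fz_loc _ _ _ _ fun v hv => hw' v (hsub hv)
      have e2 : ∀ k, F.T (RS.I (r i)) (r i) k ρ ω = F.T (RS.I (r i)) (r i) k ρ ω' := fun k => by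
        refine F.loc' _ _ _ _ _ _ fun v hv => ?_
        obtain ⟨hk, hv⟩ := Fct.mem_bx.1 hv
        obtain ⟨u, hu, hu'⟩ := F.near (hr i).1 (hmg i) hk
        refine hw' v (mem_nbh.2 ⟨u, hu, ?_⟩)
        have h2 := nm_of_Bq hv
        have h3 := nm_sub_le v (F.ctr (r i) k) u
        linarith
      show fz (RS.I (r i)) (RS.fr (r i)) ω * ∏ k, F.T (RS.I (r i)) (r i) k ρ ω =
        fz (RS.I (r i)) (RS.fr (r i)) ω' * ∏ k, F.T (RS.I (r i)) (r i) k ρ ω'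
      rw [e1]
      congr 1
      exact prod_congr rfl fun k _ => e2 k)).2
  rw [Finset.card_univ] at key
  refine le_trans (le_of_eq ?_) key
  refine integral_congr_ae (Eventually.of_forall fun ω => ?_)
  show fz (RS.uI r) σ ω * PG (fA F r ρ) ω =
    ∏ i, (fz (RS.I (r i)) (RS.fr (r i)) ω * ∏ k, F.T (RS.I (r i)) (r i) k ρ ω)
  rw [prod_mul_distrib, fz_prodA hσ ω]
  congr 1
  unfold PG
  rw [Fintype.prod_prod_type]
  refine prod_congr rfl fun i _ => ?_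
  exact prod_congr rfl fun k _ => T_adm hA hr (by linarith) (p := (i, k)) hρκ ω

end dec

/-! ### the upper bound -/

/-- **HOS in terms of the law**, for an arbitrary system of straight walls. -/
theorem hosr_g [Fintype Kx] (F : Fct RS Kx) {Ok : ℝ → ℕ → X → Prop} (h0 : 0 < θ) (h1 : Ang θ)
    (hR : RSW (2 * Real.cos θ)) {P : Measure Cfg} (hP : IsLim (2 * Real.cos θ) P)
    (hg : ∀ᵐ ω ∂P, Good ω)
    (hOk : ∀ {κ : ℝ} {n : ℕ} {x : X}, Ok κ n x → F.Val x ∧ κ * n ≤ F.mg x)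
    (hL1 : L1g RS F Ok θ) (ha : P1ag RS F θ) (hb : P1bg RS F θ) :
    HOSRg RS Ok θ P (Zpg RS F θ P) := by
  classical
  have hPp : IsProbabilityMeasure P := hP.1
  have hs : 0 < Real.sin θ := h1.sin_pos
  intro κ R B M hκ
  obtain ⟨κ₁, hκ₁, hL⟩ := hL1 κ R B M hκ
  obtain ⟨κ', hκ'⟩ : ∃ κ', κ' = min (κ₁ / 2) (κ / 200) := ⟨_, rfl⟩
  have hκ'0 : 0 < κ' := by rw [hκ']; positivity
  obtain ⟨A, hA1, hLA⟩ := hL κ' hκ'0 (by rw [hκ']; exact (min_le_left _ _).trans_lt (by linarith))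
  obtain ⟨C1, hC1, hmaj⟩ := EF_majA F (R := R) (B := B) h0 h1 hR hb hP hg M hκ hκ'0
    (by rw [hκ']; exact min_le_right _ _) hA1
  obtain ⟨C2, hC2, hrad⟩ := row_radA F (R := R) h1 ha hP hg hκ
  obtain ⟨Λ, c', hΛ, hc', hc'1, hRsc⟩ := rsc_of hR
  obtain ⟨κw, hκw⟩ : ∃ κw : ℤ, 32 * (2 * |R| + 1) / κ ≤ κw := ⟨⌈_⌉, Int.le_ceil _⟩
  have hκw0 : 0 ≤ κw := by
    have : (0 : ℝ) ≤ κw := le_trans (by positivity) hκw
    exact_mod_cast this
  have hCw : 0 < Cw Λ κw c' M := Cw_pos hc' M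
  have hA0 : 0 < A := by linarith
  refine ⟨A * (C1 * Cw Λ κw c' M * C2 ^ M), by positivity, ?_⟩
  have hlim : Tendsto (fun n : ℕ => κ * (n : ℝ)) atTop atTop :=
    tendsto_natCast_atTop_atTop.const_mul_atTop hκ
  filter_upwards [hLA, hmaj, hrad, hlim.eventually_ge_atTop 100,
    hlim.eventually_ge_atTop (16 * ((Λ : ℝ) + 1)), eventually_ge_atTop 1]
    with n a1 a2 a3 hn hnΛ hn1
  intro ι _ r c hc hM hA hr0 _ σ hσ
  have hr : ∀ i, F.Val (r i) ∧ κ * n ≤ F.mg (r i) := fun i => hOk (hr0 i)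
  have hn1' : (1 : ℝ) ≤ n := by exact_mod_cast hn1
  obtain ⟨N, Z, hLF, hZ, hMaj, hEF⟩ := a2 ι r c hc hM hA hr σ hσ
  obtain ⟨ρ, hρ⟩ : ∃ ρ : ℤ, ρ = ⌊κ * n / 16⌋ := ⟨_, rfl⟩
  rw [← hρ] at hEF
  have hρ1 : (ρ : ℝ) ≤ κ * n / 16 := by rw [hρ]; exact Int.floor_le _
  have hρ2 : κ * n / 16 - 1 < ρ := by rw [hρ]; exact Int.sub_one_lt_floor _
  have hρΛ : Λ ≤ ρ := by
    have : (Λ : ℝ) < ρ := by linarith
    exact_mod_cast this.le
  have hρpos : 1 ≤ ρ := by omega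
  have hpf : 0 < ∫ ω, fz (RS.uI r) σ ω ∂P := Vale.Agent.P167.N.H506.Q.fz_pos h1.kit hP hg _ _
  -- the law-free bound
  obtain ⟨k, hk⟩ : ∃ k : ℝ, k = ∏ i, (2 * Real.sin θ) ^ ((RS.shape (r i)).L + 1) := ⟨_, rfl⟩
  have hk0 : 0 ≤ k := by rw [hk]; exact prod_nonneg fun i _ => by positivity
  set Y : Cfg → ℝ := fun ω => A ^ N ω * Real.exp (-(Real.tan θ * Sm (dv c) (κ' * n) ω)) with hY
  have hYl : LF (fun ω => PG (fA F r ρ) ω * Y ω) := (PG_LF (fA_loc F r ρ)).mul hLF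
  have hstep1 : |∫ ω, fz (RS.uI r) σ ω * RT θ (RS.uI r) (RS.wc r c).ph ω ∂P| ≤
      (A * k) * ∫ ω, fz (RS.uI r) σ ω * (PG (fA F r ρ) ω * Y ω) ∂P := by
    rw [← integral_const_mul, ← Real.norm_eq_abs]
    refine norm_integral_le_of_norm_le ((hYl.int hg).const_mul (A * k)) ?_
    filter_upwards [hg] with ω hω
    rw [Real.norm_eq_abs, abs_mul, abs_of_nonneg (fz_nonneg _ _ _)]
    by_cases hfz : ∀ v ∈ RS.uI r, ω v = σ v
    · have h2 := a1 ι r c hc hM hA hr0 ω hω (fun i v hv => by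
        rw [hfz v (mem_uIA.2 ⟨i, hv⟩)]
        exact hσ i v hv) Z (N ω) hZ (hMaj ω hω)
      have e : ∏ i, ∏ k, F.T (RS.uI r) (r i) k ⌊κ * n / 16⌋ ω = PG (fA F r ρ) ω := by
        unfold PG fA
        rw [Fintype.prod_prod_type, hρ]
      rw [← hk, e] at h2
      have h3 := mul_le_mul_of_nonneg_left h2 (fz_nonneg (RS.uI r) σ ω)
      refine h3.trans (le_of_eq ?_)
      rw [hY]
      ring
    · rw [fz_zero hfz]
      simp
  have hstep2 : ∫ ω, fz (RS.uI r) σ ω * (PG (fA F r ρ) ω * Y ω) ∂P ≤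
      C1 * ∫ ω, fz (RS.uI r) σ ω * PG (fA F r ρ) ω ∂P := EF_int hpf hEF
  have hκwρ : 2 * R * n + 1 ≤ κw * ρ := by
    have h10 : κ * n / 32 ≤ (ρ : ℝ) := by linarith
    have h12 : R * n ≤ |R| * n := mul_le_mul_of_nonneg_right (le_abs_self R) (by linarith)
    have h14 : 32 * (2 * |R| + 1) / κ * (κ * n / 32) = (2 * |R| + 1) * n := by
      field_simp
    calc 2 * R * n + 1 ≤ 32 * (2 * |R| + 1) / κ * (κ * n / 32) := by
          rw [h14]
          nlinarith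
      _ ≤ κw * (κ * n / 32) := mul_le_mul_of_nonneg_right hκw (by positivity)
      _ ≤ κw * ρ := mul_le_mul_of_nonneg_left h10 (by exact_mod_cast hκw0)
  have hstep3 := decoupleA F h1 hP hRsc hA hr hn hσ hρ1 hρΛ hρpos hκw0 hκwρ
  have hI0 : ∀ i, 0 ≤ ∫ ω, fz (RS.I (r i)) (RS.fr (r i)) ω *
      ∏ k, F.T (RS.I (r i)) (r i) k ρ ω ∂P := fun i =>
    integral_nonneg fun ω => mul_nonneg (fz_nonneg _ _ _)
      (prod_nonneg fun k _ => F.nonneg _ _ _ _ _)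
  have hI1 : ∀ i, 0 ≤ ∫ ω, fz (RS.I (r i)) (RS.fr (r i)) ω *
      ∏ k, F.T (RS.I (r i)) (r i) k ((F.mg (r i) / 8 : ℕ) : ℤ) ω ∂P :=
    fun i => integral_nonneg fun ω => mul_nonneg (fz_nonneg _ _ _)
      (prod_nonneg fun k _ => F.nonneg _ _ _ _ _)
  have hmg : ∀ i, 1 ≤ F.mg (r i) := fun i => by
    have h2 : (1 : ℝ) ≤ F.mg (r i) := by linarith [(hr i).2]
    exact_mod_cast h2
  have hL : ∀ i, 1 ≤ (RS.shape (r i)).L := fun i => (hmg i).trans (F.mg_le (hr i).1)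
  have hstep4 : ∏ i, ∫ ω, fz (RS.I (r i)) (RS.fr (r i)) ω *
        ∏ k, F.T (RS.I (r i)) (r i) k ρ ω ∂P ≤
      C2 ^ M * ∏ i, ∫ ω, fz (RS.I (r i)) (RS.fr (r i)) ω *
        ∏ k, F.T (RS.I (r i)) (r i) k ((F.mg (r i) / 8 : ℕ) : ℤ) ω ∂P := by
    calc _ ≤ ∏ i, C2 * ∫ ω, fz (RS.I (r i)) (RS.fr (r i)) ω *
          ∏ k, F.T (RS.I (r i)) (r i) k ((F.mg (r i) / 8 : ℕ) : ℤ) ω ∂P := by
          refine prod_le_prod (fun i _ => hI0 i) fun i _ => ?_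
          rw [hρ]
          exact a3 (r i) (hr i).1 (hr i).2 (adm_lenA hA hL i)
      _ = C2 ^ Fintype.card ι * ∏ i, ∫ ω, fz (RS.I (r i)) (RS.fr (r i)) ω *
          ∏ k, F.T (RS.I (r i)) (r i) k ((F.mg (r i) / 8 : ℕ) : ℤ) ω ∂P := by
          rw [prod_mul_distrib, prod_const, Finset.card_univ]
      _ ≤ _ := mul_le_mul_of_nonneg_right (pow_le_pow_right₀ hC2 hM)
          (prod_nonneg fun i _ => hI1 i)
  have hCwM : Cw Λ κw c' (Fintype.card ι) ≤ Cw Λ κw c' M := Cw_mono hc' hc'1 hM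
  have hZ' : ∏ i, Zpg RS F θ P n (r i) = k * ∏ i, ∫ ω, fz (RS.I (r i)) (RS.fr (r i)) ω *
      ∏ k, F.T (RS.I (r i)) (r i) k ((F.mg (r i) / 8 : ℕ) : ℤ) ω ∂P := by
    rw [hk, ← prod_mul_distrib]
    rfl
  rw [hZ']
  have hprod0 := prod_nonneg fun i (_ : i ∈ (univ : Finset ι)) => hI0 i
  show |∫ ω, fz (RS.uI r) σ ω * RT θ (RS.uI r) (RS.wc r c).ph ω ∂P| ≤ _
  calc _ ≤ A * k * ∫ ω, fz (RS.uI r) σ ω * (PG (fA F r ρ) ω * Y ω) ∂P := hstep1
    _ ≤ A * k * (C1 * ∫ ω, fz (RS.uI r) σ ω * PG (fA F r ρ) ω ∂P) :=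
        mul_le_mul_of_nonneg_left hstep2 (by positivity)
    _ ≤ A * k * (C1 * (Cw Λ κw c' (Fintype.card ι) *
        ∏ i, ∫ ω, fz (RS.I (r i)) (RS.fr (r i)) ω *
          ∏ k, F.T (RS.I (r i)) (r i) k ρ ω ∂P)) := by gcongr
    _ ≤ A * k * (C1 * (Cw Λ κw c' M *
        (C2 ^ M * ∏ i, ∫ ω, fz (RS.I (r i)) (RS.fr (r i)) ω *
          ∏ k, F.T (RS.I (r i)) (r i) k ((F.mg (r i) / 8 : ℕ) : ℤ) ω ∂P))) := by
        gcongr
    _ = _ := by ring

end Vale.Agent.P167.N.ID
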