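import Vale.Agent.P167.N.ID.L1Core
import Vale.Agent.P167.N.ID.HosA
import Vale.Agent.P167.N.QX.L1A

/-!
# P167, `q < 1`: the law-free majorant `L1g` of the configurations of rows

* `RowG RS F Ok θ`: the product over the small strands of one row.
* `l1g_of`: `L1g` from this input.
-/

set_option autoImplicit false

namespace Vale.Agent.P167.N.ID

open Finset Filter

open Vale.Agent.P167 Vale.Agent.P167.N

open Vale.Agent.P167.BR hiding dv

open Vale.Agent.P167.XDL (bS mem_bS)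

open Vale.Agent.P167.FK

open Vale.Agent.P167.H685 (LE)

open Vale.Agent.P167.H825.Q (Row)

open Vale.Agent.P167.H825 (epos dv)

open Vale.Agent.P167.H680.T (WCG WallG)

open Vale.Agent.P167.H562.QM (MajA)

open Vale.Agent.P167.H562.MAJ (Sm)

open Vale.Agent.P167.QX (RT InB rS Bx)

variable {X : Type}

/-- **The product over the small strands of one row**, with the factors of its special points. -/
def RowG (RS : RSys X) {Kx : Type} [Fintype Kx] (F : Fct RS Kx) (Ok : ℝ → ℕ → X → Prop) (θ : ℝ) :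
    Prop :=
  ∃ C : ℝ, 1 ≤ C ∧ ∃ m₀ : ℤ, ∀ (x : X) (κ : ℝ) (n : ℕ) (d ρ : ℤ) (ω : Cfg), 0 < κ → Ok κ n x →
    Good ω → (∀ v ∈ RS.I x, ω v = RS.fr x v) → m₀ ≤ d → 2 * d + 2 ≤ ρ → 16 * (ρ : ℝ) ≤ κ * n →
    ∃ G : Finset Ed,
      (∀ e ∈ G, tlv e ∈ RS.I x ∧ hdv e ∉ RS.I x ∧
        ∃ p q : ℤ × ℤ, q.1 ≤ p.1 + 2 * ρ ∧ q.2 ≤ p.2 + 2 * ρ ∧ InB (Bx p q) (RS.I x) ω e) ∧
      (∀ e, tlv e ∈ RS.I x → hdv e ∉ RS.I x → InB (Bq (tlv e) d) (RS.I x) ω e → e ∈ G) ∧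
      ∏ e ∈ G, rS θ (RS.I x) (RS.wall x 0).a ω e ≤ C * ∏ k, F.T (RS.I x) x k ρ ω

/-- **The law-free majorant** from the product over the small strands of one row. -/
theorem l1g_of {RS : RSys X} {Kx : Type} [Fintype Kx] {F : Fct RS Kx} {Ok : ℝ → ℕ → X → Prop}
    {θ : ℝ} (h1 : Ang θ) (hrow : RowG RS F Ok θ)
    (hOk : ∀ {κ n x}, Ok κ n x → F.Val x ∧ κ * n ≤ F.mg x)
    (hcol : ∀ {κ : ℝ} {n : ℕ} {x : X} {w : ℤ} {ω : Cfg}, Ok κ n x → (w : ℝ) ≤ κ * n →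
      (∀ v ∈ RS.I x, ω v = RS.fr x v) → Cols (RS.shape x) w ω) : L1g RS F Ok θ := by
  classical
  have h0 := h1.pos
  have hpi := Real.pi_pos
  have hlt := h1.lt
  have hs : 0 < Real.sin θ := h1.sin_pos
  have hc0 : 0 < Real.cos θ := h1.cos_pos
  obtain ⟨C, hC, m₀, hrow⟩ := hrow
  intro κ R B M hκ
  set γ : ℝ := min (1 / 2) (Real.pi / 2 - θ) with hγ
  have hγ0 : 0 < γ := lt_min (by norm_num) (by linarith)
  have ha : 1 ≤ (Real.cos θ)⁻¹ := (one_le_inv₀ hc0).2 (Real.cos_le_one _)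
  have hb : 1 ≤ (Real.sin θ)⁻¹ := QX.one_le_inv_sin hs
  set A₁ : ℝ := max 1 (2 * Real.cos θ)⁻¹ with hA₁
  have hA1 : 1 ≤ A₁ := le_max_left _ _
  have hA2 : 1 ≤ A₁ * (2 * Real.cos θ) := by
    have h3 : (2 * Real.cos θ)⁻¹ ≤ A₁ := le_max_right _ _
    have h4 : (0 : ℝ) < 2 * Real.cos θ := by linarith
    calc (1 : ℝ) = (2 * Real.cos θ)⁻¹ * (2 * Real.cos θ) := (inv_mul_cancel₀ h4.ne').symm
      _ ≤ _ := mul_le_mul_of_nonneg_right h3 h4.le
  have hab : 1 ≤ (Real.cos θ)⁻¹ * (Real.sin θ)⁻¹ * A₁ :=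
    one_le_mul_of_one_le_of_one_le (one_le_mul_of_one_le_of_one_le ha hb) hA1
  refine ⟨min (κ / 64) (γ / (|B| + 1)), by positivity, fun κ' hκ' hκ1 => ?_⟩
  have k1 : κ' < κ / 64 := lt_of_lt_of_le hκ1 (min_le_left _ _)
  have k2 : κ' < γ / (|B| + 1) := lt_of_lt_of_le hκ1 (min_le_right _ _)
  have hBk : |B| * κ' ^ 2 ≤ γ := by
    have g0 := abs_nonneg B
    rw [lt_div_iff₀ (by positivity)] at k2
    have g1 : γ ≤ 1 / 2 := min_le_left _ _
    have g2 : κ' < 1 := by nlinarith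
    nlinarith
  refine ⟨((Real.cos θ)⁻¹ * (Real.sin θ)⁻¹ * A₁) * C ^ M, one_le_mul_of_one_le_of_one_le hab (one_le_pow₀ hC), ?_⟩
  have hlim : Tendsto (fun n : ℕ => κ * (n : ℝ)) atTop atTop :=
    tendsto_natCast_atTop_atTop.const_mul_atTop hκ
  have hlim' : Tendsto (fun n : ℕ => κ' * (n : ℝ)) atTop atTop :=
    tendsto_natCast_atTop_atTop.const_mul_atTop hκ'
  filter_upwards [hlim.eventually_ge_atTop 1024, eventually_ge_atTop 1,
    hlim'.eventually_ge_atTop m₀] with n hn hn1 hnm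
  intro ι _ r c hcf hM hA hr ω hg hω Z N hZ hN
  have hn0 : (0 : ℝ) < n := by exact_mod_cast hn1
  have hκn : κ' * n < κ * n / 64 := by
    have := mul_lt_mul_of_pos_right k1 hn0
    linarith
  have hκ0 : 0 < κ' * n := by positivity
  set d : ℤ := ⌈κ' * n⌉ + 2 with hd
  set ρ : ℤ := ⌊κ * n / 16⌋ with hρ
  have d1 : κ' * n + 2 ≤ d := by
    rw [hd]
    push_cast
    linarith [Int.le_ceil (κ' * n)]
  have d2 : (d : ℝ) < κ' * n + 3 := by
    rw [hd]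
    push_cast
    linarith [Int.ceil_lt_add_one (κ' * n)]
  have r1 : (ρ : ℝ) ≤ κ * n / 16 := Int.floor_le _
  have r2 : κ * n / 16 - 1 < ρ := Int.sub_one_lt_floor _
  have d3 : 2 * d + 2 ≤ ρ := by
    have : (2 * (d : ℝ) + 2) ≤ ρ := by linarith
    exact_mod_cast this
  have d4 : 1 ≤ d := by
    have : (1 : ℝ) ≤ d := by linarith
    exact_mod_cast this
  have d5 : m₀ ≤ d := by
    have : (m₀ : ℝ) ≤ d := by linarith
    exact_mod_cast this
  have hA' : (RS.wc r c).Adm κ R |B| n :=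
    H680.T.Adm.mono hA le_rfl le_rfl (le_abs_self B)
  have hm : ∀ i, 1 ≤ F.mg (r i) := fun i => by
    have h2 : (1 : ℝ) ≤ F.mg (r i) := by linarith [(hOk (hr i)).2]
    exact_mod_cast h2
  have hL : ∀ i, 1 ≤ (RS.shape (r i)).L := fun i => (hm i).trans (F.mg_le (hOk (hr i)).1)
  have hS : ∀ i, ((RS.wc r c).w i).S = bS (RS.shape (r i)).I := fun i =>
    (RS.cuts (r i) 0 (hL i)).S
  have hcols : ∀ i, Cols (RS.shape (r i)) (2 * ρ) ω := fun i =>
    hcol (hr i) (by push_cast; linarith) (hω i)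
  have hrw := fun i => hrow (r i) κ n d ρ ω hκ (hr i) hg (hω i) d5 d3 (by linarith)
  choose Gs hG1 hG2 hG3 using hrw
  have hn' : 1 < κ * n := by linarith
  have hsmall : ∀ ℓ, IsLoop ω ℓ → Small (κ' * n) ℓ → |G (dv c) ℓ| ≤ γ := by
    intro ℓ hl hsl
    have hn1' : (1 : ℝ) ≤ n := by exact_mod_cast hn1
    have h := H562.SML.bd_G (κ := κ') (ρ := n) (Cm := |B|) hn1' (abs_nonneg B) hA'.dle ω ℓ (κ' * n) hl
      le_rfl hsl
    refine h.trans (le_trans (le_of_eq ?_) hBk)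
    field_simp
  have hLp := QX.LpO_le (ω := ω) (K := RS.uI r) (a := (RS.wc r c).ph) (d := κ' * n) h0 h1 hcf
    (fun e he => ph_off_g hS hA' hn' he) (fun ℓ hl hsl => (hsmall ℓ hl hsl).trans (min_le_right _ _))
    (fun ℓ hl hsl hc => far_g hA' hS (by linarith) hsl hc)
  have hmain := L1_coreG (W := RS.wc r c) (g := fun i => RS.shape (r i)) (d := d) (ρ := ρ)
    (θ := θ) (κ' := κ') (T := fun i => ∏ k, F.T (RS.I (r i)) (r i) k ρ ω) h0 hlt hg hA' hS hn1 hn'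
    hL hcols d4 d1 d3 (by linarith) hG1 hG2 (fun i => prod_nonneg fun k _ => F.nonneg _ _ _ _ _)
    (by linarith) hG3 hA1 hA2 hLp hZ hN
  refine hmain.trans (mul_le_mul_of_nonneg_left ?_ (prod_nonneg fun _ _ => by positivity))
  have hTT : ∏ i, ∏ k, F.T (RS.uI r) (r i) k ρ ω = ∏ i, ∏ k, F.T (RS.I (r i)) (r i) k ρ ω :=
    prod_congr rfl fun i _ => prod_congr rfl fun k _ =>
      T_adm (p := (i, k)) hA' (fun i => hOk (hr i)) hn' (by linarith) ω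
  rw [hTT]
  have hT0 : 0 ≤ ∏ i, ∏ k, F.T (RS.I (r i)) (r i) k ρ ω :=
    prod_nonneg fun i _ => prod_nonneg fun k _ => F.nonneg _ _ _ _ _
  refine mul_le_mul_of_nonneg_right (mul_le_mul_of_nonneg_right ?_ (Real.exp_nonneg _)) hT0
  rw [mul_pow ((Real.cos θ)⁻¹ * (Real.sin θ)⁻¹ * A₁) (C ^ M) (N + 1), ← pow_mul]
  exact mul_le_mul (pow_le_pow_right₀ hab (by omega))
    (pow_le_pow_right₀ hC (hM.trans (Nat.le_mul_of_pos_right _ (by omega))))
    (by positivity) (by positivity)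

end Vale.Agent.P167.N.ID
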