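import Vale.Agent.P167.N.ID.SymArm
import Vale.Agent.P167.N.H680.T.FrP
import Vale.Agent.P167.H562.GLm

/-!
# P167, `0 < q < 1`: positivity of the expectations of frozen squares and factors

`fz_pos`: a nonnegative local factor which is positive for one configuration with the given frozen
squares has a positive expectation. `AZ_diag`: the arm along a diagonal ray of squares off `I`.
-/

set_option autoImplicit false

namespace Vale.Agent.P167.N.ID

open Finset MeasureTheory
open Vale.Agent.P167.FK (Bq Good)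
open Vale.Agent.P167.FKA (Loc)
open Vale.Agent.P167.H519 (IsLim)
open Vale.Agent.P167.H506.Q (fz fz_one fz_zero fz_nonneg fz_loc)
open Vale.Agent.P167.H680.T (pF)
open Vale.Agent.P167.H192.TA (Pw)
open Vale.Agent.P167.H632 (cs)
open Vale.Agent.P145.FB (PStep)

/-- **Positivity.** -/
theorem fz_pos {Q : ℝ} (hQ : Kit Q) {P : Measure Cfg} (hP : IsLim Q P) (hg : ∀ᵐ ω ∂P, Good ω)
    {I K : Finset (ℤ × ℤ)} {f : ℤ × ℤ → Bool} {T : Cfg → ℝ} (hT : ∀ ω, 0 ≤ T ω) (hK : Loc K T)
    {σ : Cfg} (hσ : ∀ v ∈ I, σ v = f v) (h : 0 < T σ) : 0 < ∫ ω, fz I f ω * T ω ∂P := by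
  classical
  have := hP.1
  have hle : ∀ ω, T σ * fz (I ∪ K) σ ω ≤ fz I f ω * T ω := by
    intro ω
    by_cases h1 : ∀ v ∈ I ∪ K, ω v = σ v
    · rw [fz_one h1, mul_one, fz_one, one_mul]
      · exact le_of_eq (hK σ ω fun v hv => (h1 v (mem_union_right _ hv)).symm)
      · intro v hv
        rw [h1 v (mem_union_left _ hv), hσ v hv]
    · rw [fz_zero h1, mul_zero]
      exact mul_nonneg (fz_nonneg _ _ _) (hT ω)
  have hint : Integrable (fun ω => fz I f ω * T ω) P := by
    refine H562.GL.loc_integrable (B := I ∪ K) ?_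
    intro ω ω' h
    show fz I f ω * T ω = fz I f ω' * T ω'
    rw [fz_loc I f ω ω' fun v hv => h v (mem_union_left _ hv),
      hK ω ω' fun v hv => h v (mem_union_right _ hv)]
  have hint' : Integrable (fun ω => T σ * fz (I ∪ K) σ ω) P :=
    (H562.GL.loc_integrable (fz_loc (I ∪ K) σ)).const_mul _
  have h2 := integral_mono hint' hint hle
  rw [integral_const_mul] at h2
  exact lt_of_lt_of_le (mul_pos h (Vale.Agent.P167.N.H680.T.pF_pos hQ hP hg (I ∪ K) σ)) h2

/-- The `k`-th square of the diagonal ray from the site `z`. -/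
def dg (z : ℤ × ℤ) (a b : Bool) (k : ℕ) : ℤ × ℤ :=
  (z.1 + (if a then (k : ℤ) else -1 - k), z.2 + (if b then (k : ℤ) else -1 - k))

/-- The `k`-th site of the diagonal ray. -/
def dgs (z : ℤ × ℤ) (a b : Bool) (k : ℕ) : ℤ × ℤ :=
  (z.1 + (if a then (k : ℤ) else -k), z.2 + (if b then (k : ℤ) else -k))

variable {e : Bool} {I : Finset (ℤ × ℤ)} {z : ℤ × ℤ} {R : ℤ} {ω : Cfg}

theorem dg_step (z : ℤ × ℤ) (a b : Bool) (k : ℕ) {F : Set (ℤ × ℤ)} (h : dg z a b k ∈ F) :
    PStep F (dgs z a b k) (dgs z a b (k + 1)) := by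
  unfold PStep
  have h1 : (min (dgs z a b k).1 (dgs z a b (k + 1)).1, min (dgs z a b k).2 (dgs z a b (k + 1)).2) =
      dg z a b k := by
    unfold dg dgs
    cases a <;> cases b <;> simp only [Bool.false_eq_true, if_false, if_true] <;>
      (apply Prod.ext <;> dsimp only <;> push_cast <;> omega)
  rw [h1]
  refine ⟨?_, ?_, h⟩
  · unfold dgs
    cases a <;> simp only [Bool.false_eq_true, if_false, if_true] <;> push_cast <;> omega
  · unfold dgs
    cases b <;> simp only [Bool.false_eq_true, if_false, if_true] <;> push_cast <;> omega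

/-- **The arm along a diagonal ray.** -/
theorem AZ_diag (a b : Bool) (h : ∀ k : ℕ, (k : ℤ) < R → dg z a b k ∉ I)
    (hω : ∀ k : ℕ, (k : ℤ) < R → ω (dg z a b k) = e) : ω ∈ AZ e I z R := by
  have key : ∀ k : ℕ, (k : ℤ) ≤ R → Pw (cs e ω ∩ ↑(Bq z R \ I)) z (dgs z a b k) := by
    intro k
    induction k with
    | zero =>
      intro _
      have : dgs z a b 0 = z := by
        unfold dgs
        cases a <;> cases b <;> simp
      rw [this]
    | succ k ih =>
      intro hk
      push_cast at hk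
      refine (ih (by omega)).tail (dg_step z a b k ⟨hω k (by omega), ?_⟩)
      rw [mem_coe, mem_sdiff, mem_Bz]
      refine ⟨?_, h k (by omega)⟩
      unfold dg
      cases a <;> cases b <;> simp only [Bool.false_eq_true, if_false, if_true] <;> omega
  rcases le_or_gt R 0 with hR | hR
  · refine ⟨z, ?_, Relation.ReflTransGen.refl⟩
    rw [nm_self]
    exact hR
  · refine ⟨dgs z a b R.toNat, ?_, key _ (by omega)⟩
    rw [H632.le_nm]
    unfold dgs
    simp only [Prod.fst_sub, Prod.snd_sub]
    cases a <;> simp only [Bool.false_eq_true, if_false, if_true] <;> omega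

end Vale.Agent.P167.N.ID
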