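import Vale.Agent.P167.N.ID.Lab
import Vale.Agent.P167.N.ID.PosA

/-!
# P167, `0 < q < 1`: positivity of the labels

`FPos F`: every factor is positive for one configuration with the frozen squares of the row.
`zlab_pos`, `zpg_pos`: the labels of the rows are positive.
-/

set_option autoImplicit false

namespace Vale.Agent.P167.N.ID

open Finset MeasureTheory Filter
open Vale.Agent.P167 Vale.Agent.P167.N
open Vale.Agent.P167.FK
open Vale.Agent.P167.FKA (Loc)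
open Vale.Agent.P167.H519 (IsLim)
open Vale.Agent.P167.H506.Q (EF fz fz_nonneg)

variable {X Kx : Type} {RS : RSys X}

/-- Every factor is positive for one configuration with the frozen squares of the row. -/
def FPos (F : Fct RS Kx) : Prop :=
  ∀ (x : X) (k : Kx) (ρ : ℤ), F.Val x → F.Sp x k → 8 * ρ ≤ F.mg x →
    ∃ σ : Cfg, (∀ v ∈ RS.I x, σ v = RS.fr x v) ∧ 0 < F.T (RS.I x) x k ρ σ

variable {F : Fct RS Kx} {θ : ℝ} {P : Measure Cfg}

theorem EF_pos (hQ : Kit (2 * Real.cos θ)) (hP : IsLim (2 * Real.cos θ) P)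
    (hg : ∀ᵐ ω ∂P, Good ω) (h : FPos F) {x : X} {k : Kx} {ρ : ℤ} (hx : F.Val x) (hk : F.Sp x k)
    (hm : 8 * ρ ≤ F.mg x) : 0 < EF P (RS.I x) (RS.fr x) (F.T (RS.I x) x k ρ) := by
  obtain ⟨σ, h1, h2⟩ := h x k ρ hx hk hm
  unfold EF
  exact div_pos (fz_pos hQ hP hg (fun ω => F.nonneg _ _ _ _ _) (F.loc _ _ _ _) h1 h2)
    (Vale.Agent.P167.N.H506.Q.fz_pos hQ hP hg (RS.I x) (RS.fr x))

/-- **The one-point quantities are positive.** -/
theorem TyS.a_pos (S : TyS F P) (hQ : Kit (2 * Real.cos θ)) (hP : IsLim (2 * Real.cos θ) P)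
    (hg : ∀ᵐ ω ∂P, Good ω) (h : FPos F) {x : X} {k : Kx} {ρ : ℤ} (hx : F.Val x) (hk : F.Sp x k)
    (hρ : S.ρ₀ ≤ ρ) (hm : 8 * ρ ≤ F.mg x) : 0 < S.a (S.ty x k) ρ := by
  obtain ⟨x', k', h1, h2, h3, -, h4⟩ := S.ref x k ρ hx hk hρ hm
  rw [← h4]
  exact EF_pos hQ hP hg h h1 h2 h3

/-- **The invariant labels are positive.** -/
theorem zlab_pos_one [Fintype Kx] (S : TyS F P) (hs : 0 < Real.sin θ)
    (hQ : Kit (2 * Real.cos θ)) (hP : IsLim (2 * Real.cos θ) P) (hg : ∀ᵐ ω ∂P, Good ω)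
    (h : FPos F) (n : ℕ) {x : X} (hx : F.Val x) (hm : 8 * (|S.ρ₀| + 1) ≤ F.mg x) :
    0 < Zlab S θ n x := by
  classical
  have h8 : 8 * (((F.mg x / 8 : ℕ) : ℤ)) ≤ F.mg x := by
    have := Nat.mul_div_le (F.mg x) 8
    exact_mod_cast this
  have h9 : S.ρ₀ ≤ (((F.mg x / 8 : ℕ) : ℤ) : ℝ) := by
    have h1 : F.mg x < 8 * (F.mg x / 8 + 1) := by omega
    have h2 : ((F.mg x : ℕ) : ℝ) < 8 * (((F.mg x / 8 : ℕ) : ℝ) + 1) := by exact_mod_cast h1
    have h3 := le_abs_self S.ρ₀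
    rw [Int.cast_natCast]
    linarith
  unfold Zlab
  have hp := Vale.Agent.P167.N.H506.Q.fz_pos hQ hP hg (RS.I x) (RS.fr x)
  refine mul_pos (by positivity) (mul_pos hp (prod_pos fun k _ => ?_))
  split_ifs with hk
  · exact S.a_pos hQ hP hg h hx hk h9 h8
  · exact one_pos

/-- **The labels of the rows are positive**, in the form for `Cls.Ok`. -/
theorem zlab_pos [Fintype Kx] (S : TyS F P) (hs : 0 < Real.sin θ)
    (hQ : Kit (2 * Real.cos θ)) (hP : IsLim (2 * Real.cos θ) P) (hg : ∀ᵐ ω ∂P, Good ω)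
    (h : FPos F) {Ok : ℝ → ℕ → X → Prop}
    (hOk : ∀ {κ : ℝ} {n : ℕ} {x : X}, Ok κ n x → F.Val x ∧ κ * n ≤ F.mg x) {κ : ℝ}
    (hκ : 0 < κ) : ∀ᶠ n : ℕ in atTop, ∀ x, Ok κ n x → 0 < Zlab S θ n x := by
  filter_upwards [(tendsto_natCast_atTop_atTop.const_mul_atTop hκ).eventually_ge_atTop
    (8 * (|S.ρ₀| + 1))] with n hn x hx
  obtain ⟨h1, h2⟩ := hOk hx
  exact zlab_pos_one S hs hQ hP hg h n h1 (hn.trans h2)

end Vale.Agent.P167.N.ID
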