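import Vale.Agent.P167.N.MIX.Jun
import Vale.Agent.P167.N.Base.ArmM
import Vale.Agent.P167.H506.Q.Mul

/-!
# P167, `0 < q < 1`: mixing around a point of a thin row

`shp_h`, `shp_v`: in an annulus around a point of a thin row (with at most two rays) the complement of
the row is of the shape `Shp`. `arc_h`, `arc_v`: the open squares of the row are one wired arc if they
form an interval which leaves the box. `rm_row`: ratio mixing with the squares of the row frozen in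
arbitrary states with one wired arc.
-/

set_option autoImplicit false

namespace Vale.Agent.P167.N.ID

open Finset Relation

open Vale.Agent.P167 Vale.Agent.P167.N

open Vale.Agent.P167.FK

open Vale.Agent.P167.FKA (Loc Cor)

open Vale.Agent.P145.FB (PStep PConn)

open Vale.Agent.P167.H635 (Ann mem_Ann mem_Bq bq_mono ann_box InRay RayOk shp_ray far_iff)

open Vale.Agent.P167.H440 (OneArc AmAt AmE Hs)

open Vale.Agent.P167.H506.Q (RM)

open Vale.Agent.P167.H562.QM (QC OneP)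

open Vale.Agent.P167.N.MIX (AmShp oneArc_of rm_jun)

variable {Q : ℝ} {x : ℤ × ℤ} {r R a b y p q : ℤ} {K : Finset (ℤ × ℤ)} {κ : Cfg}

/-- The masked arms of colour `true`. -/
theorem amShp_of {α C : ℝ} (h : ArmM Q α C) : AmShp Q α C := by
  intro x r R D hr hrR hs η hη
  exact h true x r R D η hr hrR hη hs

/-- **The shape around a point of a thin horizontal row.** -/
theorem shp_h (hK : ∀ v ∈ Bq x R, v ∈ K ↔ (a ≤ v.1 ∧ v.1 < b) ∧ v.2 = y)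
    (h1 : x.2 - r ≤ y) (h2 : y < x.2 + r) (ha : a ≤ x.1 + r) (hb : x.1 - r ≤ b)
    (h3 : x.1 + R ≤ b ∨ b ≤ x.1 + r) (h4 : a ≤ x.1 - R ∨ x.1 - r ≤ a) :
    H635.Shp (Bq x R \ K) x r R := by
  have hrp : 0 < r := by omega
  refine shp_ray (l := fun i => if i = 0 ∨ i = 2 then y else x.1)
    (h := fun i => if i = 0 then (if x.1 + R ≤ b then y + 1 else y) else if i = 2 then
      (if a ≤ x.1 - R then y + 1 else y) else x.1) ?_ ?_
  · refine ⟨⟨?_, ?_⟩, ⟨?_, ?_⟩, ⟨?_, ?_⟩, ?_, ?_⟩ <;> simp <;> (try split_ifs) <;> omega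
  · intro v hv
    have hv1 := ann_box hv
    rw [mem_sdiff, hK v hv1]
    have hv2 := mem_Bq.1 hv1
    have hv3 : ¬ (x.1 - r ≤ v.1 ∧ v.1 < x.1 + r ∧ x.2 - r ≤ v.2 ∧ v.2 < x.2 + r) := fun h =>
      (mem_Ann.1 hv).2 (mem_Bq.2 h)
    have hI : InRay x (fun i => if i = 0 ∨ i = 2 then y else x.1)
        (fun i => if i = 0 then (if x.1 + R ≤ b then y + 1 else y) else if i = 2 then
          (if a ≤ x.1 - R then y + 1 else y) else x.1) v ↔
        (x.1 ≤ v.1 ∧ y ≤ v.2 ∧ v.2 < (if x.1 + R ≤ b then y + 1 else y)) ∨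
        (x.2 ≤ v.2 ∧ x.1 ≤ v.1 ∧ v.1 < x.1) ∨
        (v.1 < x.1 ∧ y ≤ v.2 ∧ v.2 < (if a ≤ x.1 - R then y + 1 else y)) ∨
        (v.2 < x.2 ∧ x.1 ≤ v.1 ∧ v.1 < x.1) := by
      unfold InRay
      simp
    rw [hI]
    constructor
    · rintro ⟨-, h5⟩ h6
      refine h5 ?_
      split_ifs at h6 <;> omega
    · intro h6
      refine ⟨hv1, fun h7 => h6 ?_⟩
      rcases h3 with h3 | h3 <;> rcases h4 with h4 | h4
      · rw [if_pos h3, if_pos h4]; omega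
      · rw [if_pos h3]; omega
      · rw [if_pos h4]; omega
      · omega

/-- **The shape around a point of a thin vertical row.** -/
theorem shp_v (hK : ∀ v ∈ Bq x R, v ∈ K ↔ (a ≤ v.2 ∧ v.2 < b) ∧ v.1 = y)
    (h1 : x.1 - r ≤ y) (h2 : y < x.1 + r) (ha : a ≤ x.2 + r) (hb : x.2 - r ≤ b)
    (h3 : x.2 + R ≤ b ∨ b ≤ x.2 + r) (h4 : a ≤ x.2 - R ∨ x.2 - r ≤ a) :
    H635.Shp (Bq x R \ K) x r R := by
  have hrp : 0 < r := by omega
  refine shp_ray (l := fun i => if i = 1 ∨ i = 3 then y else x.2)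
    (h := fun i => if i = 1 then (if x.2 + R ≤ b then y + 1 else y) else if i = 3 then
      (if a ≤ x.2 - R then y + 1 else y) else x.2) ?_ ?_
  · refine ⟨⟨?_, ?_⟩, ⟨?_, ?_⟩, ⟨?_, ?_⟩, ?_, ?_⟩ <;> simp <;> (try split_ifs) <;> omega
  · intro v hv
    have hv1 := ann_box hv
    rw [mem_sdiff, hK v hv1]
    have hv2 := mem_Bq.1 hv1
    have hv3 : ¬ (x.1 - r ≤ v.1 ∧ v.1 < x.1 + r ∧ x.2 - r ≤ v.2 ∧ v.2 < x.2 + r) := fun h =>
      (mem_Ann.1 hv).2 (mem_Bq.2 h)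
    have hI : InRay x (fun i => if i = 1 ∨ i = 3 then y else x.2)
        (fun i => if i = 1 then (if x.2 + R ≤ b then y + 1 else y) else if i = 3 then
          (if a ≤ x.2 - R then y + 1 else y) else x.2) v ↔
        (x.1 ≤ v.1 ∧ x.2 ≤ v.2 ∧ v.2 < x.2) ∨
        (x.2 ≤ v.2 ∧ y ≤ v.1 ∧ v.1 < (if x.2 + R ≤ b then y + 1 else y)) ∨
        (v.1 < x.1 ∧ x.2 ≤ v.2 ∧ v.2 < x.2) ∨
        (v.2 < x.2 ∧ y ≤ v.1 ∧ v.1 < (if a ≤ x.2 - R then y + 1 else y)) := by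
      unfold InRay
      simp
    rw [hI]
    constructor
    · rintro ⟨-, h5⟩ h6
      refine h5 ?_
      split_ifs at h6 <;> omega
    · intro h6
      refine ⟨hv1, fun h7 => h6 ?_⟩
      rcases h3 with h3 | h3 <;> rcases h4 with h4 | h4
      · rw [if_pos h3, if_pos h4]; omega
      · rw [if_pos h3]; omega
      · rw [if_pos h4]; omega
      · omega

/-- A far even corner, horizontal. -/
theorem far_corner_h {v : ℤ × ℤ} (h : v.1 = x.1 - R ∨ v.1 + 1 = x.1 + R) :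
    ∃ s : ℤ × ℤ, Even (s.1 + s.2) ∧ Cor v s ∧ R ≤ nm (s - x) := by
  rcases h with h | h
  · exact MIX.corner_left h
  · exact MIX.corner_right h

/-- A far even corner, vertical. -/
theorem far_corner_v {v : ℤ × ℤ} (h : v.2 = x.2 - R ∨ v.2 + 1 = x.2 + R) :
    ∃ s : ℤ × ℤ, Even (s.1 + s.2) ∧ Cor v s ∧ R ≤ nm (s - x) := by
  rcases Int.even_or_odd (v.1 + v.2) with hp | hp <;> rcases h with h | h
  · exact ⟨v, hp, by simp [Cor], far_iff.2 (by omega)⟩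
  · refine ⟨(v.1 + 1, v.2 + 1), ?_, by simp [Cor], far_iff.2 (by simp only; omega)⟩
    rw [Int.even_iff] at *
    simp only
    omega
  · refine ⟨(v.1 + 1, v.2), ?_, by simp [Cor], far_iff.2 (by simp only; omega)⟩
    rw [Int.even_iff]
    rw [Int.odd_iff] at hp
    simp only
    omega
  · refine ⟨(v.1, v.2 + 1), ?_, by simp [Cor], far_iff.2 (by simp only; omega)⟩
    rw [Int.even_iff]
    rw [Int.odd_iff] at hp
    simp only
    omega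

/-- **One wired arc**, thin horizontal row. -/
theorem arc_h (hK : ∀ v ∈ Bq x R, v ∈ K ↔ (a ≤ v.1 ∧ v.1 < b) ∧ v.2 = y)
    (hκ : ∀ v ∈ Bq x R, v ∈ K → (κ v = true ↔ p ≤ v.1 ∧ v.1 < q))
    (h : (x.1 + R ≤ b ∧ x.1 + R ≤ q) ∨ (a ≤ x.1 - R ∧ p ≤ x.1 - R) ∨
      ∀ v ∈ Bq x R, v ∈ K → κ v = false) : OneArc x R (Bq x R \ K) κ := by
  have hH : ∀ v, (v ∈ Bq x R ∧ v ∉ Bq x R \ K ∧ κ v = true) ↔
      v ∈ Bq x R ∧ (a ≤ v.1 ∧ v.1 < b) ∧ v.2 = y ∧ p ≤ v.1 ∧ v.1 < q := by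
    intro v
    constructor
    · rintro ⟨h1, h2, h3⟩
      have h4 : v ∈ K := by
        by_contra h5
        exact h2 (mem_sdiff.2 ⟨h1, h5⟩)
      obtain ⟨h5, h6⟩ := (hK v h1).1 h4
      exact ⟨h1, h5, h6, (hκ v h1 h4).1 h3⟩
    · rintro ⟨h1, h2, h3, h4⟩
      have h5 : v ∈ K := (hK v h1).2 ⟨h2, h3⟩
      exact ⟨h1, fun h6 => (mem_sdiff.1 h6).2 h5, (hκ v h1 h5).2 h4⟩
  refine oneArc_of ?_ ?_
  · intro v hv1 hvD hvκ w hw1 hwD hwκ
    obtain ⟨-, v2, v3, v4⟩ := (hH v).1 ⟨hv1, hvD, hvκ⟩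
    obtain ⟨-, w2, w3, w4⟩ := (hH w).1 ⟨hw1, hwD, hwκ⟩
    have e1 := mem_Bq.1 hv1
    have e2 := mem_Bq.1 hw1
    refine QC.rect (x0 := max (x.1 - R) (max a p)) (x1 := min (x.1 + R) (min b q)) (y0 := y)
      (y1 := y + 1) (fun z h1 h2 h3 h4 => ?_) ?_ ?_
    · rw [max_le_iff, max_le_iff] at h1
      rw [lt_min_iff, lt_min_iff] at h2
      refine (hH z).2 ⟨mem_Bq.2 ?_, ?_, ?_, ?_⟩ <;> omega
    · rw [max_le_iff, max_le_iff, lt_min_iff, lt_min_iff]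
      omega
    · rw [max_le_iff, max_le_iff, lt_min_iff, lt_min_iff]
      omega
  · rintro ⟨t, -, v, hv1, hv2, hv3, -⟩
    obtain ⟨-, v2, v3, v4⟩ := (hH v).1 ⟨hv1, hv2, hv3⟩
    have e1 := mem_Bq.1 hv1
    rcases h with h | h | h
    · obtain ⟨s, h1, h2, h3⟩ := far_corner_h (x := x) (R := R) (v := (x.1 + R - 1, y))
        (Or.inr (by dsimp only; omega))
      obtain ⟨k1, k2, k3⟩ := (hH (x.1 + R - 1, y)).2
        ⟨mem_Bq.2 (by dsimp only; omega), by dsimp only; omega, rfl, by dsimp only; omega⟩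
      exact ⟨s, ⟨h1, _, k1, k2, k3, h2⟩, h3⟩
    · obtain ⟨s, h1, h2, h3⟩ := far_corner_h (x := x) (R := R) (v := (x.1 - R, y)) (Or.inl rfl)
      obtain ⟨k1, k2, k3⟩ := (hH (x.1 - R, y)).2
        ⟨mem_Bq.2 (by dsimp only; omega), by dsimp only; omega, rfl, by dsimp only; omega⟩
      exact ⟨s, ⟨h1, _, k1, k2, k3, h2⟩, h3⟩
    · exfalso
      have := h v hv1 ((hK v hv1).2 ⟨v2, v3⟩)
      rw [this] at hv3
      exact absurd hv3 (by simp)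

/-- **One wired arc**, thin vertical row. -/
theorem arc_v (hK : ∀ v ∈ Bq x R, v ∈ K ↔ (a ≤ v.2 ∧ v.2 < b) ∧ v.1 = y)
    (hκ : ∀ v ∈ Bq x R, v ∈ K → (κ v = true ↔ p ≤ v.2 ∧ v.2 < q))
    (h : (x.2 + R ≤ b ∧ x.2 + R ≤ q) ∨ (a ≤ x.2 - R ∧ p ≤ x.2 - R) ∨
      ∀ v ∈ Bq x R, v ∈ K → κ v = false) : OneArc x R (Bq x R \ K) κ := by
  have hH : ∀ v, (v ∈ Bq x R ∧ v ∉ Bq x R \ K ∧ κ v = true) ↔
      v ∈ Bq x R ∧ (a ≤ v.2 ∧ v.2 < b) ∧ v.1 = y ∧ p ≤ v.2 ∧ v.2 < q := by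
    intro v
    constructor
    · rintro ⟨h1, h2, h3⟩
      have h4 : v ∈ K := by
        by_contra h5
        exact h2 (mem_sdiff.2 ⟨h1, h5⟩)
      obtain ⟨h5, h6⟩ := (hK v h1).1 h4
      exact ⟨h1, h5, h6, (hκ v h1 h4).1 h3⟩
    · rintro ⟨h1, h2, h3, h4⟩
      have h5 : v ∈ K := (hK v h1).2 ⟨h2, h3⟩
      exact ⟨h1, fun h6 => (mem_sdiff.1 h6).2 h5, (hκ v h1 h5).2 h4⟩
  refine oneArc_of ?_ ?_
  · intro v hv1 hvD hvκ w hw1 hwD hwκ
    obtain ⟨-, v2, v3, v4⟩ := (hH v).1 ⟨hv1, hvD, hvκ⟩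
    obtain ⟨-, w2, w3, w4⟩ := (hH w).1 ⟨hw1, hwD, hwκ⟩
    have e1 := mem_Bq.1 hv1
    have e2 := mem_Bq.1 hw1
    refine QC.rect (x0 := y) (x1 := y + 1) (y0 := max (x.2 - R) (max a p))
      (y1 := min (x.2 + R) (min b q)) (fun z h1 h2 h3 h4 => ?_) ?_ ?_
    · rw [max_le_iff, max_le_iff] at h3
      rw [lt_min_iff, lt_min_iff] at h4
      refine (hH z).2 ⟨mem_Bq.2 ?_, ?_, ?_, ?_⟩ <;> omega
    · rw [max_le_iff, max_le_iff, lt_min_iff, lt_min_iff]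
      omega
    · rw [max_le_iff, max_le_iff, lt_min_iff, lt_min_iff]
      omega
  · rintro ⟨t, -, v, hv1, hv2, hv3, -⟩
    obtain ⟨-, v2, v3, v4⟩ := (hH v).1 ⟨hv1, hv2, hv3⟩
    have e1 := mem_Bq.1 hv1
    rcases h with h | h | h
    · obtain ⟨s, h1, h2, h3⟩ := far_corner_v (x := x) (R := R) (v := (y, x.2 + R - 1))
        (Or.inr (by dsimp only; omega))
      obtain ⟨k1, k2, k3⟩ := (hH (y, x.2 + R - 1)).2
        ⟨mem_Bq.2 (by dsimp only; omega), by dsimp only; omega, rfl, by dsimp only; omega⟩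
      exact ⟨s, ⟨h1, _, k1, k2, k3, h2⟩, h3⟩
    · obtain ⟨s, h1, h2, h3⟩ := far_corner_v (x := x) (R := R) (v := (y, x.2 - R)) (Or.inl rfl)
      obtain ⟨k1, k2, k3⟩ := (hH (y, x.2 - R)).2
        ⟨mem_Bq.2 (by dsimp only; omega), by dsimp only; omega, rfl, by dsimp only; omega⟩
      exact ⟨s, ⟨h1, _, k1, k2, k3, h2⟩, h3⟩
    · exfalso
      have := h v hv1 ((hK v hv1).2 ⟨v2, v3⟩)
      rw [this] at hv3
      exact absurd hv3 (by simp)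

/-- **Ratio mixing around a point of a row**: `K` the frozen squares, in the box `Bq x R` in the
states `κ` with at most one wired arc; arbitrary configurations outside of the box. -/
theorem rm_row (hQ : Kit Q) : ∃ α C : ℝ, 0 < α ∧ 0 < C ∧ ∀ (x : ℤ × ℤ) (r R : ℤ)
    (K : Finset (ℤ × ℤ)) (κ : Cfg), 1 ≤ r → r ≤ R → H635.Shp (Bq x R \ K) x r R →
    OneArc x R (Bq x R \ K) κ → C * ((r : ℝ) / R) ^ α < 1 →
    RM Q (Bq x R ∩ K) κ (Bq x R \ K) (Bq x r \ K) ((1 / (1 - C * ((r : ℝ) / R) ^ α)) ^ 2) := by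
  obtain ⟨α, C, hα, hC, h⟩ := Kit.armM hQ
  refine ⟨α, C, hα, hC, fun x r R K κ hr hrR hs ha hε => ?_⟩
  have e1 : Bq x R \ K = Bq x R \ (Bq x R ∩ K) := by
    ext v
    simp only [mem_sdiff, mem_inter]
    tauto
  have e2 : Bq x r \ K = Bq x r \ (Bq x R ∩ K) := by
    ext v
    have : v ∈ Bq x r → v ∈ Bq x R := fun h => bq_mono hrR h
    simp only [mem_sdiff, mem_inter]
    tauto
  rw [e1] at hs ha
  have hm := rm_jun (K := Bq x R ∩ K) hQ.pos hQ.le hrR ha (amShp_of h x r R _ hr hrR hs) hε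
  rwa [← e1, ← e2] at hm

/-- **Ratio mixing with a fixed constant**: inner box `Bq x (R / Λ)`, functions which may also depend
on the frozen squares. -/
theorem rat_row (hQ : Kit Q) : ∃ Λ : ℤ, 2 ≤ Λ ∧ ∀ (x : ℤ × ℤ) (R : ℤ)
    (K : Finset (ℤ × ℤ)) (κ : Cfg), Λ ≤ R → H635.Shp (Bq x R \ K) x (R / Λ) R →
    OneArc x R (Bq x R \ K) κ → ∀ ξ ξ' : Cfg, Good ξ → Good ξ' →
    (∀ v ∈ Bq x R, v ∈ K → ξ v = κ v) → (∀ v ∈ Bq x R, v ∈ K → ξ' v = κ v) →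
    ∀ F : Cfg → ℝ, (∀ ω, 0 ≤ F ω) → Loc (Bq x (R / Λ)) F →
      Ex Q (Bq x R \ K) ξ F ≤ 4 * Ex Q (Bq x R \ K) ξ' F := by
  obtain ⟨α, C, hα, hC, h⟩ := rm_row hQ
  obtain ⟨Λ, hΛ2, hΛ⟩ : ∃ Λ : ℤ, 2 ≤ Λ ∧ C * (1 / (Λ : ℝ)) ^ α ≤ 1 / 2 := by
    have hpos : 0 < (2 * C) ^ (1 / α) := by positivity
    obtain ⟨m, hm⟩ := exists_nat_gt ((2 * C) ^ (1 / α))
    refine ⟨max 2 m, le_max_left _ _, ?_⟩
    have h1 : (2 * C) ^ (1 / α) ≤ ((max 2 m : ℤ) : ℝ) := by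
      have : (m : ℝ) ≤ ((max 2 m : ℤ) : ℝ) := by
        have h2 : (m : ℤ) ≤ max 2 (m : ℤ) := le_max_right _ _
        exact_mod_cast h2
      linarith
    have h2 : 2 * C ≤ (((max 2 m : ℤ) : ℝ)) ^ α := by
      have h3 := Real.rpow_le_rpow hpos.le h1 hα.le
      rwa [← Real.rpow_mul (by positivity), one_div_mul_cancel hα.ne', Real.rpow_one] at h3
    have h4 : 0 < ((max 2 m : ℤ) : ℝ) := lt_of_lt_of_le hpos h1
    rw [one_div, Real.inv_rpow h4.le]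
    have h5 : 0 < (((max 2 m : ℤ) : ℝ)) ^ α := Real.rpow_pos_of_pos h4 _
    rw [← div_eq_mul_inv, div_le_iff₀ h5]
    linarith
  refine ⟨Λ, hΛ2, fun x R K κ hR hs ha ξ ξ' hξ hξ' hk hk' F hF0 hF => ?_⟩
  have hΛ0 : (0 : ℝ) < Λ := by
    have : (0 : ℤ) < Λ := by omega
    exact_mod_cast this
  have hR0 : (0 : ℝ) < R := by
    have : (0 : ℤ) < R := by omega
    exact_mod_cast this
  set s : ℤ := R / Λ with hs'
  have hs1 : 1 ≤ s := by
    rw [hs', Int.le_ediv_iff_mul_le (by omega)]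
    omega
  have hs2 : s * Λ ≤ R := Int.ediv_mul_le R (by omega)
  have hsR : s ≤ R := by nlinarith
  have hs3 : (s : ℝ) / R ≤ 1 / Λ := by
    rw [div_le_div_iff₀ hR0 hΛ0, one_mul]
    exact_mod_cast hs2
  have hs0 : (0 : ℝ) ≤ (s : ℝ) / R := by
    have : (0 : ℝ) ≤ s := by exact_mod_cast (by omega : (0 : ℤ) ≤ s)
    positivity
  have hp : C * ((s : ℝ) / R) ^ α ≤ 1 / 2 := by
    refine le_trans ?_ hΛ
    exact mul_le_mul_of_nonneg_left (Real.rpow_le_rpow hs0 hs3 hα.le) hC.le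
  have hp0 : 0 ≤ C * ((s : ℝ) / R) ^ α := by positivity
  have hm := h x s R K κ hs1 hsR hs ha (by linarith)
  have hAK : Disjoint (Bq x R \ K) (Bq x R ∩ K) := by
    rw [Finset.disjoint_left]
    intro v hv hv'
    exact (mem_sdiff.1 hv).2 (mem_inter.1 hv').2
  have hF' : Loc (Bq x s \ K ∪ (Bq x R ∩ K)) F := by
    intro ω ω' hw
    refine hF ω ω' fun v hv => hw v ?_
    by_cases hvK : v ∈ K
    · exact mem_union_right _ (mem_inter.2 ⟨bq_mono hsR hv, hvK⟩)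
    · exact mem_union_left _ (mem_sdiff.2 ⟨hv, hvK⟩)
  have key := H506.Q.RM.loc hm hAK hF0 hF' hξ hξ' (fun v hv => hk v (mem_inter.1 hv).1 (mem_inter.1 hv).2)
    fun v hv => hk' v (mem_inter.1 hv).1 (mem_inter.1 hv).2
  refine key.trans (mul_le_mul_of_nonneg_right ?_ (FKA.Ex_nonneg hQ.pos fun _ _ => hF0 _))
  have h6 : 1 / 2 ≤ 1 - C * ((s : ℝ) / R) ^ α := by linarith
  have h7 : 1 / (1 - C * ((s : ℝ) / R) ^ α) ≤ 2 := by
    rw [div_le_iff₀ (by linarith)]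
    linarith
  have h8 : 0 ≤ 1 / (1 - C * ((s : ℝ) / R) ^ α) := by
    apply div_nonneg <;> linarith
  nlinarith

end Vale.Agent.P167.N.ID
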