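import Vale.Agent.P167.N.ID.Lab
import Vale.Agent.P167.N.ID.RowShp

/-!
# P167, `q < 1`: ratio mixing around the special points of the rows

`ratg_of`: `RATg` from the shape of the complement of a row around its special points.
-/

set_option autoImplicit false

namespace Vale.Agent.P167.N.ID

open Finset

open Vale.Agent.P167 Vale.Agent.P167.N

open Vale.Agent.P167.FK

open Vale.Agent.P167.FKA (Loc)

open Vale.Agent.P167.H635 (bq_mono)

open Vale.Agent.P167.H440 (OneArc)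

/-- **Ratio mixing around the special points** from the shapes. -/
theorem ratg_of {X Kx : Type} {RS : RSys X} (F : Fct RS Kx) {θ : ℝ} (hQ : Kit (2 * Real.cos θ))
    (ρ₀ : ℤ) (hS : ∀ (x : X) (k : Kx) (ρ s : ℤ), F.Val x → F.Sp x k → ρ₀ ≤ s → s ≤ 4 * ρ →
      8 * ρ ≤ F.mg x → H635.Shp (Bq (F.ctr x k) (4 * ρ) \ RS.I x) (F.ctr x k) s (4 * ρ) ∧
        OneArc (F.ctr x k) (4 * ρ) (Bq (F.ctr x k) (4 * ρ) \ RS.I x) (RS.fr x)) :
    RATg RS F θ := by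
  obtain ⟨Λ, hΛ, key⟩ := rat_row hQ
  have hΛ0 : (0 : ℤ) < Λ := by omega
  refine ⟨Λ, 4, ((Λ * (|ρ₀| + 1) : ℤ) : ℝ), by omega, by norm_num, ?_⟩
  intro x k ρ hx hk hρ hm η η' hη hη' hf hf' G hG0 hG
  have hρ' : Λ * (|ρ₀| + 1) ≤ ρ := by exact_mod_cast hρ
  have h0 := abs_nonneg ρ₀
  have h1 := le_abs_self ρ₀
  have hΛρ : Λ ≤ ρ := le_trans (by nlinarith) hρ'
  have hρ0 : 0 < ρ := by omega
  have hs1 : |ρ₀| + 1 ≤ ρ / Λ := by
    rw [Int.le_ediv_iff_mul_le hΛ0, mul_comm]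
    exact hρ'
  have hs2 : ρ / Λ ≤ 4 * ρ / Λ := Int.ediv_le_ediv hΛ0 (by omega)
  have hs3 : 4 * ρ / Λ ≤ 4 * ρ := Int.ediv_le_self _ (by omega)
  obtain ⟨h2, h3⟩ := hS x k ρ (4 * ρ / Λ) hx hk (by omega) hs3 hm
  exact key (F.ctr x k) (4 * ρ) (RS.I x) (RS.fr x) (by omega) h2 h3 η η' hη hη' hf hf' G hG0
    fun ω ω' h => hG ω ω' fun v hv => h v (bq_mono hs2 hv)

end Vale.Agent.P167.N.ID
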