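import Vale.Agent.P167.N.ID.L1Geo
import Vale.Agent.P167.N.ID.Row

/-!
# P167, `q < 1`: the segments of one colour of an admissible row
-/

set_option autoImplicit false

namespace Vale.Agent.P167.N.ID

open Vale.Agent.P167
open Vale.Agent.P167.H680.T (sq_mem)

variable {θ κ : ℝ} {n : ℕ} {r : Row} {ω : Cfg}

/-- **The squares of one colour of an admissible row are a long segment.** -/
theorem cols_row {w : ℤ} (hr : r.Ok θ κ n) (hw : (w : ℝ) ≤ κ * n)
    (hω : ∀ v ∈ r.I, ω v = r.fr v) : Cols r.toRow w ω := by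
  intro k hk
  have hfr : ∀ m, m < r.L → ω (r.sq m) = decide ((r.s * if r.k0 ≤ m then r.η else 1) = -1) :=
    fun m hm => by rw [hω _ (sq_mem.2 hm), H825.Q.Row.fr, r.τ_sq]
  have hall : r.η = 1 → ∃ lo hi : ℕ, lo ≤ k ∧ k < hi ∧ hi ≤ r.L ∧ (lo : ℤ) + w ≤ hi ∧
      ∀ m, lo ≤ m → m < hi → ω (r.sq m) = ω (r.sq k) := by
    intro hη
    have h1 : (w : ℝ) ≤ r.L := hw.trans hr.len
    refine ⟨0, r.L, Nat.zero_le _, hk, le_rfl, ?_, fun m _ hm => ?_⟩
    · have : w ≤ (r.L : ℤ) := by exact_mod_cast h1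
      push_cast
      omega
    · rw [hfr m hm, hfr k hk, hη, ite_self, ite_self]
  rcases hr.kind with ⟨-, h⟩ | ⟨⟨-, h⟩ | ⟨-, h⟩, h1, h2⟩
  · exact hall h
  · have h3 : w ≤ (r.k0 : ℤ) := by exact_mod_cast hw.trans h1
    have h4 : (r.k0 : ℤ) + w ≤ r.L := by
      have : (r.k0 : ℝ) + w ≤ r.L := by linarith
      exact_mod_cast this
    by_cases hkk : r.k0 ≤ k
    · refine ⟨r.k0, r.L, hkk, hk, le_rfl, h4, fun m hm hm' => ?_⟩
      rw [hfr m hm', hfr k hk, if_pos hkk, if_pos hm]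
    · have h5 : r.k0 ≤ r.L ∨ w < 0 := by
        by_cases hw0 : w < 0
        · exact Or.inr hw0
        · left
          omega
      rcases h5 with h5 | h5
      · refine ⟨0, r.k0, Nat.zero_le _, by omega, h5, by push_cast; omega, fun m _ hm' => ?_⟩
        rw [hfr m (by omega), hfr k hk, if_neg hkk, if_neg (by omega)]
      · refine ⟨k, k + 1, le_rfl, by omega, by omega, by push_cast; omega, fun m h6 h7 => ?_⟩
        rw [show m = k by omega]
  · exact hall h

end Vale.Agent.P167.N.ID
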