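import Vale.Agent.P167.N.H542.Q.M2F
import Vale.Agent.P167.H825.Q.DefsQ

/-!
# P167, block 2A: second moments of the functional of a flow, all base sites
-/

set_option autoImplicit false

open Finset MeasureTheory Filter Topology

namespace Vale.Agent.P167.N.ID

open Vale.Agent.P167 Vale.Agent.P167.BR Vale.Agent.P167.H542.Q Vale.Agent.P167.FK

open Vale.Agent.P167.H436 (ero mem_ero ero_sub)

open Vale.Agent.P167.E6 (IsPolygon Encloses)

/-- **Second moments for flows**, all base sites, all Dobrushin parameters. -/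
theorem m2_any {θ β : ℝ} (h0 : 0 < θ) (h1 : Ang θ)
    (hβ : Real.cos (θ / 2 + β) = Real.sin θ) (hR : RSW (2 * Real.cos θ)) {l : ℕ} [NeZero l]
    {p : ZMod l → ℤ × ℤ} {S₀ : Finset (ℤ × ℤ)} (hp : IsPolygon p) (hD : Encloses p S₀) {κ : ℝ}
    (B : ℝ) (hκ : 0 < κ) : ∃ M : ℝ, ∀ᶠ n : ℕ in atTop, ∀ η : Cfg, Good η → ∀ t k : ℕ,
      ∀ c : Ed → ℝ, (Function.support c).Finite → H825.FlowIn (H825.enl S₀ n) κ B n c →
      Ex (2 * Real.cos θ) (H825.enl S₀ n) η (fun ω =>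
        QX.XB θ β (Enl.qN p n t) (H825.enl S₀ n) k (H825.dv c) ω ^ 2) ≤ M := by
  obtain ⟨r, hr⟩ := hp.2.2 0
  rw [zero_add] at hr
  set S : CA.Dat := ⟨l, p, S₀, hp, hD, r, hr, 1 / 2, by norm_num, by norm_num⟩ with hS
  obtain ⟨κ0, hκ0p, hκ08, hκ0⟩ : ∃ κ0 : ℝ, 0 < κ0 ∧ κ0 ≤ 1 / 8 ∧ κ0 ≤ κ / 2 :=
    ⟨min (1 / 8) (κ / 2), by positivity, min_le_left _ _, min_le_right _ _⟩
  obtain ⟨C, hC, h⟩ := Vale.Agent.P167.N.H542.Q.mom_bulkQ (cB θ) h1.kit hR h0.le h1 S hκ0p hκ08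
    (Cm := |B| + 1) (by linarith [abs_nonneg B]) (q := 2) (by norm_num)
  refine ⟨C, ?_⟩
  have hev : ∀ᶠ n : ℕ in atTop, 8 / κ ≤ (n : ℝ) :=
    tendsto_natCast_atTop_atTop.eventually_ge_atTop _
  filter_upwards [h, hev, eventually_gt_atTop 0] with n h2 h3 hn η hη t k c hc hF
  have hn0 : (0 : ℝ) < n := by exact_mod_cast hn
  have hq := Enl.isPolygon_qN hn hp t
  have hE := Enl.encloses_qN hn hp hD t
  have hn8 : 4 ≤ κ / 2 * n := by
    rw [div_le_iff₀ hκ] at h3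
    linarith
  have hk0 : 0 ≤ ⌊κ0 * n⌋ := Int.floor_nonneg.2 (mul_nonneg (by linarith) hn0.le)
  have hkκ : ((⌊κ0 * n⌋ : ℤ) : ℝ) + 4 ≤ κ * n := by
    have := Int.floor_le (κ0 * n)
    nlinarith
  have hoff : ∀ z ∉ sites (ero S.Q n ⌊κ0 * n⌋), ((H825.dv c z : ℝ) : ℂ) = 0 := by
    intro z hz
    by_contra hne
    exact hz (dv_ero hF hk0 hkκ fun h => hne (by rw [h]; simp))
  have htot : ∑ z ∈ sites (S.D n), ((H825.dv c z : ℝ) : ℂ) = 0 := by
    rw [← Complex.ofReal_sum, ← finsum_eq_sum_of_support_subset, finsum_dv hc, Complex.ofReal_zero]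
    intro z hz
    exact sites_mono ero_sub (dv_ero hF hk0 hkκ hz)
  have h4 := h2 η hη (Enl.qN p n t 0) (bas_poly hq hE) _
    (Vale.Agent.P167.N.H542.Q.phs_thB (q := Enl.qN p n t) (k := k) h0 h1 hβ)
    (fun z => ((H825.dv c z : ℝ) : ℂ)) (fun z => by
      rw [Complex.norm_real, Real.norm_eq_abs]
      refine (hF.dle z).trans (div_le_div_of_nonneg_right ?_ (by positivity))
      linarith [le_abs_self B]) hoff htot
  refine le_trans (le_of_eq ?_) h4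
  refine congrArg _ (funext fun ω => ?_)
  rw [XQ_ofReal, XR_thB hβ, Complex.norm_real, Real.norm_eq_abs]
  norm_num
  rfl

end Vale.Agent.P167.N.ID
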