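import Vale.Agent.P167.N.ID.BaseProb
import Vale.Agent.P167.N.ID.BaseMom
import Vale.Agent.P167.H825.Reg.Fin

/-!
# P167, block 2A: the position of the base site of a free or a wired polygon does not matter

`base_shift`: the functionals of a flow in the interior of a free or wired polygon for two base sites at
distance `O(1)` from the position `tp` differ by `o(1)`, uniformly in the flows.
-/

set_option autoImplicit false

namespace Vale.Agent.P167.N.ID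

open Finset Filter Topology

open Vale.Agent.P167

open Vale.Agent.P167.FK

open Vale.Agent.P167.E6 (IsPolygon Encloses dir face)

open Vale.Agent.P167.H825 (enl FlowIn dv epos pdir)

open Vale.Agent.P167.H825.Q (VT Bc VT_eq)

open Vale.Agent.P167.H167.Q (hpl)

variable {l n : ℕ} [NeZero l] {p : ZMod l → ℤ × ℤ} {S₀ : Finset (ℤ × ℤ)}

theorem sh1_qN (hn : 0 < n) (p : ZMod l → ℤ × ℤ) (t : ℕ) :
    Sh1 (Enl.qN p n t) (Enl.qN p n (t + 1)) := by
  have : NeZero (l * n) := ⟨Nat.mul_ne_zero (NeZero.ne l) hn.ne'⟩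
  intro k
  have h1 : Enl.qN p n t (k + 1) = Enl.PN p n (k.val + (t + 1)) := by
    refine Enl.qN_eq hn ?_
    push_cast
    rw [ZMod.natCast_zmod_val]
    ring
  rw [h1]
  rfl

theorem halfPl_hpl (i : Fin 4) (z : ℤ × ℤ) : HalfPl {v | ¬ hpl i z v} := by
  fin_cases i
  · refine ⟨z.2, Or.inr (Or.inr (Or.inl (Set.ext fun v => ?_)))⟩
    show ¬ z.2 ≤ v.2 ↔ v.2 < z.2
    omega
  · refine ⟨z.1, Or.inr (Or.inl (Set.ext fun v => ?_))⟩
    show ¬ v.1 < z.1 ↔ z.1 ≤ v.1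
    omega
  · refine ⟨z.2, Or.inr (Or.inr (Or.inr (Set.ext fun v => ?_)))⟩
    show ¬ v.2 < z.2 ↔ z.2 ≤ v.2
    omega
  · refine ⟨z.1, Or.inl (Set.ext fun v => ?_)⟩
    show ¬ z.1 ≤ v.1 ↔ v.1 < z.1
    omega

/-- A square outside of the half plane next to its boundary site. -/
theorem exists_out (i : Fin 4) (z : ℤ × ℤ) : ∃ w : ℤ × ℤ, nm (w - z) ≤ 1 ∧ w ∈ Bq z 1 ∧
    ¬ hpl i z w := by
  obtain ⟨a, b⟩ := z
  fin_cases i
  · refine ⟨(a, b - 1), by simp [nm], by simp [Bq], ?_⟩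
    show ¬ b ≤ b - 1
    omega
  · refine ⟨(a, b), by simp [nm], by simp [Bq], ?_⟩
    show ¬ a < a
    omega
  · refine ⟨(a, b), by simp [nm], by simp [Bq], ?_⟩
    show ¬ b < b
    omega
  · refine ⟨(a - 1, b), by simp [nm], by simp [Bq], ?_⟩
    show ¬ a ≤ a - 1
    omega

theorem nm_tri (a b : ℤ × ℤ) : nm (a + b) ≤ nm a + nm b := by
  unfold nm
  have h1 := abs_add_le a.1 b.1
  have h2 := abs_add_le a.2 b.2
  have h3 := le_max_left |a.1| |a.2|
  have h4 := le_max_right |a.1| |a.2|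
  have h5 := le_max_left |b.1| |b.2|
  have h6 := le_max_right |b.1| |b.2|
  refine max_le ?_ ?_
  · show |a.1 + b.1| ≤ _
    linarith
  · show |a.2 + b.2| ≤ _
    linarith

theorem nm_neg' (a : ℤ × ℤ) : nm (-a) = nm a := by
  unfold nm
  simp

theorem nm_ends (e : Ed) : nm (hdv e - epos e) ≤ 1 ∧ nm (tlv e - epos e) ≤ 1 := by
  rcases e with ⟨a, b⟩ | ⟨a, b⟩ <;>
  · simp only [hdv, tlv, epos]
    constructor <;> split_ifs <;> simp [nm]

/-- **Geometry at the base site**: the polygon is flat there and the flow is far away. -/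
theorem base_geo (hp : IsPolygon p) (hD : Encloses p S₀) {t : ℕ} {R : ℤ} {κ B : ℝ}
    (hR : 3 ≤ R) (h1 : R ≤ t) (h2 : (t : ℤ) + R ≤ n) (h3 : (R : ℝ) + 4 ≤ κ * n) {c : Ed → ℝ}
    (hF : FlowIn (enl S₀ n) κ B n c) :
    Shp {v | v ∈ Bq (Enl.qN p n t 0) (R - 1) \ Bq (Enl.qN p n t 0) 2 ∧ v ∉ enl S₀ n}
      (Enl.qN p n t 0) 2 (R - 1) ∧
    (∀ e, c e ≠ 0 → hdv e ∈ enl S₀ n ∧ tlv e ∈ enl S₀ n) ∧
    ∀ e, c e ≠ 0 → R ≤ nm (hdv e - Enl.qN p n t 0) := by
  have hn : 0 < n := by omega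
  have htn : t < n := by omega
  have e0 : Enl.qN p n t 0 = Enl.PN p n t := by
    have h := Enl.qN_nat (p := p) hn t 0
    rw [Nat.cast_zero, zero_add] at h
    exact h
  set z := Enl.PN p n t with hz
  have hfl : ∀ v ∈ Bq z R, (v ∈ enl S₀ n ↔ hpl (pdir p 0) z v) := by
    intro v hv
    have h := Enl.enl_side_PN hp hD hn (k := t) (ρ := R)
      (by rw [Nat.mod_eq_of_lt htn]; exact h1) (by rw [Nat.mod_eq_of_lt htn]; omega) hv
    rwa [Nat.div_eq_of_lt htn] at h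
  have hRr : (3 : ℝ) ≤ R := by exact_mod_cast hR
  refine ⟨?_, ?_, ?_⟩
  · rw [e0]
    refine Shp.half (halfPl_hpl (pdir p 0) z) fun v hv => ?_
    have hv1 := (mem_sdiff.1 hv).1
    have h := hfl v (bq_le (by omega) hv1)
    show (v ∈ Bq z (R - 1) \ Bq z 2 ∧ v ∉ enl S₀ n) ↔ ¬ hpl (pdir p 0) z v
    rw [h]
    exact ⟨fun h => h.2, fun h => ⟨hv, h⟩⟩
  · intro e he
    have k : ∀ v, nm (v - epos e) ≤ 1 → v ∈ enl S₀ n := fun v hv => by
      refine hF.sup e he v ?_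
      have : ((nm (v - epos e) : ℤ) : ℝ) ≤ 1 := by exact_mod_cast hv
      linarith
    exact ⟨k _ (nm_ends e).1, k _ (nm_ends e).2⟩
  · intro e he
    rw [e0]
    by_contra hlt
    push Not at hlt
    obtain ⟨w, hw1, hw2, hw3⟩ := exists_out (pdir p 0) z
    have hwD : w ∈ enl S₀ n := by
      refine hF.sup e he w ?_
      have k1 : w - epos e = (w - z) + (-(hdv e - z)) + (hdv e - epos e) := by abel
      have k2 : nm (w - epos e) ≤ nm (w - z) + nm (-(hdv e - z)) + nm (hdv e - epos e) := by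
        rw [k1]
        exact (nm_tri _ _).trans (by linarith [nm_tri (w - z) (-(hdv e - z))])
      rw [nm_neg'] at k2
      have k3 := (nm_ends e).1
      have k4 : nm (w - epos e) ≤ R + 2 := by omega
      have k5 : ((nm (w - epos e) : ℤ) : ℝ) ≤ R + 2 := by exact_mod_cast k4
      linarith
    exact hw3 ((hfl w (bq_le (by omega) hw2)).1 hwD)

/-- The bound tends to `0`. -/
theorem lim_base {α C M ρ : ℝ} (hα : 0 < α) (hρ : 0 < ρ) :
    Tendsto (fun n : ℕ => 2 * Real.sqrt (M * (C * ((2 : ℝ) / ((⌊ρ * (n : ℝ)⌋ - 1 : ℤ) : ℝ)) ^ α)))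
      atTop (𝓝 0) := by
  have h1 : Tendsto (fun n : ℕ => ((⌊ρ * (n : ℝ)⌋ - 1 : ℤ) : ℝ)) atTop atTop := by
    refine tendsto_atTop_mono (f := fun n : ℕ => ρ * (n : ℝ) - 2) (fun n => ?_) ?_
    · have := Int.lt_floor_add_one (ρ * (n : ℝ))
      push_cast
      linarith
    · exact tendsto_atTop_add_const_right _ _ (tendsto_natCast_atTop_atTop.const_mul_atTop hρ)
  have h2 := h1.const_div_atTop (2 : ℝ)
  have h3 := h2.rpow_const (p := α) (Or.inr hα.le)
  rw [Real.zero_rpow hα.ne'] at h3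
  have h4 := ((h3.const_mul C).const_mul M).sqrt.const_mul 2
  simpa using h4

/-- **One step of the base site.** -/
theorem base_step {θ β : ℝ} (h0 : 0 < θ) (h1 : Ang θ) (hβ : Real.cos (θ / 2 + β) = Real.sin θ)
    (hR : RSW (2 * Real.cos θ))
    (hS : ∃ α C, 0 < α ∧ 0 < C ∧ ArmS (2 * Real.cos θ) α C ∧ ArmSD (2 * Real.cos θ) α C)
    (hp : IsPolygon p) (hD : Encloses p S₀) {tp κ : ℝ} (ht0 : 0 < tp) (ht1 : tp < 1) (B : ℝ)
    (hκ : 0 < κ) {ε : ℝ} (hε : 0 < ε) (m : ℝ) :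
    ∀ᶠ n : ℕ in atTop, ∀ t : ℕ, |(t : ℝ) - tp * n| ≤ m → ∀ c : Ed → ℝ,
      (Function.support c).Finite → FlowIn (enl S₀ n) κ B n c →
      |VT θ β p S₀ n t (l * n) (dv c) - VT θ β p S₀ n (t + 1) (l * n) (dv c)| ≤ ε ∧
      |VT θ β p S₀ n t 0 (dv c) - VT θ β p S₀ n (t + 1) 0 (dv c)| ≤ ε := by
  obtain ⟨α, C, hα, -, hS1, hS2⟩ := hS
  obtain ⟨M, hM⟩ := m2_any h0 h1 hβ hR hp hD B hκ
  have hs := h1.sin_pos
  have hc := h1.cos_pos
  have hQ : 0 < 2 * Real.cos θ := by linarith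
  obtain ⟨ρ, hρ, hρ1, hρ2, hρ3⟩ : ∃ ρ : ℝ, 0 < ρ ∧ ρ ≤ κ / 2 ∧ ρ ≤ tp / 2 ∧ ρ ≤ (1 - tp) / 2 :=
    ⟨min (κ / 2) (min (tp / 2) ((1 - tp) / 2)),
      lt_min (by linarith) (lt_min (by linarith) (by linarith)), min_le_left _ _,
      (min_le_right _ _).trans (min_le_left _ _), (min_le_right _ _).trans (min_le_right _ _)⟩
  have ev : ∀ {x : ℝ} (y : ℝ), 0 < x → ∀ᶠ n : ℕ in atTop, y < x * n := fun y hx =>
    (tendsto_natCast_atTop_atTop.const_mul_atTop hx).eventually_gt_atTop y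
  filter_upwards [hM, (lim_base (M := M) (C := C) hα hρ).eventually_le_const hε, ev 5 hρ,
    ev (m + 2) hρ, eventually_gt_atTop 0] with n hMn hl h5 hm hn t ht c hcf hF
  set R : ℤ := ⌊ρ * (n : ℝ)⌋ with hRd
  have hRle : (R : ℝ) ≤ ρ * n := Int.floor_le _
  have hR3 : 3 ≤ R := Int.le_floor.2 (by push_cast; linarith)
  have hn0 : (0 : ℝ) < n := by exact_mod_cast hn
  rw [abs_le] at ht
  have k1 : ρ * n ≤ tp / 2 * n := mul_le_mul_of_nonneg_right hρ2 hn0.le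
  have k2 : ρ * n ≤ (1 - tp) / 2 * n := mul_le_mul_of_nonneg_right hρ3 hn0.le
  have k3 : ρ * n ≤ κ / 2 * n := mul_le_mul_of_nonneg_right hρ1 hn0.le
  have hRt : R ≤ t := by
    have : (R : ℝ) ≤ t := by linarith
    exact_mod_cast this
  have hRn : (t : ℤ) + R ≤ n := by
    have : ((t + R : ℤ) : ℝ) ≤ (n : ℝ) := by
      push_cast
      linarith
    exact_mod_cast this
  obtain ⟨g1, g2, g3⟩ := base_geo hp hD hR3 hRt hRn (by linarith) hF
  have hq := Enl.isPolygon_qN hn hp t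
  have hE := Enl.encloses_qN hn hp hD t
  have hq' := Enl.isPolygon_qN hn hp (t + 1)
  have hE' := Enl.encloses_qN hn hp hD (t + 1)
  have hsh := sh1_qN hn p t
  have m0 : 2 * (0 : ℤ) + 1 ≤ n := by omega
  constructor
  · have hη := (H825.Reg.reg_free (t := t) hp hD hn m0).1
    have hη' := (H825.Reg.reg_free (t := t + 1) hp hD hn m0).1
    rw [VT_eq hn hp hD hs hc hβ le_rfl hη, VT_eq hn hp hD hs hc hβ le_rfl hη']
    exact (base_free hQ hsh hq hE hq' hE' hs.ne' hc.ne' hβ hS1 hR3 g1 g2 g3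
      (hMn _ f_good.2.1 t _ c hcf hF) (hMn _ f_good.2.1 (t + 1) _ c hcf hF)).trans hl
  · have hη := (H825.Reg.reg_wired (t := t) hp hD hn m0).1
    have hη' := (H825.Reg.reg_wired (t := t + 1) hp hD hn m0).1
    rw [VT_eq hn hp hD hs hc hβ (Nat.zero_le _) hη, VT_eq hn hp hD hs hc hβ (Nat.zero_le _) hη']
    exact (base_wired hQ hsh hq hE hq' hE' hs.ne' hc.ne' hβ hS2 hR3 g1 g2 g3
      (hMn _ f_good.2.2 t _ c hcf hF) (hMn _ f_good.2.2 (t + 1) _ c hcf hF)).trans hl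

/-- The distance of two values of a sequence with small steps. -/
theorem step_sum {f : ℕ → ℝ} {ε : ℝ} {a k : ℕ} (h : ∀ t, a ≤ t → t < a + k →
    |f t - f (t + 1)| ≤ ε) : |f a - f (a + k)| ≤ k * ε := by
  induction k with
  | zero => simp
  | succ k ih =>
    have h1 := ih fun t h1 h2 => h t h1 (by omega)
    have h2 := h (a + k) (by omega) (by omega)
    have h3 := abs_add_le (f a - f (a + k)) (f (a + k) - f (a + k + 1))
    rw [sub_add_sub_cancel] at h3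
    rw [← add_assoc]
    push_cast
    linarith

/-- **The position of the base site does not matter**, free and wired boundary conditions: all base
sites at distance at most `m` from `tp n`. -/
theorem base_shift {θ β : ℝ} (h0 : 0 < θ) (h1 : Ang θ) (hβ : Real.cos (θ / 2 + β) = Real.sin θ)
    (hR : RSW (2 * Real.cos θ))
    (hS : ∃ α C, 0 < α ∧ 0 < C ∧ ArmS (2 * Real.cos θ) α C ∧ ArmSD (2 * Real.cos θ) α C)
    (hp : IsPolygon p) (hD : Encloses p S₀) {tp κ : ℝ} (ht0 : 0 < tp) (ht1 : tp < 1) (B : ℝ)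
    (hκ : 0 < κ) {ε : ℝ} (hε : 0 < ε) (m : ℕ) {bc : Bc} (hbc : bc = .free ∨ bc = .wired) :
    ∀ᶠ n : ℕ in atTop, ∀ t t' : ℕ, |(t : ℝ) - tp * n| ≤ m → |(t' : ℝ) - tp * n| ≤ m →
      ∀ c : Ed → ℝ, (Function.support c).Finite → FlowIn (enl S₀ n) κ B n c →
      |VT θ β p S₀ n t (bc.ka l n t) (dv c) - VT θ β p S₀ n t' (bc.ka l n t') (dv c)| ≤ ε := by
  have hm : (0 : ℝ) < 2 * m + 1 := by positivity
  filter_upwards [base_step h0 h1 hβ hR hS hp hD ht0 ht1 B hκ (div_pos hε hm) m] with n hn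
  have key : ∀ t t' : ℕ, t ≤ t' → |(t : ℝ) - tp * n| ≤ m → |(t' : ℝ) - tp * n| ≤ m →
      ∀ c : Ed → ℝ, (Function.support c).Finite → FlowIn (enl S₀ n) κ B n c →
      |VT θ β p S₀ n t (bc.ka l n t) (dv c) - VT θ β p S₀ n t' (bc.ka l n t') (dv c)| ≤ ε := by
    intro t t' htt h2 h3 c hc hF
    obtain ⟨k, rfl⟩ := Nat.exists_eq_add_of_le htt
    rw [abs_le] at h2 h3
    push_cast at h3
    have hk : (k : ℝ) ≤ 2 * m := by linarith
    have hle : (k : ℝ) * (ε / (2 * m + 1)) ≤ ε := by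
      rw [mul_div_assoc', div_le_iff₀ hm]
      nlinarith
    refine (step_sum (f := fun t => VT θ β p S₀ n t (bc.ka l n t) (dv c)) (fun s hs1 hs2 => ?_)).trans
      hle
    have hs1' : (t : ℝ) ≤ s := by exact_mod_cast hs1
    have hs2' : (s : ℝ) ≤ t + k := by exact_mod_cast hs2.le
    have h4 := hn s (abs_le.2 ⟨by linarith, by linarith⟩) c hc hF
    rcases hbc with rfl | rfl
    · exact h4.1
    · exact h4.2
  intro t t' h2 h3 c hc hF
  rcases le_total t t' with h | h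
  · exact key t t' h h2 h3 c hc hF
  · rw [abs_sub_comm]
    exact key t' t h h3 h2 c hc hF

end Vale.Agent.P167.N.ID
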