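import Vale.Agent.P167.N.ID.StartG
import Vale.Agent.P167.N.ID.BaseShift

/-!
# P167, `q < 1`, block 2A: START with another position of the base site

`STARTt θ β P Cl`: as `STARTg`, but for free and wired boundary conditions the base site may be chosen
at any distance `O(1)` from the position `tp` (so its parity may be chosen).
-/

set_option autoImplicit false

namespace Vale.Agent.P167.N.ID

open Finset Filter Topology MeasureTheory

open Vale.Agent.P167 Vale.Agent.P167.N Vale.Agent.P167.FK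

open Vale.Agent.P167.H825 (dv FlowIn enl Box)

open Vale.Agent.P167.H825.Q (Row Bc VT)

open Vale.Agent.P167.E6 (IsPolygon Encloses)

open Vale.Agent.P167.H680.T (WCG WallG Cls Fam flowIn_zero)

open Vale.Agent.P167.N.H825.Q (GpT Nrm)

/-- **START in terms of the law**, base site at distance `O(1)` from `tp n`. -/
def STARTt (θ β : ℝ) (P : Measure Cfg) (Cl : Cls) : Prop :=
  ∀ (l : ℕ) [NeZero l] (p : ZMod l → ℤ × ℤ) (S₀ : Finset (ℤ × ℤ)), IsPolygon p → Encloses p S₀ →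
  Nrm p →
  ∀ tp : ℝ, 0 < tp → tp < 1 → ∀ bc : Bc, bc.In l → ∀ b : Box, b.Ok S₀ → GpT b tp → bc.Gp b →
  ∀ (κ B : ℝ), 0 < κ → 0 ≤ B → ∀ ε : ℝ, 0 < ε →
  ∃ (m : ℕ) (t : ℕ → ℕ), (∀ᶠ n : ℕ in atTop, |(t n : ℝ) - tp * n| ≤ m) ∧
    ((bc = .free ∨ bc = .wired) ∨ ∀ᶠ n : ℕ in atTop, t n = ⌊tp * (n : ℝ)⌋₊) ∧
    StartG θ P Cl S₀ b (fun n f => VT θ β p S₀ n (t n) (bc.ka l n (t n)) f) κ B ε

/-- **Another base site**. -/
theorem startg_of {θ β : ℝ} (h0 : 0 < θ) (h1 : Ang θ) (hβ : Real.cos (θ / 2 + β) = Real.sin θ)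
    (hR : RSW (2 * Real.cos θ))
    (hS : ∃ α C, 0 < α ∧ 0 < C ∧ ArmS (2 * Real.cos θ) α C ∧ ArmSD (2 * Real.cos θ) α C)
    {P : Measure Cfg} {Cl : Cls} (h : STARTt θ β P Cl) : STARTg θ β P Cl := by
  intro l _ p S₀ hp hD hN tp ht0 ht1 bc hbc b hb ht hg κ B hκ hB ε hε
  have hε2 : 0 < ε / 2 := by positivity
  obtain ⟨m, t, hm, hc, ι, hι, reg, w, g, fr, z, hF, c₀, hc₀, hev⟩ :=
    h l p S₀ hp hD hN tp ht0 ht1 bc hbc b hb ht hg κ B hκ hB (ε / 2) hε2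
  refine ⟨ι, hι, reg, w, g, fr, z, hF, c₀, hc₀, ?_⟩
  have hsh : ∀ᶠ n : ℕ in atTop, ∀ c : Ed → ℝ, (Function.support c).Finite →
      FlowIn (enl S₀ n) κ B n c →
      |VT θ β p S₀ n (t n) (bc.ka l n (t n)) (dv c) -
        VT θ β p S₀ n ⌊tp * (n : ℝ)⌋₊ (bc.ka l n ⌊tp * (n : ℝ)⌋₊) (dv c)| ≤ ε / 2 := by
    rcases hc with hc | hc
    · filter_upwards [base_shift h0 h1 hβ hR hS hp hD ht0 ht1 B hκ hε2 (m + 1) hc, hm,
        eventually_ge_atTop 0] with n hn hmn _ c hcf hfl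
      refine hn (t n) ⌊tp * (n : ℝ)⌋₊ (hmn.trans (by push_cast; linarith)) ?_ c hcf hfl
      have k0 : (0 : ℝ) ≤ tp * n := by positivity
      have k1 := Nat.floor_le k0
      have k2 := Nat.lt_floor_add_one (tp * (n : ℝ))
      have k3 : (0 : ℝ) ≤ m := Nat.cast_nonneg m
      rw [abs_le]
      push_cast
      constructor <;> linarith
    · filter_upwards [hc] with n hn c _ _
      rw [hn, sub_self, abs_zero]
      exact hε2.le
  filter_upwards [hev, hsh] with n hn hs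
  obtain ⟨a1, a2, a3⟩ := hn
  refine ⟨a1, a2, fun σ hσ => ?_⟩
  obtain ⟨b1, b2⟩ := a3 σ hσ
  refine ⟨b1, fun c hcf hfl => ?_⟩
  set E := ERT θ P (g n) (w n) 0 σ
  have h2 := b2 c hcf hfl
  have hE : 0 ≤ E := by
    have h3 := (abs_nonneg _).trans h2
    by_contra hneg
    push Not at hneg
    nlinarith
  have h4 := hs c hcf hfl
  have e1 : ERT θ P (g n) (w n) c σ -
      E * VT θ β p S₀ n ⌊tp * (n : ℝ)⌋₊ (bc.ka l n ⌊tp * (n : ℝ)⌋₊) (dv c) =
      (ERT θ P (g n) (w n) c σ - E * VT θ β p S₀ n (t n) (bc.ka l n (t n)) (dv c)) +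
        E * (VT θ β p S₀ n (t n) (bc.ka l n (t n)) (dv c) -
          VT θ β p S₀ n ⌊tp * (n : ℝ)⌋₊ (bc.ka l n ⌊tp * (n : ℝ)⌋₊) (dv c)) := by ring
  rw [e1]
  refine (abs_add_le _ _).trans ?_
  rw [abs_mul, abs_of_nonneg hE]
  have h5 := mul_le_mul_of_nonneg_left h4 hE
  linarith

end Vale.Agent.P167.N.ID
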