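import Vale.Agent.P167.N.ID.RowF
import Vale.Agent.P167.N.ID.RowCols
import Vale.Agent.P167.N.ID.LabPos
import Vale.Agent.P167.N.ID.LabRat
import Vale.Agent.P167.N.ID.HosD
import Vale.Agent.P167.N.ID.L1Fin
import Vale.Agent.P167.N.ID.FinG
import Vale.Agent.P167.N.ID.StartT

/-!
# P167, `0 < q < 1`, block 2A: assembly

The output `S2aQqN θ β` of block 2A for the class of the thick walls (`rowS θ`, `rowF`), from its
literal inputs.
-/

set_option autoImplicit false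

namespace Vale.Agent.P167.N.ID

open Finset Filter Topology MeasureTheory

open Vale.Agent.P167 Vale.Agent.P167.N

open Vale.Agent.P167.FK

open Vale.Agent.P167.H519 (IsLim)

open Vale.Agent.P167.N.H825.Q (S2aQqN)

open Vale.Agent.P167.H680.T (WallG Cls clL)

variable {θ : ℝ}

/-- The admissible rows, nonnegative scales. -/
def rOk (θ κ : ℝ) (n : ℕ) (r : Row) : Prop := 0 ≤ κ * n ∧ r.Ok θ κ n

/-- The labels of the walls. -/
noncomputable def Zw (hθ : 0 ≤ Real.cos θ) {P : Measure Cfg} (S : TyS (rowF hθ) P) (n : ℕ)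
    (r : Row) : ℝ :=
  (rowS θ).Zrow θ (Zlab S θ) n r

/-- **The class of the walls of block 2A.** -/
noncomputable def clW (hθ : 0 ≤ Real.cos θ) {P : Measure Cfg} (S : TyS (rowF hθ) P) : Cls :=
  clR θ (Zw hθ S)

theorem rOk_val (hθ : 0 ≤ Real.cos θ) {κ : ℝ} {n : ℕ} {r : Row} (h : rOk θ κ n r) :
    (rowF hθ).Val r ∧ κ * n ≤ (rowF hθ).mg r :=
  ⟨h.2.val h.1, h.2.mg h.1⟩

/-- **HOS for the rows** in terms of the labels. -/
theorem hosr_row (h0 : 0 < θ) (h1 : Ang θ) (hθ : 0 ≤ Real.cos θ)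
    (hR : RSW (2 * Real.cos θ)) {P : Measure Cfg} (hP : IsLim (2 * Real.cos θ) P)
    (hg : ∀ᵐ ω ∂P, Good ω) (S : TyS (rowF hθ) P)
    (hG : RowG (rowS θ) (rowF hθ) (fun κ n r => r.Ok θ κ n) θ)
    (ha : P1ag (rowS θ) (rowF hθ) θ) (hb : P1bg (rowS θ) (rowF hθ) θ)
    (hc : P1cg (rowS θ) (rowF hθ) θ) (hr : RATg (rowS θ) (rowF hθ) θ) :
    HOSRg (rowS θ) (rOk θ) θ P (Zlab S θ) := by
  have hG' : RowG (rowS θ) (rowF hθ) (rOk θ) θ := by
    obtain ⟨C, hC, m₀, h⟩ := hG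
    exact ⟨C, hC, m₀, fun x κ n d ρ ω hκ hx => h x κ n d ρ ω hκ hx.2⟩
  have hL1 : L1g (rowS θ) (rowF hθ) (rOk θ) θ :=
    l1g_of h1 hG' (fun h => rOk_val hθ h) fun hx hw hω => cols_row hx.2 hw hω
  obtain ⟨C, hC1, hcmp⟩ := zpg_lab h1.sin_pos h1.kit hP hg ha hc hr S
    (Ok := rOk θ) fun h => rOk_val hθ h
  exact hosrg_lab hC1 hcmp h1.sin_pos
    (hosr_g (rowF hθ) h0 h1 hR hP hg (fun h => rOk_val hθ h) hL1 ha hb)

/-- **The class is a class of walls.** -/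
theorem clW_ok (h1 : Ang θ) (hθ : 0 ≤ Real.cos θ) {P : Measure Cfg}
    (hP : IsLim (2 * Real.cos θ) P) (hg : ∀ᵐ ω ∂P, Good ω) (S : TyS (rowF hθ) P)
    (hp : FPos (rowF hθ)) : (clW hθ S).Ok := by
  have hpi := Real.pi_pos
  have hθp := h1.pos
  have hlt := h1.lt
  refine clR_ok fun {κ} hκ => ?_
  filter_upwards [zlab_pos S h1.sin_pos h1.kit hP hg hp (Ok := rOk θ) (fun h => rOk_val hθ h) hκ]
    with n hn r hr
  have h2 := hn r ⟨by positivity, hr⟩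
  have h3 : 0 < Real.cos (θ / 4) :=
    Real.cos_pos_of_mem_Ioo ⟨by linarith, by linarith⟩
  show 0 < 2 * (2 * Real.cos (θ / 4)) ^ (2 * r.toRow.L) * Zlab S θ n r
  positivity

/-- **The output of block 2A**, from the inputs for the rows. -/
theorem s2aQqN_asm {β : ℝ} (h0 : 0 < θ) (h1 : Ang θ) (hθ : 0 ≤ Real.cos θ)
    (hβ : Real.cos (θ / 2 + β) = Real.sin θ) (hR : RSW (2 * Real.cos θ))
    (hA : ∃ α C, 0 < α ∧ 0 < C ∧ ArmS (2 * Real.cos θ) α C ∧ ArmSD (2 * Real.cos θ) α C)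
    {P : Measure Cfg} (hP : IsLim (2 * Real.cos θ) P) (S : TyS (rowF hθ) P)
    (hG : RowG (rowS θ) (rowF hθ) (fun κ n r => r.Ok θ κ n) θ)
    (ha : P1ag (rowS θ) (rowF hθ) θ) (hb : P1bg (rowS θ) (rowF hθ) θ)
    (hc : P1cg (rowS θ) (rowF hθ) θ) (hr : RATg (rowS θ) (rowF hθ) θ)
    (hp : FPos (rowF hθ)) (hZ : ZInvR θ (Zw hθ S)) (hS : STARTt θ β P (clW hθ S)) :
    S2aQqN θ β := by
  have hgd := Vale.Agent.P167.N.H199.good_aeQ h0.le h1 hP h0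
  refine s2aQqN_G (RS := rowS θ) (Ok := rOk θ) (Zp := Zlab S θ) h0 h1 hP
    (clW_ok h1 hθ hP hgd S hp) (fun {κ n r} h => h.2.len) ?_ (fun _ _ => rfl)
    (hosr_row h0 h1 hθ hR hP hgd S hG ha hb hc hr) (startg_of h0 h1 hβ hR hA hS)
  intro κ n w hκ hw
  obtain ⟨r, hr, rfl⟩ := (clR_P_iff hZ hκ).1 hw
  exact ⟨r, ⟨hκ, hr⟩, rfl⟩

end Vale.Agent.P167.N.ID
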