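import Vale.Agent.P167.QX.Hole
import Vale.Agent.P167.H398.Q.Arm
import Vale.Agent.P167.H980.ND.WF

/-!
# P167, block 2A: change of the base site of a free polygon, deterministic part

`q'` is the polygon `q` with the base site moved by one step (`q' k = q (k + 1)`). For a flow `c` the
functionals `XB` of the two polygons (all sides free) agree unless the strand with a foot on the side
between the two base sites meets the flow.
-/

set_option autoImplicit false

namespace Vale.Agent.P167.N.ID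

open Finset

open Vale.Agent.P167

open Vale.Agent.P167.E6 (IsPolygon Encloses)

open Vale.Agent.P167.BR hiding dv

open Vale.Agent.P167.XDL (sep_iff base_mem)

open Vale.Agent.P167.QX (wB XB lo hi wB_zero mass_zero)

open Vale.Agent.P167.H718 (IsXY IsCl Cl)

open Vale.Agent.P167.H825 (dv)

variable {N : ℕ} {q q' : ZMod N → ℤ × ℤ} {D : Finset (ℤ × ℤ)} {ω : Cfg} {A : Finset Ed}
  {θ β : ℝ} {x y : ℕ}

/-- The base site is moved by one step. -/
def Sh1 (q q' : ZMod N → ℤ × ℤ) : Prop := ∀ k, q' k = q (k + 1)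

theorem Sh1.be (h : Sh1 q q') (hq : IsPolygon q) (hq' : IsPolygon q') (k : ZMod N) :
    be q' k = be q (k + 1) := by
  have h1 := E2.ro_spec hq (k + 1)
  have h2 := E2.ro_spec hq' k
  rw [h k, h (k + 1), h1] at h2
  have h3 : E6.dir (E2.ro q (k + 1)) = E6.dir (E2.ro q' k) := add_left_cancel h2
  have h4 : E2.ro q (k + 1) = E2.ro q' k := by
    revert h3
    generalize E2.ro q (k + 1) = a
    generalize E2.ro q' k = b
    fin_cases a <;> fin_cases b <;> simp [E6.dir]
  unfold BR.be
  rw [h k, h4]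

/-- The mass of a piece which does not cross the side between the two base sites. -/
theorem Sh1.mass (h : Sh1 q q') (hq : IsPolygon q) (hD : Encloses q D) (hq' : IsPolygon q')
    (hD' : Encloses q' D) (hA : A ∈ pcs ω D) (h0 : BR.be q 0 ∉ A) (f : ℤ × ℤ → ℝ) :
    mass D (q' 0) f A = mass D (q 0) f A := by
  obtain ⟨u, hu⟩ := exists_pot hq hD hA
  have h1 := pot_side hq hD hu h0
  have h2 : u (q' 0) = u (q 0) := by rw [h 0]; exact h1
  unfold BR.mass
  refine sum_congr rfl fun z hz => ?_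
  have e : Sep D A z (q' 0) ↔ Sep D A z (q 0) := by
    rw [sep_iff hq' hD' hu hz, sep_iff hq hD hu hz, h2]
  by_cases h3 : Sep D A z (q 0)
  · rw [if_pos h3, if_pos (e.2 h3)]
  · rw [if_neg h3, if_neg fun h4 => h3 (e.1 h4)]

theorem pred_cast (hx : 1 ≤ x) : (((x - 1 : ℕ) : ZMod N)) + 1 = (x : ZMod N) := by
  rw [Nat.cast_sub hx]
  push_cast
  ring

theorem Sh1.xy (h : Sh1 q q') (hq : IsPolygon q) (hq' : IsPolygon q') (h0 : BR.be q 0 ∉ A)
    (hxy : IsXY q A x y) : 1 ≤ x ∧ 1 ≤ y ∧ IsXY q' A (x - 1) (y - 1) := by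
  obtain ⟨h1, h2, h3, h4, h5, h6⟩ := hxy
  have hx : 1 ≤ x := by
    rcases Nat.eq_zero_or_pos x with rfl | hx
    · exfalso
      exact h0 (by simpa using h3)
    · exact hx
  have hy : 1 ≤ y := by
    rcases Nat.eq_zero_or_pos y with rfl | hy
    · exfalso
      exact h0 (by simpa using h4)
    · exact hy
  refine ⟨hx, hy, by omega, by omega, ?_, ?_, ?_, ?_⟩
  · rw [h.be hq hq', pred_cast hx]; exact h3
  · rw [h.be hq hq', pred_cast hy]; exact h4
  · rw [h, pred_cast hx]; exact h5
  · rw [h, pred_cast hy]; exact h6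

/-- The index of a foot of a strand is unique. -/
theorem xy_unique (hq : IsPolygon q) (hD : Encloses q D) (hA : A ∈ pcs ω D) {x' y' : ℕ}
    (h : IsXY q A x y) (h' : IsXY q A x' y') : x = x' ∧ y = y' := by
  have h1 := (h.iff hq hD hA h'.1).1 h'.2.2.1
  have h2 := (h.iff hq hD hA h'.2.1).1 h'.2.2.2.1
  constructor
  · rcases h1 with rfl | rfl
    · rfl
    · exact absurd h'.2.2.2.2.1 h.2.2.2.2.2
  · rcases h2 with rfl | rfl
    · exact absurd h.2.2.2.2.1 h'.2.2.2.2.2
    · rfl

/-- The weight of a piece which does not cross the side between the two base sites, free polygon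
(`k = N`) or wired polygon (`k = 0`). -/
theorem Sh1.wB (h : Sh1 q q') (hq : IsPolygon q) (hD : Encloses q D) (hq' : IsPolygon q')
    (hD' : Encloses q' D) {k : ℕ} (hk : k = N ∨ k = 0) (hA : A ∈ pcs ω D) (h0 : BR.be q 0 ∉ A)
    (t : ℝ) : QX.wB θ β q' D k A t = QX.wB θ β q D k A t := by
  classical
  unfold QX.wB
  by_cases hl : IsLp D A
  · rw [if_pos hl, if_pos hl]
  · rw [if_neg hl, if_neg hl]
    obtain ⟨x, y, hxy⟩ := QX.exists_xy hq hD hA hl
    obtain ⟨hx, hy, hxy'⟩ := h.xy hq hq' h0 hxy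
    have hxN := hxy.1
    have hyN := hxy.2.1
    have e1 : hi q A < N := by
      rw [QX.hi_xy hq hD hA hxy]
      exact max_lt hxy.1 hxy.2.1
    have e2 : hi q' A < N := by
      rw [QX.hi_xy hq' hD' hA hxy']
      exact max_lt hxy'.1 hxy'.2.1
    have n1 : ¬ (lo q' A < k ∧ k ≤ hi q' A) := fun h => by omega
    have n2 : ¬ (lo q A < k ∧ k ≤ hi q A) := fun h => by omega
    rw [if_neg n1, if_neg n2]
    have e3 : IsCl D q' k A ↔ IsCl D q k A := by
      have k1 : IsCl D q k A ↔ Cl k x y := by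
        constructor
        · rintro (h1 | ⟨x', y', h1, h2⟩)
          · exact absurd h1 hl
          · obtain ⟨rfl, rfl⟩ := xy_unique hq hD hA hxy h1
            exact h2
        · exact fun h1 => Or.inr ⟨x, y, hxy, h1⟩
      have k2 : IsCl D q' k A ↔ Cl k (x - 1) (y - 1) := by
        constructor
        · rintro (h1 | ⟨x', y', h1, h2⟩)
          · exact absurd h1 hl
          · obtain ⟨e, e'⟩ := xy_unique hq' hD' hA hxy' h1
            rw [e, e']
            exact h2
        · exact fun h1 => Or.inr ⟨_, _, hxy', h1⟩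
      rw [k1, k2]
      unfold Cl
      omega
    by_cases h3 : IsCl D q k A
    · rw [if_pos h3, if_pos (e3.2 h3)]
    · rw [if_neg h3, if_neg fun h4 => h3 (e3.1 h4)]

/-- **The change of the base site**: the functionals agree if the strand which crosses the side
between the two base sites does not meet the flow. -/
theorem Sh1.XB_eq (h : Sh1 q q') (hq : IsPolygon q) (hD : Encloses q D) (hq' : IsPolygon q')
    (hD' : Encloses q' D) {k : ℕ} (hk : k = N ∨ k = 0) (hs : Real.sin θ ≠ 0)
    (hc : Real.cos θ ≠ 0) (hβ : Real.cos (θ / 2 + β) = Real.sin θ) {c : Ed → ℝ}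
    (hsup : ∀ e, c e ≠ 0 → hdv e ∈ D ∧ tlv e ∈ D)
    (hfar : ∀ A ∈ pcs ω D, BR.be q 0 ∈ A → ∀ x ∈ A, c x = 0) :
    QX.XB θ β q' D k (dv c) ω = QX.XB θ β q D k (dv c) ω := by
  unfold QX.XB
  refine prod_congr rfl fun A hA => ?_
  by_cases h0 : BR.be q 0 ∈ A
  · rw [mass_zero hq hD hsup hA (hfar A hA h0), mass_zero hq' hD' hsup hA (hfar A hA h0),
      wB_zero hs hc hβ, wB_zero hs hc hβ]
  · rw [h.mass hq hD hq' hD' hA h0, h.wB hq hD hq' hD' hk hA h0]

end Vale.Agent.P167.N.ID
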