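import Vale.Agent.P167.N.ID.BaseDet
import Vale.Agent.P167.N.Base.ArmSDef
import Vale.Agent.P167.H601.S2.Abs

/-!
# P167, block 2A: change of the base site of a free polygon, the estimate

`base_free`: the functionals of a flow for two neighbouring base sites of a free polygon which is flat
(or of another simple shape) near the base sites differ by at most `2 sqrt (M p)`, with a bound `M` for
the second moments and the arm bound `p`.
-/

set_option autoImplicit false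

namespace Vale.Agent.P167.N.ID

open Finset

open Vale.Agent.P167

open Vale.Agent.P167.FK

open Vale.Agent.P167.FKA (Loc Ind)

open Vale.Agent.P167.E6 (IsPolygon Encloses)

open Vale.Agent.P167.BR hiding dv

open Vale.Agent.P167.H825 (dv)

variable {Q : ℝ} {D : Finset (ℤ × ℤ)} {η : Cfg}

/-- Two functions which agree off an event. -/
theorem ex_diff (hQ : 0 < Q) {F G : Cfg → ℝ} {E : Set Cfg} {M p : ℝ}
    (h : ∀ S, S ⊆ D → cf D η S ∉ E → F (cf D η S) = G (cf D η S))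
    (hF : Ex Q D η (fun ω => F ω ^ 2) ≤ M) (hG : Ex Q D η (fun ω => G ω ^ 2) ≤ M)
    (hE : Ex Q D η (E.indicator 1) ≤ p) : |Ex Q D η F - Ex Q D η G| ≤ 2 * Real.sqrt (M * p) := by
  classical
  have h1 : Ex Q D η F - Ex Q D η G =
      Ex Q D η (fun ω => 1 * ((F ω - G ω) * E.indicator 1 ω)) := by
    rw [← FKA.Ex_sub]
    refine FKA.Ex_congr fun S hS => ?_
    by_cases hE' : cf D η S ∈ E
    · rw [Set.indicator_of_mem hE']
      simp
    · rw [Set.indicator_of_notMem hE', h S hS hE']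
      simp
  have h2 := H601.S2.ex_cs (D := D) (η := η) hQ (T := fun _ => (1 : ℝ)) (fun _ => zero_le_one)
    (fun ω => F ω - G ω) (fun ω => E.indicator 1 ω)
  have h3 : Ex Q D η (fun ω => 1 * (F ω - G ω) ^ 2) ≤ 4 * M := by
    calc Ex Q D η (fun ω => 1 * (F ω - G ω) ^ 2)
        ≤ Ex Q D η (fun ω => 2 * F ω ^ 2 + 2 * G ω ^ 2) := by
          refine FKA.Ex_mono hQ fun S _ => ?_
          nlinarith [sq_nonneg (F (cf D η S) + G (cf D η S))]
      _ = 2 * Ex Q D η (fun ω => F ω ^ 2) + 2 * Ex Q D η (fun ω => G ω ^ 2) := by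
          rw [FKA.Ex_add, FKA.Ex_mul_left, FKA.Ex_mul_left]
      _ ≤ 4 * M := by linarith
  have h4 : Ex Q D η (fun ω => 1 * (E.indicator (1 : Cfg → ℝ) ω) ^ 2) =
      Ex Q D η (E.indicator 1) := by
    refine FKA.Ex_congr fun S _ => ?_
    by_cases hE' : cf D η S ∈ E
    · rw [Set.indicator_of_mem hE']
      simp
    · rw [Set.indicator_of_notMem hE']
      simp
  have h5 : 0 ≤ Ex Q D η (fun ω => 1 * (F ω - G ω) ^ 2) :=
    FKA.Ex_nonneg hQ fun S _ => by positivity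
  have h6 : 0 ≤ Ex Q D η (E.indicator (1 : Cfg → ℝ)) :=
    FKA.Ex_nonneg hQ fun S _ => Set.indicator_nonneg (fun _ _ => zero_le_one) _
  rw [h1]
  have h7 : Ex Q D η (fun ω => 1 * ((F ω - G ω) * E.indicator (1 : Cfg → ℝ) ω)) ^ 2 ≤
      (4 * M) * p := by
    refine h2.trans ?_
    rw [h4]
    exact mul_le_mul h3 hE h6 (h5.trans h3)
  have h8 := Real.sqrt_le_sqrt h7
  rw [Real.sqrt_sq_eq_abs] at h8
  refine h8.trans (le_of_eq ?_)
  rw [mul_assoc, Real.sqrt_mul (by norm_num : (0 : ℝ) ≤ 4)]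
  have : Real.sqrt 4 = 2 := by
    rw [show (4 : ℝ) = 2 ^ 2 by norm_num, Real.sqrt_sq (by norm_num)]
  rw [this]

/-- The squares next to a site. -/
theorem nm_face (v : ℤ × ℤ) (r : Fin 4) : nm (E6.face v r - v) ≤ 1 := by
  unfold nm
  fin_cases r <;> simp [E6.face]

variable {N : ℕ} {q q' : ZMod N → ℤ × ℤ} {θ β : ℝ}

/-- The head square of the edge across the side `0` is next to the base site. -/
theorem nm_be (q : ZMod N → ℤ × ℤ) (i : ZMod N) : nm (hdv (BR.be q i) - q i) ≤ 1 := by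
  unfold BR.be
  rcases ce_squares (q i) (E2.ro q i) with ⟨h, -⟩ | ⟨-, h⟩ <;> rw [h]
  · exact nm_face _ _
  · exact nm_face _ _

/-- A piece which starts at the side `0` and comes far away gives an arm. -/
theorem arm_far {ω : Cfg} (hg : Good ω) {A : Finset Ed} (hA : A ∈ pcs ω D) {e x : Ed}
    (he : e ∈ A) (hx : x ∈ A) {z : ℤ × ℤ} {R : ℤ} (hR : 3 ≤ R) (h1 : nm (hdv e - z) ≤ 1)
    (h2 : R ≤ nm (hdv x - z)) (b : Bool) : H398.Q.Arm b z 2 (R - 1) ω := by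
  obtain ⟨ℓ, h3, h4⟩ := hg e
  have h5 : A ⊆ ℓ := by
    rw [eq_piece_of_mem hA he]
    exact QX.piece_sub_loop h3 h4
  exact H398.Q.arm_loop h3 (by omega) (mem_image_of_mem _ (h5 he)) (mem_image_of_mem _ (h5 hx))
    h1 h2 b

/-- **The change of the base site of a free polygon.** -/
theorem base_free (hQ : 0 < Q) (h : Sh1 q q') (hq : IsPolygon q) (hD : Encloses q D)
    (hq' : IsPolygon q') (hD' : Encloses q' D) (hs : Real.sin θ ≠ 0) (hc : Real.cos θ ≠ 0)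
    (hβ : Real.cos (θ / 2 + β) = Real.sin θ) {α C : ℝ} (hS : ArmS Q α C) {R : ℤ} (hR : 3 ≤ R)
    (hsh : Shp {v | v ∈ Bq (q 0) (R - 1) \ Bq (q 0) 2 ∧ v ∉ D} (q 0) 2 (R - 1))
    {c : Ed → ℝ} (hsup : ∀ e, c e ≠ 0 → hdv e ∈ D ∧ tlv e ∈ D)
    (hfar : ∀ e, c e ≠ 0 → R ≤ nm (hdv e - q 0)) {M : ℝ}
    (hM : Ex Q D eta0 (fun ω => QX.XB θ β q D N (dv c) ω ^ 2) ≤ M)
    (hM' : Ex Q D eta0 (fun ω => QX.XB θ β q' D N (dv c) ω ^ 2) ≤ M) :
    |Ex Q D eta0 (QX.XB θ β q D N (dv c)) - Ex Q D eta0 (QX.XB θ β q' D N (dv c))| ≤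
      2 * Real.sqrt (M * (C * ((2 : ℝ) / ((R - 1 : ℤ) : ℝ)) ^ α)) := by
  refine ex_diff hQ (E := {ω | ArmPx (q 0) 2 (R - 1) ω}) (fun S hS hE => ?_) hM hM' ?_
  · refine (h.XB_eq hq hD hq' hD' (Or.inl rfl) hs hc hβ hsup fun A hA h0 x hx => ?_).symm
    by_contra hne
    have hg : Good (cf D eta0 S) := f_good.1 _ _ _ f_good.2.1
    exact hE (arm_far hg hA h0 hx hR (nm_be q 0) (hfar x hne) false)
  · have h1 := hS (q 0) 2 (R - 1) D eta0 (fun _ => 1) (by norm_num) (by omega) f_good.2.1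
      (fun _ _ _ => rfl) hsh (fun _ => zero_le_one) (fun _ _ _ => rfl)
    rw [FKA.Ex_const hQ] at h1
    simp only [one_mul, mul_one] at h1
    push_cast at h1 ⊢
    exact h1

/-- **The change of the base site of a wired polygon.** -/
theorem base_wired (hQ : 0 < Q) (h : Sh1 q q') (hq : IsPolygon q) (hD : Encloses q D)
    (hq' : IsPolygon q') (hD' : Encloses q' D) (hs : Real.sin θ ≠ 0) (hc : Real.cos θ ≠ 0)
    (hβ : Real.cos (θ / 2 + β) = Real.sin θ) {α C : ℝ} (hS : ArmSD Q α C) {R : ℤ} (hR : 3 ≤ R)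
    (hsh : Shp {v | v ∈ Bq (q 0) (R - 1) \ Bq (q 0) 2 ∧ v ∉ D} (q 0) 2 (R - 1))
    {c : Ed → ℝ} (hsup : ∀ e, c e ≠ 0 → hdv e ∈ D ∧ tlv e ∈ D)
    (hfar : ∀ e, c e ≠ 0 → R ≤ nm (hdv e - q 0)) {M : ℝ}
    (hM : Ex Q D eta1 (fun ω => QX.XB θ β q D 0 (dv c) ω ^ 2) ≤ M)
    (hM' : Ex Q D eta1 (fun ω => QX.XB θ β q' D 0 (dv c) ω ^ 2) ≤ M) :
    |Ex Q D eta1 (QX.XB θ β q D 0 (dv c)) - Ex Q D eta1 (QX.XB θ β q' D 0 (dv c))| ≤
      2 * Real.sqrt (M * (C * ((2 : ℝ) / ((R - 1 : ℤ) : ℝ)) ^ α)) := by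
  refine ex_diff hQ (E := {ω | ArmDx (q 0) 2 (R - 1) ω}) (fun S hS hE => ?_) hM hM' ?_
  · refine (h.XB_eq hq hD hq' hD' (Or.inr rfl) hs hc hβ hsup fun A hA h0 x hx => ?_).symm
    by_contra hne
    have hg : Good (cf D eta1 S) := f_good.1 _ _ _ f_good.2.2
    exact hE (arm_far hg hA h0 hx hR (nm_be q 0) (hfar x hne) true)
  · have h1 := hS (q 0) 2 (R - 1) D eta1 (fun _ => 1) (by norm_num) (by omega) f_good.2.2
      (fun _ _ _ => rfl) hsh (fun _ => zero_le_one) (fun _ _ _ => rfl)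
    rw [FKA.Ex_const hQ] at h1
    simp only [one_mul, mul_one] at h1
    push_cast at h1 ⊢
    exact h1

end Vale.Agent.P167.N.ID
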