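import Vale.Agent.P167.N.ID.CellA
import Vale.Agent.P167.H680.S.Mix

/-!
# P167, `q < 1`, START: the arcs and the exits of a cell, traps

`Clr`: the colours of the steps, closed on `[0, k₀)`, open on `[k₀, n)`. `arc_cases`: the entries of a
loop off the boxes. `nocross`: exits of a bounded cell do not cross. `trap`: invariant sets of steps.
`no_mixed`: a loop without mixed arcs has one colour.
-/

set_option autoImplicit false

namespace Vale.Agent.P167.N.ID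

open Finset
open Vale.Agent.P167.BR
open Vale.Agent.P167.FK
open Vale.Agent.P167.Top
open Vale.Agent.P167.H871
open Vale.Agent.P167.H871.Q
open Vale.Agent.P167.E6 (IsPolygon Encloses)
open Vale.Agent.P167.A (plane)
open Vale.Agent.P167.XDL (bS mem_bS P4_be)
open Vale.Agent.P167.H199 (strand ret mem_strand loop_nx loop_iter ret_min ret_le
  strand_sub sum_strand Returns strand_unique)
open Vale.Agent.P167.H680.S (nxt nxt_mem nxt_induct nxt_inj trS sum_rule MixE)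
open Vale.Agent.P167.QX (returns_loop card_out_in fLp wS VisL)

variable {ω : Cfg} {ℓ : Finset Ed} {K : Finset (ℤ × ℤ)} {B E : Set (ℤ × ℤ)} {n k₀ : ℕ}
  {P : ℕ → ℤ × ℤ} {u : ℕ → ℤ} {τ : ℤ} {b x y g h : Ed} {i j k l : ℕ}

/-- The colours of the steps. -/
def Clr (K : Finset (ℤ × ℤ)) (B : Set (ℤ × ℤ)) (n : ℕ) (P : ℕ → ℤ × ℤ) (u : ℕ → ℤ) (k₀ : ℕ)
    (ω : Cfg) : Prop :=
  ∀ k < n, oq P u k ∈ K → oq P u k ∉ B → ω (oq P u k) = decide (¬ k < k₀)

/-- `b` is a side of the frozen squares next to the cell. -/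
def Sd (E : Set (ℤ × ℤ)) (b : Ed) : Prop := hdv b ∈ E ∨ tlv b ∈ E

/-- The entry `b` at the step `k` is followed by a pure arc which leaves at the step `k'`. -/
structure Arc (K : Finset (ℤ × ℤ)) (E : Set (ℤ × ℤ)) (n k₀ : ℕ) (P : ℕ → ℤ × ℤ) (u : ℕ → ℤ)
    (ω : Cfg) (b : Ed) (k k' : ℕ) : Prop where
  hk : k < n
  hk' : k' < n
  at1 : At P u b k
  at2 : At P u (nxt (bS K) ω b) k'
  hd : hdv b = oq P u k
  hdK : hdv b ∈ K
  tlE : tlv b ∈ E
  hdE : hdv (nxt (bS K) ω b) ∈ E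
  tl : tlv (nxt (bS K) ω b) = oq P u k'
  tlK : tlv (nxt (bS K) ω b) ∈ K
  hn : hdv (nx ω b) = oq P u k'
  col : ω (oq P u k') = ω (oq P u k)
  cs : (ω (oq P u k) = false ∧ k < k₀ ∧ k' < k₀ ∧ Even ((P k').1 + (P k').2) ∧
      trS (bS K) ω b = 2 ∧ u k' = u k + (if k + 1 = n then u 0 - u n else 0) ∧
      k' = (k + 1) % n ∧ (k + 1 = n → k₀ = n)) ∨
    (ω (oq P u k) = true ∧ ¬ k < k₀ ∧ ¬ k' < k₀ ∧ ¬ Even ((P k).1 + (P k).2) ∧
      trS (bS K) ω b = -2 ∧ u k = u k' + (if k' + 1 = n then u 0 - u n else 0) ∧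
      k = (k' + 1) % n ∧ (k' + 1 = n → k₀ = 0))

/-- The mixed entry at the junction. -/
def MixAt (n k₀ : ℕ) (P : ℕ → ℤ × ℤ) (u : ℕ → ℤ) (b : Ed) : Prop :=
  (0 < k₀ ∧ k₀ < n) ∧ ((At P u b (k₀ - 1) ∧ Even ((P k₀).1 + (P k₀).2)) ∨
    (At P u b k₀ ∧ ¬ Even ((P k₀).1 + (P k₀).2)))

theorem at_ent {σ : ℤ} (h : Bd E n P u σ) (hx : At P u x k) (hd : hdv x ∉ E) :
    ls x = P (k + 1) ∧ rs x = P k ∧ hdv x = oq P u k ∧ tlv x ∈ E := by
  rcases at_sq h hx with ⟨a1, -⟩ | ⟨a1, -, a3, a4, a5⟩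
  · exact absurd a1 hd
  · exact ⟨a4, a5, a3, a1⟩

theorem at_ex {σ : ℤ} (h : Bd E n P u σ) (hx : At P u x k) (hd : hdv x ∈ E) :
    ls x = P k ∧ rs x = P (k + 1) ∧ tlv x = oq P u k := by
  rcases at_sq h hx with ⟨-, -, a3, a4, a5⟩ | ⟨-, -, a3, -⟩
  · exact ⟨a4, a5, a3⟩
  · exact absurd (a3 ▸ hd) (oq_notin h k)

namespace Cell

variable (F : Cell K B E n P u τ)

include F

/-- **The entries from the cell**: a pure arc, or the mixed entry. -/
theorem arc_cases (C : LC B ω ℓ) (hk₀ : k₀ ≤ n) (hc : Clr K B n P u k₀ ω) (hbℓ : b ∈ ℓ)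
    (h1 : hdv b ∈ K) (h2 : tlv b ∈ E) :
    (∃ k k', Arc K E n k₀ P u ω b k k') ∨ (MixE K ω b ∧ MixAt n k₀ P u b) := by
  have hE : hdv b ∉ E := F.dis _ h1
  have hbS : b ∈ bS K := mem_bS.2 (Or.inl ⟨h1, fun h => F.dis _ h h2⟩)
  have n0 := F.n0
  obtain ⟨k, hk, hat⟩ := exists_at F.bd F.n0 F.cov (Or.inr ⟨h2, hE⟩)
  obtain ⟨c1, c2, c3, -⟩ := at_ent F.bd hat hE
  have hkK : oq P u k ∈ K := c3 ▸ h1
  have hkB : oq P u k ∉ B := c3 ▸ C.hd_off hbℓ
  have hck := hc k hk hkK hkB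
  have hyB := C.hd_off (C.nx_mem hbℓ)
  have e1 := FK.even_ls b
  have e2 := BR.odd_rs b
  rw [c1] at e1
  rw [c2] at e2
  have hn1 : u n = u 0 + 4 * τ := by have := F.bd.per 0; rwa [zero_add] at this
  have hPn : P n = P 0 := by have := F.bd.perP 0; rwa [zero_add] at this
  cases hω : ω (hdv b) with
  | false =>
    have hkk : k < k₀ := by
      rw [c3] at hω
      rw [hω] at hck
      by_contra h
      rw [decide_eq_true h] at hck
      exact absurd hck (by decide)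
    obtain ⟨f1, f2, f3, f4⟩ := F.entry_closed C hbℓ h1 hat hω
    have hcol : ω (oq P u (k + 1)) = decide (¬ (k + 1) % n < k₀) := by
      rw [← oq_mod F.bd (k + 1)]
      exact hc _ (Nat.mod_lt _ n0) (by rw [oq_mod F.bd]; exact f1)
        (by rw [oq_mod F.bd, ← f3]; exact hyB)
    cases hω2 : ω (oq P u (k + 1)) with
    | false =>
      left
      obtain ⟨g1, g2, g3, g4⟩ := f4 hω2
      have hlt : (k + 1) % n < k₀ := by
        rw [hω2] at hcol
        by_contra h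
        rw [decide_eq_true h] at hcol
        exact absurd hcol (by decide)
      refine ⟨k, (k + 1) % n, hk, Nat.mod_lt _ n0, hat, at_mod F.bd g1, c3, h1, h2, g2, ?_, ?_, ?_,
        ?_, Or.inl ⟨c3 ▸ hω, hkk, hlt, ?_, ?_, ?_, rfl, ?_⟩⟩
      · rw [oq_mod F.bd]; exact g3
      · rw [g3]; exact f1
      · rw [oq_mod F.bd]; exact f3
      · rw [oq_mod F.bd, hω2, ← c3, hω]
      · rw [(Bd.mod F.bd (k + 1)).1]; exact e1
      · rw [g4, f2]; ring
      · by_cases h : k + 1 = n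
        · rw [if_pos h, h, Nat.mod_self]
          rw [h] at f2
          rw [← f2]; ring
        · rw [if_neg h, Nat.mod_eq_of_lt (by omega), f2]; ring
      · intro h
        rw [h, Nat.mod_self] at hlt
        omega
    | true =>
      right
      have hge : ¬ (k + 1) % n < k₀ := by
        intro h
        rw [hω2, decide_eq_false (not_not.2 h)] at hcol
        exact absurd hcol (by decide)
      have h5 : k + 1 < n := by
        by_contra h
        have : k + 1 = n := by omega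
        rw [this, Nat.mod_self] at hge
        omega
      rw [Nat.mod_eq_of_lt h5] at hge
      have h6 : k + 1 = k₀ := by omega
      refine ⟨⟨hbS, h1, by rw [f3]; exact f1, ?_⟩, ⟨by omega, by omega⟩, Or.inl ⟨?_, ?_⟩⟩
      · rw [f3, hω2, hω]; decide
      · rw [← h6, Nat.add_sub_cancel]; exact hat
      · rw [← h6]; exact e1
  | true =>
    have hkk : ¬ k < k₀ := by
      intro h
      rw [c3] at hω
      rw [hω, decide_eq_false (not_not.2 h)] at hck
      exact absurd hck (by decide)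
    -- the previous step
    obtain ⟨m, hm, hmk⟩ : ∃ m < n, (m + 1) % n = k := by
      rcases Nat.eq_zero_or_pos k with h | h
      · exact ⟨n - 1, by omega, by rw [Nat.sub_add_cancel (by omega), Nat.mod_self, h]⟩
      · exact ⟨k - 1, by omega, by rw [Nat.sub_add_cancel h, Nat.mod_eq_of_lt hk]⟩
    have hat' : At P u b (m + 1) := by
      obtain ⟨a1, a2⟩ := Bd.mod F.bd (m + 1)
      rw [hmk] at a1 a2
      unfold At at hat ⊢
      rw [hat, a1]
      exact M4_congr a2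
    obtain ⟨f1, f2, f3, f4⟩ := F.entry_open C hbℓ h1 hat' hω
    have hcol := hc m hm f1 (f3 ▸ hyB)
    cases hω2 : ω (oq P u m) with
    | true =>
      left
      obtain ⟨g1, g2, g3, g4⟩ := f4 hω2
      have hlt : ¬ m < k₀ := by
        intro h
        rw [hω2, decide_eq_false (not_not.2 h)] at hcol
        exact absurd hcol (by decide)
      refine ⟨k, m, hk, hm, hat, g1, c3, h1, h2, g2, g3, by rw [g3]; exact f1, f3,
        by rw [hω2, ← c3, hω],
        Or.inr ⟨c3 ▸ hω, hkk, hlt, e2, ?_, ?_, hmk.symm, ?_⟩⟩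
      · rw [g4, f2]; ring
      · by_cases h : m + 1 = n
        · rw [if_pos h]
          rw [h, Nat.mod_self] at hmk
          rw [h] at f2
          rw [← hmk, ← f2]; ring
        · rw [if_neg h]
          rw [Nat.mod_eq_of_lt (by omega)] at hmk
          rw [← hmk, f2]; ring
      · intro h
        rw [h, Nat.mod_self] at hmk
        omega
    | false =>
      right
      have hlt : m < k₀ := by
        by_contra h
        rw [hω2, decide_eq_true h] at hcol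
        exact absurd hcol (by decide)
      have h5 : m + 1 < n := by
        by_contra h
        have h6 : m + 1 = n := by omega
        rw [h6, Nat.mod_self] at hmk
        omega
      rw [Nat.mod_eq_of_lt h5] at hmk
      have h6 : k = k₀ := by omega
      refine ⟨⟨hbS, h1, by rw [f3]; exact f1, ?_⟩, ⟨by omega, by omega⟩, Or.inr ⟨?_, ?_⟩⟩
      · rw [f3, hω2, hω]; decide
      · rw [← h6]; exact hat
      · rw [← h6]; exact e2

/-- A pure arc. -/
theorem arc_pure (C : LC B ω ℓ) (hk₀ : k₀ ≤ n) (hc : Clr K B n P u k₀ ω) (hbℓ : b ∈ ℓ)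
    (h1 : hdv b ∈ K) (h2 : tlv b ∈ E) (hm : ¬ MixE K ω b) : ∃ k k', Arc K E n k₀ P u ω b k k' :=
  (F.arc_cases C hk₀ hc hbℓ h1 h2).resolve_right fun h => hm h.1

end Cell

/-! ### exits do not cross -/

section bounded

variable {D : Finset (ℤ × ℤ)}

/-- **The exits of a bounded cell do not cross.** -/
theorem nocross (F : Cell K B (D : Set (ℤ × ℤ)) n P u 1) (X : Ex K (D : Set (ℤ × ℤ)) n P u ω g i j)
    (Y : Ex K (D : Set (ℤ × ℤ)) n P u ω h k l) (hne : h ≠ g) :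
    (k ≠ i ∧ k ≠ j ∧ l ≠ i ∧ l ≠ j) ∧
      ((min i j < k ∧ k < max i j) ↔ (min i j < l ∧ l < max i j)) := by
  have hq : IsPolygon (qp n P) := qp_polygon F.hn F.bd
  have hD : Encloses (qp n P) D := qp_encloses F.hn F.bd fun v t h1 h2 => F.cov.lt F.bd F.n0 h1 h2
  have hu := qp_bd F.n0 F.bd
  have hnat : ∀ k : ℕ, qp n P (k : ZMod n) = P k := fun k => qp_nat F.n0 F.bd k
  have hbe : ∀ {x : Ed} {k : ℕ}, At P u x k → be (qp n P) (k : ZMod n) = x := by
    intro x k hx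
    apply P4_inj
    rw [P4_be hq hu k, hnat]
    exact hx.symm
  have gE : hdv g ∈ D := mem_coe.1 (X.ins 0 (by have := X.hm; omega))
  have hE : hdv h ∈ D := mem_coe.1 (Y.ins 0 (by have := Y.hm; omega))
  have gt : tlv g ∉ D := fun h' => F.dis _ X.tlK (mem_coe.2 h')
  have ht : tlv h ∉ D := fun h' => F.dis _ Y.tlK (mem_coe.2 h')
  have hgm : g ∈ eds D := mem_eds.2 (Or.inl gE)
  have hhm : h ∈ eds D := mem_eds.2 (Or.inl hE)
  have hA := piece_mem_pcs (ω := ω) hgm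
  have hB' := piece_mem_pcs (ω := ω) hhm
  have sA := self_mem_piece (ω := ω) hgm
  have sB := self_mem_piece (ω := ω) hhm
  have gA : nxt (bS K) ω g ∈ piece ω D g :=
    (mem_of_run hA (k := ret (nx ω) (bS K) g) ⟨rfl, fun k hk => mem_coe.1 (X.ins k hk)⟩).1 sA
  have hB2 : nxt (bS K) ω h ∈ piece ω D h :=
    (mem_of_run hB' (k := ret (nx ω) (bS K) h) ⟨rfl, fun k hk => mem_coe.1 (Y.ins k hk)⟩).1 sB
  have hnA : h ∉ piece ω D g := fun h' => hne (entry_unique hA h' sA ht gt)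
  have hnA2 : ∀ y ∈ piece ω D h, y ∉ piece ω D g := fun y h1 h2 => by
    have := eq_of_mem_pcs hA hB' h2 h1
    exact hnA (this ▸ sB)
  obtain ⟨φ, hφ⟩ := exists_pot hq hD hA
  have g2K : hdv (nxt (bS K) ω g) ∉ D := fun h' => F.dis _ X.hdK (mem_coe.2 h')
  have h2K : hdv (nxt (bS K) ω h) ∉ D := fun h' => F.dis _ Y.hdK (mem_coe.2 h')
  obtain ⟨xi1, -, -⟩ := at_ex F.bd X.at1 (mem_coe.2 gE)
  obtain ⟨-, xj2, -, -⟩ := at_ent F.bd X.at2 (fun h' => g2K (mem_coe.1 h'))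
  obtain ⟨yk1, -, -⟩ := at_ex F.bd Y.at1 (mem_coe.2 hE)
  obtain ⟨-, yl2, -, -⟩ := at_ent F.bd Y.at2 (fun h' => h2K (mem_coe.1 h'))
  have hXY : H718.IsXY (qp n P) (piece ω D g) i j :=
    ⟨X.hi, X.hj, by rw [hbe X.at1]; exact sA, by rw [hbe X.at2]; exact gA,
      by rw [hnat, ← xi1]; exact FK.even_ls g, by rw [hnat, ← xj2]; exact BR.odd_rs _⟩
  have hk := H718.pot_lft hq hD hA hφ hXY Y.hi.le
  have hl := H718.pot_lft hq hD hA hφ hXY Y.hj.le
  rw [hnat, ← yk1] at hk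
  rw [hnat, ← yl2] at hl
  have s1 := H718.side_const hA hφ hB' sB hB2
  have s2 := hφ.eq hhm hnA
  have s3 := hφ.eq (mem_eds.2 (Or.inr (mem_coe.1 Y.lst))) (hnA2 _ hB2)
  have hki : k ≠ i := fun h' => hne (at_ed F.bd (h' ▸ Y.at1) X.at1)
  have hkj : k ≠ j := fun h' => by
    have := at_ed F.bd (h' ▸ Y.at1) X.at2
    exact g2K (this ▸ hE)
  have hli : l ≠ i := fun h' => by
    have := at_ed F.bd (h' ▸ Y.at2) X.at1
    exact h2K (this ▸ gE)
  have hlj : l ≠ j := fun h' => by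
    have := at_ed F.bd (h' ▸ Y.at2) X.at2
    exact hnA2 _ hB2 (this ▸ gA)
  refine ⟨⟨hki, hkj, hli, hlj⟩, ?_⟩
  have hlf : H718.lft i j k ↔ H718.lft i j l := by
    have : φ (ls h) = φ (rs (nxt (bS K) ω h)) := by rw [← s1.1]; exact s3
    rw [this] at hk
    by_cases h1 : H718.lft i j k <;> by_cases h2 : H718.lft i j l
    · exact iff_of_true h1 h2
    · rw [if_pos h1] at hk; rw [if_neg h2] at hl; omega
    · rw [if_neg h1] at hk; rw [if_pos h2] at hl; omega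
    · exact iff_of_false h1 h2
  have hij : i ≠ j := hXY.ne
  unfold H718.lft at hlf
  omega

end bounded

/-! ### traps -/

/-- **Trap.** A set of steps which is invariant under the exits and the arcs of the loop. -/
theorem trap (F : Cell K B E n P u τ) (C : LC B ω ℓ) {S : ℕ → Prop} {b0 : Ed} (h1 : b0 ∈ bS K)
    (h2 : b0 ∈ ℓ) (h3 : Sd E b0) (h4 : ∃ k < n, S k ∧ At P u b0 k)
    (hex : ∀ b ∈ ℓ, ∀ i j, Ex K E n P u ω b i j → S i → S j)
    (hen : ∀ b ∈ ℓ, ∀ k < n, At P u b k → hdv b ∈ K → tlv b ∈ E → S k →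
      hdv (nxt (bS K) ω b) ∈ E ∧ ∃ k' < n, S k' ∧ At P u (nxt (bS K) ω b) k')
    (hb : b ∈ bS K) (hbℓ : b ∈ ℓ) : Sd E b ∧ ∃ k < n, S k ∧ At P u b k := by
  refine nxt_induct (S := bS K) C.hl (P := fun b => Sd E b ∧ ∃ k < n, S k ∧ At P u b k) ?_ h1 h2
    ⟨h3, h4⟩ hb hbℓ
  rintro b hb hbℓ ⟨h5, k, h6, h7, h8⟩
  rcases h5 with h5 | h5
  · have hK : tlv b ∈ K := by
      rw [mem_bS] at hb
      rcases hb with h | h
      · exact absurd h5 (F.dis _ h.1)
      · exact h.2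
    obtain ⟨i, j, X⟩ := F.exit C hbℓ h5 hK
    have e : k = i := at_idx F.bd h6 X.hi h8 X.at1
    exact ⟨Or.inr X.lst, j, X.hj, hex b hbℓ i j X (e ▸ h7), X.at2⟩
  · have hK : hdv b ∈ K := by
      rw [mem_bS] at hb
      rcases hb with h | h
      · exact h.1
      · exact absurd h5 (F.dis _ h.2)
    obtain ⟨g1, g2⟩ := hen b hbℓ k h6 h8 hK h5 h7
    exact ⟨Or.inl g1, g2⟩

/-- A loop without mixed arcs stays next to one cell. -/
theorem sd_const (F : Cell K B E n P u τ) (C : LC B ω ℓ) (hk₀ : k₀ ≤ n)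
    (hc : Clr K B n P u k₀ ω) (hm : ∀ b ∈ ℓ, ¬ MixE K ω b) {b0 : Ed} (h1 : b0 ∈ bS K)
    (h2 : b0 ∈ ℓ) (h3 : Sd E b0) (hb : b ∈ bS K) (hbℓ : b ∈ ℓ) : Sd E b := by
  have hat : ∀ b ∈ bS K, Sd E b → ∃ k < n, At P u b k := by
    intro b hb h
    rw [mem_bS] at hb
    rcases h with h | h
    · exact exists_at F.bd F.n0 F.cov (Or.inl ⟨h, fun h' => by
        rcases hb with h5 | h5
        · exact F.dis _ h5.1 h
        · exact F.dis _ h5.2 h'⟩)
    · exact exists_at F.bd F.n0 F.cov (Or.inr ⟨h, fun h' => by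
        rcases hb with h5 | h5
        · exact F.dis _ h5.1 h'
        · exact F.dis _ h5.2 h⟩)
  obtain ⟨k, hk, hk2⟩ := hat b0 h1 h3
  refine (trap F C (S := fun _ => True) h1 h2 h3 ⟨k, hk, trivial, hk2⟩ (fun _ _ _ _ _ _ => trivial)
    (fun b hbℓ k hk hat hbK hbE _ => ?_) hb hbℓ).1
  obtain ⟨k1, k2, A⟩ := F.arc_pure C hk₀ hc hbℓ hbK hbE (hm b hbℓ)
  exact ⟨A.hdE, k2, A.hk', trivial, A.at2⟩

/-- The colour of an exit at its first step. -/
theorem Ex.col1 (X : Ex K E n P u ω b i j) (hc : Clr K B n P u k₀ ω) (C : LC B ω ℓ)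
    (hbℓ : b ∈ ℓ) : ω (oq P u i) = decide (¬ i < k₀) :=
  hc i X.hi (X.tl ▸ X.tlK) (X.tl ▸ C.tl_off hbℓ)

theorem Ex.col2 (X : Ex K E n P u ω b i j) (hc : Clr K B n P u k₀ ω) (C : LC B ω ℓ)
    (hbℓ : b ∈ ℓ) : ω (oq P u j) = decide (¬ j < k₀) :=
  hc j X.hj (X.hd ▸ X.hdK) (X.hd ▸ C.hd_off (C.it_mem hbℓ _))

section bounded

variable {D : Finset (ℤ × ℤ)}

/-- The trap between the ends of an exit, open interval. -/
theorem trap_open (F : Cell K B (D : Set (ℤ × ℤ)) n P u 1) (C : LC B ω ℓ)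
    (X : Ex K (D : Set (ℤ × ℤ)) n P u ω g i j) (hg : g ∈ ℓ)
    (hen : ∀ b ∈ ℓ, ∀ k < n, At P u b k → hdv b ∈ K → tlv b ∈ (D : Set (ℤ × ℤ)) →
      min i j < k → k < max i j → hdv (nxt (bS K) ω b) ∈ (D : Set (ℤ × ℤ)) ∧
        ∃ k' < n, (min i j < k' ∧ k' < max i j) ∧ At P u (nxt (bS K) ω b) k')
    (hb : b ∈ bS K) (hbℓ : b ∈ ℓ) (hS : Sd (D : Set (ℤ × ℤ)) b) (hk : k < n) (hat : At P u b k) :
    ¬ (min i j < k ∧ k < max i j) := by
  intro hkS
  have hgS : g ∈ bS K := mem_bS.2 (Or.inr ⟨fun h => F.dis _ h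
    (X.ins 0 (by have := X.hm; omega)), X.tlK⟩)
  obtain ⟨-, m, h1, h2, h3⟩ := trap F C (S := fun k => min i j < k ∧ k < max i j) hb hbℓ hS
    ⟨k, hk, hkS, hat⟩ (fun b' hb' i' j' X' h' => by
      have hne : b' ≠ g := by
        rintro rfl
        have := at_idx F.bd X'.hi X.hi X'.at1 X.at1
        omega
      exact ((nocross F X X' hne).2).1 h')
    (fun b' hb' k' hk' hat' h1 h2 h3 => hen b' hb' k' hk' hat' h1 h2 h3.1 h3.2) hgS hg
  have := at_idx F.bd h1 X.hi h3 X.at1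
  omega

/-- **A loop without mixed arcs has no mixed exits.** -/
theorem no_mixed (F : Cell K B (D : Set (ℤ × ℤ)) n P u 1) (C : LC B ω ℓ) (hk₀ : k₀ ≤ n)
    (hc : Clr K B n P u k₀ ω) (hm : ∀ b ∈ ℓ, ¬ MixE K ω b)
    (X : Ex K (D : Set (ℤ × ℤ)) n P u ω g i j) (hg : g ∈ ℓ) : i < k₀ ↔ j < k₀ := by
  by_contra hno
  have hgE : hdv g ∈ (D : Set (ℤ × ℤ)) := X.ins 0 (by have := X.hm; omega)
  have hgS : g ∈ bS K := mem_bS.2 (Or.inr ⟨fun h => F.dis _ h hgE, X.tlK⟩)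
  have hi := X.hi
  have hj := X.hj
  have hA : ∀ b ∈ ℓ, ∀ k < n, At P u b k → hdv b ∈ K → tlv b ∈ (D : Set (ℤ × ℤ)) →
      min i j ≤ k → k ≤ max i j → (k = min i j → k = j) → (k = max i j → k = j) →
      hdv (nxt (bS K) ω b) ∈ (D : Set (ℤ × ℤ)) ∧
        ∃ k' < n, (min i j < k' ∧ k' < max i j) ∧ At P u (nxt (bS K) ω b) k' := by
    intro b hb k hk hat h1 h2 h3 h4 h5 h6
    obtain ⟨k1, k2, A⟩ := F.arc_pure C hk₀ hc hb h1 h2 (hm b hb)
    have e : k1 = k := at_idx F.bd A.hk hk A.at1 hat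
    subst e
    refine ⟨A.hdE, k2, A.hk', ?_, A.at2⟩
    have hk2 := A.hk'
    rcases A.cs with ⟨-, a1, a2, -, -, -, a3, a4⟩ | ⟨-, a1, a2, -, -, -, a3, a4⟩
    · rcases (by omega : k1 + 1 < n ∨ k1 + 1 = n) with h7 | h7
      · rw [Nat.mod_eq_of_lt h7] at a3
        omega
      · have := a4 h7
        omega
    · rcases (by omega : k2 + 1 < n ∨ k2 + 1 = n) with h7 | h7
      · rw [Nat.mod_eq_of_lt h7] at a3
        omega
      · have := a4 h7
        omega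
  -- the side after the end of the exit
  obtain ⟨n1, n2⟩ := nxt_mem C.hl hgS hg
  obtain ⟨n3, n4⟩ := nxt_mem C.hl n1 n2
  obtain ⟨e1, k', e2, e3, e4⟩ := hA _ n2 j hj X.at2 X.hdK X.lst (by omega) (by omega)
    (fun _ => rfl) (fun _ => rfl)
  exact trap_open F C X hg (fun b hb k hk hat h1 h2 h3 h4 => hA b hb k hk hat h1 h2 h3.le h4.le
    (fun h => by omega) (fun h => by omega)) n3 n4 (Or.inl e1) e2 e4 e3

end bounded

end Vale.Agent.P167.N.ID
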