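import Vale.Agent.P167.N.ID.CellB

/-!
# P167, `q < 1`, START: the exits of the interface in a bounded cell

`int_order`: the exits of a loop with a mixed arc between steps of the same colour go forwards on the
closed part, backwards on the open part. `over_unique`: at most one of them passes over a given site.
-/

set_option autoImplicit false

namespace Vale.Agent.P167.N.ID

open Finset
open Vale.Agent.P167.BR
open Vale.Agent.P167.FK
open Vale.Agent.P167.Top
open Vale.Agent.P167.H871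
open Vale.Agent.P167.H871.Q
open Vale.Agent.P167.A (plane)
open Vale.Agent.P167.XDL (bS mem_bS P4_be)
open Vale.Agent.P167.H199 (strand ret mem_strand loop_nx loop_iter ret_min ret_le
  strand_sub sum_strand Returns strand_unique)
open Vale.Agent.P167.H680.S (nxt nxt_mem nxt_induct nxt_inj trS sum_rule MixE)
open Vale.Agent.P167.QX (returns_loop card_out_in fLp wS VisL)

variable {ω : Cfg} {ℓ : Finset Ed} {K : Finset (ℤ × ℤ)} {B E : Set (ℤ × ℤ)} {n k₀ z : ℕ}
  {P : ℕ → ℤ × ℤ} {u : ℕ → ℤ} {τ : ℤ} {b x y g h : Ed} {i j k l i' j' : ℕ}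
  {D : Finset (ℤ × ℤ)}

theorem Ex.hdE (X : Ex K E n P u ω b i j) : hdv b ∈ E := X.ins 0 (by have := X.hm; omega)

theorem Ex.memS (X : Ex K E n P u ω b i j) (F : Cell K B E n P u τ) : b ∈ bS K :=
  mem_bS.2 (Or.inr ⟨fun h => F.dis _ h X.hdE, X.tlK⟩)

/-- The step of an entry is not the first step of an exit. -/
theorem Ex.ne1 (X : Ex K E n P u ω g i j) (F : Cell K B E n P u τ) (hK : hdv b ∈ K)
    (hat : At P u b k) : k ≠ i := by
  rintro rfl
  rw [at_ed F.bd hat X.at1] at hK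
  exact F.dis _ hK X.hdE

/-- The step of an exit is not the last step of an exit. -/
theorem Ex.ne2 (X : Ex K E n P u ω g i j) (F : Cell K B E n P u τ) (hE : hdv b ∈ E)
    (hat : At P u b k) : k ≠ j := by
  rintro rfl
  rw [at_ed F.bd hat X.at2] at hE
  exact F.dis _ X.hdK hE

/-- A mixed entry has a mixed step. -/
theorem mixAt_of (F : Cell K B E n P u τ) (C : LC B ω ℓ) (hk₀ : k₀ ≤ n)
    (hc : Clr K B n P u k₀ ω) (hbℓ : b ∈ ℓ) (hS : Sd E b) (hm : MixE K ω b) :
    MixAt n k₀ P u b := by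
  have hE : tlv b ∈ E := by
    rcases hS with h | h
    · exact absurd h (F.dis _ hm.2.1)
    · exact h
  rcases F.arc_cases C hk₀ hc hbℓ hm.2.1 hE with ⟨k, k', A⟩ | ⟨-, h⟩
  · exact absurd (by rw [A.hn, A.col, ← A.hd]) hm.2.2.2
  · exact h

/-- **The order of the exits of the interface.** -/
theorem int_order (F : Cell K B (D : Set (ℤ × ℤ)) n P u 1) (C : LC B ω ℓ) (hk₀ : k₀ ≤ n)
    (hc : Clr K B n P u k₀ ω) (hm : ∃ b ∈ ℓ, MixE K ω b)
    (X : Ex K (D : Set (ℤ × ℤ)) n P u ω g i j) (hg : g ∈ ℓ) :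
    (i < k₀ → j < k₀ → i < j) ∧ (¬ i < k₀ → ¬ j < k₀ → j < i) := by
  obtain ⟨b0, hb0, hmx⟩ := hm
  have hij := (turn_gen (Or.inl rfl) F.bd X F.dis).1
  have hi := X.hi
  have hj := X.hj
  have main : ((i < k₀ ∧ j < k₀ ∧ j < i) ∨ (¬ i < k₀ ∧ ¬ j < k₀ ∧ i < j)) → False := by
    intro hcase
    have key : ∀ b ∈ bS K, b ∈ ℓ → Sd (D : Set (ℤ × ℤ)) b ∧
        ∃ k < n, (min i j ≤ k ∧ k ≤ max i j) ∧ At P u b k := by
      intro b hb hbℓ
      refine trap F C (S := fun k => min i j ≤ k ∧ k ≤ max i j) (X.memS F) hg (Or.inl X.hdE)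
        ⟨i, hi, by omega, X.at1⟩ (fun b' hb' i' j' X' h' => ?_)
        (fun b' hb' k hk hat h1 h2 h3 => ?_) hb hbℓ
      · by_cases hne : b' = g
        · subst hne
          have := at_idx F.bd X'.hj X.hj X'.at2 X.at2
          omega
        · obtain ⟨⟨a1, a2, a3, a4⟩, a5⟩ := nocross F X X' hne
          have := a5.1 (by omega)
          omega
      · have hki := X.ne1 F h1 hat
        rcases F.arc_cases C hk₀ hc hb' h1 h2 with ⟨k1, k2, A⟩ | ⟨-, h4, h5⟩
        · have e : k1 = k := at_idx F.bd A.hk hk A.at1 hat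
          subst e
          refine ⟨A.hdE, k2, A.hk', ?_, A.at2⟩
          have hk2 := A.hk'
          rcases A.cs with ⟨-, a1, a2, -, -, -, a3, a4⟩ | ⟨-, a1, a2, -, -, -, a3, a4⟩
          · rcases (by omega : k1 + 1 < n ∨ k1 + 1 = n) with h7 | h7
            · rw [Nat.mod_eq_of_lt h7] at a3
              omega
            · have := a4 h7
              omega
          · rcases (by omega : k2 + 1 < n ∨ k2 + 1 = n) with h7 | h7
            · rw [Nat.mod_eq_of_lt h7] at a3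
              omega
            · rw [h7, Nat.mod_self] at a3
              omega
        · exfalso
          rcases h5 with ⟨h5, -⟩ | ⟨h5, -⟩
          · have := at_idx F.bd hk (by omega) hat h5
            omega
          · have := at_idx F.bd hk h4.2 hat h5
            omega
    obtain ⟨h1, k, hk, h2, h3⟩ := key b0 hmx.1 hb0
    have hki := X.ne1 F hmx.2.1 h3
    obtain ⟨h4, ⟨h5, -⟩ | ⟨h5, -⟩⟩ := mixAt_of F C hk₀ hc hb0 h1 hmx
    · have := at_idx F.bd hk (by omega) h3 h5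
      omega
    · have := at_idx F.bd hk h4.2 h3 h5
      omega
  constructor
  · intro h1 h2
    by_contra h3
    exact main (Or.inl ⟨h1, h2, by omega⟩)
  · intro h1 h2
    by_contra h3
    exact main (Or.inr ⟨h1, h2, by omega⟩)

/-- **The sides under an exit of one colour** (forwards on the closed part, backwards on the open
part) are not on the loop. -/
theorem under_exit (F : Cell K B (D : Set (ℤ × ℤ)) n P u 1) (C : LC B ω ℓ) (hk₀ : k₀ ≤ n)
    (hc : Clr K B n P u k₀ ω) (X : Ex K (D : Set (ℤ × ℤ)) n P u ω g i j) (hg : g ∈ ℓ)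
    (hcs : (j < k₀ ∧ i < j) ∨ (¬ j < k₀ ∧ j < i))
    (hb : b ∈ bS K) (hbℓ : b ∈ ℓ) (hS : Sd (D : Set (ℤ × ℤ)) b) (hk : k < n) (hat : At P u b k) :
    ¬ (min i j < k ∧ k < max i j) := by
  have hi := X.hi
  have hj := X.hj
  refine trap_open F C X hg (fun b' hb' k hk hat h1 h2 h3 h4 => ?_) hb hbℓ hS hk hat
  rcases F.arc_cases C hk₀ hc hb' h1 h2 with ⟨k1, k2, A⟩ | ⟨-, h4', h5⟩
  · have e : k1 = k := at_idx F.bd A.hk hk A.at1 hat
    subst e
    refine ⟨A.hdE, k2, A.hk', ?_, A.at2⟩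
    have hk2 := A.hk'
    have hne := X.ne2 F A.hdE A.at2
    rcases A.cs with ⟨-, a1, a2, -, -, -, a3, a4⟩ | ⟨-, a1, a2, -, -, -, a3, a4⟩
    · rcases (by omega : k1 + 1 < n ∨ k1 + 1 = n) with h7 | h7
      · rw [Nat.mod_eq_of_lt h7] at a3
        omega
      · have := a4 h7
        omega
    · rcases (by omega : k2 + 1 < n ∨ k2 + 1 = n) with h7 | h7
      · rw [Nat.mod_eq_of_lt h7] at a3
        omega
      · rw [h7, Nat.mod_self] at a3
        omega
  · exfalso
    rcases h5 with ⟨h5, -⟩ | ⟨h5, -⟩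
    · have := at_idx F.bd hk (by omega) hat h5
      omega
    · have := at_idx F.bd hk h4'.2 hat h5
      omega

/-- **At most one exit over a site.** -/
theorem over_unique (F : Cell K B (D : Set (ℤ × ℤ)) n P u 1) (C : LC B ω ℓ) (hk₀ : k₀ ≤ n)
    (hc : Clr K B n P u k₀ ω) (X : Ex K (D : Set (ℤ × ℤ)) n P u ω g i j) (hg : g ∈ ℓ)
    (hcs : (j < k₀ ∧ i < j) ∨ (¬ j < k₀ ∧ j < i)) (X' : Ex K (D : Set (ℤ × ℤ)) n P u ω h i' j')
    (hh : h ∈ ℓ) (hcs' : (j' < k₀ ∧ i' < j') ∨ (¬ j' < k₀ ∧ j' < i'))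
    (h1 : min i j < z ∧ z ≤ max i j) (h2 : min i' j' < z ∧ z ≤ max i' j') : g = h := by
  have a1 := under_exit F C hk₀ hc X hg hcs (X'.memS F) hh (Or.inl X'.hdE) X'.hi X'.at1
  have a2 := under_exit F C hk₀ hc X hg hcs (nxt_mem C.hl (X'.memS F) hh).1
    (nxt_mem C.hl (X'.memS F) hh).2 (Or.inr X'.lst) X'.hj X'.at2
  have b1 := under_exit F C hk₀ hc X' hh hcs' (X.memS F) hg (Or.inl X.hdE) X.hi X.at1
  have b2 := under_exit F C hk₀ hc X' hh hcs' (nxt_mem C.hl (X.memS F) hg).1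
    (nxt_mem C.hl (X.memS F) hg).2 (Or.inr X.lst) X.hj X.at2
  have c1 : i ≠ j' := X'.ne2 F X.hdE X.at1
  have c2 : i' ≠ j := X.ne2 F X'.hdE X'.at1
  have : i = i' := by omega
  subst this
  exact at_ed F.bd X.at1 X'.at1

end Vale.Agent.P167.N.ID
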