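import Vale.Agent.P167.N.ID.CellM

/-!
# P167, `q < 1`, START: the weights of the interface

`sq_agree`, `nxt_agree`, `wS_agree`: strands off a cell do not see its squares. `int_same`, `wm_val`:
the weights of the exits of the interface. `DobF.nonneg`, `DobF.int_agree`, `DobF.int_low`.
-/

set_option autoImplicit false

namespace Vale.Agent.P167.N.ID

open Finset
open Vale.Agent.P167.BR
open Vale.Agent.P167.FK
open Vale.Agent.P167.Top
open Vale.Agent.P167.H871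
open Vale.Agent.P167.H871.Q
open Vale.Agent.P167.A (plane)
open Vale.Agent.P167.XDL (bS mem_bS P4_be)
open Vale.Agent.P167.H199 (strand ret mem_strand loop_nx loop_iter ret_min ret_le
  strand_sub sum_strand Returns strand_unique ah at' cang cang_congr)
open Vale.Agent.P167.H680.S (nxt nxt_mem nxt_induct nxt_inj trS sum_rule MixE)
open Vale.Agent.P167.QX (returns_loop card_out_in fLp wS VisL)
open Vale.Agent.P167.H685 (LE mem_LE loop_loc nx_loc)

variable {ω ω' : Cfg} {ℓ ℓ' : Finset Ed} {K : Finset (ℤ × ℤ)} {B E E' : Set (ℤ × ℤ)} {n k₀ z zc zo : ℕ}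
  {P : ℕ → ℤ × ℤ} {u : ℕ → ℤ} {τ τ' : ℤ} {b x y g h : Ed} {i j k l i' j' : ℕ}
  {D R : Finset (ℤ × ℤ)} {X : Set (ℤ × ℤ)} {θ β C0 : ℝ} {a : Ed → Bool → ℝ}

/-! ### strands which do not see a set of squares -/

theorem it_agree {m : ℕ} (h : ∀ k < m, ω (hdv ((nx ω)^[k] b)) = ω' (hdv ((nx ω)^[k] b))) {k : ℕ}
    (hk : k ≤ m) : (nx ω')^[k] b = (nx ω)^[k] b := by
  induction k with
  | zero => rfl
  | succ k ih =>
    rw [Function.iterate_succ_apply', Function.iterate_succ_apply', ih (by omega)]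
    exact (nx_loc (h k (by omega))).symm

theorem ret_agree (hr : Returns (nx ω) (bS K) b)
    (h : ∀ k < ret (nx ω) (bS K) b, ω (hdv ((nx ω)^[k] b)) = ω' (hdv ((nx ω)^[k] b))) :
    ret (nx ω') (bS K) b = ret (nx ω) (bS K) b := by
  obtain ⟨h1, h2⟩ := hr.spec
  have h3 := it_agree h le_rfl
  have h4 : (nx ω')^[ret (nx ω) (bS K) b] b ∈ bS K := by rw [h3]; exact h2
  have h5 := ret_le (f := nx ω') h1 h4
  by_contra hne
  have hR : Returns (nx ω') (bS K) b := ⟨_, h1, h4⟩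
  obtain ⟨h6, h7⟩ := hR.spec
  have h8 : ret (nx ω') (bS K) b < ret (nx ω) (bS K) b := by omega
  rw [it_agree h h8.le] at h7
  exact ret_min (f := nx ω) (by omega) h8 h7

theorem nxt_agree (hr : Returns (nx ω) (bS K) b)
    (h : ∀ k < ret (nx ω) (bS K) b, ω (hdv ((nx ω)^[k] b)) = ω' (hdv ((nx ω)^[k] b))) :
    nxt (bS K) ω' b = nxt (bS K) ω b := by
  unfold nxt
  rw [ret_agree hr h, it_agree h le_rfl]

theorem wS_agree (hr : Returns (nx ω) (bS K) b)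
    (h : ∀ k < ret (nx ω) (bS K) b, ω (hdv ((nx ω)^[k] b)) = ω' (hdv ((nx ω)^[k] b)))
    (a : Ed → Bool → ℝ) : wS θ K a ω b = wS θ K a ω' b := by
  have h1 := ret_agree hr h
  have h2 : strand (nx ω) (bS K) b = strand (nx ω') (bS K) b := by
    ext y
    rw [mem_strand, mem_strand, h1]
    constructor
    · rintro ⟨k, hk, rfl⟩
      exact ⟨k, hk, it_agree h hk.le⟩
    · rintro ⟨k, hk, rfl⟩
      exact ⟨k, hk, (it_agree h hk.le).symm⟩
  unfold wS
  rw [← h2, cang_congr (fun y hy => ?_) θ]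
  obtain ⟨k, hk, rfl⟩ := mem_strand.1 hy
  exact h k hk

/-- A strand which does not start in a cell does not see it. -/
theorem sq_agree (F : Cell K B E n P u τ) (C : LC B ω ℓ) (hag : ∀ v, v ∉ E → v ∉ B → ω v = ω' v)
    (hb : b ∈ ℓ) (h : hdv b ∉ E) :
    ∀ k < ret (nx ω) (bS K) b, ω (hdv ((nx ω)^[k] b)) = ω' (hdv ((nx ω)^[k] b)) := by
  intro k hk
  refine hag _ ?_ (C.hd_off (C.it_mem hb k))
  rw [F.stays C hb hk]
  exact h

/-! ### the weights of the exits -/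

/-- **The exits of the interface between steps of one colour.** -/
theorem int_same (hs : Real.sin θ ≠ 0) (F : Cell K B (D : Set (ℤ × ℤ)) n P u 1) (C : LC B ω ℓ)
    (hk₀ : k₀ ≤ n) (hc : Clr K B n P u k₀ ω) (hm : ∃ b ∈ ℓ, MixE K ω b)
    (H : Phs θ β C0 K B (D : Set (ℤ × ℤ)) n P u 1 k₀ zc zo a)
    (X : Ex K (D : Set (ℤ × ℤ)) n P u ω b i j) (hb : b ∈ ℓ) :
    (i < k₀ → j < k₀ → i < j ∧
      wS θ K a ω b = if i < zc ∧ zc ≤ j then 2 * Real.cos θ else 1) ∧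
    (¬ i < k₀ → ¬ j < k₀ → j < i ∧
      wS θ K a ω b = if j < zo ∧ zo ≤ i then 2 * Real.cos θ else 1) := by
  obtain ⟨o1, o2⟩ := int_order F C hk₀ hc hm X hb
  obtain ⟨w1, w2⟩ := wS_same F C H X hb
  obtain ⟨hne, c, t1, t2⟩ := turn_gen (Or.inl rfl) F.bd X F.dis
  constructor
  · intro h1 h2
    have h3 := o1 h1 h2
    refine ⟨h3, ?_⟩
    rw [w1 h1 h2, t1]
    have hc : c = -2 := by omega
    obtain ⟨v1, v2, -⟩ := wq_val (θ := θ) (s := 1) (Or.inl rfl) hs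
    unfold lab
    by_cases h4 : i < zc ∧ zc ≤ j
    · rw [if_pos h4, ← v2, if_pos h4.1, if_neg (by omega), hc]
      congr 1
      ring
    · rw [if_neg h4, hc]
      refine Eq.trans ?_ v1
      congr 1
      by_cases h5 : i < zc
      · rw [if_pos (show j < zc by omega), if_pos h5]; ring
      · rw [if_neg (show ¬ j < zc by omega), if_neg h5]; ring
  · intro h1 h2
    have h3 := o2 h1 h2
    refine ⟨h3, ?_⟩
    rw [w2 h1 h2, t1]
    have hc : c = 2 := by omega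
    obtain ⟨v1, v2, -⟩ := wq_val (θ := θ) (s := -1) (Or.inr rfl) hs
    unfold lab
    by_cases h4 : j < zo ∧ zo ≤ i
    · rw [if_pos h4, ← v2, if_pos h4.1, if_neg (by omega), hc]
      congr 1
      ring
    · rw [if_neg h4, hc]
      refine Eq.trans ?_ v1
      congr 1
      by_cases h5 : j < zo
      · rw [if_pos h5, if_pos (show i < zo by omega)]; ring
      · rw [if_neg h5, if_neg (show ¬ i < zo by omega)]; ring

/-- **The weights of the mixed strands.** -/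
theorem wm_val (hs : Real.sin θ ≠ 0) (hβ : β = (θ - Real.pi) / 2) (p r : ℕ) :
    wm θ β zc zo p r = if (r < zo ↔ p < zc) then 1 else if r < zo then 2 * Real.cos θ else 0 := by
  have e3 : Real.sin (2 * θ) / Real.sin θ = 2 * Real.cos θ := by
    rw [Real.sin_two_mul]; field_simp
  unfold wm
  rw [hβ]
  by_cases h1 : r < zo <;> by_cases h2 : p < zc
  · rw [if_pos h1, if_pos h2, if_pos (iff_of_true h1 h2),
      show θ / 2 + (θ - Real.pi) / 2 + θ * (1 - 1) = θ - Real.pi / 2 by ring,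
      Real.cos_sub_pi_div_two, div_self hs]
  · rw [if_pos h1, if_neg h2, if_neg (fun h => h2 (h.1 h1)),
      show θ / 2 + (θ - Real.pi) / 2 + θ * (1 - 0) = 2 * θ - Real.pi / 2 by ring,
      Real.cos_sub_pi_div_two, e3, if_pos h1]
  · rw [if_neg h1, if_pos h2, if_neg (fun h => h1 (h.2 h2)),
      show θ / 2 + (θ - Real.pi) / 2 + θ * (0 - 1) = -(Real.pi / 2) by ring,
      Real.cos_neg, Real.cos_pi_div_two, zero_div, if_neg h1]
  · rw [if_neg h1, if_neg h2, if_pos (iff_of_false h1 h2),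
      show θ / 2 + (θ - Real.pi) / 2 + θ * (0 - 0) = θ - Real.pi / 2 by ring,
      Real.cos_sub_pi_div_two, div_self hs]

/-- A mixed exit over the junction, of weight `2 cos θ`. -/
def KS (K : Finset (ℤ × ℤ)) (E : Set (ℤ × ℤ)) (n : ℕ) (P : ℕ → ℤ × ℤ) (u : ℕ → ℤ) (k₀ zc zo : ℕ)
    (ω : Cfg) (b : Ed) : Prop :=
  ∃ i j, Ex K E n P u ω b i j ∧ ((i < k₀ ∧ ¬ j < k₀ ∧ zc ≤ i ∧ j < zo) ∨
    (¬ i < k₀ ∧ j < k₀ ∧ zc ≤ j ∧ i < zo))

/-- An exit between steps of one colour over the base. -/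
def OS (K : Finset (ℤ × ℤ)) (E : Set (ℤ × ℤ)) (n : ℕ) (P : ℕ → ℤ × ℤ) (u : ℕ → ℤ) (k₀ zc zo : ℕ)
    (ω : Cfg) (b : Ed) : Prop :=
  ∃ i j, Ex K E n P u ω b i j ∧ ((i < k₀ ∧ j < k₀ ∧ i < zc ∧ zc ≤ j) ∨
    (¬ i < k₀ ∧ ¬ j < k₀ ∧ j < zo ∧ zo ≤ i))

open Classical in
/-- **The weights of the exits of the interface in a bounded cell.** -/
theorem int_wt (hs : Real.sin θ ≠ 0) (hβ : β = (θ - Real.pi) / 2)
    (F : Cell K B (D : Set (ℤ × ℤ)) n P u 1) (C : LC B ω ℓ)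
    (hk₀ : k₀ ≤ n) (hc : Clr K B n P u k₀ ω) (hm : ∃ b ∈ ℓ, MixE K ω b)
    (H : Phs θ β C0 K B (D : Set (ℤ × ℤ)) n P u 1 k₀ zc zo a)
    (X : Ex K (D : Set (ℤ × ℤ)) n P u ω b i j) (hb : b ∈ ℓ) :
    wS θ K a ω b = 0 ∨
      wS θ K a ω b = if KS K (D : Set (ℤ × ℤ)) n P u k₀ zc zo ω b ∨
        OS K (D : Set (ℤ × ℤ)) n P u k₀ zc zo ω b then 2 * Real.cos θ else 1 := by
  obtain ⟨s1, s2⟩ := int_same hs F C hk₀ hc hm H X hb
  obtain ⟨m1, m2⟩ := wS_mix F C H X hb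
  have uq : ∀ {i' j' : ℕ}, Ex K (D : Set (ℤ × ℤ)) n P u ω b i' j' → i' = i ∧ j' = j := fun Y =>
    ⟨at_idx F.bd Y.hi X.hi Y.at1 X.at1, at_idx F.bd Y.hj X.hj Y.at2 X.at2⟩
  have hK : KS K (D : Set (ℤ × ℤ)) n P u k₀ zc zo ω b ↔ ((i < k₀ ∧ ¬ j < k₀ ∧ zc ≤ i ∧ j < zo) ∨
      (¬ i < k₀ ∧ j < k₀ ∧ zc ≤ j ∧ i < zo)) := by
    constructor
    · rintro ⟨i', j', Y, hY⟩
      obtain ⟨rfl, rfl⟩ := uq Y
      exact hY
    · exact fun h => ⟨i, j, X, h⟩
  have hO : OS K (D : Set (ℤ × ℤ)) n P u k₀ zc zo ω b ↔ ((i < k₀ ∧ j < k₀ ∧ i < zc ∧ zc ≤ j) ∨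
      (¬ i < k₀ ∧ ¬ j < k₀ ∧ j < zo ∧ zo ≤ i)) := by
    constructor
    · rintro ⟨i', j', Y, hY⟩
      obtain ⟨rfl, rfl⟩ := uq Y
      exact hY
    · exact fun h => ⟨i, j, X, h⟩
  rw [hK, hO]
  by_cases h1 : i < k₀ <;> by_cases h2 : j < k₀
  · right
    obtain ⟨h3, h4⟩ := s1 h1 h2
    rw [h4]
    by_cases h5 : i < zc ∧ zc ≤ j
    · rw [if_pos h5, if_pos (Or.inr (Or.inl ⟨h1, h2, h5.1, h5.2⟩))]
    · rw [if_neg h5, if_neg (by omega)]
  · rw [m1 h1 h2, wm_val hs hβ]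
    by_cases h5 : j < zo
    · right
      by_cases h6 : i < zc
      · rw [if_pos (iff_of_true h5 h6), if_neg (by omega)]
      · rw [if_neg (fun h => h6 (h.1 h5)), if_pos h5,
          if_pos (Or.inl (Or.inl ⟨h1, h2, by omega, h5⟩))]
    · by_cases h6 : i < zc
      · left
        rw [if_neg (fun h => h5 (h.2 h6)), if_neg h5]
      · right
        rw [if_pos (iff_of_false h5 h6), if_neg (by omega)]
  · rw [m2 h1 h2, wm_val hs hβ]
    by_cases h5 : i < zo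
    · right
      by_cases h6 : j < zc
      · rw [if_pos (iff_of_true h5 h6), if_neg (by omega)]
      · rw [if_neg (fun h => h6 (h.1 h5)), if_pos h5,
          if_pos (Or.inl (Or.inr ⟨h1, h2, by omega, h5⟩))]
    · by_cases h6 : j < zc
      · left
        rw [if_neg (fun h => h5 (h.2 h6)), if_neg h5]
      · right
        rw [if_pos (iff_of_false h5 h6), if_neg (by omega)]
  · right
    obtain ⟨h3, h4⟩ := s2 h1 h2
    rw [h4]
    by_cases h5 : j < zo ∧ zo ≤ i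
    · rw [if_pos h5, if_pos (Or.inr (Or.inr ⟨h1, h2, h5.1, h5.2⟩))]
    · rw [if_neg h5, if_neg (by omega)]

open Classical in
/-- At most two exits of the interface between steps of one colour pass over the bases. -/
theorem os_card (F : Cell K B (D : Set (ℤ × ℤ)) n P u 1) (C : LC B ω ℓ)
    (hk₀ : k₀ ≤ n) (hc : Clr K B n P u k₀ ω) (S : Finset Ed)
    (hS : ∀ b ∈ S, b ∈ ℓ ∧ OS K (D : Set (ℤ × ℤ)) n P u k₀ zc zo ω b) : S.card ≤ 2 := by
  classical
  set S1 := S.filter fun b => ∃ i j, Ex K (D : Set (ℤ × ℤ)) n P u ω b i j ∧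
    (i < k₀ ∧ j < k₀ ∧ i < zc ∧ zc ≤ j) with hS1
  set S2 := S.filter fun b => ∃ i j, Ex K (D : Set (ℤ × ℤ)) n P u ω b i j ∧
    (¬ i < k₀ ∧ ¬ j < k₀ ∧ j < zo ∧ zo ≤ i) with hS2
  have h12 : S ⊆ S1 ∪ S2 := by
    intro b hb
    obtain ⟨hbℓ, i, j, X, h | h⟩ := hS b hb
    · exact mem_union_left _ (mem_filter.2 ⟨hb, i, j, X, h⟩)
    · exact mem_union_right _ (mem_filter.2 ⟨hb, i, j, X, h⟩)
  have c1 : S1.card ≤ 1 := by
    rw [card_le_one]
    intro b hb b' hb'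
    obtain ⟨a1, i, j, X, a2, a3, a4, a5⟩ := mem_filter.1 hb
    obtain ⟨b1, i', j', X', b2, b3, b4, b5⟩ := mem_filter.1 hb'
    exact over_unique (z := zc) F C hk₀ hc X (hS b a1).1 (Or.inl ⟨a3, by omega⟩) X' (hS b' b1).1
      (Or.inl ⟨b3, by omega⟩) (by omega) (by omega)
  have c2 : S2.card ≤ 1 := by
    rw [card_le_one]
    intro b hb b' hb'
    obtain ⟨a1, i, j, X, a2, a3, a4, a5⟩ := mem_filter.1 hb
    obtain ⟨b1, i', j', X', b2, b3, b4, b5⟩ := mem_filter.1 hb'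
    exact over_unique (z := zo) F C hk₀ hc X (hS b a1).1 (Or.inr ⟨a3, by omega⟩) X' (hS b' b1).1
      (Or.inr ⟨b3, by omega⟩) (by omega) (by omega)
  have := card_le_card h12
  have := card_union_le S1 S2
  omega

namespace DobF

variable {cD cR cX : CD} (F : DobF θ β K B a D R X cD cR cX) (hD : cD.Clr K B ω)
  (hR : cR.Clr K B ω) (hX : cX.Clr K B ω) (C : LC B ω ℓ) (hm : ∃ b ∈ ℓ, MixE K ω b)

include F hX C hm in
/-- The exits of the interface. -/
theorem exits (hb : b ∈ bS K) (hbℓ : b ∈ ℓ) (hbK : hdv b ∉ K) :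
    (hdv b ∈ D ∧ ∃ i j, Ex K (D : Set (ℤ × ℤ)) cD.n cD.P cD.u ω b i j) ∨
      (hdv b ∈ R ∧ hdv b ∉ D ∧ ∃ i j, Ex K (R : Set (ℤ × ℤ)) cR.n cR.P cR.u ω b i j) := by
  have h3 : tlv b ∈ K := by
    rw [mem_bS] at hb
    rcases hb with h | h
    · exact absurd h.1 hbK
    · exact h.2
  obtain ⟨b0, h0, hm⟩ := hm
  rcases F.side C hb hbℓ with h | h | h
  · have h4 := h.resolve_right (F.oD.cell.dis _ h3)
    exact Or.inl ⟨mem_coe.1 h4, F.oD.cell.exit C hbℓ h4 h3⟩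
  · have h4 := h.resolve_right (F.oR.cell.dis _ h3)
    exact Or.inr ⟨mem_coe.1 h4, fun h5 => F.DR _ h5 (mem_coe.1 h4), F.oR.cell.exit C hbℓ h4 h3⟩
  · exact absurd h (F.notX hX C h0 hm hb hbℓ)

include F hD C hm in
/-- The exits into the domain have the weight one. -/
theorem wD (hs : Real.sin θ ≠ 0) (hβ : β = (θ - Real.pi) / 2)
    (X : Ex K (D : Set (ℤ × ℤ)) cD.n cD.P cD.u ω b i j) (hb : b ∈ ℓ) : wS θ K a ω b = 1 := by
  obtain ⟨s1, s2⟩ := int_same hs F.oD.cell C F.oD.hk hD hm F.oD.ph X hb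
  obtain ⟨m1, m2⟩ := wS_mix F.oD.cell C F.oD.ph X hb
  obtain ⟨z1, z2⟩ := F.zD
  by_cases h1 : i < cD.k₀ <;> by_cases h2 : j < cD.k₀
  · rw [(s1 h1 h2).2, if_neg (by omega)]
  · rw [m1 h1 h2, wm_val hs hβ, if_pos (by omega)]
  · rw [m2 h1 h2, wm_val hs hβ, if_pos (by omega)]
  · rw [(s2 h1 h2).2, if_neg (by omega)]

include F hD hR hX C hm in
/-- **(a)** The factor of the interface is not negative. -/
theorem int_nonneg (hs : Real.sin θ ≠ 0) (hcos : 0 < Real.cos θ) (hβ : β = (θ - Real.pi) / 2) :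
    0 ≤ fLp θ K a ω ℓ := by
  classical
  unfold fLp
  refine div_nonneg (prod_nonneg fun e he => ?_) (by linarith)
  obtain ⟨h1, h2, h3⟩ := mem_filter.1 he
  rcases F.exits hX C hm h1 h3 h2 with ⟨-, i, j, X⟩ | ⟨-, -, i, j, X⟩
  · rw [F.wD hD C hm hs hβ X h3]; exact zero_le_one
  · rcases int_wt hs hβ F.oR.cell C F.oR.hk hR hm F.oR.ph X h3 with h | h
    · rw [h]
    · rw [h]
      split_ifs
      · linarith
      · exact zero_le_one

open Classical in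
/-- The exits over the junction, of weight `2 cos θ`. -/
noncomputable def ks (cR : CD) (K R : Finset (ℤ × ℤ)) (ω : Cfg) (ℓ : Finset Ed) : Finset Ed :=
  (bS K).filter fun e => (hdv e ∉ K ∧ e ∈ ℓ) ∧
    KS K (R : Set (ℤ × ℤ)) cR.n cR.P cR.u cR.k₀ cR.zc cR.zo ω e

include F hD hR hX C hm in
open Classical in
/-- **(e)** The lower bound of the factor of the interface. -/
theorem int_low (hs : Real.sin θ ≠ 0) (hcos : 0 < Real.cos θ) (hcos' : 2 * Real.cos θ ≤ 1)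
    (hβ : β = (θ - Real.pi) / 2) (hne : fLp θ K a ω ℓ ≠ 0) :
    (2 * Real.cos θ) ^ (1 + (ks cR K R ω ℓ).card) ≤ fLp θ K a ω ℓ := by
  set c := 2 * Real.cos θ with hc
  have hc0 : 0 < c := by rw [hc]; linarith
  set T := (bS K).filter fun e => hdv e ∉ K ∧ e ∈ ℓ with hT
  set S := T.filter fun e => KS K (R : Set (ℤ × ℤ)) cR.n cR.P cR.u cR.k₀ cR.zc cR.zo ω e ∨
    OS K (R : Set (ℤ × ℤ)) cR.n cR.P cR.u cR.k₀ cR.zc cR.zo ω e with hS
  have hne' : ∀ e ∈ T, wS θ K a ω e ≠ 0 := by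
    intro e he h0
    apply hne
    unfold fLp
    rw [prod_eq_zero he h0, zero_div]
  have hw : ∀ e ∈ T, (if e ∈ S then c else 1) ≤ wS θ K a ω e := by
    intro e he
    obtain ⟨h1, h2, h3⟩ := mem_filter.1 he
    rcases F.exits hX C hm h1 h3 h2 with ⟨-, i, j, Y⟩ | ⟨-, -, i, j, Y⟩
    · rw [F.wD hD C hm hs hβ Y h3]
      split_ifs
      · exact hcos'
      · exact le_rfl
    · have h4 := (int_wt hs hβ F.oR.cell C F.oR.hk hR hm F.oR.ph Y h3).resolve_left (hne' e he)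
      rw [h4]
      refine le_of_eq ?_
      refine if_congr ?_ rfl rfl
      rw [hS, mem_filter]
      exact ⟨fun h => h.2, fun h => ⟨he, h⟩⟩
  have hprod : c ^ S.card ≤ ∏ e ∈ T, wS θ K a ω e := by
    have h1 : ∏ e ∈ T, (if e ∈ S then c else 1) = c ^ S.card := by
      rw [prod_ite, prod_const, prod_const_one, mul_one]
      congr 2
      ext e
      rw [mem_filter]
      exact ⟨fun h => h.2, fun h => ⟨(mem_filter.1 h).1, h⟩⟩
    rw [← h1]
    refine prod_le_prod (fun e _ => ?_) hw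
    split_ifs
    · exact hc0.le
    · exact zero_le_one
  have hcard : S.card ≤ 2 + (ks cR K R ω ℓ).card := by
    set S' := T.filter fun e => OS K (R : Set (ℤ × ℤ)) cR.n cR.P cR.u cR.k₀ cR.zc cR.zo ω e
      with hS'
    have h1 : S ⊆ S' ∪ ks cR K R ω ℓ := by
      intro e he
      obtain ⟨h1, h2⟩ := mem_filter.1 he
      obtain ⟨h3, h4⟩ := mem_filter.1 h1
      rcases h2 with h2 | h2
      · exact mem_union_right _ (mem_filter.2 ⟨h3, h4, h2⟩)
      · exact mem_union_left _ (mem_filter.2 ⟨h1, h2⟩)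
    have h2 : S'.card ≤ 2 := os_card F.oR.cell C F.oR.hk hR S' (fun b hb => by
      obtain ⟨h1, h2⟩ := mem_filter.1 hb
      exact ⟨(mem_filter.1 h1).2.2, h2⟩)
    have := card_le_card h1
    have := card_union_le S' (ks cR K R ω ℓ)
    omega
  unfold fLp
  rw [← hc, le_div_iff₀ hc0, ← pow_succ]
  refine le_trans ?_ hprod
  exact pow_le_pow_of_le_one hc0.le hcos' (by omega)

end DobF

end Vale.Agent.P167.N.ID
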