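import Vale.Agent.P167.N.ID.GeoFam
import Vale.Agent.P167.H680.T.Red

/-!
# P167, block ID, geometry of the frames: the frame of the Dobrushin boundary conditions

The rows of the polygon, of the box and the spoke.
-/

set_option autoImplicit false

namespace Vale.Agent.P167.N.ID

open Finset Filter Topology
open Vale.Agent.P167.E6 (IsPolygon Encloses dir face region)
open Vale.Agent.P167.H825 (pdir enl domP Box dirOf Marks FlowIn epos rnd bsite)
open Vale.Agent.P167.H825.Q (Row srow Bc mem_srow)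
open Vale.Agent.P167.XDL (bS mem_bS)
open Vale.Agent.P167.H199 (mks mth reg rg sp Gen MgR mgR_rg mgR_reg Gap mks_ok c0 c0_pos reg_ne
  int_far exists_Gap)
open Vale.Agent.P167.H680 (Mg)
open Vale.Agent.P167.H680.T (WallG WCG Fam Cls)
open Vale.Agent.P167.Enl (sW eW tB rowP mem_rowP frm vp Rows rows_marks R0 row_mg nm_enl row_near
  op_out op_near nm_tri nm_sub_comm vz_eq fin4_cases dir0 dir1 dir2 dir3 mem_enl_div pdir_step)

variable {l : ℕ} {p : ZMod l → ℤ × ℤ} {S₀ : Finset (ℤ × ℤ)} {b : Box} {n d : ℕ} {tp : ℝ}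

/-! ### the base point of the box -/

theorem exists_tq (b : Box) : ∃ t : ℝ, 0 < t ∧ t < 1 ∧
    ∀ i : ℤ, ∀ y ∈ ({b.xl, b.xr, b.yb, b.yt} : Set ℝ), y ≠ i + t ∧ y ≠ i - t := by
  have key : ((({b.xl, b.xr, b.yb, b.yt} : Set ℝ).prod (Set.univ : Set ℤ)).image
      (fun x : ℝ × ℤ => x.1 - (x.2 : ℝ)) ∪ (({b.xl, b.xr, b.yb, b.yt} : Set ℝ).prod (Set.univ : Set ℤ)).image
      (fun x : ℝ × ℤ => (x.2 : ℝ) - x.1)).Countable := by
    have h1 : (({b.xl, b.xr, b.yb, b.yt} : Set ℝ).prod (Set.univ : Set ℤ)).Countable :=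
      (Set.Finite.countable (by simp)).prod Set.countable_univ
    exact (h1.image _).union (h1.image _)
  have h2 : ¬ (Set.Ioo (0 : ℝ) 1).Countable := by
    rw [← Cardinal.le_aleph0_iff_set_countable, Cardinal.mk_Ioo_real one_pos, not_le]
    exact Cardinal.aleph0_lt_continuum
  obtain ⟨t, ht, ht'⟩ : ∃ t ∈ Set.Ioo (0 : ℝ) 1,
      t ∉ (({b.xl, b.xr, b.yb, b.yt} : Set ℝ).prod (Set.univ : Set ℤ)).image
      (fun x : ℝ × ℤ => x.1 - (x.2 : ℝ)) ∪ (({b.xl, b.xr, b.yb, b.yt} : Set ℝ).prod (Set.univ : Set ℤ)).image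
      (fun x : ℝ × ℤ => (x.2 : ℝ) - x.1) := by
    by_contra hc
    push Not at hc
    exact h2 (key.mono hc)
  refine ⟨t, ht.1, ht.2, fun i y hy => ⟨fun h => ht' (Or.inl ⟨(y, i), ⟨hy, trivial⟩, ?_⟩),
    fun h => ht' (Or.inr ⟨(y, i), ⟨hy, trivial⟩, ?_⟩)⟩⟩
  · simp only; linarith
  · simp only; linarith

/-- A base point in general position. -/
noncomputable def tqB (b : Box) : ℝ := (exists_tq b).choose

theorem tqB_spec (b : Box) : 0 < tqB b ∧ tqB b < 1 ∧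
    ∀ i : ℤ, ∀ y ∈ ({b.xl, b.xr, b.yb, b.yt} : Set ℝ), y ≠ i + tqB b ∧ y ≠ i - tqB b :=
  (exists_tq b).choose_spec

/-! ### the box of the pinwheel in units of the box -/

theorem bQ_mem (hp : IsPolygon p) (hD : Encloses p S₀) (hN : Nrm p) (hb : b.Ok S₀) :
    (0 < b.xl ∧ b.xl < b.xr ∧ b.xr < bM p) ∧ 0 < b.yb ∧ b.yb < b.yt ∧ b.yt < bM p := by
  have key : ∀ x : ℝ × ℝ, x ∈ domP S₀ → (0 < x.1 ∧ x.1 < bM p) ∧ 0 < x.2 ∧ x.2 < bM p := by
    intro x hx
    have h2 : (⟨x.1, x.2⟩ : ℂ) ∈ region 1 S₀ := interior_subset hx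
    obtain ⟨f, hf, h3, h4, h5, h6⟩ := h2
    have h7 : f ∈ enl S₀ 1 := by
      rw [mem_enl_div one_pos]
      simpa using hf
    obtain ⟨⟨g1, g2⟩, g3, g4⟩ := enl_mem hp hD hN one_pos h7
    have g1' : (2 : ℝ) ≤ f.1 := by exact_mod_cast (by omega : (2 : ℤ) ≤ f.1)
    have g3' : (2 : ℝ) ≤ f.2 := by exact_mod_cast (by omega : (2 : ℤ) ≤ f.2)
    have g2' : (f.1 : ℝ) + 2 < bM p := by exact_mod_cast (by omega : f.1 + 2 < (bM p : ℤ))
    have g4' : (f.2 : ℝ) + 2 < bM p := by exact_mod_cast (by omega : f.2 + 2 < (bM p : ℤ))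
    simp only [one_mul] at h3 h4 h5 h6
    refine ⟨⟨?_, ?_⟩, ?_, ?_⟩ <;> linarith
  have k1 := key (b.xl, b.yb) (hb.sub _ le_rfl hb.lr.le le_rfl hb.bt.le)
  have k2 := key (b.xr, b.yt) (hb.sub _ hb.lr.le le_rfl hb.bt.le le_rfl)
  exact ⟨⟨k1.1.1, hb.lr, k2.1.2⟩, k1.2.1, hb.bt, k2.2.2⟩

theorem gen_bQ (hp : IsPolygon p) (hD : Encloses p S₀) (hN : Nrm p) (hb : b.Ok S₀) :
    Gen (bQ b (bM p)) ∧ (bQ b (bM p)).Ok {(0, 0)} := by
  obtain ⟨⟨a1, a2, a3⟩, a4, a5, a6⟩ := bQ_mem hp hD hN hb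
  have hM : (0 : ℝ) < bM p := by linarith
  have f : ∀ c : ℝ, 0 < c → c < bM p → Int.fract (c / bM p) = c / bM p := fun c h1 h2 =>
    Int.fract_eq_self.2 ⟨by positivity, by rw [div_lt_one hM]; exact h2⟩
  have q : ∀ {c c' : ℝ}, c < c' → c / bM p < c' / bM p := fun h => div_lt_div_of_pos_right h hM
  have g : Gen (bQ b (bM p)) := by
    unfold bQ
    refine ⟨?_, ?_⟩
    · rw [f _ a1 (a2.trans a3), f _ (a1.trans a2) a3]
      exact ⟨by positivity, (by have := a1.trans a2; positivity), (q a2).ne⟩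
    · rw [f _ a4 (a5.trans a6), f _ (a4.trans a5) a6]
      exact ⟨by positivity, (by have := a4.trans a5; positivity), (q a5).ne⟩
  refine ⟨g, ⟨q a2, q a5, fun x h1 h2 h3 h4 => ?_, g.gx, g.gy⟩⟩
  -- the open unit square
  have hop : IsOpen {z : ℂ | (0 < z.re ∧ z.re < 1) ∧ 0 < z.im ∧ z.im < 1} :=
    ((isOpen_lt continuous_const Complex.continuous_re).inter
      (isOpen_lt Complex.continuous_re continuous_const)).inter
      ((isOpen_lt continuous_const Complex.continuous_im).inter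
      (isOpen_lt Complex.continuous_im continuous_const))
  show (⟨x.1, x.2⟩ : ℂ) ∈ interior (region 1 {(0, 0)})
  refine interior_maximal (fun z hz => ?_) hop ?_
  · refine ⟨(0, 0), mem_singleton_self _, ?_, ?_, ?_, ?_⟩
    · simpa using hz.1.1.le
    · simpa using hz.1.2.le
    · simpa using hz.2.1.le
    · simpa using hz.2.2.le
  · have u1 : 0 < b.xl / bM p := by positivity
    have u2 : b.xr / bM p < 1 := by rw [div_lt_one hM]; exact a3
    have u3 : 0 < b.yb / bM p := by positivity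
    have u4 : b.yt / bM p < 1 := by rw [div_lt_one hM]; exact a6
    change b.xl / bM p ≤ x.1 at h1
    change x.1 ≤ b.xr / bM p at h2
    change b.yb / bM p ≤ x.2 at h3
    change x.2 ≤ b.yt / bM p at h4
    exact ⟨⟨by linarith, by linarith⟩, by linarith, by linarith⟩

/-! ### the frame -/

/-- The rows of the frame with Dobrushin boundary conditions: polygon, box, spoke. -/
abbrev IxD (l : ℕ) : Type := (Fin l × Fin 3) ⊕ (Fin 4 × Fin 3) ⊕ Unit

/-- The marks of the box. -/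
noncomputable def mksQ (p : ZMod l → ℤ × ℤ) (b : Box) : Marks :=
  mks pQ (bQ b (bM p)) (tqB (bQ b (bM p)))

/-- **The shapes of the rows** of the frame with Dobrushin boundary conditions. -/
noncomputable def shD (p : ZMod l → ℤ × ℤ) (b : Box) (tp : ℝ) (n d : ℕ) : IxD l → Row
  | .inl x => shp p (mks p b tp) n d x.1 x.2
  | .inr (.inl x) => shp pQ (mksQ p b) (bM p * n) d x.1 x.2
  | .inr (.inr _) => spk p n d

/-- The regions of the pinwheel of the rows. -/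
noncomputable def regD (p : ZMod l → ℤ × ℤ) (b : Box) : IxD l → Fin 5
  | .inl x => reg p b x.1 x.2
  | .inr (.inl x) => reg pQ (bQ b (bM p)) x.1 x.2
  | .inr (.inr _) => rg b ((p (iT p)).1, (p (iT p)).2)

/-- Edges of the spoke. -/
theorem spk_near {e : Ed} (he : e ∈ bS (spk p n d).I) :
    ∃ v ∈ (spk p n d).I, nm (epos e - v) ≤ 1 := by
  rw [H680.T.mem_bS_sq] at he
  rcases he with ⟨h, -⟩ | ⟨-, h⟩
  · exact ⟨_, h, H680.T.nm_sq e _⟩
  · exact ⟨_, h, H680.T.nm_sq e _⟩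

/-- The spoke is below the domain. -/
theorem spk_notMem (hp : IsPolygon p) (hD : Encloses p S₀) (hn : 0 < n) {v : ℤ × ℤ}
    (hv : v ∈ (spk p n d).I) : v ∉ enl S₀ n := by
  intro h
  have h1 := ((lowV_iT hp).enl hD hn h).1
  have h2 := (mem_spk.1 hv).2.2
  omega

/-- The rows of the polygon and of the box. -/
theorem far_PQ (hp : IsPolygon p) (hN : Nrm p) {i s e i' s' e' : ℕ} (he : e ≤ n)
    (hi' : i' < 4) {g g' : Ed}
    (hg : g ∈ bS (rowP p n i s e)) (hg' : g' ∈ bS (rowP pQ (bM p * n) i' s' e')) :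
    2 * (n : ℤ) - 4 ≤ nm (epos g - epos g') := by
  obtain ⟨σ, h1, h2, h3⟩ := row_near hg
  obtain ⟨σ', h4, h5, h6⟩ := row_near hg'
  have a1 := vp_mem (n := n) hp hN (i := i) (σ := σ) (by omega)
  have a2 := vpQ (N := bM p * n) hi' (σ := σ')
  rw [nm_le_iff] at h3 h6
  rw [le_nm_iff]
  push_cast at a2
  simp only [Prod.fst_sub, Prod.snd_sub] at *
  omega

/-- The rows of the polygon and the spoke. -/
theorem far_PS (hp : IsPolygon p) {i s e : ℕ} (he : e ≤ n) {g g' : Ed}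
    (hg : g ∈ bS (rowP p n i s e)) (hg' : g' ∈ bS (spk p n d).I) :
    (d : ℤ) - 2 ≤ nm (epos g - epos g') := by
  obtain ⟨σ, h1, h2, h3⟩ := row_near hg
  obtain ⟨v, h4, h5⟩ := spk_near hg'
  have a1 := (lowV_iT hp).vp (n := n) hp (i := i) (σ := σ) (by omega)
  obtain ⟨b1, b2, b3⟩ := mem_spk.1 h4
  rw [nm_le_iff] at h3 h5
  rw [le_nm_iff]
  simp only [Prod.fst_sub, Prod.snd_sub] at *
  omega

/-- The rows of the box and the spoke. -/
theorem far_QS (hp : IsPolygon p) (hN : Nrm p) {i s e : ℕ} (hi : i < 4) {g g' : Ed}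
    (hg : g ∈ bS (rowP pQ (bM p * n) i s e)) (hg' : g' ∈ bS (spk p n d).I) :
    min (d : ℤ) (2 * n) - 3 ≤ nm (epos g - epos g') := by
  have : NeZero l := ⟨by have := hp.1; omega⟩
  obtain ⟨σ, h1, h2, h3⟩ := row_near hg
  obtain ⟨v, h4, h5⟩ := spk_near hg'
  have a1 := vpQ (N := bM p * n) hi (σ := σ)
  obtain ⟨b1, b2, b3⟩ := mem_spk.1 h4
  have c1 := hN (iT p)
  have c2 := le_bM p (iT p)
  have hn0 : (0 : ℤ) ≤ n := by positivity
  have e1 : 2 * (n : ℤ) ≤ n * (p (iT p)).1 := by nlinarith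
  have e2 : n * (p (iT p)).1 + 2 * n ≤ bM p * (n : ℤ) := by nlinarith
  have e3 : n * (p (iT p)).2 + 2 * n ≤ bM p * (n : ℤ) := by nlinarith
  rw [nm_le_iff] at h3 h5
  rw [le_nm_iff]
  push_cast at a1
  have m1 := min_le_left (d : ℤ) (2 * n)
  have m2 := min_le_right (d : ℤ) (2 * n)
  simp only [Prod.fst_sub, Prod.snd_sub] at *
  omega

/-- The region of the spoke. -/
theorem rg_spk {i₀ : ℕ} (h : LowV p i₀) (hD : Encloses p S₀) (hb : b.Ok S₀) {x : ℝ × ℝ}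
    (h1 : x.1 = (p i₀).1) (h2 : x.2 ≤ (p i₀).2) :
    MgR b (c0 b) (rg b ((p i₀).1, (p i₀).2)) x ∧ rg b ((p i₀).1, (p i₀).2) ≠ 4 := by
  have h3 := h.yb hD hb
  have h4 := hb.bt
  have e1 : rg b x = rg b ((p i₀).1, (p i₀).2) := by
    unfold rg
    simp only [h1]
    have k1 : ¬ b.yt < x.2 := by linarith
    have k2 : ¬ b.yt < (p i₀).2 := by linarith
    have k3 : x.2 < b.yb := by linarith
    rw [if_neg k1, if_neg k2, if_pos k3, if_pos h3]
  have c1 : c0 b ≤ |((p i₀).1 : ℝ) - b.xl| :=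
    ((min_le_left _ _).trans (min_le_left _ _)).trans (int_far _ _)
  have c2 : c0 b ≤ |((p i₀).1 : ℝ) - b.xr| :=
    ((min_le_left _ _).trans (min_le_right _ _)).trans (int_far _ _)
  have c3 : c0 b ≤ |((p i₀).2 : ℝ) - b.yb| :=
    ((min_le_right _ _).trans (min_le_left _ _)).trans (int_far _ _)
  have c4 : c0 b ≤ |((p i₀).2 : ℝ) - b.yt| :=
    ((min_le_right _ _).trans (min_le_right _ _)).trans (int_far _ _)
  constructor
  · rw [← e1]
    refine mgR_rg (by rw [h1]; exact c1) (by rw [h1]; exact c2) ?_ ?_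
    · rw [abs_of_neg (by linarith)] at c3 ⊢
      linarith
    · rw [abs_of_neg (by linarith)] at c4 ⊢
      linarith
  · unfold rg
    simp only
    rw [if_neg (show ¬ b.yt < (p i₀).2 by linarith), if_pos h3]
    split_ifs <;> decide

/-- **The spoke.** -/
theorem famGeo_spk (hp : IsPolygon p) (hD : Encloses p S₀) (hb : b.Ok S₀) (hN : Nrm p) (δ : ℝ) :
    FamGeo S₀ b (fun _ : Unit => rg b ((p (iT p)).1, (p (iT p)).2))
      (fun n _ => (spk p n ⌊δ * n⌋₊).I) := by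
  have : NeZero l := ⟨by have := hp.1; omega⟩
  have hL := lowV_iT hp
  have hgen : Gen b := ⟨hb.gx, hb.gy⟩
  have hc0 := c0_pos hgen
  refine ⟨fun _ => (rg_spk hL hD hb (x := ((p (iT p)).1, (p (iT p)).2)) rfl le_rfl).2,
    fun κ₀ hκ₀ => ?_⟩
  refine ⟨min (c0 b / 2) (κ₀ / 2), by positivity, max (R0 p S₀ + 1) (bM p + 1), ?_⟩
  have ev : ∀ {x : ℝ} (y : ℝ), 0 < x → ∀ᶠ n : ℕ in atTop, y ≤ x * n := fun y hx =>
    (tendsto_natCast_atTop_atTop.const_mul_atTop hx).eventually_ge_atTop y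
  filter_upwards [ev 4 hκ₀, ev 2 hc0, eventually_gt_atTop 0] with n hn hn2 hn0
  have hn0' : (0 : ℝ) ≤ n := Nat.cast_nonneg n
  have hn1 : (1 : ℝ) ≤ n := by exact_mod_cast hn0
  have hn0z : (0 : ℤ) < n := by exact_mod_cast hn0
  have c1 := hN (iT p)
  have c2 := le_bM p (iT p)
  have e0 : 0 ≤ n * (p (iT p)).1 := by nlinarith
  have e1 : n * (p (iT p)).1 ≤ bM p * (n : ℤ) := by nlinarith
  have e2 : n * (p (iT p)).2 ≤ bM p * (n : ℤ) := by nlinarith
  refine ⟨fun _ e he => ?_, fun i j hij => absurd (Subsingleton.elim i j) hij,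
    fun u hu => ⟨?_, ?_⟩, fun _ e he => ?_⟩
  · obtain ⟨v, h4, h5⟩ := spk_near he
    obtain ⟨b1, b2, b3⟩ := mem_spk.1 h4
    have h6 : nm (epos e) ≤ bM p * (n : ℤ) + 1 := by
      rw [nm_le_iff] at h5 ⊢
      simp only [Prod.fst_sub, Prod.snd_sub] at h5
      omega
    have h7 : (nm (epos e) : ℝ) ≤ bM p * n + 1 := by exact_mod_cast h6
    have h8 : ((bM p : ℝ) + 1) * n ≤ max (R0 p S₀ + 1) (bM p + 1) * n :=
      mul_le_mul_of_nonneg_right (le_max_right _ _) hn0'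
    linarith
  · have h1 : u ∈ enl S₀ n := by
      refine hu _ ?_
      rw [sub_self]
      have e0 : nm (0 : ℤ × ℤ) = 0 := by simp [nm]
      rw [e0]
      push_cast
      positivity
    have h2 := nm_enl (p := p) h1
    have h8 : (R0 p S₀ + 1) * n ≤ max (R0 p S₀ + 1) (bM p + 1) * n :=
      mul_le_mul_of_nonneg_right (le_max_left _ _) hn0'
    linarith
  · intro _ e he
    obtain ⟨v, h4, h5⟩ := spk_near he
    by_contra hlt
    push Not at hlt
    refine spk_notMem hp hD hn0 h4 (hu v ?_)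
    have b1 := nm_tri v (epos e) u
    have b2 := nm_sub_comm v (epos e)
    have b3 := nm_sub_comm (epos e) u
    have b4 : (nm (v - u) : ℝ) ≤ 1 + nm (u - epos e) := by
      have : nm (v - u) ≤ 1 + nm (u - epos e) := by omega
      exact_mod_cast this
    have h8 : min (c0 b / 2) (κ₀ / 2) * n ≤ κ₀ / 2 * n :=
      mul_le_mul_of_nonneg_right (min_le_right _ _) hn0'
    linarith
  · obtain ⟨v, h4, h5⟩ := spk_near he
    obtain ⟨b1, b2, b3⟩ := mem_spk.1 h4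
    rw [nm_le_iff] at h5
    simp only [Prod.fst_sub, Prod.snd_sub] at h5
    have hnr : (0 : ℝ) < n := by exact_mod_cast hn0
    have h6 : ((v.2 : ℝ) / n) ≤ (p (iT p)).2 := by
      rw [div_le_iff₀ hnr]
      have : v.2 ≤ (p (iT p)).2 * n := by rw [mul_comm]; omega
      exact_mod_cast this
    have m1 := (rg_spk hL hD hb (x := ((p (iT p)).1, (v.2 : ℝ) / n)) rfl h6).1
    refine Enl.mg_mono' (mul_le_mul_of_nonneg_right (min_le_left _ _) hn0')
      (m1.mg (C := 1) ?_ ?_ (by linarith))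
    · have h7 : |(epos e).1 - n * (p (iT p)).1| ≤ 1 := by rw [abs_le]; omega
      show |((epos e).1 : ℝ) - n * ((p (iT p)).1 : ℝ)| ≤ 1
      exact_mod_cast h7
    · have h7 : |(epos e).2 - v.2| ≤ 1 := by rw [abs_le]; omega
      have h8 : (n : ℝ) * ((v.2 : ℝ) / n) = v.2 := by field_simp
      simp only [h8]
      exact_mod_cast h7

/-- **The frame with Dobrushin boundary conditions.** -/
theorem famGeo_dob (hp : IsPolygon p) (hD : Encloses p S₀) (hN : Nrm p) (hb : b.Ok S₀)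
    (h0 : 0 < tp) (h1 : tp < 1)
    (ht : ∀ i : ℤ, ∀ y ∈ ({b.xl, b.xr, b.yb, b.yt} : Set ℝ), y ≠ i + tp ∧ y ≠ i - tp)
    {g δ : ℝ} (hg : Gap (mks p b tp) l g) (hgQ : Gap (mksQ p b) 4 g) (hδ : 0 < δ)
    (hδg : 4 * δ ≤ g) :
    FamGeo S₀ b (regD p b) (fun n x => (shD p b tp n ⌊δ * n⌋₊ x).I) := by
  have hl : NeZero l := ⟨by have := hp.1; omega⟩
  obtain ⟨hgen, hbQ⟩ := gen_bQ hp hD hN hb
  obtain ⟨q0, q1, qt⟩ := tqB_spec (bQ b (bM p))
  have hM : 0 < bM p := by unfold bM; omega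
  have hM' : (1 : ℝ) ≤ bM p := by exact_mod_cast hM
  have f1 := famGeo_poly hp hD ⟨hb.gx, hb.gy⟩ hb.sub h0 h1 ht hg hδ hδg
  have f2 := famGeo_poly pQ_poly pQ_encl hgen hbQ.sub q0 q1 qt hgQ (δ := δ / bM p) (by positivity)
    (by
      have : δ / bM p ≤ δ := div_le_self hδ.le hM'
      linarith)
  have f2' := FamGeo.scale (S₀ := S₀) hM f2 (enl_sub hp hD hN)
  have f3 := famGeo_spk hp hD hb hN δ
  have ev : ∀ {x : ℝ} (y : ℝ), 0 < x → ∀ᶠ n : ℕ in atTop, y ≤ x * n := fun y hx =>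
    (tendsto_natCast_atTop_atTop.const_mul_atTop hx).eventually_ge_atTop y
  have hfl : ∀ n : ℕ, ⌊δ / bM p * ((bM p * n : ℕ) : ℝ)⌋₊ = ⌊δ * n⌋₊ := fun n => by
    congr 1
    push_cast
    field_simp
  have e2 : FamGeo S₀ b (fun x : Fin 4 × Fin 3 => reg pQ (bQ b (bM p)) x.1 x.2)
      (fun n x => (shp pQ (mksQ p b) (bM p * n) ⌊δ * n⌋₊ x.1 x.2).I) := by
    simp only [hfl] at f2'
    exact f2'
  have hPend : ∀ᶠ n : ℕ in atTop, ∀ x : Fin l × Fin 3,
      eW p n (mks p b tp) ⌊δ * n⌋₊ x.1 x.2 ≤ n := by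
    filter_upwards [ev 16 hδ] with n hn x
    have hR := rows_marks (p := p) (mks_ok p ⟨hb.gx, hb.gy⟩ h0 h1 ht) hg hδ hδg hn
    have := hR.hi x
    omega
  have hfl2 : ∀ n : ℕ, δ * n - 1 ≤ (⌊δ * n⌋₊ : ℝ) := fun n => by
    have := Nat.lt_floor_add_one (δ * n)
    linarith
  have hδ1 : δ ≤ 1 := by
    have h2 := hg.1 0 (by have := hp.1; omega) 0 (by
      show 0 ≤ 2
      omega)
    have h3 := H199.mth_mem ⟨hb.gx, hb.gy⟩ (pdir p 0) (j := 0) (by omega)
    have h4 := H199.mth_mem ⟨hb.gx, hb.gy⟩ (pdir p 0) (j := 1) (by omega)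
    change mth b (pdir p 0) 0 + g ≤ mth b (pdir p 0) (0 + 1) at h2
    linarith [h3.1, h4.2]
  have f23 := e2.sum f3 ⟨δ / 2, by positivity, by
    filter_upwards [ev 8 hδ] with n hn x _ e he e' he'
    rw [shp_I] at he
    have h3 := far_QS hp hN x.1.2 he he'
    have h4 : (min ((⌊δ * n⌋₊ : ℕ) : ℝ) (2 * n)) - 3 ≤ nm (epos e - epos e') := by
      exact_mod_cast h3
    have h5 := hfl2 n
    rcases min_cases ((⌊δ * n⌋₊ : ℕ) : ℝ) (2 * n) with ⟨h6, -⟩ | ⟨h6, -⟩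
    · rw [h6] at h4
      linarith
    · rw [h6] at h4
      have hn0' : (0 : ℝ) ≤ n := Nat.cast_nonneg n
      nlinarith⟩
  have f123 := f1.sum f23 ⟨δ / 2, by positivity, by
    filter_upwards [ev 8 hδ, hPend] with n hn hE x y e he e' he'
    simp only [shp_I] at he
    rcases y with y | y
    · change e' ∈ bS (shp pQ (mksQ p b) (bM p * n) ⌊δ * n⌋₊ y.1 y.2).I at he'
      rw [shp_I] at he'
      have h3 := far_PQ hp hN (hE x) y.1.2 he he'
      have h4 : 2 * (n : ℝ) - 4 ≤ nm (epos e - epos e') := by exact_mod_cast h3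
      have hn0' : (0 : ℝ) ≤ n := Nat.cast_nonneg n
      nlinarith
    · change e' ∈ bS (spk p n ⌊δ * n⌋₊).I at he'
      have h3 := far_PS hp (hE x) he he'
      have h4 : ((⌊δ * n⌋₊ : ℕ) : ℝ) - 2 ≤ nm (epos e - epos e') := by exact_mod_cast h3
      have h5 := hfl2 n
      linarith⟩
  have g1 : regD p b = Sum.elim (fun x : Fin l × Fin 3 => reg p b x.1 x.2)
      (Sum.elim (fun x : Fin 4 × Fin 3 => reg pQ (bQ b (bM p)) x.1 x.2)
        (fun _ : Unit => rg b ((p (iT p)).1, (p (iT p)).2))) := by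
    funext x
    rcases x with x | x | x <;> rfl
  have g2 : (fun (n : ℕ) (x : IxD l) => (shD p b tp n ⌊δ * n⌋₊ x).I) =
      fun n => Sum.elim (fun x : Fin l × Fin 3 => (shp p (mks p b tp) n ⌊δ * n⌋₊ x.1 x.2).I)
        (Sum.elim (fun x : Fin 4 × Fin 3 =>
          (shp pQ (mksQ p b) (bM p * n) ⌊δ * n⌋₊ x.1 x.2).I)
          (fun _ : Unit => (spk p n ⌊δ * n⌋₊).I)) := by
    funext n x
    rcases x with x | x | x <;> rfl
  rw [g1, g2]
  exact f123

/-- The gaps between the marks of the polygon and of the box. -/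
theorem exists_gapD (hp : IsPolygon p) (hD : Encloses p S₀) (hN : Nrm p) (hb : b.Ok S₀)
    (h0 : 0 < tp) (h1 : tp < 1)
    (ht : ∀ i : ℤ, ∀ y ∈ ({b.xl, b.xr, b.yb, b.yt} : Set ℝ), y ≠ i + tp ∧ y ≠ i - tp) :
    ∃ g : ℝ, 0 < g ∧ Gap (mks p b tp) l g ∧ Gap (mksQ p b) 4 g := by
  obtain ⟨hgen, hbQ⟩ := gen_bQ hp hD hN hb
  obtain ⟨q0, q1, qt⟩ := tqB_spec (bQ b (bM p))
  obtain ⟨g1, hg1, hG⟩ := exists_Gap (mks_ok p ⟨hb.gx, hb.gy⟩ h0 h1 ht) l
  obtain ⟨g2, hg2, hB⟩ := exists_Gap (mks_ok pQ hgen q0 q1 qt) 4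
  exact ⟨min g1 g2, lt_min hg1 hg2, hG.mono (min_le_left _ _), hB.mono (min_le_right _ _)⟩

end Vale.Agent.P167.N.ID
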