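import Vale.Agent.P167.N.ID.Rebase
import Vale.Agent.P167.N.ID.GeoDob
import Vale.Agent.P167.H592.U.Rws

/-!
# P167, `q < 1`, START: the cut between the box and the domain

The box `[0, N)²`, the domain with its rows `F` in the box, the vertical strip from the bottom side of
the box to the lowest vertex `(X, Y)` of the domain.
-/

set_option autoImplicit false

namespace Vale.Agent.P167.N.ID

open Finset
open Vale.Agent.P167.Top
open Vale.Agent.P167.H871
open Vale.Agent.P167.H871.Q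
open Vale.Agent.P167.E6 (IsPolygon Encloses dir face)
open Vale.Agent.P167.H825 (pdir enl ptau Marks)
open Vale.Agent.P167.Enl (pW uW pW_vp uW_same uW_mod vp vz_eq tB sR eR)

variable {l : ℕ} {p : ZMod l → ℤ × ℤ} {S₀ : Finset (ℤ × ℤ)}

/-- The squares of the box. -/
theorem mem_boxE {N : ℕ} {v : ℤ × ℤ} : v ∈ enl {(0, 0)} N ↔
    (0 ≤ v.1 ∧ v.1 < N) ∧ 0 ≤ v.2 ∧ v.2 < N := by
  rw [H327.mem_enl]
  constructor
  · rintro ⟨w, hw, h1, h2⟩
    rw [mem_singleton] at hw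
    subst hw
    simp only [mul_zero, zero_add] at h1 h2
    omega
  · rintro ⟨⟨h1, h2⟩, h3, h4⟩
    refine ⟨(0, 0), mem_singleton_self _, ?_, ?_⟩ <;> simp only [mul_zero, zero_add] <;>
      constructor <;> omega

/-- The position of the inner set. -/
structure InnF (F : Set (ℤ × ℤ)) (N : ℕ) (X Y : ℤ) : Prop where
  box : ∀ v ∈ F, (2 ≤ v.1 ∧ v.1 + 3 ≤ N) ∧ 2 ≤ v.2 ∧ v.2 + 3 ≤ N
  low : ∀ v ∈ F, v.2 < Y → v.1 + 2 < X ∨ X + 2 < v.1
  t1 : (X, Y) ∈ F
  t2 : (X + 1, Y) ∈ F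

/-- Neighbouring squares. -/
theorem sqL_nb (v : ℤ × ℤ) (d : ℤ) :
    ((sqL v d).1 = v.1 ∨ (sqL v d).1 = v.1 - 1) ∧ ((sqL v d).2 = v.2 ∨ (sqL v d).2 = v.2 - 1) := by
  unfold sqL
  simp only
  split_ifs <;> omega

/-- The constants of the cut: the first step of the box, the index of the lowest vertex. -/
structure InnP (F : Set (ℤ × ℤ)) (b : ℕ) (P : ℕ → ℤ × ℤ) (u : ℕ → ℤ) (X Y : ℤ) : Prop where
  bd : Bd F (b + 1) P u 1
  cov : Cov F P u
  hb : 2 ≤ b
  s : P 0 = (X, Y)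
  t : u 0 = 0

/-- The inner path from the lowest vertex. -/
theorem exists_low {F : Set (ℤ × ℤ)} {N m : ℕ} {X Y : ℤ} {P : ℕ → ℤ × ℤ} {u : ℕ → ℤ}
    (hF : InnF F N X Y) (hb : Bd F m P u 1) (hc : Cov F P u) (hm : 0 < m) :
    ∃ c < m, P c = (X, Y) ∧ u c % 4 = 0 := by
  have h1 : sqL (X, Y) 0 ∈ F := by
    rw [(Cut.sq_vals X Y 0).1 (by norm_num)]
    exact hF.t1
  have h2 : sqL (X, Y) (0 - 1) ∉ F := by
    rw [(Cut.sq_vals X Y (0 - 1)).2.2.2 (by norm_num)]
    intro h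
    have := hF.low _ h
    simp only at this
    omega
  obtain ⟨k, hk, h3, h4⟩ := hc.lt hb hm h1 h2
  exact ⟨k, hk, h3, h4⟩

section outer

variable {N t : ℕ} (hN : 0 < N) (ht : t < N)

include hN ht

/-- The boundary path of the box. -/
theorem bd_out : Bd (enl {(0, 0)} N : Set (ℤ × ℤ)) (4 * N) (pW pQ N t) (uW pQ N t) 1 :=
  bd_shift (Enl.bd_qN hN pQ_poly pQ_encl ht) _

theorem cov_out : Cov (enl {(0, 0)} N : Set (ℤ × ℤ)) (pW pQ N t) (uW pQ N t) :=
  (cov_of (Enl.isPolygon_qN hN pQ_poly t) (Enl.encloses_qN hN pQ_poly pQ_encl t)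
    (Enl.bd_qN hN pQ_poly pQ_encl ht)).shift (Enl.bd_qN hN pQ_poly pQ_encl ht)
    (Nat.mul_pos (by norm_num) hN) _

/-- The lower side of the box. -/
theorem low_out {σ : ℕ} (hσ : σ < N) : pW pQ N t (2 * N + σ) = ((σ : ℤ), 0) ∧
    uW pQ N t (2 * N + σ) % 4 = 0 := by
  obtain ⟨d0, d1, d2, d3⟩ := pdir_pQ
  refine ⟨?_, ?_⟩
  · rw [pW_vp hN ht (by norm_num) hσ]
    unfold vp
    have e2 : pQ ((2 : ℕ) : ZMod 4) = (0, 0) := rfl
    rw [d2, e2, (vz_eq _ _).1]
    simp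
  · rw [uW_mod pQ_poly pQ_encl hN ht hσ, d2]
    rfl

end outer

/-- **The cut of the box along the column of the lowest vertex of the inner set.** -/
theorem cut_mk {F : Set (ℤ × ℤ)} {N t b c X Y : ℕ} {P : ℕ → ℤ × ℤ} {u : ℕ → ℤ}
    (ht : t < N) (hF : InnF F N X Y) (hb : Bd F (b + 1) P u 1) (hc : Cov F P u) (hb2 : 2 ≤ b)
    (hcP : P c = ((X : ℤ), (Y : ℤ))) (hcu : u c % 4 = 0) :
    Cut (enl {(0, 0)} N : Set (ℤ × ℤ)) F (4 * N - 1) b Y
      (fun k => pW pQ N t (k + (2 * N + X))) (fun k => P (k + c))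
      (fun k => uW pQ N t (k + (2 * N + X)) - uW pQ N t (2 * N + X)) (fun k => u (k + c) - u c)
      X 0 := by
  have hX := hF.box _ hF.t1
  have hX2 := hF.box _ hF.t2
  simp only at hX hX2
  have hN : 0 < N := by omega
  have hbo := bd_out hN ht
  have hco := cov_out hN ht
  have e4 : 4 * N - 1 + 1 = 4 * N := by omega
  obtain ⟨l1, l2⟩ := low_out hN ht (σ := X) (by omega)
  have hsame : ∀ σ τ, σ < N → τ < N → uW pQ N t (2 * N + σ) = uW pQ N t (2 * N + τ) :=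
    fun σ τ h1 h2 => uW_same hN ht (by norm_num) h1 h2
  have hbi := bd_base hb c (κ := u c) hcu
  -- the squares around the sites of the two paths
  have houtE : ∀ k, sqL (pW pQ N t k) (uW pQ N t k - 1) ∉ (enl {(0, 0)} N : Set (ℤ × ℤ)) :=
    fun k => hbo.right k
  have hinF : ∀ k, sqL (P k) (u k) ∈ F := fun k => hb.left k
  have hPbox : ∀ k, (2 ≤ (P k).1 ∧ (P k).1 + 2 ≤ N) ∧ 2 ≤ (P k).2 ∧ (P k).2 + 2 ≤ N := by
    intro k
    have h1 := hF.box _ (hinF k)
    have h2 := sqL_nb (P k) (u k)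
    omega
  have hf2 : ∀ (k : ℕ) (z j : ℤ), (X : ℤ) ≤ z → z ≤ X + 1 → 0 ≤ j → j < Y → P k ≠ (z, 0 + j) := by
    intro k z j h1 h2 h3 h4 h5
    have h6 := hF.low _ (hinF k)
    have h7 := sqL_nb (P k) (u k)
    rw [h5] at h6 h7
    simp only at h7
    omega
  refine
    { b1 := by rw [e4]; exact bd_base hbo _ l2
      c1 := cov_base hco hbo (by omega) _ l2
      b2 := hbi
      c2 := cov_base hc hb (by omega) c hcu
      ha := by omega
      hb := hb2
      hH := by omega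
      s1 := by rw [zero_add, l1]
      t1 := by rw [zero_add, sub_self]
      v1 := ?_
      w1 := ?_
      s2 := by rw [zero_add, hcP, zero_add]
      t2 := by rw [zero_add, sub_self]
      v2 := ?_
      w2 := ?_
      f1 := ?_
      f2 := fun k z j h1 h2 h3 h4 => hf2 _ z j h1 h2 h3 h4
      dis := ?_
      sq := ?_
      l1 := ?_
      l2 := ?_ }
  · rw [show 1 + (2 * N + X) = 2 * N + (X + 1) by ring, hsame (X + 1) X (by omega) (by omega),
      sub_self]
  · have h1 := hbo.per (2 * N + (X - 1))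
    rw [show 4 * N - 1 + (2 * N + X) = 2 * N + (X - 1) + 4 * N by omega, h1,
      hsame (X - 1) X (by omega) (by omega)]
    ring
  · -- the first step of the inner path
    have h1 : sqL ((X : ℤ) + 1, (Y : ℤ)) 0 ∈ F := by
      rw [(Cut.sq_vals _ _ 0).1 (by norm_num)]
      exact hF.t2
    have h2 : sqL ((X : ℤ) + 1, (Y : ℤ)) (0 - 1) ∉ F := by
      rw [(Cut.sq_vals _ _ (0 - 1)).2.2.2 (by norm_num)]
      intro h
      have := hF.low _ h
      simp only at this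
      omega
    obtain ⟨k, h3, h4⟩ := hc _ _ h1 h2
    have h5 : P (c + 1) = ((X : ℤ) + 1, (Y : ℤ)) := by
      rw [hb.step, hcP, vec_congr (d' := 0) (by omega)]
      ext <;> simp [vec, dx, dy]
    -- the index modulo the period
    have h6 : u (c + 1) % 4 = u k % 4 := by
      obtain ⟨g1, g2⟩ := hb.perN (k % (b + 1)) (k / (b + 1))
      obtain ⟨g3, g4⟩ := hb.perN ((c + 1) % (b + 1)) ((c + 1) / (b + 1))
      rw [Nat.mod_add_div] at g1 g2 g3 g4
      have m1 := Nat.mod_lt k (show 0 < b + 1 by omega)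
      have m2 := Nat.mod_lt (c + 1) (show 0 < b + 1 by omega)
      have g5 : P (k % (b + 1)) = P ((c + 1) % (b + 1)) := by rw [← g2, ← g4, h3, h5]
      have g6 : k % (b + 1) = (c + 1) % (b + 1) := by
        rcases lt_trichotomy (k % (b + 1)) ((c + 1) % (b + 1)) with h | h | h
        · exact absurd g5 (hb.inj _ _ h (by omega))
        · exact h
        · exact absurd g5.symm (hb.inj _ _ h (by omega))
      rw [g1, g3, g6, mul_assoc, mul_assoc]
      omega
    have h7 := hb.turn c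
    rw [abs_le] at h7
    rw [show 1 + c = c + 1 by ring]
    omega
  · -- the last step of the inner path
    have h1 := hb.per c
    have h2 := hb.turn (c + b)
    have h3 := hb.step (c + b)
    have h4 := hb.perP c
    rw [show c + (b + 1) = c + b + 1 by ring] at h1 h4
    rw [abs_le] at h2
    rw [show b + c = c + b by ring]
    by_contra h5
    have h6 : u (c + b) % 4 = 1 := by omega
    rw [h4, hcP, vec_congr (d' := 1) (by omega)] at h3
    refine hf2 (c + b) X (Y - 1) le_rfl (by omega) (by omega) (by omega) ?_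
    have h7 := congrArg Prod.fst h3
    have h8 := congrArg Prod.snd h3
    simp only [Prod.fst_add, Prod.snd_add, vec, dx, dy] at h7 h8
    norm_num at h7 h8
    ext <;> simp only <;> omega
  · intro k z j h1 h2 h3 h4 h5
    have h6 := houtE (k + (2 * N + X))
    rw [h5, mem_coe, mem_boxE] at h6
    have h7 := sqL_nb (z, 0 + j) (uW pQ N t (k + (2 * N + X)) - 1)
    simp only at h7
    omega
  · intro k k' h5
    have h6 := houtE (k + (2 * N + X))
    have h8 := hPbox (k' + c)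
    rw [h5, mem_coe, mem_boxE] at h6
    have h7 := sqL_nb (P (k' + c)) (uW pQ N t (k + (2 * N + X)) - 1)
    omega
  · intro z j h1 h2 h3 h4
    refine ⟨?_, ?_⟩
    · rw [mem_coe, mem_boxE]
      simp only
      omega
    · intro h5
      have := hF.low _ h5
      simp only at this
      omega
  · intro k h5
    have h6 := houtE (k + (2 * N + X))
    rw [mem_coe, mem_boxE] at h6
    rw [sqL_congr (d' := uW pQ N t (k + (2 * N + X))) (by omega)] at h5
    have h7 := hF.box _ h5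
    have h8 := sqL_nb (pW pQ N t (k + (2 * N + X))) (uW pQ N t (k + (2 * N + X)))
    have h9 := sqL_nb (pW pQ N t (k + (2 * N + X))) (uW pQ N t (k + (2 * N + X)) - 1)
    omega
  · intro k
    have h8 := hPbox (k + c)
    rw [mem_coe, mem_boxE]
    have h9 := sqL_nb (P (k + c)) (u (k + c) - u c - 1)
    omega

/-! ### the domain with its rows -/

section inner

open Vale.Agent.P167.Enl (frmQ mem_frmQ op op_near vp_far vp_same frame_rws frame_sq uI_frows
  row_bds row_dat row_num gn_big tB_lt)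
open Vale.Agent.P167.H199 (Gap)

variable {n : ℕ} {Q : Marks} {g δ : ℝ}

/-- The abscissa of the lowest vertex. -/
noncomputable def xV (p : ZMod l → ℤ × ℤ) (n : ℕ) : ℕ := (n * (p (iT p)).1).toNat

/-- The height of the lowest vertex. -/
noncomputable def yV (p : ZMod l → ℤ × ℤ) (n : ℕ) : ℕ := (n * (p (iT p)).2).toNat

theorem xV_eq (hN : Nrm p) : (xV p n : ℤ) = n * (p (iT p)).1 ∧ (yV p n : ℤ) = n * (p (iT p)).2 := by
  have h := hN (iT p)
  have hn0 : (0 : ℤ) ≤ n := by positivity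
  unfold xV yV
  rw [Int.toNat_of_nonneg (by nlinarith), Int.toNat_of_nonneg (by nlinarith)]
  exact ⟨rfl, rfl⟩

/-- The squares of the rows are far from the lowest vertex and above it. -/
theorem row_pos (hp : IsPolygon p) (hN : Nrm p) (hQ : Q.Ok) (hg : Gap Q l g) (hδ : 0 < δ)
    (hδg : 4 * δ ≤ g) (hn : 16 ≤ δ * n) {v : ℤ × ℤ} (hv : v ∈ frmQ p Q n ⌊δ * n⌋₊) :
    ((2 * n ≤ v.1 + 1 ∧ v.1 + 2 * n ≤ bM p * n + 1) ∧ 2 * n ≤ v.2 + 1 ∧
      v.2 + 2 * n ≤ bM p * n + 1) ∧ (yV p n : ℤ) ≤ v.2 + 1 ∧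
      14 ≤ nm (v - ((xV p n : ℤ), (yV p n : ℤ))) := by
  obtain ⟨⟨⟨i, hi⟩, ⟨j, hj⟩⟩, σ, h1, h2, rfl⟩ := mem_frmQ.1 hv
  simp only at h1 h2 ⊢
  obtain ⟨g1, g2, g3⟩ := row_num (Q := Q) hi (show j ≤ Q.m by omega)
  have h5 := row_bds (p := p) hQ hg hδ hδg hn g1
  rw [g2, g3] at h5
  have hσ : 15 ≤ σ ∧ σ + 15 ≤ n := by omega
  have a1 := vp_mem (n := n) hp hN (i := i) (σ := σ) (by omega)
  have a2 := (lowV_iT hp).vp (n := n) hp (i := i) (σ := σ) (by omega)
  obtain ⟨a3, a4⟩ := xV_eq (n := n) hN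
  have a5 := op_near (p := p) (n := n) i σ
  -- the distance from the lowest vertex
  have hT : vp p n (iT p) (0 : ℤ) = ((xV p n : ℤ), (yV p n : ℤ)) := by
    rw [a3, a4]
    unfold vp Enl.vz
    ext <;> simp
  have a6 : 15 ≤ nm (vp p n i σ - vp p n (iT p) (0 : ℤ)) := by
    by_cases hii : i = iT p
    · rw [← hii, vp_same, sub_zero, abs_of_nonneg (by positivity)]
      omega
    · exact vp_far hp hi (lowV_iT hp).lt hii le_rfl (by positivity) (by omega) (by omega) (by omega)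
  rw [hT] at a6
  rw [nm_le_iff] at a5
  rw [le_nm_iff] at a6 ⊢
  simp only [Prod.fst_sub, Prod.snd_sub] at *
  omega

/-- **The domain with its rows in the box.** -/
theorem innF (hp : IsPolygon p) (hD : Encloses p S₀) (hN : Nrm p) (hQ : Q.Ok) (hg : Gap Q l g)
    (hδ : 0 < δ) (hδg : 4 * δ ≤ g) (hn : 16 ≤ δ * n) :
    InnF ((enl S₀ n : Set (ℤ × ℤ)) ∪ (frmQ p Q n ⌊δ * n⌋₊ : Set (ℤ × ℤ))) (bM p * n) (xV p n)
      (yV p n) := by
  have hl : 0 < l := by have := hp.1; omega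
  obtain ⟨-, -, -, -, b5⟩ := gn_big hQ hg hδg hn hl
  obtain ⟨a3, a4⟩ := xV_eq (n := n) hN
  have hn2 : 16 ≤ n := by
    have h1 := hg.1 0 hl 0 (by omega)
    have h2 := hQ.zero 0
    have h3 : Q.θ 0 1 ≤ 1 := by
      have := Enl.theta_le_one hQ 0 (j := 1) (by omega)
      exact this
    have h4 : δ ≤ 1 := by
      have h5 : Q.θ 0 0 + g ≤ Q.θ 0 (0 + 1) := h1
      rw [h2] at h5
      simp only [zero_add] at h5
      linarith
    have h5 : (0 : ℝ) ≤ n := Nat.cast_nonneg n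
    have h6 : (16 : ℝ) ≤ n := by nlinarith
    exact_mod_cast h6
  obtain ⟨s1, s2, s3⟩ := (lowV_iT hp).sides hp hD
  have hT : ∀ z : ℤ, z = 0 ∨ z = 1 → ((xV p n : ℤ) + z, (yV p n : ℤ)) ∈ enl S₀ n := by
    intro z hz
    rw [H327.mem_enl, a3, a4]
    refine ⟨_, s3, ?_, ?_⟩ <;> simp only <;> constructor <;> omega
  refine ⟨?_, ?_, ?_, ?_⟩
  · rintro v (hv | hv)
    · have h1 := enl_mem hp hD hN b5 (mem_coe.1 hv)
      push_cast
      omega
    · have h1 := (row_pos hp hN hQ hg hδ hδg hn (mem_coe.1 hv)).1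
      push_cast
      omega
  · rintro v (hv | hv) h2
    · have h1 := ((lowV_iT hp).enl hD b5 (mem_coe.1 hv)).1
      omega
    · obtain ⟨-, h3, h4⟩ := row_pos hp hN hQ hg hδ hδg hn (mem_coe.1 hv)
      rw [le_nm_iff] at h4
      simp only [Prod.fst_sub, Prod.snd_sub] at h4
      omega
  · have := hT 0 (Or.inl rfl)
    rw [add_zero] at this
    exact Or.inl (mem_coe.2 this)
  · exact Or.inl (mem_coe.2 (hT 1 (Or.inr rfl)))

/-- The squares of the rows. -/
theorem rws_frm (hp : IsPolygon p) (hD : Encloses p S₀) (hQ : Q.Ok) (hg : Gap Q l g)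
    (hδ : 0 < δ) (hδg : 4 * δ ≤ g) (hn : 16 ≤ δ * n) :
    rws (pW p n (tB n Q)) (uW p n (tB n Q)) (l * (Q.m + 1)) (sR p n Q ⌊δ * n⌋₊)
      (eR p n Q ⌊δ * n⌋₊) = (frmQ p Q n ⌊δ * n⌋₊ : Set (ℤ × ℤ)) := by
  have h := frame_sq (θ := 0) (β := 0) (bc := H825.Q.Bc.free) hp hD hQ hg hδ hδg hn
  rw [uI_frows] at h
  exact h.symm

/-- The rows of the frame. -/
theorem rws_of (hp : IsPolygon p) (hD : Encloses p S₀) (hQ : Q.Ok) (hg : Gap Q l g)
    (hδ : 0 < δ) (hδg : 4 * δ ≤ g) (hn : 16 ≤ δ * n) :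
    Rws (enl S₀ n : Set (ℤ × ℤ)) (l * n) (pW p n (tB n Q)) (uW p n (tB n Q)) (l * (Q.m + 1))
      (sR p n Q ⌊δ * n⌋₊) (eR p n Q ⌊δ * n⌋₊) :=
  frame_rws hp hD hQ hg hδ hδg hn

/-- **The region between the box and the domain is a cell**, from the cell inside of the box and the
cell outside of the domain with its rows. -/
theorem glue_dob {K₁ K₂ : Finset (ℤ × ℤ)} {B F : Set (ℤ × ℤ)} {N t m c : ℕ} {P : ℕ → ℤ × ℤ}
    {u : ℕ → ℤ} {n d : ℕ} (hNp : Nrm p) (hd : 2 ≤ d)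
    (ht : t < N) (hF : InnF F N (xV p n) (yV p n)) (hb : Bd F m P u 1) (hc : Cov F P u)
    (hm : 3 ≤ m) (hcm : c < m) (hcP : P c = ((xV p n : ℤ), (yV p n : ℤ))) (hcu : u c % 4 = 0)
    (hK₂ : ∀ v ∈ K₂, (yV p n : ℤ) ≤ v.2 + 1)
    (F₁ : Cell K₁ B (enl {(0, 0)} N : Set (ℤ × ℤ)) (4 * N) (pW pQ N t) (uW pQ N t) 1)
    (F₂ : Cell K₂ B Fᶜ m (revP m P) (revU m u) (-1))
    (hT : ∀ v : ℤ × ℤ, nm (v - ((xV p n : ℤ), (yV p n : ℤ))) ≤ d + 3 → v ∈ B)
    (hS : ∀ v : ℤ × ℤ, nm (v - ((xV p n : ℤ), 0)) ≤ d + 3 → v ∈ B) :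
    Glue K₁ K₂ (spk p n d).I B (enl {(0, 0)} N : Set (ℤ × ℤ)) F (4 * N - 1) (m - 1) (yV p n)
      (fun k => pW pQ N t (k + (2 * N + xV p n))) (fun k => P (k + c))
      (fun k => uW pQ N t (k + (2 * N + xV p n)) - uW pQ N t (2 * N + xV p n))
      (fun k => u (k + c) - u c) (xV p n) 0 := by
  obtain ⟨b, rfl⟩ : ∃ b, m = b + 1 := ⟨m - 1, by omega⟩
  have hX := hF.box _ hF.t1
  simp only at hX
  have hN : 0 < N := by omega
  obtain ⟨a3, a4⟩ := xV_eq (n := n) hNp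
  have hC := cut_mk ht hF hb hc (show 2 ≤ b by omega) hcP hcu
  have e4 : 4 * N - 1 + 1 = 4 * N := by omega
  obtain ⟨l1, l2⟩ := low_out hN ht (σ := xV p n) (by omega)
  have hsp : ∀ v, v ∈ (spk p n d).I ↔ v.1 = xV p n ∧ d ≤ v.2 ∧ v.2 + d < yV p n := fun v => by
    rw [mem_spk, a3, a4]
  have hvec : ∀ t : ℤ, (-1 ≤ (vec t).1 ∧ (vec t).1 ≤ 1) ∧ -1 ≤ (vec t).2 ∧ (vec t).2 ≤ 1 := by
    intro t
    unfold vec
    rcases head_cases t with ⟨-, h2, h3⟩ | ⟨-, h2, h3⟩ | ⟨-, h2, h3⟩ | ⟨-, h2, h3⟩ <;>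
      rw [h2, h3] <;> norm_num
  have hnT : ∀ v : ℤ × ℤ, (v.1 = xV p n ∨ v.1 = xV p n + 1 ∨ v.1 = xV p n - 1) →
      (v.2 = yV p n ∨ v.2 = yV p n - 1) → v ∈ B := by
    intro v h1 h2
    apply hT
    rw [nm_le_iff]
    simp only [Prod.fst_sub, Prod.snd_sub]
    omega
  have hnS : ∀ v : ℤ × ℤ, (v.1 = xV p n ∨ v.1 = xV p n + 1 ∨ v.1 = xV p n - 1) →
      (v.2 = 0 ∨ v.2 = -1) → v ∈ B := by
    intro v h1 h2
    apply hS
    rw [nm_le_iff]
    simp only [Prod.fst_sub, Prod.snd_sub]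
    omega
  refine
    { C := hC
      F₁ := by rw [e4]; exact F₁.base _ l2
      F₂ := F₂.rbase hb hcm hcu
      fe := fun v hv => ?_
      k3 := fun v hv => ?_
      s3 := fun v hv => ?_
      e1 := ?_
      e2 := ?_
      e3 := ?_
      e4 := ?_
      e5 := hnS _ (Or.inl rfl) (Or.inl rfl)
      e6 := hnT _ (Or.inl rfl) (Or.inr (by simp))
      d12 := fun v hv t ht => ?_
      d13 := fun v hv t ht => ?_
      d23 := fun v hv t ht => ?_ }
  · have := hF.box v hv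
    rw [mem_coe, mem_boxE]
    omega
  · rw [hsp] at hv
    exact ⟨hv.1, by omega, by omega⟩
  · obtain ⟨h1, h2, h3⟩ := hv
    by_cases h4 : v ∈ (spk p n d).I
    · exact Or.inl h4
    · right
      rw [hsp] at h4
      rcases (by omega : v.2 < d ∨ (yV p n : ℤ) ≤ v.2 + d) with h5 | h5
      · apply hS
        rw [nm_le_iff]
        simp only [Prod.fst_sub, Prod.snd_sub]
        omega
      · apply hT
        rw [nm_le_iff]
        simp only [Prod.fst_sub, Prod.snd_sub]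
        omega
  · have h1 := hC.p11
    have h2 := hC.v1
    have h3 := hC.b1.turn 0
    rw [zero_add, hC.t1, abs_le] at h3
    show sqL (pW pQ N t (1 + (2 * N + xV p n))) (uW pQ N t (1 + (2 * N + xV p n)) -
      uW pQ N t (2 * N + xV p n) - 1) ∈ B
    rw [h1]
    refine hnS _ ?_ ?_
    · have := (sqL_nb ((xV p n : ℤ) + 1, (0 : ℤ)) (uW pQ N t (1 + (2 * N + xV p n)) -
        uW pQ N t (2 * N + xV p n) - 1)).1
      simp only at this ⊢
      omega
    · have := (sqL_nb ((xV p n : ℤ) + 1, (0 : ℤ)) (uW pQ N t (1 + (2 * N + xV p n)) -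
        uW pQ N t (2 * N + xV p n) - 1)).2
      simp only at this ⊢
      omega
  · -- the step before the foot
    have h1 : pW pQ N t (4 * N - 1 + 1 + (2 * N + xV p n)) = ((xV p n : ℤ), (0 : ℤ)) := hC.pa
    have h3 : pW pQ N t (4 * N - 1 + 1 + (2 * N + xV p n)) =
      pW pQ N t (4 * N - 1 + (2 * N + xV p n)) + vec (uW pQ N t (4 * N - 1 + (2 * N + xV p n)) -
        uW pQ N t (2 * N + xV p n)) := hC.b1.step (4 * N - 1)
    have g1 := sqL_next (pW pQ N t (4 * N - 1 + (2 * N + xV p n)))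
      (uW pQ N t (4 * N - 1 + (2 * N + xV p n)) - uW pQ N t (2 * N + xV p n))
    rw [← h3, h1] at g1
    show sqL (pW pQ N t (4 * N - 1 + (2 * N + xV p n))) (uW pQ N t (4 * N - 1 +
      (2 * N + xV p n)) - uW pQ N t (2 * N + xV p n) - 1) ∈ B
    rw [← g1]
    have := sqL_nb ((xV p n : ℤ), (0 : ℤ)) (uW pQ N t (4 * N - 1 + (2 * N + xV p n)) -
      uW pQ N t (2 * N + xV p n) - 2)
    refine hnS _ ?_ ?_
    · simp only at this ⊢
      omega
    · simp only at this ⊢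
      omega
  · have h1 : P (1 + c) = ((xV p n : ℤ) + 1, 0 + (yV p n : ℤ)) := hC.p21
    show sqL (P (1 + c)) (u (1 + c) - u c) ∈ B
    rw [h1]
    have := sqL_nb ((xV p n : ℤ) + 1, 0 + (yV p n : ℤ)) (u (1 + c) - u c)
    refine hnT _ ?_ ?_
    · simp only at this ⊢
      omega
    · simp only at this ⊢
      omega
  · have h1 : P (b + 1 + c) = ((xV p n : ℤ), 0 + (yV p n : ℤ)) := hC.pb
    have h3 : P (b + 1 + c) = P (b + c) + vec (u (b + c) - u c) := hC.b2.step b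
    have g1 := sqL_next' (P (b + c)) (u (b + c) - u c)
    rw [← h3, h1] at g1
    show sqL (P (b + 1 - 1 + c)) (u (b + 1 - 1 + c) - u c) ∈ B
    rw [Nat.add_sub_cancel, ← g1]
    have := sqL_nb ((xV p n : ℤ), 0 + (yV p n : ℤ)) (u (b + c) - u c + 1)
    refine hnT _ ?_ ?_
    · simp only at this ⊢
      omega
    · simp only at this ⊢
      omega
  · have h1 := hF.box _ (not_not.1 (F₂.dis _ ht))
    have h2 := F₁.dis v hv
    have h3 := hvec t
    rw [mem_coe, mem_boxE] at h2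
    simp only [Prod.fst_add, Prod.snd_add] at h1
    omega
  · rw [hsp] at ht
    have h2 := F₁.dis v hv
    have h3 := hvec t
    rw [mem_coe, mem_boxE] at h2
    simp only [Prod.fst_add, Prod.snd_add] at ht
    omega
  · rw [hsp] at ht
    have h2 := hK₂ v hv
    have h3 := hvec t
    simp only [Prod.fst_add, Prod.snd_add] at ht
    omega

end inner

end Vale.Agent.P167.N.ID
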