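import Vale.Agent.P167.N.ID.CellF
import Vale.Agent.P167.N.ID.CutDob

/-!
# P167, `q < 1`, START: the literal cells

`rb_frame`: the rows of a frame satisfy `RB` for every `B` which contains the boxes of the holes.
-/

set_option autoImplicit false

namespace Vale.Agent.P167.N.ID

open Finset
open Vale.Agent.P167.Top
open Vale.Agent.P167.FK (Bq)
open Vale.Agent.P167.H871
open Vale.Agent.P167.H871.Q
open Vale.Agent.P167.H199 (Gap)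
open Vale.Agent.P167.H662 (hsite)
open Vale.Agent.P167.H398.Q (hB)
open Vale.Agent.P167.E6 (IsPolygon Encloses dir face)
open Vale.Agent.P167.H825 (pdir enl ptau Marks bsite)
open Vale.Agent.P167.Enl (pW uW pW_vp uW_same uW_mod vp vz_eq tB tB_lt sR eR sW eW frmQ mem_frmQ
  op_near vp_same Bq_of mem_hB row_dat row_bds ends_bd le_rnd next_mark gap_step gn_big sqL_op
  frame_ends nm_tri)

variable {l : ℕ} {p : ZMod l → ℤ × ℤ} {n : ℕ} {S₀ : Finset (ℤ × ℤ)} {Q : Marks} {g δ : ℝ}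

/-- **The rows of a frame.** -/
theorem rb_frame (hp : IsPolygon p) (hD : Encloses p S₀) (hQ : Q.Ok) (hg : Gap Q l g)
    (hδ : 0 < δ) (hδg : 4 * δ ≤ g) (hn : 16 ≤ δ * n) {B : Set (ℤ × ℤ)}
    (hB' : (hB p Q n (⌊δ * n⌋₊ + 4) : Set (ℤ × ℤ)) ⊆ B) :
    RB (enl S₀ n : Set (ℤ × ℤ)) (l * n) (pW p n (tB n Q)) (uW p n (tB n Q)) (l * (Q.m + 1))
      (sR p n Q ⌊δ * n⌋₊) (eR p n Q ⌊δ * n⌋₊) (frmQ p Q n ⌊δ * n⌋₊) B := by
  have hl : 0 < l := by have := hp.1; omega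
  obtain ⟨-, -, -, c4, b5⟩ := gn_big hQ hg hδg hn hl
  have ht := tB_lt (n := n) hQ b5
  have hl4 := hp.1
  refine ⟨rws_of hp hD hQ hg hδ hδg hn, ?_, (rws_frm hp hD hQ hg hδ hδg hn).symm,
    (frame_ends hp hD hQ hg hδ hδg hn).trans hB', ?_, ?_⟩
  · have : 3 * 1 ≤ l * n := Nat.mul_le_mul (by omega) b5
    omega
  · intro a ha
    obtain ⟨a1, a2, a3⟩ := row_dat ha
    have h5 := row_bds (p := p) hQ hg hδ hδg hn ha
    obtain ⟨-, -, c1, c2⟩ := ends_bd (p := p) hQ hg hδ hδg hn a1 a2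
    have hs1 := (le_rnd ((n : ℤ) • p ((a / (Q.m + 1) : ℕ) : ZMod l)) (bsite p Q n)
      (⌊Q.θ (a / (Q.m + 1)) (a % (Q.m + 1)) * n⌋₊ + ⌊δ * n⌋₊)).2
    have hs2 := (le_rnd ((n : ℤ) • p ((a / (Q.m + 1) : ℕ) : ZMod l)) (bsite p Q n)
      (⌊Q.θ (a / (Q.m + 1)) (a % (Q.m + 1) + 1) * n⌋₊ - ⌊δ * n⌋₊)).1
    change sW p n Q ⌊δ * n⌋₊ (a / (Q.m + 1)) (a % (Q.m + 1)) ≤ _ at hs1
    change _ ≤ eW p n Q ⌊δ * n⌋₊ (a / (Q.m + 1)) (a % (Q.m + 1)) at hs2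
    constructor
    · refine hB' ?_
      rw [mem_coe, mem_hB]
      refine ⟨(⟨a / (Q.m + 1), a1⟩, ⟨a % (Q.m + 1), by omega⟩), Bq_of ?_⟩
      have h6 := sqL_op hp hD b5 ht (i := a / (Q.m + 1))
        (σ := sW p n Q ⌊δ * n⌋₊ (a / (Q.m + 1)) (a % (Q.m + 1))) (by omega)
      have hv : sqL (pW p n (tB n Q) (sR p n Q ⌊δ * n⌋₊ a))
          (uW p n (tB n Q) (sR p n Q ⌊δ * n⌋₊ a) - 1) = Enl.op p n (a / (Q.m + 1))
          ((sW p n Q ⌊δ * n⌋₊ (a / (Q.m + 1)) (a % (Q.m + 1)) : ℕ) : ℤ) := h6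
      have h7 := op_near (p := p) (n := n) (a / (Q.m + 1))
        ((sW p n Q ⌊δ * n⌋₊ (a / (Q.m + 1)) (a % (Q.m + 1)) : ℕ) : ℤ)
      have h8 := vp_same (p := p) (n := n) (a / (Q.m + 1))
        ((sW p n Q ⌊δ * n⌋₊ (a / (Q.m + 1)) (a % (Q.m + 1)) : ℕ) : ℤ)
        (⌊Q.θ (a / (Q.m + 1)) (a % (Q.m + 1)) * n⌋₊ : ℤ)
      rw [abs_of_nonneg (by omega)] at h8
      rw [hv]
      show nm (_ - vp p n (a / (Q.m + 1)) (⌊Q.θ (a / (Q.m + 1)) (a % (Q.m + 1)) * n⌋₊ : ℤ)) < _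
      have h9 := nm_tri (Enl.op p n (a / (Q.m + 1))
        ((sW p n Q ⌊δ * n⌋₊ (a / (Q.m + 1)) (a % (Q.m + 1)) : ℕ) : ℤ))
        (vp p n (a / (Q.m + 1))
        ((sW p n Q ⌊δ * n⌋₊ (a / (Q.m + 1)) (a % (Q.m + 1)) : ℕ) : ℤ))
        (vp p n (a / (Q.m + 1)) (⌊Q.θ (a / (Q.m + 1)) (a % (Q.m + 1)) * n⌋₊ : ℤ))
      omega
    · refine hB' ?_
      rw [mem_coe, mem_hB]
      obtain ⟨z, hz⟩ := next_mark (n := n) hp hQ a1 a2
      refine ⟨z, Bq_of ?_⟩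
      have e1 : eR p n Q ⌊δ * n⌋₊ a - 1 = a / (Q.m + 1) * n +
          (eW p n Q ⌊δ * n⌋₊ (a / (Q.m + 1)) (a % (Q.m + 1)) - 1) := by
        unfold eR
        omega
      have h6 := sqL_op hp hD b5 ht (i := a / (Q.m + 1))
        (σ := eW p n Q ⌊δ * n⌋₊ (a / (Q.m + 1)) (a % (Q.m + 1)) - 1) (by omega)
      have hu : uW p n (tB n Q) (sR p n Q ⌊δ * n⌋₊ a) = uW p n (tB n Q)
          (a / (Q.m + 1) * n + (eW p n Q ⌊δ * n⌋₊ (a / (Q.m + 1)) (a % (Q.m + 1)) - 1)) :=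
        uW_same b5 ht hl (by omega) (by omega)
      have hv : sqL (pW p n (tB n Q) (eR p n Q ⌊δ * n⌋₊ a - 1))
          (uW p n (tB n Q) (sR p n Q ⌊δ * n⌋₊ a) - 1) = Enl.op p n (a / (Q.m + 1))
          ((eW p n Q ⌊δ * n⌋₊ (a / (Q.m + 1)) (a % (Q.m + 1)) - 1 : ℕ) : ℤ) := by
        rw [e1, hu, h6]
      have h7 := op_near (p := p) (n := n) (a / (Q.m + 1))
        ((eW p n Q ⌊δ * n⌋₊ (a / (Q.m + 1)) (a % (Q.m + 1)) - 1 : ℕ) : ℤ)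
      have h8 := vp_same (p := p) (n := n) (a / (Q.m + 1))
        ((eW p n Q ⌊δ * n⌋₊ (a / (Q.m + 1)) (a % (Q.m + 1)) - 1 : ℕ) : ℤ)
        (⌊Q.θ (a / (Q.m + 1)) (a % (Q.m + 1) + 1) * n⌋₊ : ℤ)
      rw [abs_sub_comm, abs_of_nonneg (by omega)] at h8
      rw [hv, hz]
      have h9 := nm_tri (Enl.op p n (a / (Q.m + 1))
        ((eW p n Q ⌊δ * n⌋₊ (a / (Q.m + 1)) (a % (Q.m + 1)) - 1 : ℕ) : ℤ))
        (vp p n (a / (Q.m + 1))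
        ((eW p n Q ⌊δ * n⌋₊ (a / (Q.m + 1)) (a % (Q.m + 1)) - 1 : ℕ) : ℤ))
        (vp p n (a / (Q.m + 1)) (⌊Q.θ (a / (Q.m + 1)) (a % (Q.m + 1) + 1) * n⌋₊ : ℤ))
      omega
  · intro k hk hno
    left
    refine hB' ?_
    have hi : k / n < l := Nat.div_lt_of_lt_mul (by rw [mul_comm n l]; exact hk)
    have hτ : k % n < n := Nat.mod_lt _ b5
    have ek : k / n * n + k % n = k := Nat.div_add_mod' k n
    have h6 := sqL_op hp hD b5 ht (i := k / n) (σ := k % n) hτ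
    rw [ek] at h6
    rw [mem_coe, mem_hB]
    unfold oq
    rw [h6]
    rcases gap_step (d := ⌊δ * n⌋₊) (p := p) hp hQ hi hτ with ⟨y, hy, k1, k2⟩ | ⟨x, hx⟩
    · exfalso
      apply hno
      obtain ⟨⟨i, hi'⟩, ⟨j, hj⟩⟩ := y
      simp only at hy k1 k2
      obtain ⟨g1, -, -⟩ := Enl.row_num (Q := Q) hi' (show j ≤ Q.m by omega)
      obtain ⟨g4, g5⟩ := Enl.sR_num (p := p) (n := n) (Q := Q) (d := ⌊δ * n⌋₊) hi'
        (show j ≤ Q.m by omega)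
      refine ⟨i * (Q.m + 1) + j, g1, ?_, ?_⟩
      · rw [g4, ← ek, ← hy]; omega
      · rw [g5, ← ek, ← hy]; omega
    · refine ⟨x, Bq_of ?_⟩
      have a1 := op_near (p := p) (n := n) (k / n) ((k % n : ℕ) : ℤ)
      have a2 := nm_tri (Enl.op p n (k / n) ((k % n : ℕ) : ℤ)) (vp p n (k / n) ((k % n : ℕ) : ℤ))
        (hsite p Q n x)
      omega

end Vale.Agent.P167.N.ID
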