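import Vale.Agent.P167.N.ID.CellW
import Vale.Agent.P167.H680.S.Part

/-!
# P167, `q < 1`, START: the interface

`mix_exit`: the mixed arc at a junction leads to the other side of the row. `leave`: a loop leaves a
cell only through a mixed arc. `CD`, `CD.Ok`: a cell with its phases. `DobF`: the three cells of a
Dobrushin frame; `int_both`: a loop with a mixed arc contains both mixed arcs. `OneF`: the two cells of
a frame of one colour.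
-/

set_option autoImplicit false

namespace Vale.Agent.P167.N.ID

open Finset
open Vale.Agent.P167.BR
open Vale.Agent.P167.FK
open Vale.Agent.P167.Top
open Vale.Agent.P167.H871
open Vale.Agent.P167.H871.Q
open Vale.Agent.P167.A (plane)
open Vale.Agent.P167.XDL (bS mem_bS P4_be)
open Vale.Agent.P167.H199 (strand ret mem_strand loop_nx loop_iter ret_min ret_le
  strand_sub sum_strand Returns strand_unique ah at' cang cang_congr)
open Vale.Agent.P167.H680.S (nxt nxt_mem nxt_induct nxt_inj trS sum_rule MixE)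
open Vale.Agent.P167.QX (returns_loop card_out_in fLp wS VisL)

variable {ω ω' : Cfg} {ℓ ℓ' : Finset Ed} {K : Finset (ℤ × ℤ)} {B E E' : Set (ℤ × ℤ)} {n k₀ z zc zo : ℕ}
  {P : ℕ → ℤ × ℤ} {u : ℕ → ℤ} {τ τ' : ℤ} {b x y g h : Ed} {i j k l i' j' : ℕ}
  {D R : Finset (ℤ × ℤ)} {X : Set (ℤ × ℤ)} {θ β C0 : ℝ} {a : Ed → Bool → ℝ}

/-- The square behind the frozen square of the step `k`. -/
def bq (P : ℕ → ℤ × ℤ) (u : ℕ → ℤ) (k : ℕ) : ℤ × ℤ := oq P u k + vec (u k - 1)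

/-- A strand of two steps. -/
theorem nxt_two (h1 : hdv b ∈ K) (h2 : hdv (nx ω b) ∈ K) (h3 : hdv (nx ω (nx ω b)) ∉ K) :
    nxt (bS K) ω b = nx ω (nx ω b) := by
  have i2 : (nx ω)^[2] b = nx ω (nx ω b) := rfl
  have hS : (nx ω)^[2] b ∈ bS K := by
    rw [i2, mem_bS]
    exact Or.inr ⟨h3, by rw [tlv_nx]; exact h2⟩
  have hret : ret (nx ω) (bS K) b = 2 := by
    have a1 := ret_le (f := nx ω) one_le_two hS
    have hR : Returns (nx ω) (bS K) b := ⟨2, one_le_two, hS⟩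
    have a2 := hR.spec.1
    rcases (by omega : ret (nx ω) (bS K) b = 1 ∨ ret (nx ω) (bS K) b = 2) with h | h
    · exfalso
      have a3 := hR.spec.2
      rw [h, Function.iterate_one, mem_bS, tlv_nx] at a3
      tauto
    · exact h
  unfold nxt
  rw [hret, i2]

/-- **The mixed arc** at the junction leads to the other side of the row. -/
theorem mix_exit (F : Cell K B E n P u τ) (C : LC B ω ℓ) (hk₀ : k₀ ≤ n)
    (hc : Clr K B n P u k₀ ω) (hbℓ : b ∈ ℓ) (hS : Sd E b) (hm : MixE K ω b) :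
    (0 < k₀ ∧ k₀ < n) ∧ oq P u k₀ ∈ K ∧ oq P u (k₀ - 1) ∈ K ∧ oq P u k₀ ∉ B ∧
      oq P u (k₀ - 1) ∉ B ∧
      ((At P u b (k₀ - 1) ∧ Even ((P k₀).1 + (P k₀).2) ∧ hdv (nxt (bS K) ω b) = bq P u k₀ ∧
          tlv (nxt (bS K) ω b) = oq P u k₀) ∨
        (At P u b k₀ ∧ ¬ Even ((P k₀).1 + (P k₀).2) ∧ hdv (nxt (bS K) ω b) = bq P u (k₀ - 1) ∧
          tlv (nxt (bS K) ω b) = oq P u (k₀ - 1))) := by
  obtain ⟨⟨h1, h2⟩, h3⟩ := mixAt_of F C hk₀ hc hbℓ hS hm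
  obtain ⟨m1, m2, m3, m4⟩ := hm
  have hE : hdv b ∉ E := F.dis _ m2
  have hdir : ∀ {k : ℕ}, At P u b k → hd4 b % 4 = (u k - 1) % 4 := fun hk => by
    have := (cross_out F.bd hk hE).2.2.1
    omega
  refine ⟨⟨h1, h2⟩, ?_⟩
  rcases h3 with ⟨h3, h4⟩ | ⟨h3, h4⟩
  · obtain ⟨-, -, c4, -⟩ := at_ent F.bd h3 hE
    have hkK : oq P u (k₀ - 1) ∈ K := c4 ▸ m2
    have hkB : oq P u (k₀ - 1) ∉ B := c4 ▸ C.hd_off hbℓ
    have hω : ω (hdv b) = false := by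
      rw [c4, hc _ (by omega) hkK hkB, decide_eq_false (not_not.2 (by omega))]
    obtain ⟨f1, f2, f3, -⟩ := F.entry_closed C hbℓ m2 h3 hω
    rw [Nat.sub_add_cancel h1] at f1 f2 f3
    have hyB : oq P u k₀ ∉ B := f3 ▸ C.hd_off (C.nx_mem hbℓ)
    have hω2 : ω (hdv (nx ω b)) = true := by
      rw [f3, hc _ h2 f1 hyB, decide_eq_true (lt_irrefl _)]
    have d1 := hdir h3
    have d2 : hd4 (nx ω b) % 4 = (hd4 b + 1) % 4 := by
      have := hd4_nx ω b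
      rw [show trn ω b = 1 by unfold trn; rw [if_neg (by rw [hω]; decide)]] at this
      omega
    have d3 : hd4 (nx ω (nx ω b)) % 4 = (hd4 (nx ω b) - 1) % 4 := by
      have := hd4_nx ω (nx ω b)
      rw [show trn ω (nx ω b) = -1 by unfold trn; rw [if_pos hω2]] at this
      omega
    have e1 : hdv (nx ω (nx ω b)) = bq P u k₀ := by
      rw [hdv_tlv (nx ω (nx ω b)), tlv_nx, f3, vec_congr (d' := u k₀ - 1) (by omega)]; rfl
    have e2 : nxt (bS K) ω b = nx ω (nx ω b) := nxt_two m2 m3 (by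
      rw [e1]; exact F.thin k₀ h2 f1 hyB)
    refine ⟨f1, hkK, hyB, hkB, Or.inl ⟨h3, h4, ?_, ?_⟩⟩
    · rw [e2, e1]
    · rw [e2, tlv_nx, f3]
  · obtain ⟨-, -, c4, -⟩ := at_ent F.bd h3 hE
    have hkK : oq P u k₀ ∈ K := c4 ▸ m2
    have hkB : oq P u k₀ ∉ B := c4 ▸ C.hd_off hbℓ
    have hω : ω (hdv b) = true := by
      rw [c4, hc _ h2 hkK hkB, decide_eq_true (lt_irrefl _)]
    obtain ⟨f1, f2, f3, -⟩ := F.entry_open (k := k₀ - 1) C hbℓ m2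
      (by rw [Nat.sub_add_cancel h1]; exact h3) hω
    rw [Nat.sub_add_cancel h1] at f2
    have hyB : oq P u (k₀ - 1) ∉ B := f3 ▸ C.hd_off (C.nx_mem hbℓ)
    have hω2 : ω (hdv (nx ω b)) = false := by
      rw [f3, hc _ (by omega) f1 hyB, decide_eq_false (not_not.2 (by omega))]
    have d1 := hdir h3
    have d2 : hd4 (nx ω b) % 4 = (hd4 b - 1) % 4 := by
      have := hd4_nx ω b
      rw [show trn ω b = -1 by unfold trn; rw [if_pos hω]] at this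
      omega
    have d3 : hd4 (nx ω (nx ω b)) % 4 = (hd4 (nx ω b) + 1) % 4 := by
      have := hd4_nx ω (nx ω b)
      rw [show trn ω (nx ω b) = 1 by unfold trn; rw [if_neg (by rw [hω2]; decide)]] at this
      omega
    have e1 : hdv (nx ω (nx ω b)) = bq P u (k₀ - 1) := by
      rw [hdv_tlv (nx ω (nx ω b)), tlv_nx, f3, vec_congr (d' := u (k₀ - 1) - 1) (by omega)]; rfl
    have e2 : nxt (bS K) ω b = nx ω (nx ω b) := nxt_two m2 m3 (by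
      rw [e1]; exact F.thin (k₀ - 1) (by omega) f1 hyB)
    refine ⟨hkK, f1, hkB, hyB, Or.inr ⟨h3, h4, ?_, ?_⟩⟩
    · rw [e2, e1]
    · rw [e2, tlv_nx, f3]

/-- **A loop leaves a cell only through a mixed arc.** -/
theorem leave (F : Cell K B E n P u τ) (C : LC B ω ℓ) (hk₀ : k₀ ≤ n)
    (hc : Clr K B n P u k₀ ω) (hm : ∀ b ∈ ℓ, Sd E b → ¬ MixE K ω b) {b0 : Ed} (h1 : b0 ∈ bS K)
    (h2 : b0 ∈ ℓ) (h3 : Sd E b0) (hb : b ∈ bS K) (hbℓ : b ∈ ℓ) : Sd E b := by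
  have hat : ∀ b ∈ bS K, Sd E b → ∃ k < n, At P u b k := by
    intro b hb h
    rw [mem_bS] at hb
    rcases h with h | h
    · exact exists_at F.bd F.n0 F.cov (Or.inl ⟨h, fun h' => by
        rcases hb with h5 | h5
        · exact F.dis _ h5.1 h
        · exact F.dis _ h5.2 h'⟩)
    · exact exists_at F.bd F.n0 F.cov (Or.inr ⟨h, fun h' => by
        rcases hb with h5 | h5
        · exact F.dis _ h5.1 h'
        · exact F.dis _ h5.2 h⟩)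
  obtain ⟨k, hk, hk2⟩ := hat b0 h1 h3
  refine (trap F C (S := fun _ => True) h1 h2 h3 ⟨k, hk, trivial, hk2⟩ (fun _ _ _ _ _ _ => trivial)
    (fun b hbℓ k hk hat hbK hbE _ => ?_) hb hbℓ).1
  obtain ⟨k1, k2, A⟩ := F.arc_pure C hk₀ hc hbℓ hbK hbE (hm b hbℓ (Or.inr hbE))
  exact ⟨A.hdE, k2, A.hk', trivial, A.at2⟩

/-- The sides of two disjoint cells. -/
theorem sd_excl (F : Cell K B E n P u τ) {n' : ℕ} {P' : ℕ → ℤ × ℤ} {u' : ℕ → ℤ}
    (F' : Cell K B E' n' P' u' τ') (h : ∀ v ∈ E, v ∉ E') (hb : b ∈ bS K) (h1 : Sd E b) :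
    ¬ Sd E' b := by
  intro h2
  rw [mem_bS] at hb
  rcases hb with h3 | h3
  · have e1 : tlv b ∈ E := h1.resolve_left (F.dis _ h3.1)
    have e2 : tlv b ∈ E' := h2.resolve_left (F'.dis _ h3.1)
    exact h _ e1 e2
  · have e1 : hdv b ∈ E := h1.resolve_right (F.dis _ h3.2)
    have e2 : hdv b ∈ E' := h2.resolve_right (F'.dis _ h3.2)
    exact h _ e1 e2

/-- **The data of a cell**: the boundary path, the junction, the bases of the two colours, the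
phase. -/
structure CD where
  /-- the number of the steps -/
  n : ℕ
  /-- the boundary path -/
  P : ℕ → ℤ × ℤ
  /-- the directions -/
  u : ℕ → ℤ
  /-- the junction: closed `[0, k₀)`, open `[k₀, n)` -/
  k₀ : ℕ
  /-- the base of the closed steps -/
  zc : ℕ
  /-- the base of the open steps -/
  zo : ℕ
  /-- the phase -/
  C0 : ℝ

/-- A cell with its phases. -/
structure CD.Ok (c : CD) (θ β : ℝ) (K : Finset (ℤ × ℤ)) (B E : Set (ℤ × ℤ)) (τ : ℤ)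
    (a : Ed → Bool → ℝ) : Prop where
  cell : Cell K B E c.n c.P c.u τ
  hk : c.k₀ ≤ c.n
  zc : c.zc < c.n
  zo : c.zo < c.n
  ph : Phs θ β c.C0 K B E c.n c.P c.u τ c.k₀ c.zc c.zo a
  gd : τ = -1 → Gd K B c.n c.P c.u c.k₀ c.zc c.zo

/-- The colours of a cell. -/
def CD.Clr (c : CD) (K : Finset (ℤ × ℤ)) (B : Set (ℤ × ℤ)) (ω : Cfg) : Prop :=
  ID.Clr K B c.n c.P c.u c.k₀ ω

/-- **A frame of one colour**: the domain `D` and the exterior `X`. -/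
structure OneF (θ β : ℝ) (K : Finset (ℤ × ℤ)) (B : Set (ℤ × ℤ)) (a : Ed → Bool → ℝ)
    (D : Finset (ℤ × ℤ)) (X : Set (ℤ × ℤ)) (cD cX : CD) : Prop where
  oD : cD.Ok θ β K B (D : Set (ℤ × ℤ)) 1 a
  oX : cX.Ok θ β K B X (-1) a
  kD : cD.k₀ = 0 ∨ cD.k₀ = cD.n
  kX : cX.k₀ = 0 ∨ cX.k₀ = cX.n
  cov : ∀ v, v ∉ K → v ∉ B → v ∈ D ∨ v ∈ X
  DX : ∀ v ∈ D, v ∉ X

/-- **A Dobrushin frame**: the domain `D`, the region `R` between the domain and the box, the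
exterior `X`. -/
structure DobF (θ β : ℝ) (K : Finset (ℤ × ℤ)) (B : Set (ℤ × ℤ)) (a : Ed → Bool → ℝ)
    (D R : Finset (ℤ × ℤ)) (X : Set (ℤ × ℤ)) (cD cR cX : CD) : Prop where
  oD : cD.Ok θ β K B (D : Set (ℤ × ℤ)) 1 a
  oR : cR.Ok θ β K B (R : Set (ℤ × ℤ)) 1 a
  oX : cX.Ok θ β K B X (-1) a
  kD : 0 < cD.k₀ ∧ cD.k₀ < cD.n
  kX : cX.k₀ = 0 ∨ cX.k₀ = cX.n
  zD : cD.zc = 0 ∧ cD.zo = 0
  cov : ∀ v, v ∉ K → v ∉ B → v ∈ D ∨ v ∈ R ∨ v ∈ X
  DR : ∀ v ∈ D, v ∉ R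
  DX : ∀ v ∈ D, v ∉ X
  RX : ∀ v ∈ R, v ∉ X
  jD : bq cD.P cD.u cD.k₀ ∈ R ∧ bq cD.P cD.u (cD.k₀ - 1) ∈ R
  jR : bq cR.P cR.u cR.k₀ ∈ D ∧ bq cR.P cR.u (cR.k₀ - 1) ∈ D

/-- No mixed arcs next to a cell of one colour. -/
theorem no_mix_one (F : Cell K B E n P u τ) (C : LC B ω ℓ) (hk : k₀ = 0 ∨ k₀ = n)
    (hc : Clr K B n P u k₀ ω) (hb : b ∈ ℓ) (hS : Sd E b) : ¬ MixE K ω b := by
  intro hm
  obtain ⟨⟨h1, h2⟩, -⟩ := mixAt_of F C (by omega) hc hb hS hm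
  omega

namespace DobF

variable {cD cR cX : CD} (F : DobF θ β K B a D R X cD cR cX) (hD : cD.Clr K B ω)
  (hR : cR.Clr K B ω) (hX : cX.Clr K B ω) (C : LC B ω ℓ)

include F C

theorem side (hb : b ∈ bS K) (hbℓ : b ∈ ℓ) : Sd (D : Set (ℤ × ℤ)) b ∨ Sd (R : Set (ℤ × ℤ)) b ∨
    Sd X b := by
  rw [mem_bS] at hb
  rcases hb with h | h
  · rcases F.cov _ h.2 (C.tl_off hbℓ) with h1 | h1 | h1
    · exact Or.inl (Or.inr (mem_coe.2 h1))
    · exact Or.inr (Or.inl (Or.inr (mem_coe.2 h1)))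
    · exact Or.inr (Or.inr (Or.inr h1))
  · rcases F.cov _ h.1 (C.hd_off hbℓ) with h1 | h1 | h1
    · exact Or.inl (Or.inl (mem_coe.2 h1))
    · exact Or.inr (Or.inl (Or.inl (mem_coe.2 h1)))
    · exact Or.inr (Or.inr (Or.inl h1))

include hX in
/-- The interface is not next to the exterior. -/
theorem notX {b0 : Ed} (h0 : b0 ∈ ℓ) (hm : MixE K ω b0) (hb : b ∈ bS K) (hbℓ : b ∈ ℓ) :
    ¬ Sd X b := by
  intro h
  have h1 := leave F.oX.cell C F.oX.hk hX (fun b hb hS => no_mix_one F.oX.cell C F.kX hX hb hS) hb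
    hbℓ h hm.1 h0
  exact no_mix_one F.oX.cell C F.kX hX h0 h1 hm

include hD hR hX in
/-- **The interface contains both mixed arcs.** -/
theorem int_both {b0 : Ed} (h0 : b0 ∈ ℓ) (hm : MixE K ω b0) :
    (∃ b ∈ ℓ, MixE K ω b ∧ Sd (D : Set (ℤ × ℤ)) b) ∧
      ∃ b ∈ ℓ, MixE K ω b ∧ Sd (R : Set (ℤ × ℤ)) b := by
  have eDR : ∀ {b : Ed}, b ∈ bS K → Sd (D : Set (ℤ × ℤ)) b → ¬ Sd (R : Set (ℤ × ℤ)) b :=
    fun hb h => sd_excl F.oD.cell F.oR.cell (fun v h1 h2 => F.DR v (mem_coe.1 h1) (mem_coe.1 h2))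
      hb h
  have key1 : ∀ b ∈ ℓ, MixE K ω b → Sd (D : Set (ℤ × ℤ)) b →
      ∃ b ∈ ℓ, MixE K ω b ∧ Sd (R : Set (ℤ × ℤ)) b := by
    intro b hb hm hS
    by_contra hno
    push Not at hno
    obtain ⟨-, g1, g2, g3, g4, g5⟩ := mix_exit F.oD.cell C F.oD.hk hD hb hS hm
    have hn : Sd (R : Set (ℤ × ℤ)) (nxt (bS K) ω b) := by
      left
      rcases g5 with ⟨-, -, g6, -⟩ | ⟨-, -, g6, -⟩
      · rw [g6]; exact mem_coe.2 F.jD.1
      · rw [g6]; exact mem_coe.2 F.jD.2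
    obtain ⟨n1, n2⟩ := nxt_mem C.hl hm.1 hb
    exact eDR hm.1 hS (leave F.oR.cell C F.oR.hk hR (fun b hb hS hm => hno b hb hm hS) n1 n2 hn
      hm.1 hb)
  have key2 : ∀ b ∈ ℓ, MixE K ω b → Sd (R : Set (ℤ × ℤ)) b →
      ∃ b ∈ ℓ, MixE K ω b ∧ Sd (D : Set (ℤ × ℤ)) b := by
    intro b hb hm hS
    by_contra hno
    push Not at hno
    obtain ⟨-, g1, g2, g3, g4, g5⟩ := mix_exit F.oR.cell C F.oR.hk hR hb hS hm
    have hn : Sd (D : Set (ℤ × ℤ)) (nxt (bS K) ω b) := by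
      left
      rcases g5 with ⟨-, -, g6, -⟩ | ⟨-, -, g6, -⟩
      · rw [g6]; exact mem_coe.2 F.jR.1
      · rw [g6]; exact mem_coe.2 F.jR.2
    obtain ⟨n1, n2⟩ := nxt_mem C.hl hm.1 hb
    exact eDR hm.1 (leave F.oD.cell C F.oD.hk hD (fun b hb hS hm => hno b hb hm hS) n1 n2 hn
      hm.1 hb) hS
  rcases F.side C hm.1 h0 with h | h | h
  · exact ⟨⟨b0, h0, hm, h⟩, key1 b0 h0 hm h⟩
  · exact ⟨key2 b0 h0 hm h, ⟨b0, h0, hm, h⟩⟩
  · exact absurd h (F.notX hX C h0 hm hm.1 h0)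

end DobF

/-- The mixed entries of a cell are one edge. -/
theorem mix_edge (F : Cell K B E n P u τ) (C : LC B ω ℓ) (C' : LC B ω' ℓ') (hk₀ : k₀ ≤ n)
    (hc : Clr K B n P u k₀ ω) (hc' : Clr K B n P u k₀ ω') (hb : b ∈ ℓ) (hy : y ∈ ℓ')
    (hS : Sd E b) (hS' : Sd E y) (hm : MixE K ω b) (hm' : MixE K ω' y) : b = y := by
  obtain ⟨-, h1 | h1⟩ := mixAt_of F C hk₀ hc hb hS hm <;>
  obtain ⟨-, h2 | h2⟩ := mixAt_of F C' hk₀ hc' hy hS' hm'
  · exact at_ed F.bd h1.1 h2.1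
  · exact absurd h1.2 h2.2
  · exact absurd h2.2 h1.2
  · exact at_ed F.bd h1.1 h2.1

/-- **The interface is unique.** -/
theorem DobF.unique {cD cR cX : CD} (F : DobF θ β K B a D R X cD cR cX) (hD : cD.Clr K B ω)
    (hR : cR.Clr K B ω) (hX : cX.Clr K B ω) (C : LC B ω ℓ) (C' : LC B ω ℓ')
    (h : ∃ b ∈ ℓ, MixE K ω b) (h' : ∃ b ∈ ℓ', MixE K ω b) : ℓ = ℓ' := by
  obtain ⟨b, hb, hm⟩ := h
  obtain ⟨b', hb', hm'⟩ := h'
  obtain ⟨⟨y, y1, y2, y3⟩, -⟩ := F.int_both hD hR hX C hb hm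
  obtain ⟨⟨z, z1, z2, z3⟩, -⟩ := F.int_both hD hR hX C' hb' hm'
  have e := mix_edge F.oD.cell C C' F.oD.hk hD hD y1 z1 y3 z3 y2 z2
  subst e
  exact IsLoop.eq_of_mem C.hl C'.hl y1 z1

end Vale.Agent.P167.N.ID
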