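import Vale.Agent.P167.N.ID.CellI

/-!
# P167, `q < 1`, START: the product over the loops off the holes

L2Sg (a), (c), (e) of a frame in the language of its cells: `OneF.nonneg`, `OneF.TO_agree`,
`OneF.TO_low`; `DobF.nonneg`, `DobF.TO_agree`, `DobF.TO_low`.
-/

set_option autoImplicit false

namespace Vale.Agent.P167.N.ID

open Finset
open Vale.Agent.P167.BR
open Vale.Agent.P167.FK
open Vale.Agent.P167.Top
open Vale.Agent.P167.H871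
open Vale.Agent.P167.H871.Q
open Vale.Agent.P167.A (plane)
open Vale.Agent.P167.XDL (bS mem_bS P4_be)
open Vale.Agent.P167.H199 (strand ret mem_strand loop_nx loop_iter ret_min ret_le
  strand_sub sum_strand Returns strand_unique ah at' cang cang_congr)
open Vale.Agent.P167.H680.S (nxt nxt_mem nxt_induct nxt_inj trS sum_rule MixE Lo mem_Lo)
open Vale.Agent.P167.QX (returns_loop card_out_in fLp wS VisL TO exists_strand_loop fLp_congr)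
open Vale.Agent.P167.H685 (LE mem_LE loop_loc nx_loc)

variable {ω ω' : Cfg} {ℓ ℓ' : Finset Ed} {K : Finset (ℤ × ℤ)} {B E E' : Set (ℤ × ℤ)} {n k₀ z zc zo : ℕ}
  {P : ℕ → ℤ × ℤ} {u : ℕ → ℤ} {τ τ' : ℤ} {b x y g h : Ed} {i j k l i' j' : ℕ}
  {D R : Finset (ℤ × ℤ)} {X : Set (ℤ × ℤ)} {θ β C0 : ℝ} {a : Ed → Bool → ℝ} {Sp : Set (ℤ × ℤ)}

/-! ### far loops -/

/-- A loop without sides next to a cell does not visit the cell. -/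
theorem far_out (F : Cell K B E n P u τ) (C : LC B ω ℓ) (hS : ∃ b ∈ bS K, b ∈ ℓ)
    (hN : ∀ b ∈ bS K, b ∈ ℓ → ¬ Sd E b) (hx : x ∈ ℓ) : hdv x ∉ E := by
  intro h
  obtain ⟨e, he, hxe⟩ := exists_strand_loop C.hl hS hx
  obtain ⟨h1, h2⟩ := mem_filter.1 he
  obtain ⟨k, hk, rfl⟩ := mem_strand.1 hxe
  exact hN e h1 h2 (Or.inl ((F.stays C h2 hk).1 h))

open Classical in
/-- The loops off the boxes without sides next to a cell. -/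
noncomputable def Lfar (K : Finset (ℤ × ℤ)) (E B : Set (ℤ × ℤ)) (ω : Cfg) : Finset (Finset Ed) :=
  (Lo K B ω).filter fun ℓ => ∀ b ∈ bS K, b ∈ ℓ → ¬ Sd E b

open Classical in
/-- The loops off the boxes with sides next to a cell. -/
noncomputable def Lnear (K : Finset (ℤ × ℤ)) (E B : Set (ℤ × ℤ)) (ω : Cfg) : Finset (Finset Ed) :=
  (Lo K B ω).filter fun ℓ => ¬ ∀ b ∈ bS K, b ∈ ℓ → ¬ Sd E b

theorem mem_Lfar : ℓ ∈ Lfar K E B ω ↔ ℓ ∈ Lo K B ω ∧ ∀ b ∈ bS K, b ∈ ℓ → ¬ Sd E b := by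
  classical
  unfold Lfar
  rw [mem_filter]

theorem mem_Lnear : ℓ ∈ Lnear K E B ω ↔ ℓ ∈ Lo K B ω ∧ ∃ b ∈ bS K, b ∈ ℓ ∧ Sd E b := by
  classical
  unfold Lnear
  rw [mem_filter]
  push Not
  rfl

theorem TO_nf (E : Set (ℤ × ℤ)) : TO θ K a B ω =
    (∏ ℓ ∈ Lfar K E B ω, fLp θ K a ω ℓ) * ∏ ℓ ∈ Lnear K E B ω, fLp θ K a ω ℓ := by
  classical
  unfold Lfar Lnear
  rw [prod_filter_mul_prod_filter_not]
  rfl

theorem far_sub (F : Cell K B E n P u τ) (hg : Good ω) (hag : ∀ v, v ∉ E → v ∉ B → ω v = ω' v)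
    (h : ℓ ∈ Lfar K E B ω) : ℓ ∈ Lfar K E B ω' ∧ ∀ v ∈ vs ℓ, ω v = ω' v := by
  obtain ⟨h1, h2⟩ := mem_Lfar.1 h
  obtain ⟨h3, h4, h5⟩ := mem_Lo.1 h1
  have C : LC B ω ℓ := ⟨hg, h3, h5⟩
  have hvs : ∀ v ∈ vs ℓ, ω v = ω' v := by
    intro v hv
    unfold vs at hv
    obtain ⟨x, hx, rfl⟩ := mem_image.1 hv
    exact hag _ (far_out F C h4 h2 hx) (C.hd_off hx)
  exact ⟨mem_Lfar.2 ⟨mem_Lo.2 ⟨loop_loc h3 hvs, h4, h5⟩, h2⟩, hvs⟩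

/-- **The far product.** -/
theorem prod_far (F : Cell K B E n P u τ) (hg : Good ω) (hg' : Good ω')
    (hag : ∀ v, v ∉ E → v ∉ B → ω v = ω' v) (a : Ed → Bool → ℝ) :
    ∏ ℓ ∈ Lfar K E B ω, fLp θ K a ω ℓ = ∏ ℓ ∈ Lfar K E B ω', fLp θ K a ω' ℓ := by
  have hag' : ∀ v, v ∉ E → v ∉ B → ω' v = ω v := fun v h1 h2 => (hag v h1 h2).symm
  have hset : Lfar K E B ω = Lfar K E B ω' := by
    ext ℓ
    exact ⟨fun h => (far_sub F hg hag h).1, fun h => (far_sub F hg' hag' h).1⟩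
  rw [← hset]
  refine prod_congr rfl fun ℓ h => ?_
  obtain ⟨h1, -⟩ := mem_Lfar.1 h
  exact fLp_congr (mem_Lo.1 h1).1 (far_sub F hg hag h).2

/-! ### the factors of the loops of one colour -/

/-- The loops of one colour next to a cell. -/
theorem one_val (hτ : τ = 1 ∨ τ = -1) {c : CD} (o : c.Ok θ β K B E τ a) (C : LC B ω ℓ)
    (hc : c.Clr K B ω) (hm : ∀ b ∈ ℓ, ¬ MixE K ω b)
    (hsame : ∀ b ∈ ℓ, ∀ i j, Ex K E c.n c.P c.u ω b i j → (i < c.k₀ ↔ j < c.k₀))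
    (hs : Real.sin θ ≠ 0) (hcos : Real.cos θ ≠ 0) (h1 : b ∈ bS K) (h2 : b ∈ ℓ) (h3 : Sd E b) :
    fLp θ K a ω ℓ = 0 ∨ fLp θ K a ω ℓ = 1 ∨ fLp θ K a ω ℓ = (2 * Real.cos θ)⁻¹ := by
  classical
  have key : ∀ {z : ℕ} {s : ℤ}, OneC K E c.n c.P c.u c.k₀ c.zc c.zo ℓ z s →
      fLp θ K a ω ℓ = 0 ∨ fLp θ K a ω ℓ = 1 ∨ fLp θ K a ω ℓ = (2 * Real.cos θ)⁻¹ := by
    intro z s hz
    rcases fLp_val hτ o.cell C o.hk hc hm o.ph o.zc o.zo o.gd hs hcos h1 h2 hz with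
      ⟨h4, -⟩ | ⟨h4, -⟩
    · exact Or.inl h4
    · right
      rw [h4]
      split_ifs
      · exact Or.inr rfl
      · exact Or.inl rfl
  rcases one_colour o.cell C o.hk hc hm hsame h1 h2 h3 with h | h
  · exact key (Or.inl ⟨rfl, rfl, h⟩)
  · exact key (Or.inr ⟨rfl, rfl, h⟩)

theorem one_val_bdd {c : CD} (o : c.Ok θ β K B (D : Set (ℤ × ℤ)) 1 a) (C : LC B ω ℓ)
    (hc : c.Clr K B ω) (hm : ∀ b ∈ ℓ, ¬ MixE K ω b)
    (hs : Real.sin θ ≠ 0) (hcos : Real.cos θ ≠ 0) (h1 : b ∈ bS K) (h2 : b ∈ ℓ)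
    (h3 : Sd (D : Set (ℤ × ℤ)) b) :
    fLp θ K a ω ℓ = 0 ∨ fLp θ K a ω ℓ = 1 ∨ fLp θ K a ω ℓ = (2 * Real.cos θ)⁻¹ :=
  one_val (Or.inl rfl) o C hc hm (fun _ hb _ _ X => no_mixed o.cell C o.hk hc hm X hb) hs hcos
    h1 h2 h3

theorem one_val_ext {c : CD} (o : c.Ok θ β K B E (-1) a) (C : LC B ω ℓ)
    (hk : c.k₀ = 0 ∨ c.k₀ = c.n)
    (hc : c.Clr K B ω) (hm : ∀ b ∈ ℓ, ¬ MixE K ω b)
    (hs : Real.sin θ ≠ 0) (hcos : Real.cos θ ≠ 0) (h1 : b ∈ bS K) (h2 : b ∈ ℓ)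
    (h3 : Sd E b) :
    fLp θ K a ω ℓ = 0 ∨ fLp θ K a ω ℓ = 1 ∨ fLp θ K a ω ℓ = (2 * Real.cos θ)⁻¹ :=
  one_val (Or.inr rfl) o C hc hm (fun _ _ i j X => by
    have := X.hi
    have := X.hj
    rcases hk with h | h <;> rw [h] <;> constructor <;> intro h' <;> omega) hs hcos h1 h2 h3

/-- The lower bound of a product of factors. -/
theorem prod_low {α : Type} [DecidableEq α] (S : Finset α) (f : α → ℝ) (h : ∀ x ∈ S, 1 ≤ f x) :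
    1 ≤ ∏ x ∈ S, f x := by
  induction S using Finset.induction_on with
  | empty => simp
  | insert x S hx ih =>
    rw [prod_insert hx]
    exact one_le_mul_of_one_le_of_one_le (h x (mem_insert_self _ _))
      (ih fun y hy => h y (mem_insert_of_mem hy))

/-! ### frames of one colour -/

namespace OneF

variable {cD cX : CD} (F : OneF θ β K B a D X cD cX) (hD : cD.Clr K B ω)
  (hX : cX.Clr K B ω) (C : LC B ω ℓ)

include F C in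
theorem side (hb : b ∈ bS K) (hbℓ : b ∈ ℓ) : Sd (D : Set (ℤ × ℤ)) b ∨ Sd X b := by
  rw [mem_bS] at hb
  rcases hb with h | h
  · rcases F.cov _ h.2 (C.tl_off hbℓ) with h1 | h1
    · exact Or.inl (Or.inr (mem_coe.2 h1))
    · exact Or.inr (Or.inr h1)
  · rcases F.cov _ h.1 (C.hd_off hbℓ) with h1 | h1
    · exact Or.inl (Or.inl (mem_coe.2 h1))
    · exact Or.inr (Or.inl h1)

include F hD hX C in
theorem no_mix (hb : b ∈ ℓ) : ¬ MixE K ω b := by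
  intro hm
  rcases F.side C hm.1 hb with h | h
  · exact no_mix_one F.oD.cell C F.kD hD hb h hm
  · exact no_mix_one F.oX.cell C F.kX hX hb h hm

include F hD hX C in
theorem val (hs : Real.sin θ ≠ 0) (hcos : Real.cos θ ≠ 0) (hS : ∃ b ∈ bS K, b ∈ ℓ) :
    fLp θ K a ω ℓ = 0 ∨ fLp θ K a ω ℓ = 1 ∨ fLp θ K a ω ℓ = (2 * Real.cos θ)⁻¹ := by
  obtain ⟨b, h1, h2⟩ := hS
  have hm : ∀ b ∈ ℓ, ¬ MixE K ω b := fun b hb => F.no_mix hD hX C hb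
  rcases F.side C h1 h2 with h | h
  · exact one_val_bdd F.oD C hD hm hs hcos h1 h2 h
  · exact one_val_ext F.oX C F.kX hX hm hs hcos h1 h2 h

include F hD hX C in
/-- **(a)** -/
theorem nonneg (hs : Real.sin θ ≠ 0) (hcos : 0 < Real.cos θ) (hS : ∃ b ∈ bS K, b ∈ ℓ) :
    0 ≤ fLp θ K a ω ℓ := by
  rcases F.val hD hX C hs hcos.ne' hS with h | h | h
  · rw [h]
  · rw [h]; exact zero_le_one
  · rw [h]; exact inv_nonneg.2 (by linarith)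

include F hD hX in
/-- **(e)** -/
theorem TO_low (hg : Good ω) (hs : Real.sin θ ≠ 0) (hcos : 0 < Real.cos θ)
    (hcos' : 2 * Real.cos θ ≤ 1) (hne : TO θ K a B ω ≠ 0) : 1 ≤ TO θ K a B ω := by
  classical
  have h0 : TO θ K a B ω = ∏ ℓ ∈ Lo K B ω, fLp θ K a ω ℓ := rfl
  rw [h0] at hne ⊢
  refine prod_low _ _ fun ℓ hℓ => ?_
  obtain ⟨h1, h2, h3⟩ := mem_Lo.1 hℓ
  rcases F.val hD hX ⟨hg, h1, h3⟩ hs hcos.ne' h2 with h | h | h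
  · exact absurd (prod_eq_zero hℓ h) hne
  · exact h.ge
  · rw [h]
    exact (one_le_inv₀ (by linarith)).2 hcos'

include F hD hX in
/-- The near loops. -/
theorem near_all (hg : Good ω) (h : ℓ ∈ Lnear K (D : Set (ℤ × ℤ)) B ω) : LC B ω ℓ ∧
    ∀ b ∈ bS K, b ∈ ℓ → Sd (D : Set (ℤ × ℤ)) b := by
  obtain ⟨h1, b0, h2, h3, h4⟩ := mem_Lnear.1 h
  obtain ⟨h5, h6, h7⟩ := mem_Lo.1 h1
  have C : LC B ω ℓ := ⟨hg, h5, h7⟩
  exact ⟨C, fun b hb hbℓ => leave F.oD.cell C F.oD.hk hD (fun b hb _ => F.no_mix hD hX C hb) h2 h3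
    h4 hb hbℓ⟩

include F hD hX in
/-- The base arc of a near loop: its end. -/
theorem base_end (hg : Good ω) (h : ℓ ∈ Lnear K (D : Set (ℤ × ℤ)) B ω)
    (hB : BaseL K cD.P cD.u cD.zc cD.zo ω ℓ) : ∃ b ∈ bS K, b ∈ ℓ ∧ hdv b ∈ K ∧
      BaseE K cD.P cD.u cD.zc cD.zo ω b ∧
      ((cD.k₀ = cD.n ∧ At cD.P cD.u (nxt (bS K) ω b) cD.zc ∧
          hdv b = oq cD.P cD.u ((cD.zc + cD.n - 1) % cD.n)) ∨
        (cD.k₀ = 0 ∧ At cD.P cD.u b cD.zo ∧ hdv b = oq cD.P cD.u cD.zo)) := by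
  obtain ⟨C, hN⟩ := F.near_all hD hX hg h
  obtain ⟨b, b1, b2, b3, b4⟩ := hB
  refine ⟨b, b1, b3, b2, b4, ?_⟩
  have h4 : tlv b ∈ (D : Set (ℤ × ℤ)) := (hN b b1 b3).resolve_left fun h => F.oD.cell.dis _ b2 h
  obtain ⟨k, l, A⟩ := F.oD.cell.arc_pure C F.oD.hk hD b3 b2 h4 (F.no_mix hD hX C b3)
  have hk := A.hk
  have hl := A.hk'
  have hzc := F.oD.zc
  rcases (arc_baseE F.oD.cell F.oD.zc F.oD.zo A).1 b4 with ⟨h5, h6⟩ | ⟨h5, h6⟩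
  · left
    have h7 : cD.k₀ = cD.n := by
      rcases F.kD with h | h
      · omega
      · exact h
    refine ⟨h7, h6 ▸ A.at2, ?_⟩
    rw [A.hd]
    congr 1
    rcases A.cs with ⟨-, -, -, -, -, -, a6, -⟩ | ⟨-, a1, -⟩
    · rcases (by omega : k + 1 < cD.n ∨ k + 1 = cD.n) with h8 | h8
      · rw [Nat.mod_eq_of_lt h8] at a6
        rw [← h6, a6, show k + 1 + cD.n - 1 = k + cD.n by omega, Nat.add_mod_right,
          Nat.mod_eq_of_lt hk]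
      · rw [h8, Nat.mod_self] at a6
        rw [← h6, a6, zero_add, Nat.mod_eq_of_lt (by omega)]
        omega
    · exact absurd h5 a1
  · right
    have h7 : cD.k₀ = 0 := by
      rcases F.kD with h | h
      · exact h
      · omega
    exact ⟨h7, h6 ▸ A.at1, h6 ▸ A.hd⟩

include F hD hX in
/-- At most one near loop turns around the base. -/
theorem base_unique (hg : Good ω) (h : ℓ ∈ Lnear K (D : Set (ℤ × ℤ)) B ω)
    (h' : ℓ' ∈ Lnear K (D : Set (ℤ × ℤ)) B ω) (hB : BaseL K cD.P cD.u cD.zc cD.zo ω ℓ)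
    (hB' : BaseL K cD.P cD.u cD.zc cD.zo ω ℓ') : ℓ = ℓ' := by
  have hn := F.oD.cell.n0
  obtain ⟨b, b1, b2, -, -, b3⟩ := F.base_end hD hX hg h hB
  obtain ⟨y, y1, y2, -, -, y3⟩ := F.base_end hD hX hg h' hB'
  obtain ⟨C, -⟩ := F.near_all hD hX hg h
  obtain ⟨C', -⟩ := F.near_all hD hX hg h'
  rcases b3 with ⟨b4, b5, -⟩ | ⟨b4, b5, -⟩ <;> rcases y3 with ⟨y4, y5, -⟩ | ⟨y4, y5, -⟩
  · exact IsLoop.eq_of_mem C.hl C'.hl (nxt_mem C.hl b1 b2).2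
      (by rw [at_ed F.oD.cell.bd b5 y5]; exact (nxt_mem C'.hl y1 y2).2)
  · omega
  · omega
  · exact IsLoop.eq_of_mem C.hl C'.hl b2 (by rw [at_ed F.oD.cell.bd b5 y5]; exact y2)

open Classical in
include F hD hX in
/-- **The near product.** -/
theorem prod_near (hg : Good ω) (hs : Real.sin θ ≠ 0) (hcos : Real.cos θ ≠ 0) :
    ∏ ℓ ∈ Lnear K (D : Set (ℤ × ℤ)) B ω, fLp θ K a ω ℓ =
      if ∃ ℓ ∈ Lnear K (D : Set (ℤ × ℤ)) B ω, BaseL K cD.P cD.u cD.zc cD.zo ω ℓ then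
        (2 * Real.cos θ)⁻¹ else 1 := by
  have hval : ∀ ℓ ∈ Lnear K (D : Set (ℤ × ℤ)) B ω, fLp θ K a ω ℓ =
      if BaseL K cD.P cD.u cD.zc cD.zo ω ℓ then (2 * Real.cos θ)⁻¹ else 1 := by
    intro ℓ h
    obtain ⟨C, -⟩ := F.near_all hD hX hg h
    obtain ⟨-, b0, h2, h3, h4⟩ := mem_Lnear.1 h
    exact fLp_bdd F.oD.cell C F.oD.hk hD (fun b hb => F.no_mix hD hX C hb) F.oD.ph F.oD.zc F.oD.zo
      hs hcos h2 h3 h4
  by_cases hex : ∃ ℓ ∈ Lnear K (D : Set (ℤ × ℤ)) B ω, BaseL K cD.P cD.u cD.zc cD.zo ω ℓ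
  · rw [if_pos hex]
    obtain ⟨ℓ0, h0, hB0⟩ := hex
    rw [prod_eq_single_of_mem ℓ0 h0]
    · rw [hval ℓ0 h0, if_pos hB0]
    · intro ℓ h hne
      rw [hval ℓ h, if_neg]
      exact fun hB => hne (F.base_unique hD hX hg h h0 hB hB0)
  · rw [if_neg hex]
    refine prod_eq_one fun ℓ h => ?_
    rw [hval ℓ h, if_neg]
    exact fun hB => hex ⟨ℓ, h, hB⟩

include F hD hX in
/-- The base arc is on a near loop of the other configuration. -/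
theorem base_ex (hg : Good ω) (hg' : Good ω')
    (hag : ∀ v, v ∉ D → v ∉ B → ω v = ω' v)
    (hS1 : cD.k₀ = cD.n → oq cD.P cD.u ((cD.zc + cD.n - 1) % cD.n) ∈ Sp)
    (hS2 : cD.k₀ = 0 → oq cD.P cD.u cD.zo ∈ Sp)
    (hsp' : ∀ ℓ, IsLoop ω' ℓ → (∃ b ∈ ℓ, hdv b ∈ Sp) → ¬ VisL B ℓ)
    (h : ∃ ℓ ∈ Lnear K (D : Set (ℤ × ℤ)) B ω, BaseL K cD.P cD.u cD.zc cD.zo ω ℓ) :
    ∃ ℓ ∈ Lnear K (D : Set (ℤ × ℤ)) B ω', BaseL K cD.P cD.u cD.zc cD.zo ω' ℓ := by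
  obtain ⟨ℓ, h1, hB⟩ := h
  obtain ⟨b, b1, b2, b3, b4, b5⟩ := F.base_end hD hX hg h1 hB
  obtain ⟨C, hN⟩ := F.near_all hD hX hg h1
  obtain ⟨ℓ', hl', hbℓ'⟩ := hg' b
  have hSp : hdv b ∈ Sp := by
    rcases b5 with ⟨e1, -, e2⟩ | ⟨e1, -, e2⟩
    · rw [e2]; exact hS1 e1
    · rw [e2]; exact hS2 e1
  have hv' := hsp' ℓ' hl' ⟨b, hbℓ', hSp⟩
  have hbD : hdv b ∉ (D : Set (ℤ × ℤ)) := F.oD.cell.dis _ b3
  have hag2 := sq_agree F.oD.cell C (fun v h1 h2 => hag v (fun h => h1 (mem_coe.2 h)) h2) b2 hbD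
  have hr := C.rets b1 b2
  have e1 : ω (hdv b) = ω' (hdv b) := by
    have := hag2 0 hr.spec.1
    exact this
  refine ⟨ℓ', mem_Lnear.2 ⟨mem_Lo.2 ⟨hl', ⟨b, b1, hbℓ'⟩, hv'⟩, b, b1, hbℓ', hN b b1 b2⟩, b, b1, b3,
    hbℓ', ?_⟩
  unfold BaseE at b4 ⊢
  rw [← e1, nxt_agree hr hag2]
  exact b4

include F hD hX in
/-- **(c)** The product over the loops off the boxes does not depend on the squares of the domain. -/
theorem TO_agree (hg : Good ω) (hg' : Good ω') (hD' : cD.Clr K B ω') (hX' : cX.Clr K B ω')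
    (hs : Real.sin θ ≠ 0) (hcos : Real.cos θ ≠ 0)
    (hag : ∀ v, v ∉ D → v ∉ B → ω v = ω' v)
    (hS1 : cD.k₀ = cD.n → oq cD.P cD.u ((cD.zc + cD.n - 1) % cD.n) ∈ Sp)
    (hS2 : cD.k₀ = 0 → oq cD.P cD.u cD.zo ∈ Sp)
    (hsp : ∀ ℓ, IsLoop ω ℓ → (∃ b ∈ ℓ, hdv b ∈ Sp) → ¬ VisL B ℓ)
    (hsp' : ∀ ℓ, IsLoop ω' ℓ → (∃ b ∈ ℓ, hdv b ∈ Sp) → ¬ VisL B ℓ) :
    TO θ K a B ω = TO θ K a B ω' := by
  classical
  have hag' : ∀ v, v ∉ D → v ∉ B → ω' v = ω v := fun v h1 h2 => (hag v h1 h2).symm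
  rw [TO_nf (D : Set (ℤ × ℤ)), TO_nf (D : Set (ℤ × ℤ)),
    prod_far F.oD.cell hg hg' (fun v h1 h2 => hag v (fun h => h1 (mem_coe.2 h)) h2),
    F.prod_near hD hX hg hs hcos, F.prod_near hD' hX' hg' hs hcos]
  have h : (∃ ℓ ∈ Lnear K (D : Set (ℤ × ℤ)) B ω, BaseL K cD.P cD.u cD.zc cD.zo ω ℓ) ↔
      ∃ ℓ ∈ Lnear K (D : Set (ℤ × ℤ)) B ω', BaseL K cD.P cD.u cD.zc cD.zo ω' ℓ :=
    ⟨F.base_ex hD hX hg hg' hag hS1 hS2 hsp', F.base_ex hD' hX' hg' hg hag' hS1 hS2 hsp⟩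
  rw [if_congr h rfl rfl]

end OneF

end Vale.Agent.P167.N.ID
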