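import Vale.Agent.P167.N.ID.CellT

/-!
# P167, `q < 1`, START: the product over the loops off the holes, Dobrushin frames

`DobF.nonneg` (a), `DobF.TO_agree` (c), `DobF.TO_low` (e).
-/

set_option autoImplicit false

namespace Vale.Agent.P167.N.ID

open Finset
open Vale.Agent.P167.BR
open Vale.Agent.P167.FK
open Vale.Agent.P167.Top
open Vale.Agent.P167.H871
open Vale.Agent.P167.H871.Q
open Vale.Agent.P167.A (plane)
open Vale.Agent.P167.XDL (bS mem_bS P4_be)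
open Vale.Agent.P167.H199 (strand ret mem_strand loop_nx loop_iter ret_min ret_le
  strand_sub sum_strand Returns strand_unique ah at' cang cang_congr)
open Vale.Agent.P167.H680.S (nxt nxt_mem nxt_induct nxt_inj trS sum_rule MixE Lo mem_Lo)
open Vale.Agent.P167.QX (returns_loop card_out_in fLp wS VisL TO exists_strand_loop fLp_congr)
open Vale.Agent.P167.H685 (LE mem_LE loop_loc nx_loc)

variable {ω ω' : Cfg} {ℓ ℓ' : Finset Ed} {K : Finset (ℤ × ℤ)} {B E E' : Set (ℤ × ℤ)} {n k₀ z zc zo : ℕ}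
  {P : ℕ → ℤ × ℤ} {u : ℕ → ℤ} {τ τ' : ℤ} {b x y g h : Ed} {i j k l i' j' : ℕ}
  {D R : Finset (ℤ × ℤ)} {X : Set (ℤ × ℤ)} {θ β C0 : ℝ} {a : Ed → Bool → ℝ} {Sp : Set (ℤ × ℤ)}

namespace DobF

variable {cD cR cX : CD} (F : DobF θ β K B a D R X cD cR cX) (hD : cD.Clr K B ω)
  (hR : cR.Clr K B ω) (hX : cX.Clr K B ω) (C : LC B ω ℓ)

include F hD hR hX C in
/-- The loops without mixed arcs. -/
theorem val (hm : ∀ b ∈ ℓ, ¬ MixE K ω b) (hs : Real.sin θ ≠ 0) (hcos : Real.cos θ ≠ 0)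
    (hS : ∃ b ∈ bS K, b ∈ ℓ) :
    fLp θ K a ω ℓ = 0 ∨ fLp θ K a ω ℓ = 1 ∨ fLp θ K a ω ℓ = (2 * Real.cos θ)⁻¹ := by
  obtain ⟨b, h1, h2⟩ := hS
  rcases F.side C h1 h2 with h | h | h
  · exact one_val_bdd F.oD C hD hm hs hcos h1 h2 h
  · exact one_val_bdd F.oR C hR hm hs hcos h1 h2 h
  · exact one_val_ext F.oX C F.kX hX hm hs hcos h1 h2 h

include F hD hR hX C in
/-- **(a)** -/
theorem nonneg (hs : Real.sin θ ≠ 0) (hcos : 0 < Real.cos θ) (hβ : β = (θ - Real.pi) / 2)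
    (hS : ∃ b ∈ bS K, b ∈ ℓ) : 0 ≤ fLp θ K a ω ℓ := by
  by_cases hm : ∃ b ∈ ℓ, MixE K ω b
  · exact F.int_nonneg hD hR hX C hm hs hcos hβ
  · push Not at hm
    rcases F.val hD hR hX C hm hs hcos.ne' hS with h | h | h
    · rw [h]
    · rw [h]; exact zero_le_one
    · rw [h]; exact inv_nonneg.2 (by linarith)

include F hD C in
/-- The loops without mixed arcs next to the domain. -/
theorem near_one (hm : ∀ b ∈ ℓ, ¬ MixE K ω b) (hs : Real.sin θ ≠ 0) (hcos : Real.cos θ ≠ 0)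
    (h1 : b ∈ bS K) (h2 : b ∈ ℓ) (h3 : Sd (D : Set (ℤ × ℤ)) b) : fLp θ K a ω ℓ = 1 := by
  classical
  rw [fLp_bdd F.oD.cell C F.oD.hk hD hm F.oD.ph F.oD.zc F.oD.zo hs hcos h1 h2 h3, if_neg]
  rintro ⟨y, y1, y2, y3, y4⟩
  have hy : Sd (D : Set (ℤ × ℤ)) y := leave F.oD.cell C F.oD.hk hD (fun b hb _ => hm b hb) h1 h2 h3
    y1 y3
  have hyE : tlv y ∈ (D : Set (ℤ × ℤ)) := hy.resolve_left (F.oD.cell.dis _ y2)
  obtain ⟨k, l, A⟩ := F.oD.cell.arc_pure C F.oD.hk hD y3 y2 hyE (hm y y3)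
  obtain ⟨z1, z2⟩ := F.zD
  obtain ⟨k1, k2⟩ := F.kD
  have hk := A.hk
  rcases (arc_baseE F.oD.cell F.oD.zc F.oD.zo A).1 y4 with ⟨h5, h6⟩ | ⟨h5, h6⟩
  · rcases A.cs with ⟨-, -, -, -, -, -, a6, a7⟩ | ⟨-, a1, -⟩
    · rcases (by omega : k + 1 < cD.n ∨ k + 1 = cD.n) with h8 | h8
      · rw [Nat.mod_eq_of_lt h8] at a6
        omega
      · have := a7 h8
        omega
    · exact a1 h5
  · omega

/-- The sides next to `R` of the interface are on the interface of the other configuration. -/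
theorem far_same (F : DobF θ β K B a D R X cD cR cX) (hD : cD.Clr K B ω)
    (hR : cR.Clr K B ω) (hX : cX.Clr K B ω) (hD' : cD.Clr K B ω')
    (hR' : cR.Clr K B ω') (hX' : cX.Clr K B ω') (C : LC B ω ℓ) (C' : LC B ω' ℓ')
    (hag : ∀ v, v ∉ D → v ∉ B → ω v = ω' v)
    (hm : ∃ b ∈ ℓ, MixE K ω b) (hm' : ∃ b ∈ ℓ', MixE K ω' b)
    (hb : b ∈ bS K) (hbℓ : b ∈ ℓ) (hS : Sd (R : Set (ℤ × ℤ)) b) : b ∈ ℓ' := by
  obtain ⟨b1, h1, m1⟩ := hm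
  obtain ⟨b2, h2, m2⟩ := hm'
  obtain ⟨⟨y, y1, y2, y3⟩, -⟩ := F.int_both hD hR hX C h1 m1
  obtain ⟨-, ⟨z, z1, z2, z3⟩⟩ := F.int_both hD' hR' hX' C' h2 m2
  by_contra hno
  have key := nxt_induct (S := bS K) C.hl (P := fun b => Sd (R : Set (ℤ × ℤ)) b ∧ b ∉ ℓ')
    (fun b e1 e2 e3 => ?_) hb hbℓ ⟨hS, hno⟩ y2.1 y1
  · exact sd_excl F.oD.cell F.oR.cell (fun v h1 h2 => F.DR v (mem_coe.1 h1) (mem_coe.1 h2))
      y2.1 y3 key.1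
  · obtain ⟨e3, e4⟩ := e3
    have hbD : hdv b ∉ (D : Set (ℤ × ℤ)) := by
      intro h
      exact sd_excl F.oD.cell F.oR.cell (fun v h1 h2 => F.DR v (mem_coe.1 h1) (mem_coe.1 h2))
        e1 (Or.inl h) e3
    have hnm : ¬ MixE K ω b := fun hm => e4 (by
      rw [mix_edge F.oR.cell C C' F.oR.hk hR hR' e2 z1 e3 z3 hm z2]; exact z1)
    have hr := C.rets e1 e2
    have hag2 := sq_agree F.oD.cell C (fun v h1 h2 => hag v (fun h => h1 (mem_coe.2 h)) h2) e2 hbD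
    constructor
    · rcases mem_bS.1 e1 with h | h
      · have h4 : tlv b ∈ (R : Set (ℤ × ℤ)) := e3.resolve_left (F.oR.cell.dis _ h.1)
        obtain ⟨k, l, A⟩ := F.oR.cell.arc_pure C F.oR.hk hR e2 h.1 h4 hnm
        exact Or.inl A.hdE
      · have h4 : hdv b ∈ (R : Set (ℤ × ℤ)) := e3.resolve_right (F.oR.cell.dis _ h.2)
        obtain ⟨i, j, Y⟩ := F.oR.cell.exit C e2 h4 h.2
        exact Or.inr Y.lst
    · intro e5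
      apply e4
      rw [← nxt_agree hr hag2] at e5
      have key2 : ∀ k, (nx ω')^[k] b ∈ ℓ' → b ∈ ℓ' := by
        intro k
        induction k with
        | zero => exact id
        | succ k ih =>
          intro h
          rw [Function.iterate_succ_apply'] at h
          exact ih (C'.hl.nx_mem_iff.1 h)
      exact key2 _ e5

open Classical in
/-- The factor of the interface: the exits off the domain. -/
theorem int_fac (F : DobF θ β K B a D R X cD cR cX) (hD : cD.Clr K B ω)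
    (hX : cX.Clr K B ω) (C : LC B ω ℓ)
    (hm : ∃ b ∈ ℓ, MixE K ω b) (hs : Real.sin θ ≠ 0) (hβ : β = (θ - Real.pi) / 2) :
    fLp θ K a ω ℓ = (∏ e ∈ (bS K).filter (fun e => (hdv e ∉ K ∧ e ∈ ℓ) ∧ hdv e ∉ D),
      wS θ K a ω e) / (2 * Real.cos θ) := by
  unfold fLp
  congr 1
  rw [← prod_filter_mul_prod_filter_not ((bS K).filter fun e => hdv e ∉ K ∧ e ∈ ℓ)
    (fun e => hdv e ∈ D), prod_eq_one, one_mul, filter_filter]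
  intro e he
  obtain ⟨h1, h2⟩ := mem_filter.1 he
  obtain ⟨h3, h4, h5⟩ := mem_filter.1 h1
  rcases F.exits hX C hm h3 h5 h4 with ⟨-, i, j, Y⟩ | ⟨-, h, -⟩
  · exact F.wD hD C hm hs hβ Y h5
  · exact absurd h2 h

/-- **The interfaces of two configurations which agree off the domain.** -/
theorem int_agree (F : DobF θ β K B a D R X cD cR cX) (hD : cD.Clr K B ω)
    (hR : cR.Clr K B ω) (hX : cX.Clr K B ω) (hD' : cD.Clr K B ω')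
    (hR' : cR.Clr K B ω') (hX' : cX.Clr K B ω') (C : LC B ω ℓ) (C' : LC B ω' ℓ')
    (hag : ∀ v, v ∉ D → v ∉ B → ω v = ω' v)
    (hm : ∃ b ∈ ℓ, MixE K ω b) (hm' : ∃ b ∈ ℓ', MixE K ω' b) (hs : Real.sin θ ≠ 0)
    (hβ : β = (θ - Real.pi) / 2) : fLp θ K a ω ℓ = fLp θ K a ω' ℓ' := by
  classical
  have hag' : ∀ v, v ∉ D → v ∉ B → ω' v = ω v := fun v h1 h2 => (hag v h1 h2).symm
  have e3 : (bS K).filter (fun e => (hdv e ∉ K ∧ e ∈ ℓ) ∧ hdv e ∉ D) =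
      (bS K).filter (fun e => (hdv e ∉ K ∧ e ∈ ℓ') ∧ hdv e ∉ D) := by
    ext y
    rw [mem_filter, mem_filter]
    constructor
    · rintro ⟨h1, ⟨h2, h3⟩, h4⟩
      rcases F.exits hX C hm h1 h3 h2 with ⟨h, -⟩ | ⟨h5, -, -⟩
      · exact absurd h h4
      · exact ⟨h1, ⟨h2, F.far_same hD hR hX hD' hR' hX' C C' hag hm hm' h1 h3
          (Or.inl (mem_coe.2 h5))⟩, h4⟩
    · rintro ⟨h1, ⟨h2, h3⟩, h4⟩
      rcases F.exits hX' C' hm' h1 h3 h2 with ⟨h, -⟩ | ⟨h5, -, -⟩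
      · exact absurd h h4
      · exact ⟨h1, ⟨h2, F.far_same hD' hR' hX' hD hR hX C' C hag' hm' hm h1 h3
          (Or.inl (mem_coe.2 h5))⟩, h4⟩
  rw [F.int_fac hD hX C hm hs hβ, F.int_fac hD' hX' C' hm' hs hβ, ← e3]
  congr 1
  refine prod_congr rfl fun y hy => ?_
  obtain ⟨h1, ⟨h2, h3⟩, h4⟩ := mem_filter.1 hy
  exact wS_agree (C.rets h1 h3) (sq_agree F.oD.cell C
    (fun v h1 h2 => hag v (fun h => h1 (mem_coe.2 h)) h2) h3 (fun h => h4 (mem_coe.1 h))) a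

include F hD hR hX in
/-- The mixed arc is on a loop of the other configuration. -/
theorem mix_ex (hg' : Good ω') (hag : ∀ v, v ∉ D → v ∉ B → ω v = ω' v)
    (hS1 : oq cD.P cD.u cD.k₀ ∈ Sp) (hS2 : oq cD.P cD.u (cD.k₀ - 1) ∈ Sp)
    (hsp' : ∀ ℓ, IsLoop ω' ℓ → (∃ b ∈ ℓ, hdv b ∈ Sp) → ¬ VisL B ℓ)
    (C : LC B ω ℓ) (hm : ∃ b ∈ ℓ, MixE K ω b) :
    ∃ ℓ' ∈ Lnear K (D : Set (ℤ × ℤ)) B ω', ∃ b ∈ ℓ', MixE K ω' b := by
  obtain ⟨b1, h1, m1⟩ := hm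
  obtain ⟨⟨y, y1, y2, y3⟩, -⟩ := F.int_both hD hR hX C h1 m1
  obtain ⟨-, g1, g2, g3, g4, g5⟩ := mix_exit F.oD.cell C F.oD.hk hD y1 y3 y2
  have hyE : hdv y ∉ (D : Set (ℤ × ℤ)) := F.oD.cell.dis _ y2.2.1
  have hSp : hdv y ∈ Sp := by
    rcases g5 with ⟨g6, -⟩ | ⟨g6, -⟩
    · rw [(at_ent F.oD.cell.bd g6 hyE).2.2.1]; exact hS2
    · rw [(at_ent F.oD.cell.bd g6 hyE).2.2.1]; exact hS1
  obtain ⟨ℓ', hl', hyℓ'⟩ := hg' y
  have hv' := hsp' ℓ' hl' ⟨y, hyℓ', hSp⟩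
  have c1 : ω (hdv y) = ω' (hdv y) :=
    hag _ (fun h => hyE (mem_coe.2 h)) (C.hd_off y1)
  have c2 : ω (hdv (nx ω y)) = ω' (hdv (nx ω y)) :=
    hag _ (fun h => F.oD.cell.dis _ y2.2.2.1 (mem_coe.2 h)) (C.hd_off (C.nx_mem y1))
  have hm' : MixE K ω' y := by
    refine ⟨y2.1, y2.2.1, ?_, ?_⟩
    · rw [← nx_loc c1]; exact y2.2.2.1
    · rw [← nx_loc c1, ← c1, ← c2]; exact y2.2.2.2
  exact ⟨ℓ', mem_Lnear.2 ⟨mem_Lo.2 ⟨hl', ⟨y, y2.1, hyℓ'⟩, hv'⟩, y, y2.1, hyℓ', y3⟩, y, hyℓ', hm'⟩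

include F hD in
open Classical in
/-- The near product is the factor of the interface. -/
theorem prod_near (hg : Good ω) (hs : Real.sin θ ≠ 0) (hcos : Real.cos θ ≠ 0) :
    ∏ ℓ ∈ Lnear K (D : Set (ℤ × ℤ)) B ω, fLp θ K a ω ℓ =
      ∏ ℓ ∈ (Lnear K (D : Set (ℤ × ℤ)) B ω).filter (fun ℓ => ∃ b ∈ ℓ, MixE K ω b),
        fLp θ K a ω ℓ := by
  rw [← prod_filter_mul_prod_filter_not (Lnear K (D : Set (ℤ × ℤ)) B ω)
    (fun ℓ => ∃ b ∈ ℓ, MixE K ω b)]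
  have h1 : ∏ ℓ ∈ (Lnear K (D : Set (ℤ × ℤ)) B ω).filter (fun ℓ => ¬ ∃ b ∈ ℓ, MixE K ω b),
      fLp θ K a ω ℓ = 1 := by
    refine prod_eq_one fun ℓ h => ?_
    obtain ⟨h2, h3⟩ := mem_filter.1 h
    obtain ⟨h4, b0, h5, h6, h7⟩ := mem_Lnear.1 h2
    obtain ⟨h8, -, h9⟩ := mem_Lo.1 h4
    push Not at h3
    exact F.near_one hD ⟨hg, h8, h9⟩ h3 hs hcos h5 h6 h7
  rw [h1, mul_one]

/-- **(c)** The product over the loops off the boxes does not depend on the squares of the domain. -/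
theorem TO_agree (F : DobF θ β K B a D R X cD cR cX) (hD : cD.Clr K B ω)
    (hR : cR.Clr K B ω) (hX : cX.Clr K B ω) (hD' : cD.Clr K B ω')
    (hR' : cR.Clr K B ω') (hX' : cX.Clr K B ω') (hg : Good ω) (hg' : Good ω')
    (hs : Real.sin θ ≠ 0) (hcos : Real.cos θ ≠ 0) (hβ : β = (θ - Real.pi) / 2)
    (hag : ∀ v, v ∉ D → v ∉ B → ω v = ω' v)
    (hS1 : oq cD.P cD.u cD.k₀ ∈ Sp) (hS2 : oq cD.P cD.u (cD.k₀ - 1) ∈ Sp)
    (hsp : ∀ ℓ, IsLoop ω ℓ → (∃ b ∈ ℓ, hdv b ∈ Sp) → ¬ VisL B ℓ)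
    (hsp' : ∀ ℓ, IsLoop ω' ℓ → (∃ b ∈ ℓ, hdv b ∈ Sp) → ¬ VisL B ℓ) :
    TO θ K a B ω = TO θ K a B ω' := by
  classical
  have hag' : ∀ v, v ∉ D → v ∉ B → ω' v = ω v := fun v h1 h2 => (hag v h1 h2).symm
  rw [TO_nf (D : Set (ℤ × ℤ)), TO_nf (D : Set (ℤ × ℤ)),
    prod_far F.oD.cell hg hg' (fun v h1 h2 => hag v (fun h => h1 (mem_coe.2 h)) h2),
    F.prod_near hD hg hs hcos, F.prod_near hD' hg' hs hcos]
  congr 1
  set S := (Lnear K (D : Set (ℤ × ℤ)) B ω).filter (fun ℓ => ∃ b ∈ ℓ, MixE K ω b) with hSd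
  set S' := (Lnear K (D : Set (ℤ × ℤ)) B ω').filter (fun ℓ => ∃ b ∈ ℓ, MixE K ω' b) with hSd'
  have hC : ∀ ℓ ∈ S, LC B ω ℓ ∧ ∃ b ∈ ℓ, MixE K ω b := by
    intro ℓ h
    obtain ⟨h1, h2⟩ := mem_filter.1 h
    obtain ⟨h3, -⟩ := mem_Lnear.1 h1
    obtain ⟨h4, -, h5⟩ := mem_Lo.1 h3
    exact ⟨⟨hg, h4, h5⟩, h2⟩
  have hC' : ∀ ℓ ∈ S', LC B ω' ℓ ∧ ∃ b ∈ ℓ, MixE K ω' b := by
    intro ℓ h
    obtain ⟨h1, h2⟩ := mem_filter.1 h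
    obtain ⟨h3, -⟩ := mem_Lnear.1 h1
    obtain ⟨h4, -, h5⟩ := mem_Lo.1 h3
    exact ⟨⟨hg', h4, h5⟩, h2⟩
  rcases S.eq_empty_or_nonempty with h0 | ⟨ℓ, hℓ⟩
  · have h1 : S' = ∅ := by
      rw [eq_empty_iff_forall_notMem]
      intro ℓ' hℓ'
      obtain ⟨C', m'⟩ := hC' ℓ' hℓ'
      obtain ⟨ℓ, h2, h3⟩ := F.mix_ex hD' hR' hX' hg hag' hS1 hS2 hsp C' m'
      have : ℓ ∈ S := mem_filter.2 ⟨h2, h3⟩
      rw [h0] at this
      exact absurd this (notMem_empty _)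
    rw [h0, h1, prod_empty, prod_empty]
  · obtain ⟨C, m⟩ := hC ℓ hℓ
    obtain ⟨ℓ', h2, h3⟩ := F.mix_ex hD hR hX hg' hag hS1 hS2 hsp' C m
    have hℓ' : ℓ' ∈ S' := mem_filter.2 ⟨h2, h3⟩
    obtain ⟨C', m'⟩ := hC' ℓ' hℓ'
    have e1 : S = {ℓ} := by
      rw [eq_singleton_iff_unique_mem]
      exact ⟨hℓ, fun ℓ1 h1 => F.unique hD hR hX (hC ℓ1 h1).1 C (hC ℓ1 h1).2 m⟩
    have e2 : S' = {ℓ'} := by
      rw [eq_singleton_iff_unique_mem]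
      exact ⟨hℓ', fun ℓ1 h1 => F.unique hD' hR' hX' (hC' ℓ1 h1).1 C' (hC' ℓ1 h1).2 m'⟩
    rw [e1, e2, prod_singleton, prod_singleton]
    exact F.int_agree hD hR hX hD' hR' hX' C C' hag m m' hs hβ

include F hD hR hX in
/-- **(e)** The lower bound. -/
theorem TO_low (hg : Good ω) (hs : Real.sin θ ≠ 0) (hcos : 0 < Real.cos θ)
    (hcos' : 2 * Real.cos θ ≤ 1) (hβ : β = (θ - Real.pi) / 2) (hne : TO θ K a B ω ≠ 0) :
    1 ≤ TO θ K a B ω ∨ ∃ ℓ, LC B ω ℓ ∧ (∃ b ∈ ℓ, MixE K ω b) ∧ fLp θ K a ω ℓ ≠ 0 ∧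
      (2 * Real.cos θ) ^ (1 + (ks cR K R ω ℓ).card) ≤ TO θ K a B ω := by
  classical
  have h0 : TO θ K a B ω = ∏ ℓ ∈ Lo K B ω, fLp θ K a ω ℓ := rfl
  rw [h0] at hne ⊢
  have hone : ∀ ℓ ∈ Lo K B ω, (∀ b ∈ ℓ, ¬ MixE K ω b) → 1 ≤ fLp θ K a ω ℓ := by
    intro ℓ hℓ hm
    obtain ⟨h1, h2, h3⟩ := mem_Lo.1 hℓ
    rcases F.val hD hR hX ⟨hg, h1, h3⟩ hm hs hcos.ne' h2 with h | h | h
    · exact absurd (prod_eq_zero hℓ h) hne
    · exact h.ge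
    · rw [h]
      exact (one_le_inv₀ (by linarith)).2 hcos'
  by_cases hex : ∃ ℓ ∈ Lo K B ω, ∃ b ∈ ℓ, MixE K ω b
  · right
    obtain ⟨ℓ, h1, h2⟩ := hex
    obtain ⟨h3, h4, h5⟩ := mem_Lo.1 h1
    have C : LC B ω ℓ := ⟨hg, h3, h5⟩
    have hne1 : fLp θ K a ω ℓ ≠ 0 := fun h => hne (prod_eq_zero h1 h)
    refine ⟨ℓ, C, h2, hne1, ?_⟩
    rw [← mul_prod_erase _ _ h1]
    have h6 : 1 ≤ ∏ x ∈ (Lo K B ω).erase ℓ, fLp θ K a ω x := by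
      refine prod_low _ _ fun x hx => ?_
      obtain ⟨h7, h8⟩ := mem_erase.1 hx
      refine hone x h8 fun b hb hm => h7 ?_
      obtain ⟨g1, g2, g3⟩ := mem_Lo.1 h8
      exact F.unique hD hR hX ⟨hg, g1, g3⟩ C ⟨b, hb, hm⟩ h2
    have h7 := F.int_low hD hR hX C h2 hs hcos hcos' hβ hne1
    calc (2 * Real.cos θ) ^ (1 + (ks cR K R ω ℓ).card) ≤ fLp θ K a ω ℓ := h7
      _ = fLp θ K a ω ℓ * 1 := (mul_one _).symm
      _ ≤ _ := mul_le_mul_of_nonneg_left h6 (F.int_nonneg hD hR hX C h2 hs hcos hβ)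
  · left
    push Not at hex
    exact prod_low _ _ fun ℓ hℓ => hone ℓ hℓ (hex ℓ hℓ)

end DobF

end Vale.Agent.P167.N.ID
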