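import Vale.Agent.P167.N.ID.WinLoop
import Vale.Agent.P167.H662.D2.A

/-!
# P167, `q < 1`, START: windows

`WinD`, `WinD.Ok`: a simply connected window `D` of a family of frozen squares `K`, with the boundary
`P`, `u` (directions), `D` on the left; loops of one colour `σ` (`1`: closed, `-1`: open). The raw
outward phase of the wall step `i` is `c + θ / 4 * (u i + 4 * s i)`, stagger `σ (3 θ - π) / 4`; the
sides in `EE` (regular end sides) have the additional outer angle `- σ θ / 2`. Everything that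
distinguishes the frames is in the integers `s`: the angle of the strand from the step `i` to the step
`j` is `θ / 4 t + σ ((3 θ - π) / 2 + ends)` with `t = 4 (s i - s j) - 2` (`i < j`), `+ 2` (`j < i`).

`WinD.Ok.loop`: a loop in the window has a vanishing strand, or all of its strands are natural and
(number of positive strands) + (number of inner pieces around an invisible base site) is one, so that
its factor is `(2 cos θ) ^ (- w)` up to bounded factors of the strands with an end in `EE`.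
-/

namespace Vale.Agent.P167.N.ID

open Finset
open Vale.Agent.P167.BR
open Vale.Agent.P167.FK
open Vale.Agent.P167.Top
open Vale.Agent.P167.H871
open Vale.Agent.P167.H871.Q
open Vale.Agent.P167.A (plane)
open Vale.Agent.P167.XDL (bS mem_bS)
open Vale.Agent.P167.H199 (strand ret Returns ah at')
open Vale.Agent.P167.H680.S (nxt nxt_mem trS)
open Vale.Agent.P167.QX (returns_loop card_out_in fLp wS out_stays)
open Vale.Agent.P167.H662.D2 (M4_two ls_out ls_in)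

/-- **Killed or natural**, with base sites: the inner strands have the corrected turning `2 σ` or
`6 σ` (`d = 1`). -/
theorem count_kill2 {ω : Cfg} {ℓ : Finset Ed} {K : Finset (ℤ × ℤ)} {σ : ℤ} (hl : IsLoop ω ℓ)
    (hS : ∃ e ∈ bS K, e ∈ ℓ) (hσ : σ = 1 ∨ σ = -1) (g c : Ed → ℤ) (d : Ed → ℕ)
    (hout : ∀ b ∈ bS K, b ∈ ℓ → hdv b ∉ K → trS (bS K) ω b = g (nxt (bS K) ω b) - g b + c b ∧
      (c b = 2 * σ ∨ c b = -2 * σ ∨ c b = 6 * σ ∨ c b = -6 * σ))
    (hinn : ∀ b ∈ bS K, b ∈ ℓ → hdv b ∈ K →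
      trS (bS K) ω b = g (nxt (bS K) ω b) - g b + 2 * σ + 4 * σ * d b) :
    (∃ b ∈ bS K, b ∈ ℓ ∧ hdv b ∉ K ∧ c b = -6 * σ) ∨
      ((∀ b ∈ bS K, b ∈ ℓ → hdv b ∉ K → c b = 2 * σ ∨ c b = -2 * σ) ∧
        ((bS K).filter fun e => (hdv e ∉ K ∧ e ∈ ℓ) ∧ c e = 2 * σ).card +
          ∑ e ∈ (bS K).filter (fun e => hdv e ∈ K ∧ e ∈ ℓ), d e = 1) := by
  by_cases hk : ∃ b ∈ bS K, b ∈ ℓ ∧ hdv b ∉ K ∧ c b = -6 * σ
  · exact Or.inl hk
  right
  have hnk : ∀ b ∈ bS K, b ∈ ℓ → hdv b ∉ K → c b ≠ -6 * σ := fun b h1 h2 h3 h4 =>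
    hk ⟨b, h1, h2, h3, h4⟩
  have h1 := H680.S.sum_rule hl hS g (fun b => if hdv b ∈ K then 2 * σ + 4 * σ * d b else c b)
    (fun b hb hbl => by
      by_cases h : hdv b ∈ K
      · simp only [if_pos h]
        rw [hinn b hb hbl h]
        ring
      · simp only [if_neg h]
        exact (hout b hb hbl h).1)
  set S1 := ∑ e ∈ (bS K).filter (fun e => hdv e ∈ K ∧ e ∈ ℓ), d e with hS1
  have h2 : ∑ b ∈ (bS K).filter (· ∈ ℓ), (if hdv b ∈ K then 2 * σ + 4 * σ * (d b : ℤ) else c b) =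
      2 * σ * ((bS K).filter fun e => hdv e ∈ K ∧ e ∈ ℓ).card + 4 * σ * (S1 : ℤ) +
        ∑ b ∈ (bS K).filter (fun e => hdv e ∉ K ∧ e ∈ ℓ), c b := by
    have e1 : (bS K).filter (fun a => a ∈ ℓ ∧ hdv a ∈ K) =
        (bS K).filter fun e => hdv e ∈ K ∧ e ∈ ℓ := filter_congr fun a _ => and_comm
    have e2 : (bS K).filter (fun a => a ∈ ℓ ∧ hdv a ∉ K) =
        (bS K).filter fun e => hdv e ∉ K ∧ e ∈ ℓ := filter_congr fun a _ => and_comm
    rw [sum_ite, filter_filter, filter_filter, e1, e2, sum_add_distrib, sum_const, nsmul_eq_mul,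
      ← mul_sum, hS1]
    push_cast
    ring
  have h3 : 2 * σ * (((bS K).filter fun e => hdv e ∉ K ∧ e ∈ ℓ).card : ℤ) +
      ∑ b ∈ (bS K).filter (fun e => hdv e ∉ K ∧ e ∈ ℓ), c b =
      ∑ b ∈ (bS K).filter (fun e => hdv e ∉ K ∧ e ∈ ℓ), (2 * σ + c b) := by
    rw [sum_add_distrib, sum_const, nsmul_eq_mul]
    ring
  rw [h2, ← card_out_in (I := K) hl, add_right_comm, h3] at h1
  set E := (bS K).filter fun e => hdv e ∉ K ∧ e ∈ ℓ with hE
  have hterm : ∀ b ∈ E, 0 ≤ σ * (2 * σ + c b) := by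
    intro b hb
    obtain ⟨k1, k2, k3⟩ := mem_filter.1 hb
    have k4 := (hout b k1 k3 k2).2
    have k5 := hnk b k1 k3 k2
    rcases hσ with rfl | rfl <;> omega
  have hsum : ∑ b ∈ E, σ * (2 * σ + c b) + 4 * (S1 : ℤ) = 4 := by
    rw [← mul_sum]
    have h0 : 0 ≤ ∑ b ∈ E, σ * (2 * σ + c b) := sum_nonneg hterm
    rw [← mul_sum] at h0
    generalize ∑ b ∈ E, (2 * σ + c b) = X at h0 h1 ⊢
    rcases hσ with rfl | rfl <;> omega
  have hle : ∀ b ∈ E, σ * (2 * σ + c b) ≤ 4 := fun b hb => by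
    have := single_le_sum hterm hb
    omega
  have hval : ∀ b ∈ E, c b = 2 * σ ∨ c b = -2 * σ := by
    intro b hb
    obtain ⟨k1, k2, k3⟩ := mem_filter.1 hb
    have k4 := (hout b k1 k3 k2).2
    have k5 := hnk b k1 k3 k2
    have k6 := hle b hb
    rcases hσ with rfl | rfl <;> omega
  refine ⟨fun b k1 k2 k3 => hval b (mem_filter.2 ⟨k1, k3, k2⟩), ?_⟩
  have h6 : ∑ b ∈ E, σ * (2 * σ + c b) = 4 * (E.filter fun b => c b = 2 * σ).card := by
    rw [← sum_filter_add_sum_filter_not E (fun b => c b = 2 * σ),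
      sum_congr rfl (g := fun _ => (4 : ℤ)) fun b hb => by
        rw [(mem_filter.1 hb).2]
        rcases hσ with rfl | rfl <;> norm_num,
      sum_congr (s₁ := E.filter fun b => ¬ c b = 2 * σ) rfl (g := fun _ => (0 : ℤ)) fun b hb => by
        have := hval b (mem_filter.1 hb).1
        rw [this.resolve_left (mem_filter.1 hb).2]
        rcases hσ with rfl | rfl <;> norm_num, sum_const, sum_const]
    simp only [nsmul_eq_mul]
    ring
  rw [h6, hE, filter_filter] at hsum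
  omega

/-- The steps of a closed path are different. -/
theorem step_inj {D : Set (ℤ × ℤ)} {n : ℕ} {P : ℕ → ℤ × ℤ} {u : ℕ → ℤ} {τ : ℤ} (hb : Bd D n P u τ)
    {i j : ℕ} (hi : i < n) (hj : j < n) (h : M4 (P i) (u i) = M4 (P j) (u j)) : i = j := by
  rcases M4_two h with ⟨h1, -⟩ | ⟨h1, h2⟩
  · rcases lt_trichotomy i j with h3 | h3 | h3
    · exact absurd h1 (hb.inj _ _ h3 (by omega))
    · exact h3
    · exact absurd h1.symm (hb.inj _ _ h3 (by omega))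
  · exfalso
    have h3 := hb.left i
    rw [h1, sqL_congr h2, sqL_next] at h3
    exact hb.right j h3

/-! ### windows -/

open Classical in
/-- The additional outer angle of the regular end sides. -/
noncomputable def eeA (θ : ℝ) (EE : Set Ed) (g : Ed) : ℝ := if g ∈ EE then -(θ / 2) else 0

/-- The data of a window. -/
structure WinD where
  /-- colour of the loops: `1` closed, `-1` open -/
  σ : ℤ
  /-- the phase constant -/
  c : ℝ
  /-- the window -/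
  D : Set (ℤ × ℤ)
  /-- the region in which the loops live -/
  V : Set (ℤ × ℤ)
  /-- the squares of the colour `σ` -/
  C : Set (ℤ × ℤ)
  /-- the length of the boundary -/
  n : ℕ
  /-- the boundary -/
  P : ℕ → ℤ × ℤ
  /-- the directions -/
  u : ℕ → ℤ
  /-- the phases, in units of `θ`, relative to the natural ones -/
  s : ℕ → ℤ
  /-- the wall steps of the colour `σ` -/
  W : ℕ → Prop
  /-- the regular end sides -/
  E : ℕ → Prop
  /-- the last steps before the invisible base sites -/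
  Z : ℕ → Prop

/-- **A window.** -/
structure WinD.Ok (w : WinD) (θ : ℝ) (K : Finset (ℤ × ℤ)) (EE : Set Ed) (a : Ed → Bool → ℝ) :
    Prop where
  sg : w.σ = 1 ∨ w.σ = -1
  /-- the boundary -/
  bd : Bd w.D w.n w.P w.u 1
  /-- the frozen squares are off the window -/
  kd : ∀ v ∈ K, v ∉ w.D
  /-- the only exits from the window into `V` are the frozen squares -/
  adj : ∀ g : Ed, tlv g ∈ w.D → hdv g ∈ w.V → hdv g ∉ w.D → hdv g ∈ K
  /-- the sides of the frozen squares are wall steps: exits -/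
  out : ∀ g ∈ bS K, hdv g ∈ w.D → tlv g ∈ w.C → ∃ i, w.W i ∧ (g ∈ EE → w.E i) ∧
    P4 g = M4 (w.P i) (w.u i) ∧ ah plane a g = w.c + θ / 4 * ((w.u i + 4 * w.s i : ℤ) : ℝ) +
      w.σ * ((3 * θ - Real.pi) / 4 + eeA θ EE g)
  /-- entries -/
  inn : ∀ g ∈ bS K, tlv g ∈ w.D → hdv g ∈ w.C → ∃ i, w.W i ∧ (g ∈ EE → w.E i) ∧
    P4 g = M4 (w.P i) (w.u i) ∧ at' plane a g = -(w.c + θ / 4 * ((w.u i + 4 * w.s i : ℤ) : ℝ)) +
      w.σ * ((3 * θ - Real.pi) / 4 + eeA θ EE g)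
  off : ∀ g, g ∉ bS K → hdv g ∈ w.D → a g false + a g true = 0
  /-- the base point is off the walls -/
  lt : ∀ i, w.W i → 1 ≤ i ∧ i + 1 < w.n
  /-- the boundary in `V` consists of frozen squares -/
  rt : ∀ j, sqL (w.P j) (w.u j - 1) ∈ w.V → sqL (w.P j) (w.u j - 1) ∈ K
  /-- no left turns next to a wall, except at the boundary of `V` -/
  cor : ∀ j, (w.W j ∨ w.W (j + 1)) →
    w.u (j + 1) ≤ w.u j ∨ sqL (w.P (j + 1)) (w.u j - 1) ∉ w.V
  /-- `s` jumps at vertices of good parity, or by `-1` at an invisible base site -/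
  sc : ∀ j, w.W j → w.W (j + 1) → w.s (j + 1) = w.s j ∨
    (w.σ = 1 ∧ ¬ Even ((w.P (j + 1)).1 + (w.P (j + 1)).2)) ∨
    (w.σ = -1 ∧ Even ((w.P (j + 1)).1 + (w.P (j + 1)).2)) ∨
    (w.Z j ∧ w.s (j + 1) = w.s j - 1)
  /-- the pairs of wall steps -/
  pr : ∀ i j, w.W i → w.W j → i < j → -1 ≤ w.s i - w.s j ∧ w.s i - w.s j ≤ 2 ∧
    ((w.E i ∨ w.E j) → 0 ≤ w.s i - w.s j ∧ w.s i - w.s j ≤ 1)

/-- The loop `ℓ` of the colour `σ` lives in `V` and visits the window. -/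
structure WinD.Lv (w : WinD) (K : Finset (ℤ × ℤ)) (ω : Cfg) (ℓ : Finset Ed) : Prop where
  loop : IsLoop ω ℓ
  inV : ∀ y ∈ ℓ, hdv y ∈ w.V
  col : ∀ y ∈ ℓ, hdv y ∈ K → hdv y ∈ w.C ∧ ω (hdv y) = decide (w.σ = -1)
  meet : ∃ e ∈ bS K, e ∈ ℓ
  vis : ∃ y ∈ ℓ, hdv y ∈ w.D

section win

variable {θ : ℝ} {w : WinD} {K : Finset (ℤ × ℤ)} {EE : Set Ed} {a : Ed → Bool → ℝ}
  {ω : Cfg} {ℓ : Finset Ed} {e x : Ed}

/-- **The table.** -/
theorem WinD.Ok.exit (h : w.Ok θ K EE a) (he : e ∈ bS K) (hr : Returns (nx ω) (bS K) e)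
    (hin : ∀ k < ret (nx ω) (bS K) e, hdv ((nx ω)^[k] e) ∈ w.D) (hC : tlv e ∈ w.C)
    (hC' : hdv (nxt (bS K) ω e) ∈ w.C) :
    ∃ i j : ℕ, w.W i ∧ w.W j ∧ i ≠ j ∧ (e ∈ EE → w.E i) ∧ (nxt (bS K) ω e ∈ EE → w.E j) ∧
      P4 e = M4 (w.P i) (w.u i) ∧ P4 (nxt (bS K) ω e) = M4 (w.P j) (w.u j) ∧
      trS (bS K) ω e = w.u j - w.u i + (if i < j then -2 else 2) ∧
      H199.cang plane θ a ω (strand (nx ω) (bS K) e) =
        θ / 4 * ((4 * (w.s i - w.s j) + (if i < j then -2 else 2) : ℤ) : ℝ) +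
          w.σ * ((3 * θ - Real.pi) / 2 + (eeA θ EE e + eeA θ EE (nxt (bS K) ω e))) := by
  obtain ⟨hm, hS⟩ := hr.spec
  have hin0 := hin 0 (by omega)
  rw [Function.iterate_zero, id] at hin0
  have htl : tlv ((nx ω)^[ret (nx ω) (bS K) e] e) ∈ w.D := by
    obtain ⟨m', hm'⟩ : ∃ m', ret (nx ω) (bS K) e = m' + 1 := ⟨ret (nx ω) (bS K) e - 1, by omega⟩
    rw [hm', Function.iterate_succ_apply', tlv_nx]
    exact hin m' (by omega)
  have ht0 : tlv e ∉ w.D := fun h' => by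
    rcases mem_bS.1 he with ⟨h1, -⟩ | ⟨-, h1⟩
    · exact h.kd _ h1 hin0
    · exact h.kd _ h1 h'
  have hh0 : hdv ((nx ω)^[ret (nx ω) (bS K) e] e) ∉ w.D := fun h' => by
    rcases mem_bS.1 hS with ⟨h1, -⟩ | ⟨-, h1⟩
    · exact h.kd _ h1 h'
    · exact h.kd _ h1 htl
  obtain ⟨i, i1, i2, i3, i4⟩ := h.out e he hin0 hC
  obtain ⟨j, j1, j2, j3, j4⟩ := h.inn _ hS htl hC'
  have hi := h.lt i i1
  have hj := h.lt j j1
  obtain ⟨k1, k2⟩ := bd_turn h.bd (ω := ω) (e := e) hm (by omega) (by omega) i3 j3 hin ht0 hh0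
  have hc := cang_strand (θ := θ) (a := a) he hr (fun k k1 k2 => by
    rw [XDL.ah_add_at, h.off _ (H199.ret_min k1 k2) (hin k k2), zero_mul])
  refine ⟨i, j, i1, j1, k1, i2, j2, i3, j3, k2, ?_⟩
  show _ = _ + (w.σ : ℝ) * (_ + (_ + eeA θ EE ((nx ω)^[ret (nx ω) (bS K) e] e)))
  rw [hc, k2, i4, j4]
  push_cast
  split_ifs <;> ring

/-- From a square of the window on, a loop stays in the window until it meets a frozen square. -/
theorem WinD.Ok.run (h : w.Ok θ K EE a) (hl : IsLoop ω ℓ)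
    (hV : ∀ y ∈ ℓ, hdv y ∈ w.V) (he : e ∈ ℓ) (hD : hdv e ∈ w.D) {k : ℕ}
    (hk : ∀ j, 1 ≤ j → j ≤ k → (nx ω)^[j] e ∉ bS K) : hdv ((nx ω)^[k] e) ∈ w.D := by
  induction k with
  | zero => exact hD
  | succ k ih =>
    have h1 := ih fun j h1 h2 => hk j h1 (by omega)
    have h2 := hk (k + 1) (by omega) le_rfl
    have h3 : tlv ((nx ω)^[k + 1] e) ∈ w.D := by
      rw [Function.iterate_succ_apply', tlv_nx]
      exact h1
    by_contra h4
    have h5 := h.adj _ h3 (hV _ (H199.loop_iter hl he _)) h4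
    exact h2 (mem_bS.2 (Or.inl ⟨h5, fun h6 => h.kd _ h6 h3⟩))

/-- The next square of an entry, rotation around the left site. -/
theorem next_closed {D : Set (ℤ × ℤ)} {n : ℕ} {P : ℕ → ℤ × ℤ} {u : ℕ → ℤ} {x : Ed} {j : ℕ}
    (hb : Bd D n P u 1) (hx : P4 x = M4 (P j) (u j))
    (h1 : hdv x ∉ D) (h2 : ω (hdv x) = false) : hdv (nx ω x) = sqL (P (j + 1)) (u j - 1) := by
  obtain ⟨c1, -, c3, -, -⟩ := cross_out hb hx h1
  have l1 : ls (nx ω x) = P (j + 1) := (P167.ls_nx h2).trans c1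
  have t1 : trn ω x = 1 := by unfold trn; rw [if_neg (by rw [h2]; decide)]
  have d1 : hd4 (nx ω x) % 4 = u j % 4 := by
    have := hd4_nx ω x
    rw [t1] at this
    omega
  obtain ⟨-, r2, r3, -, -, -⟩ := rs_eq (nx ω x)
  rw [r3, l1]
  exact sqL_congr (by omega)

/-- The next square of an entry, rotation around the right site. -/
theorem next_open {D : Set (ℤ × ℤ)} {n : ℕ} {P : ℕ → ℤ × ℤ} {u : ℕ → ℤ} {x : Ed} {j : ℕ}
    (hb : Bd D n P u 1) (hx : P4 x = M4 (P (j + 1)) (u (j + 1)))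
    (h1 : hdv x ∉ D) (h2 : ω (hdv x) = true) :
    hdv (nx ω x) = sqL (P (j + 1)) (u (j + 1) - 2) := by
  obtain ⟨-, c1, c3, -, -⟩ := cross_out hb hx h1
  have l1 : rs (nx ω x) = P (j + 1) := (P167.rs_nx h2).trans c1
  have t1 : trn ω x = -1 := by unfold trn; rw [if_pos h2]
  have d1 : hd4 (nx ω x) % 4 = (u (j + 1) - 2) % 4 := by
    have := hd4_nx ω x
    rw [t1] at this
    omega
  obtain ⟨-, -, -, -, r3, -⟩ := rs_eq (nx ω x)
  rw [r3, l1]
  exact sqL_congr (by omega)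

/-- **The inner pieces**: they return to the window, at a neighbouring step, with the turning of the
boundary corrected by `2 σ`, or by `6 σ` around an invisible base site. -/
theorem WinD.Ok.arc (h : w.Ok θ K EE a) (hv : w.Lv K ω ℓ) (hx : x ∈ bS K) (hxl : x ∈ ℓ)
    (hxD : tlv x ∈ w.D) :
    ∃ i j : ℕ, w.W i ∧ w.W j ∧ P4 x = M4 (w.P i) (w.u i) ∧
      P4 (nxt (bS K) ω x) = M4 (w.P j) (w.u j) ∧
      hdv (nxt (bS K) ω x) ∈ w.D ∧ trS (bS K) ω x = w.u j - w.u i + 2 * w.σ ∧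
      (j = i + 1 ∨ i = j + 1) ∧ (w.s j = w.s i ∨ (w.s j = w.s i - w.σ ∧ w.Z (min i j))) := by
  have hl := hv.loop
  have hKD : ∀ v ∈ K, v ∉ w.D := h.kd
  have hxK : hdv x ∈ K := by
    rcases mem_bS.1 hx with ⟨h1, -⟩ | ⟨-, h1⟩
    · exact h1
    · exact absurd hxD (hKD _ h1)
  have hlx : nx ω x ∈ ℓ := H199.loop_nx hl hxl
  obtain ⟨hxC, hcx⟩ := hv.col x hxl hxK
  obtain ⟨j, j1, -, j2, -⟩ := h.inn x hx hxD hxC
  have hj := h.lt j j1
  have ht := h.bd.turn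
  obtain ⟨hnm, hnl⟩ := nxt_mem (S := bS K) hl hx hxl
  have hnC : tlv (nxt (bS K) ω x) ∈ w.C := by
    have hxi : nxt (bS K) ω x ∈ ℓ.image (nx ω) := by rw [hl.image]; exact hnl
    obtain ⟨y, hy, hy2⟩ := mem_image.1 hxi
    have hr := returns_loop hl hxl hx
    obtain ⟨hm, -⟩ := hr.spec
    obtain ⟨k, hk⟩ : ∃ k, ret (nx ω) (bS K) x = k + 1 := ⟨ret (nx ω) (bS K) x - 1, by omega⟩
    have h1 : tlv (nxt (bS K) ω x) = hdv ((nx ω)^[k] x) := by
      unfold nxt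
      rw [hk, Function.iterate_succ_apply', tlv_nx]
    rw [h1]
    exact (hv.col _ (H199.loop_iter hl hxl k) (QX.in_stays hxK (by omega))).1
  have key : ∀ σ : ℤ, w.σ = σ → (σ = 1 ∨ σ = -1) → ∃ i j : ℕ, w.W i ∧ w.W j ∧
      P4 x = M4 (w.P i) (w.u i) ∧ P4 (nxt (bS K) ω x) = M4 (w.P j) (w.u j) ∧
      hdv (nxt (bS K) ω x) ∈ w.D ∧ trS (bS K) ω x = w.u j - w.u i + 2 * σ ∧
      (j = i + 1 ∨ i = j + 1) ∧ (w.s j = w.s i ∨ (w.s j = w.s i - σ ∧ w.Z (min i j))) := by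
    intro σ hs hσ
    rcases hσ with rfl | rfl
    · -- closed
      have hcx' : ω (hdv x) = false := by rw [hcx, hs]; decide
      have hn := next_closed h.bd j2 (hKD _ hxK) hcx'
      have hle : w.u (j + 1) ≤ w.u j := by
        rcases h.cor j (Or.inl j1) with h1 | h1
        · exact h1
        · exact absurd (hn ▸ hv.inV _ hlx) h1
      have hcf : hdv (nx ω x) ∈ w.D ∨ (hdv (nx ω x) ∈ K ∧ ω (hdv (nx ω x)) = false) := by
        have h2 := ht j
        rw [abs_le] at h2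
        rcases (by omega : w.u (j + 1) = w.u j - 1 ∨ w.u (j + 1) = w.u j) with h3 | h3
        · left
          rw [hn]
          have := h.bd.left (j + 1)
          rwa [h3] at this
        · have hK : hdv (nx ω x) ∈ K := by
            have e1 : hdv (nx ω x) = sqL (w.P (j + 1)) (w.u (j + 1) - 1) := by rw [hn, h3]
            rw [e1]
            exact h.rt _ (e1 ▸ hv.inV _ hlx)
          exact Or.inr ⟨hK, by rw [(hv.col _ hlx hK).2, hs]; decide⟩
      obtain ⟨a1, a2, a3, a4⟩ := arc_closed h.bd hKD j2 hxK hcx' hle hcf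
      obtain ⟨i, i1, -, i2, -⟩ := h.out _ hnm a2 hnC
      have hi := h.lt i i1
      have hij : i = j + 1 := step_inj h.bd (by omega) (by omega) (i2.symm.trans a1)
      subst hij
      refine ⟨j, j + 1, j1, i1, j2, a1, a2, by rw [a4]; ring, Or.inl rfl, ?_⟩
      rcases h.sc j j1 i1 with h1 | ⟨-, h1⟩ | ⟨h1, -⟩ | ⟨h1, h2⟩
      · exact Or.inl h1
      · exfalso
        obtain ⟨c1, -⟩ := cross_out h.bd j2 (hKD _ hxK)
        exact h1 (c1 ▸ FK.even_ls x)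
      · rw [hs] at h1
        norm_num at h1
      · refine Or.inr ⟨h2, ?_⟩
        rwa [min_eq_left (by omega)]
    · -- open
      have hcx' : ω (hdv x) = true := by rw [hcx, hs]; decide
      obtain ⟨j, rfl⟩ : ∃ k, j = k + 1 := ⟨j - 1, by omega⟩
      have hn := next_open h.bd j2 (hKD _ hxK) hcx'
      have hle : w.u (j + 1) ≤ w.u j := by
        rcases h.cor j (Or.inr j1) with h1 | h1
        · exact h1
        · by_contra h2
          have h3 := ht j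
          rw [abs_le] at h3
          have h4 : w.u (j + 1) = w.u j + 1 := by omega
          rw [h4, show w.u j + 1 - 2 = w.u j - 1 by ring] at hn
          exact h1 (hn ▸ hv.inV _ hlx)
      have hcf : hdv (nx ω x) ∈ w.D ∨ (hdv (nx ω x) ∈ K ∧ ω (hdv (nx ω x)) = true) := by
        have h2 := ht j
        rw [abs_le] at h2
        rcases (by omega : w.u (j + 1) = w.u j - 1 ∨ w.u (j + 1) = w.u j) with h3 | h3
        · left
          have e1 : hdv (nx ω x) = sqL (w.P j) (w.u j) := by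
            rw [hn, ← sqL_next' (w.P j) (w.u j), ← h.bd.step j]
            exact sqL_congr (by omega)
          rw [e1]
          exact h.bd.left j
        · have hK : hdv (nx ω x) ∈ K := by
            have e1 : hdv (nx ω x) = sqL (w.P j) (w.u j - 1) := by
              rw [hn, h.bd.step j, ← sqL_next (w.P j) (w.u j), h3]
            rw [e1]
            exact h.rt _ (e1 ▸ hv.inV _ hlx)
          exact Or.inr ⟨hK, by rw [(hv.col _ hlx hK).2, hs]; decide⟩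
      obtain ⟨a1, a2, a3, a4⟩ := arc_open h.bd hKD j2 hxK hcx' hle hcf
      obtain ⟨i, i1, -, i2, -⟩ := h.out _ hnm a2 hnC
      have hi := h.lt i i1
      have hij : i = j := step_inj h.bd (by omega) (by omega) (i2.symm.trans a1)
      subst hij
      refine ⟨i + 1, i, j1, i1, j2, a1, a2, by rw [a4]; ring, Or.inr rfl, ?_⟩
      rcases h.sc i i1 j1 with h1 | ⟨h1, -⟩ | ⟨-, h1⟩ | ⟨h1, h2⟩
      · exact Or.inl h1.symm
      · rw [hs] at h1
        norm_num at h1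
      · exfalso
        obtain ⟨-, c1, -⟩ := cross_out h.bd j2 (hKD _ hxK)
        exact Int.not_even_iff_odd.2 (FK.odd_rs x) (c1 ▸ h1)
      · refine Or.inr ⟨by omega, ?_⟩
        rwa [min_eq_right (by omega)]
  exact key w.σ rfl h.sg

/-- **A loop which visits the window stays in it** (off the frozen squares). -/
theorem WinD.Ok.stay (h : w.Ok θ K EE a) (hv : w.Lv K ω ℓ) : ∀ y ∈ ℓ, hdv y ∉ K → hdv y ∈ w.D := by
  classical
  have hl := hv.loop
  have hV := hv.inV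
  obtain ⟨y0, hy0, hy0D⟩ := hv.vis
  obtain ⟨e0, he0, he0l⟩ := hv.meet
  have key : ∀ b, b ∈ bS K → b ∈ ℓ → (hdv b ∉ K → hdv b ∈ w.D) ∧ (hdv b ∈ K → tlv b ∈ w.D) := by
    -- a first edge
    have hfirst : ∃ b ∈ bS K, b ∈ ℓ ∧ (hdv b ∉ K → hdv b ∈ w.D) ∧ (hdv b ∈ K → tlv b ∈ w.D) := by
      by_cases h0 : y0 ∈ bS K
      · exact ⟨y0, h0, hy0, fun _ => hy0D, fun h1 => absurd hy0D (h.kd _ h1)⟩
      · have hex : ∃ m, (nx ω)^[m] y0 ∈ bS K := by
          obtain ⟨m, hm⟩ := (H685.loop_gen hl hy0 e0).1 he0l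
          exact ⟨m, by rw [hm]; exact he0⟩
        have hs := Nat.find_spec hex
        have hmin : ∀ k < Nat.find hex, (nx ω)^[k] y0 ∉ bS K := fun k hk => Nat.find_min hex hk
        have hpos : 0 < Nat.find hex := by
          rcases Nat.eq_zero_or_pos (Nat.find hex) with h1 | h1
          · rw [h1] at hs
            exact absurd hs h0
          · exact h1
        obtain ⟨k, hk⟩ : ∃ k, Nat.find hex = k + 1 := ⟨Nat.find hex - 1, by omega⟩
        have h1 := h.run hl hV hy0 hy0D (k := k) fun j _ h2 => hmin j (by omega)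
        have h2 : tlv ((nx ω)^[Nat.find hex] y0) ∈ w.D := by
          rw [hk, Function.iterate_succ_apply', tlv_nx]
          exact h1
        refine ⟨_, hs, H199.loop_iter hl hy0 _, fun h3 => ?_, fun _ => h2⟩
        rcases mem_bS.1 hs with ⟨h4, -⟩ | ⟨-, h4⟩
        · exact absurd h4 h3
        · exact absurd h2 (h.kd _ h4)
    obtain ⟨b0, hb0, hb0l, hb0P⟩ := hfirst
    intro b hb hbl
    refine H680.S.nxt_induct hl
      (P := fun b => (hdv b ∉ K → hdv b ∈ w.D) ∧ (hdv b ∈ K → tlv b ∈ w.D))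
      (fun b hb hbl hP => ?_) hb0 hb0l hb0P hb hbl
    obtain ⟨hnm, hnl⟩ := nxt_mem (S := bS K) hl hb hbl
    have hr := returns_loop hl hbl hb
    by_cases hK : hdv b ∈ K
    · obtain ⟨i, j, -, -, -, -, a2, -⟩ := h.arc hv hb hbl (hP.2 hK)
      exact ⟨fun _ => a2, fun h1 => absurd a2 (h.kd _ h1)⟩
    · obtain ⟨hm, -⟩ := hr.spec
      obtain ⟨k, hk⟩ : ∃ k, ret (nx ω) (bS K) b = k + 1 := ⟨ret (nx ω) (bS K) b - 1, by omega⟩
      have h1 := h.run hl hV hbl (hP.1 hK) (k := k) fun j h1 h2 => H199.ret_min h1 (by omega)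
      have h2 : tlv (nxt (bS K) ω b) ∈ w.D := by
        unfold nxt
        rw [hk, Function.iterate_succ_apply', tlv_nx]
        exact h1
      refine ⟨fun h3 => ?_, fun _ => h2⟩
      rcases mem_bS.1 hnm with ⟨h4, -⟩ | ⟨-, h4⟩
      · exact absurd h4 h3
      · exact absurd h2 (h.kd _ h4)
  intro y hy hyK
  obtain ⟨b, hbf, hyb⟩ := QX.exists_strand_loop hl ⟨e0, he0, he0l⟩ hy
  obtain ⟨hb, hbl⟩ := mem_filter.1 hbf
  obtain ⟨k, hk, rfl⟩ := H199.mem_strand.1 hyb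
  have hbK : hdv b ∉ K := fun h1 => hyK (QX.in_stays h1 hk)
  exact h.run hl hV hbl ((key b hb hbl).1 hbK) fun j h1 h2 => H199.ret_min h1 (by omega)

/-- The index of the step crossed by an edge. -/
noncomputable def idx (n : ℕ) (P : ℕ → ℤ × ℤ) (u : ℕ → ℤ) (e : Ed) : ℕ :=
  open Classical in if h : ∃ i, i < n ∧ P4 e = M4 (P i) (u i) then h.choose else 0

theorem idx_eq {D : Set (ℤ × ℤ)} {n : ℕ} {P : ℕ → ℤ × ℤ} {u : ℕ → ℤ} (hb : Bd D n P u 1) {i : ℕ}
    (hi : i < n) (h : P4 e = M4 (P i) (u i)) : idx n P u e = i := by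
  have hex : ∃ i, i < n ∧ P4 e = M4 (P i) (u i) := ⟨i, hi, h⟩
  unfold idx
  rw [dif_pos hex]
  exact step_inj hb hex.choose_spec.1 hi (hex.choose_spec.2.symm.trans h)

/-- The strand is killed by its type. -/
def WinD.Kil (w : WinD) (K : Finset (ℤ × ℤ)) (ω : Cfg) (e : Ed) : Prop :=
  ∃ i j : ℕ, w.W i ∧ w.W j ∧ P4 e = M4 (w.P i) (w.u i) ∧
    P4 (nxt (bS K) ω e) = M4 (w.P j) (w.u j) ∧
    4 * (w.s i - w.s j) + (if i < j then -2 else 2) = -6 * w.σ

/-- An inner piece around an invisible base site. -/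
def WinD.Bse (w : WinD) (K : Finset (ℤ × ℤ)) (ω : Cfg) (x : Ed) : Prop :=
  ∃ j, w.Z j ∧ ((P4 x = M4 (w.P j) (w.u j) ∧
      P4 (nxt (bS K) ω x) = M4 (w.P (j + 1)) (w.u (j + 1))) ∨
    (P4 x = M4 (w.P (j + 1)) (w.u (j + 1)) ∧ P4 (nxt (bS K) ω x) = M4 (w.P j) (w.u j)))

/-- The outer strands of a loop. -/
noncomputable def exs (K : Finset (ℤ × ℤ)) (ℓ : Finset Ed) : Finset Ed :=
  (bS K).filter fun e => hdv e ∉ K ∧ e ∈ ℓ

theorem mem_exs : e ∈ exs K ℓ ↔ e ∈ bS K ∧ hdv e ∉ K ∧ e ∈ ℓ := mem_filter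

/-- The squares at the two ends of an exit of the loop. -/
theorem WinD.Lv.ends (hv : w.Lv K ω ℓ) (he : e ∈ exs K ℓ) :
    tlv e ∈ w.C ∧ hdv (nxt (bS K) ω e) ∈ w.C := by
  obtain ⟨g1, g2, g3⟩ := mem_exs.1 he
  have hl := hv.loop
  have hxi : e ∈ ℓ.image (nx ω) := by rw [hl.image]; exact g3
  obtain ⟨y, hy, rfl⟩ := mem_image.1 hxi
  refine ⟨?_, ?_⟩
  · rw [tlv_nx]
    refine (hv.col y hy ?_).1
    rcases mem_bS.1 g1 with ⟨h1, -⟩ | ⟨-, h1⟩
    · exact absurd h1 g2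
    · rwa [tlv_nx] at h1
  · have h1 := (QX.exc_last g2 (returns_loop hl g3 g1)).1
    exact (hv.col _ (nxt_mem (S := bS K) hl g1 g3).2 h1).1

/-- **[W1] A loop in a window**, strands: there is a strand which is killed by its type, or all
strands are natural and (number of positive strands) + (number of base pieces) `= 1`. -/
theorem WinD.Ok.count (h : w.Ok θ K EE a) (hv : w.Lv K ω ℓ) :
    ∃ t : Ed → ℤ, (∀ e ∈ exs K ℓ,
      H199.cang plane θ a ω (strand (nx ω) (bS K) e) = θ / 4 * (t e : ℝ) +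
        w.σ * ((3 * θ - Real.pi) / 2 + (eeA θ EE e + eeA θ EE (nxt (bS K) ω e))) ∧
      (t e = -6 * w.σ → w.Kil K ω e) ∧
      ((e ∈ EE ∨ nxt (bS K) ω e ∈ EE) → t e = 2 * w.σ ∨ t e = -2 * w.σ)) ∧
      ((∃ e ∈ exs K ℓ, t e = -6 * w.σ) ∨
      ((∀ e ∈ exs K ℓ, t e = 2 * w.σ ∨ t e = -2 * w.σ) ∧
        (((exs K ℓ).filter fun e => t e = 2 * w.σ).card = 1 ∨
          (((exs K ℓ).filter fun e => t e = 2 * w.σ).card = 0 ∧
            ∃ x ∈ ℓ, x ∈ bS K ∧ hdv x ∈ K ∧ w.Bse K ω x)))) := by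
  classical
  have hl := hv.loop
  have hS := hv.meet
  have hσ := h.sg
  have hst := h.stay hv
  set g : Ed → ℤ := fun e => w.u (idx w.n w.P w.u e) + 4 * w.s (idx w.n w.P w.u e) with hg
  have hex : ∀ e ∈ exs K ℓ, ∃ i j : ℕ, w.W i ∧ w.W j ∧ i ≠ j ∧ (e ∈ EE → w.E i) ∧
      (nxt (bS K) ω e ∈ EE → w.E j) ∧ P4 e = M4 (w.P i) (w.u i) ∧
      P4 (nxt (bS K) ω e) = M4 (w.P j) (w.u j) ∧
      H199.cang plane θ a ω (strand (nx ω) (bS K) e) =
        θ / 4 * ((4 * (w.s i - w.s j) + (if i < j then -2 else 2) : ℤ) : ℝ) +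
          w.σ * ((3 * θ - Real.pi) / 2 + (eeA θ EE e + eeA θ EE (nxt (bS K) ω e))) ∧
      trS (bS K) ω e - (g (nxt (bS K) ω e) - g e) =
        4 * (w.s i - w.s j) + (if i < j then -2 else 2) := by
    intro e he'
    obtain ⟨he, heK, hel⟩ := mem_exs.1 he'
    have hr := returns_loop hl hel he
    obtain ⟨c1, c2⟩ := hv.ends he'
    obtain ⟨i, j, i1, j1, k1, i2, j2, i3, j3, k2, k3⟩ := h.exit he hr (fun k hk =>
      hst _ (H199.loop_iter hl hel k) (out_stays heK hk)) c1 c2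
    refine ⟨i, j, i1, j1, k1, i2, j2, i3, j3, k3, ?_⟩
    have hi := h.lt i i1
    have hj := h.lt j j1
    rw [k2]
    simp only [hg]
    rw [idx_eq h.bd (by omega) i3, idx_eq h.bd (by omega) j3]
    split_ifs <;> ring
  set d : Ed → ℕ := fun x => if w.Bse K ω x ∧
    g (nxt (bS K) ω x) - g x ≠ w.u (idx w.n w.P w.u (nxt (bS K) ω x)) - w.u (idx w.n w.P w.u x)
    then 1 else 0 with hd
  refine ⟨fun e => trS (bS K) ω e - (g (nxt (bS K) ω e) - g e), fun e he => ?_, ?_⟩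
  · obtain ⟨i, j, i1, j1, k1, i2, j2, i3, j3, k2, k3⟩ := hex e he
    simp only [k3]
    refine ⟨k2, fun h6 => ⟨i, j, i1, j1, i3, j3, h6⟩, fun hE => ?_⟩
    have hE' : w.E i ∨ w.E j := hE.imp i2 j2
    generalize w.σ = σ at *
    rcases lt_or_gt_of_ne k1 with h1 | h1
    · have h2 := (h.pr i j i1 j1 h1).2.2 hE'
      rw [if_pos h1]
      rcases hσ with rfl | rfl <;> omega
    · have h2 := (h.pr j i j1 i1 h1).2.2 hE'.symm
      rw [if_neg (by omega)]
      rcases hσ with rfl | rfl <;> omega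
  · have hck := count_kill2 hl hS hσ g (fun e => trS (bS K) ω e - (g (nxt (bS K) ω e) - g e)) d
      (fun e he hel heK => ⟨by ring, ?_⟩) (fun x hx hxl hxK => ?_)
    · rcases hck with ⟨e, k1, k2, k3, k4⟩ | ⟨k1, k2⟩
      · exact Or.inl ⟨e, mem_exs.2 ⟨k1, k3, k2⟩, k4⟩
      · right
        refine ⟨fun e he => ?_, ?_⟩
        · obtain ⟨g1, g2, g3⟩ := mem_exs.1 he
          exact k1 e g1 g3 g2
        · have e1 : ((exs K ℓ).filter fun e =>
              trS (bS K) ω e - (g (nxt (bS K) ω e) - g e) = 2 * w.σ) =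
              (bS K).filter fun e => (hdv e ∉ K ∧ e ∈ ℓ) ∧
                trS (bS K) ω e - (g (nxt (bS K) ω e) - g e) = 2 * w.σ := by
            unfold exs
            rw [filter_filter]
          rw [e1]
          by_cases h0 : ∑ e ∈ (bS K).filter (fun e => hdv e ∈ K ∧ e ∈ ℓ), d e = 0
          · left; omega
          · right
            refine ⟨by omega, ?_⟩
            obtain ⟨x, hx, hxd⟩ := exists_ne_zero_of_sum_ne_zero h0
            obtain ⟨g1, g2, g3⟩ := mem_filter.1 hx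
            refine ⟨x, g3, g1, g2, ?_⟩
            simp only [hd] at hxd
            split_ifs at hxd with h1
            · exact h1.1
            · exact absurd rfl hxd
    · obtain ⟨i, j, i1, j1, k1, -, -, -, -, -, k3⟩ := hex e (mem_exs.2 ⟨he, heK, hel⟩)
      simp only [k3]
      generalize w.σ = σ at *
      rcases lt_or_gt_of_ne k1 with h1 | h1
      · have h2 := h.pr i j i1 j1 h1
        rw [if_pos h1]
        rcases hσ with rfl | rfl <;> omega
      · have h2 := h.pr j i j1 i1 h1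
        rw [if_neg (by omega)]
        rcases hσ with rfl | rfl <;> omega
    · have htD : tlv x ∈ w.D := by
        have hxi : x ∈ ℓ.image (nx ω) := by rw [hl.image]; exact hxl
        obtain ⟨y, hy, rfl⟩ := mem_image.1 hxi
        rw [tlv_nx]
        refine hst _ hy fun h1 => ?_
        rcases mem_bS.1 hx with ⟨-, h2⟩ | ⟨h2, -⟩
        · exact h2 (by rw [tlv_nx]; exact h1)
        · exact h2 hxK
      obtain ⟨i, j, i1, j1, i2, j2, -, k2, k0, k3⟩ := h.arc hv hx hxl htD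
      have hi := h.lt i i1
      have hj := h.lt j j1
      have e2 : g x = w.u i + 4 * w.s i := by
        simp only [hg]
        rw [idx_eq h.bd (by omega) i2]
      have e3 : g (nxt (bS K) ω x) = w.u j + 4 * w.s j := by
        simp only [hg]
        rw [idx_eq h.bd (by omega) j2]
      have e4 : d x = if w.Bse K ω x ∧ w.s j ≠ w.s i then 1 else 0 := by
        simp only [hd]
        rw [e2, e3, idx_eq h.bd (by omega) i2, idx_eq h.bd (by omega) j2]
        refine if_congr (and_congr_right fun _ => ?_) rfl rfl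
        constructor
        · intro h1 h2; exact h1 (by rw [h2]; ring)
        · intro h1 h2; exact h1 (by omega)
      rw [k2, e2, e3, e4]
      rcases k3 with k3 | ⟨k3, k4⟩
      · rw [if_neg fun h1 => h1.2 k3, k3]
        push_cast
        ring
      · have hb : w.Bse K ω x := by
          refine ⟨_, k4, ?_⟩
          rcases k0 with rfl | rfl
          · rw [min_eq_left (by omega)]
            exact Or.inl ⟨i2, j2⟩
          · rw [min_eq_right (by omega)]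
            exact Or.inr ⟨i2, j2⟩
        have hne : w.s j ≠ w.s i := by
          generalize w.σ = σ at *
          rcases hσ with rfl | rfl <;> omega
        rw [if_pos ⟨hb, hne⟩, k3]
        push_cast
        ring

/-! ### weights -/

theorem cos_sg {σ : ℤ} (hσ : σ = 1 ∨ σ = -1) (x : ℝ) : Real.cos (σ * x) = Real.cos x := by
  rcases hσ with rfl | rfl
  · norm_num
  · rw [show (((-1 : ℤ) : ℝ) * x) = -x by push_cast; ring, Real.cos_neg]

/-- The weights of the natural and of the killed types. -/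
theorem wt_val {σ : ℤ} (hσ : σ = 1 ∨ σ = -1) (θ : ℝ) (x y : ℝ) :
    Real.cos (θ / 4 * ((2 * σ : ℤ) : ℝ) + σ * ((3 * θ - Real.pi) / 2 + (x + y))) =
      Real.cos (2 * θ + (x + y) - Real.pi / 2) ∧
    Real.cos (θ / 4 * ((-2 * σ : ℤ) : ℝ) + σ * ((3 * θ - Real.pi) / 2 + (x + y))) =
      Real.cos (θ + (x + y) - Real.pi / 2) ∧
    Real.cos (θ / 4 * ((-6 * σ : ℤ) : ℝ) + σ * ((3 * θ - Real.pi) / 2 + (x + y))) =
      Real.cos (x + y - Real.pi / 2) := by
  refine ⟨?_, ?_, ?_⟩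
  · rw [← cos_sg hσ (2 * θ + (x + y) - Real.pi / 2)]
    congr 1
    push_cast
    ring
  · rw [← cos_sg hσ (θ + (x + y) - Real.pi / 2)]
    congr 1
    push_cast
    ring
  · rw [← cos_sg hσ (x + y - Real.pi / 2)]
    congr 1
    push_cast
    ring

open Classical in
/-- The correction factor of a natural strand. -/
noncomputable def rr (θ : ℝ) (σ : ℤ) (EE : Set Ed) (K : Finset (ℤ × ℤ)) (ω : Cfg) (t : ℤ) (e : Ed) :
    ℝ :=
  if e ∈ EE then (if nxt (bS K) ω e ∈ EE then (if t = 2 * σ then 1 / (2 * Real.cos θ) else 0) else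
    (if t = 2 * σ then Real.sin (3 * θ / 2) / Real.sin (2 * θ) else 1 / (2 * Real.cos (θ / 2)))) else
  (if nxt (bS K) ω e ∈ EE then
    (if t = 2 * σ then Real.sin (3 * θ / 2) / Real.sin (2 * θ) else 1 / (2 * Real.cos (θ / 2)))
    else 1)

theorem wt_rr {σ : ℤ} (hσ : σ = 1 ∨ σ = -1) (h0 : 0 < θ) (h1 : θ < Real.pi / 2) {t : ℤ}
    (ht : t = 2 * σ ∨ t = -2 * σ) :
    Real.cos (θ / 4 * (t : ℝ) + σ * ((3 * θ - Real.pi) / 2 +
      (eeA θ EE e + eeA θ EE (nxt (bS K) ω e)))) / Real.sin θ =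
    rr θ σ EE K ω t e * (if t = 2 * σ then 2 * Real.cos θ else 1) := by
  have hs : 0 < Real.sin θ := Real.sin_pos_of_pos_of_lt_pi h0 (by linarith)
  have hc : 0 < Real.cos θ := Real.cos_pos_of_mem_Ioo ⟨by linarith, h1⟩
  have hc2 : 0 < Real.cos (θ / 2) := Real.cos_pos_of_mem_Ioo ⟨by linarith, by linarith⟩
  have hs2 : Real.sin (θ / 2) = Real.sin θ / (2 * Real.cos (θ / 2)) := by
    rw [show θ = 2 * (θ / 2) by ring, Real.sin_two_mul, show 2 * (θ / 2) / 2 = θ / 2 by ring]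
    field_simp
  obtain ⟨w1, w2, -⟩ := wt_val hσ θ (eeA θ EE e) (eeA θ EE (nxt (bS K) ω e))
  have hne : (-2 * σ : ℤ) ≠ 2 * σ := by rcases hσ with rfl | rfl <;> decide
  unfold rr
  rcases ht with rfl | rfl
  · rw [w1]
    simp only [if_true]
    unfold eeA
    split_ifs
    · rw [show 2 * θ + (-(θ / 2) + -(θ / 2)) - Real.pi / 2 = θ - Real.pi / 2 by ring,
        Real.cos_sub_pi_div_two, div_self hs.ne', one_div, inv_mul_cancel₀ (by positivity)]
    · rw [show 2 * θ + (-(θ / 2) + 0) - Real.pi / 2 = 3 * θ / 2 - Real.pi / 2 by ring,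
        Real.cos_sub_pi_div_two, Real.sin_two_mul]
      field_simp
    · rw [show 2 * θ + (0 + -(θ / 2)) - Real.pi / 2 = 3 * θ / 2 - Real.pi / 2 by ring,
        Real.cos_sub_pi_div_two, Real.sin_two_mul]
      field_simp
    · rw [show 2 * θ + (0 + 0) - Real.pi / 2 = 2 * θ - Real.pi / 2 by ring,
        Real.cos_sub_pi_div_two, Real.sin_two_mul]
      field_simp
  · rw [w2]
    simp only [if_neg hne]
    unfold eeA
    split_ifs
    · rw [show θ + (-(θ / 2) + -(θ / 2)) - Real.pi / 2 = -(Real.pi / 2) by ring, Real.cos_neg,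
        Real.cos_pi_div_two, zero_div, zero_mul]
    · rw [show θ + (-(θ / 2) + 0) - Real.pi / 2 = θ / 2 - Real.pi / 2 by ring,
        Real.cos_sub_pi_div_two, hs2, mul_one]
      field_simp
    · rw [show θ + (0 + -(θ / 2)) - Real.pi / 2 = θ / 2 - Real.pi / 2 by ring,
        Real.cos_sub_pi_div_two, hs2, mul_one]
      field_simp
    · rw [show θ + (0 + 0) - Real.pi / 2 = θ - Real.pi / 2 by ring, Real.cos_sub_pi_div_two,
        div_self hs.ne', one_mul]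

theorem rr_one {σ : ℤ} {t : ℤ} (h1 : e ∉ EE) (h2 : nxt (bS K) ω e ∉ EE) :
    rr θ σ EE K ω t e = 1 := by
  unfold rr
  rw [if_neg h1, if_neg h2]

/-- The bound of the factor of a strand with a regular end side. -/
noncomputable def rM (θ : ℝ) : ℝ := 2 / Real.cos θ

theorem one_le_rM (h0 : 0 < θ) (h1 : θ < Real.pi / 2) : 1 ≤ rM θ := by
  have hc : 0 < Real.cos θ := Real.cos_pos_of_mem_Ioo ⟨by linarith, h1⟩
  unfold rM
  rw [le_div_iff₀ hc]
  linarith [Real.cos_le_one θ]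

theorem rr_bd {σ : ℤ} (h0 : 0 < θ) (h1 : θ < Real.pi / 2) {t : ℤ} :
    (e ∈ EE ∧ nxt (bS K) ω e ∈ EE ∧ t ≠ 2 * σ ∧ rr θ σ EE K ω t e = 0) ∨
      (1 / 2 ≤ rr θ σ EE K ω t e ∧ rr θ σ EE K ω t e ≤ rM θ) := by
  have hs : 0 < Real.sin θ := Real.sin_pos_of_pos_of_lt_pi h0 (by linarith)
  have hc : 0 < Real.cos θ := Real.cos_pos_of_mem_Ioo ⟨by linarith, h1⟩
  have hc1 := Real.cos_le_one θ
  have hc2 : 0 < Real.cos (θ / 2) := Real.cos_pos_of_mem_Ioo ⟨by linarith, by linarith⟩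
  have hc3 := Real.cos_le_one (θ / 2)
  have hs2 : 0 < Real.sin (θ / 2) := Real.sin_pos_of_pos_of_lt_pi (by linarith) (by linarith)
  have hc4 : Real.cos θ = 2 * Real.cos (θ / 2) ^ 2 - 1 := by
    rw [← Real.cos_two_mul]; congr 1; ring
  have hhalf : 1 / 2 ≤ Real.cos (θ / 2) := by nlinarith
  have e1 : Real.sin (3 * θ / 2) / Real.sin (2 * θ) =
      (2 * Real.cos θ + 1) / (4 * Real.cos (θ / 2) * Real.cos θ) := by
    have e2 : Real.sin (3 * θ / 2) = Real.sin (θ / 2) * (2 * Real.cos θ + 1) := by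
      rw [show 3 * θ / 2 = 3 * (θ / 2) by ring, Real.sin_three_mul]
      have := Real.sin_sq_add_cos_sq (θ / 2)
      rw [hc4]
      linear_combination (-4 * Real.sin (θ / 2)) * this
    have e3 : Real.sin (2 * θ) = 4 * Real.sin (θ / 2) * Real.cos (θ / 2) * Real.cos θ := by
      rw [Real.sin_two_mul, show Real.sin θ = 2 * Real.sin (θ / 2) * Real.cos (θ / 2) by
        rw [← Real.sin_two_mul]; congr 1; ring]
      ring
    rw [e2, e3]
    field_simp
  have a1 : 1 / 2 ≤ Real.sin (3 * θ / 2) / Real.sin (2 * θ) := by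
    rw [e1, div_le_div_iff₀ (by norm_num) (by positivity)]
    nlinarith
  have a2 : Real.sin (3 * θ / 2) / Real.sin (2 * θ) ≤ rM θ := by
    unfold rM
    rw [e1, div_le_div_iff₀ (by positivity) hc]
    nlinarith [mul_pos hc hc2]
  have a3 : 1 / 2 ≤ 1 / (2 * Real.cos (θ / 2)) := by
    rw [div_le_div_iff₀ (by norm_num) (by positivity)]; linarith
  have a4 : 1 / (2 * Real.cos (θ / 2)) ≤ rM θ := by
    refine le_trans ?_ (one_le_rM h0 h1)
    rw [div_le_one (by positivity)]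
    linarith
  have a5 : 1 / 2 ≤ 1 / (2 * Real.cos θ) := by
    rw [div_le_div_iff₀ (by norm_num) (by positivity)]; linarith
  have a6 : 1 / (2 * Real.cos θ) ≤ rM θ := by
    unfold rM
    rw [div_le_div_iff₀ (by positivity) hc]; linarith
  have a7 := one_le_rM h0 h1
  unfold rr
  split_ifs with g1 g2 g3 g4 g5 g6
  · exact Or.inr ⟨a5, a6⟩
  · exact Or.inl ⟨g1, g2, g3, rfl⟩
  · exact Or.inr ⟨a1, a2⟩
  · exact Or.inr ⟨a3, a4⟩
  · exact Or.inr ⟨a1, a2⟩
  · exact Or.inr ⟨a3, a4⟩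
  · exact Or.inr ⟨by norm_num, a7⟩

/-- **[W2] The factor of a loop in a window**: it vanishes, and then there is a strand of the loop
which is killed by its type or which joins two regular end sides; or it is, up to `1 / (2 cos θ)` for
the loop around an invisible base site, a product of bounded positive factors of the strands with an
end in `EE`. -/
theorem WinD.Ok.loop (h : w.Ok θ K EE a) (h0 : 0 < θ) (h1 : θ < Real.pi / 2)
    (hv : w.Lv K ω ℓ) :
    (fLp θ K a ω ℓ = 0 ∧ ∃ e ∈ exs K ℓ, wS θ K a ω e = 0 ∧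
      (w.Kil K ω e ∨ (e ∈ EE ∧ nxt (bS K) ω e ∈ EE))) ∨
    ∃ (r : Ed → ℝ) (p : ℝ), fLp θ K a ω ℓ = p * ∏ e ∈ exs K ℓ, r e ∧
      (p = 1 ∨ (p = (2 * Real.cos θ)⁻¹ ∧ ∃ x ∈ ℓ, x ∈ bS K ∧ hdv x ∈ K ∧ w.Bse K ω x)) ∧
      ∀ e ∈ exs K ℓ, 1 / 2 ≤ r e ∧ r e ≤ rM θ ∧
        (e ∉ EE → nxt (bS K) ω e ∉ EE → r e = 1) := by
  have hs : 0 < Real.sin θ := Real.sin_pos_of_pos_of_lt_pi h0 (by linarith)
  have hc : 0 < Real.cos θ := Real.cos_pos_of_mem_Ioo ⟨by linarith, h1⟩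
  have hσ := h.sg
  have hz : ∀ e ∈ exs K ℓ, wS θ K a ω e = 0 → fLp θ K a ω ℓ = 0 := by
    intro e he hw
    unfold fLp
    show (∏ e ∈ exs K ℓ, wS θ K a ω e) / (2 * Real.cos θ) = 0
    rw [prod_eq_zero he hw, zero_div]
  obtain ⟨t, ht, hcs⟩ := h.count hv
  rcases hcs with ⟨e, he, h6⟩ | ⟨hall, hone⟩
  · left
    obtain ⟨k1, k2, k3⟩ := ht e he
    have hE1 : e ∉ EE := fun h' => by
      have := k3 (Or.inl h')
      generalize w.σ = σ at *
      rcases hσ with rfl | rfl <;> omega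
    have hE2 : nxt (bS K) ω e ∉ EE := fun h' => by
      have := k3 (Or.inr h')
      generalize w.σ = σ at *
      rcases hσ with rfl | rfl <;> omega
    have hw : wS θ K a ω e = 0 := by
      unfold wS
      rw [k1, h6, (wt_val hσ θ _ _).2.2]
      unfold eeA
      rw [if_neg hE1, if_neg hE2, add_zero, zero_sub, Real.cos_neg, Real.cos_pi_div_two, zero_div]
    exact ⟨hz e he hw, e, he, hw, Or.inl (k2 h6)⟩
  · have hw : ∀ e ∈ exs K ℓ, wS θ K a ω e =
        rr θ w.σ EE K ω (t e) e * (if t e = 2 * w.σ then 2 * Real.cos θ else 1) := by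
      intro e he
      unfold wS
      rw [(ht e he).1]
      exact wt_rr hσ h0 h1 (hall e he)
    by_cases hb : ∃ e ∈ exs K ℓ, e ∈ EE ∧ nxt (bS K) ω e ∈ EE ∧ t e ≠ 2 * w.σ ∧
        rr θ w.σ EE K ω (t e) e = 0
    · left
      obtain ⟨e, he, g1, g2, g3, g4⟩ := hb
      have hw0 : wS θ K a ω e = 0 := by rw [hw e he, g4, zero_mul]
      exact ⟨hz e he hw0, e, he, hw0, Or.inr ⟨g1, g2⟩⟩
    · right
      have hp : ∏ e ∈ exs K ℓ, (if t e = 2 * w.σ then 2 * Real.cos θ else 1) =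
          (2 * Real.cos θ) ^ ((exs K ℓ).filter fun e => t e = 2 * w.σ).card := by
        rw [prod_ite, prod_const_one, mul_one, prod_const]
      have hf : fLp θ K a ω ℓ = ((2 * Real.cos θ) ^
          ((exs K ℓ).filter fun e => t e = 2 * w.σ).card / (2 * Real.cos θ)) *
          ∏ e ∈ exs K ℓ, rr θ w.σ EE K ω (t e) e := by
        unfold fLp
        show (∏ e ∈ exs K ℓ, wS θ K a ω e) / (2 * Real.cos θ) = _
        rw [prod_congr rfl hw, prod_mul_distrib, hp]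
        ring
      refine ⟨fun e => rr θ w.σ EE K ω (t e) e, _, hf, ?_, fun e he => ?_⟩
      · rcases hone with h2 | ⟨h2, h3⟩
        · left
          rw [h2, pow_one, div_self (by positivity)]
        · right
          rw [h2, pow_zero, one_div]
          exact ⟨rfl, h3⟩
      · rcases rr_bd (θ := θ) (σ := w.σ) (EE := EE) (K := K) (ω := ω) (e := e) (t := t e) h0 h1 with
          ⟨g1, g2, g3, g4⟩ | ⟨g1, g2⟩
        · exact absurd ⟨e, he, g1, g2, g3, g4⟩ hb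
        · exact ⟨g1, g2, fun g3 g4 => rr_one g3 g4⟩

/-! ### families of windows -/

/-- The loop lives in a window. -/
def InWin (θ : ℝ) (K : Finset (ℤ × ℤ)) (EE : Set Ed) (a : Ed → Bool → ℝ) (ω : Cfg)
    (ℓ : Finset Ed) : Prop :=
  ∃ w : WinD, w.Ok θ K EE a ∧ w.Lv K ω ℓ

/-- The loop lives in a window without invisible base sites. -/
def InWin0 (θ : ℝ) (K : Finset (ℤ × ℤ)) (EE : Set Ed) (a : Ed → Bool → ℝ) (ω : Cfg)
    (ℓ : Finset Ed) : Prop :=
  ∃ w : WinD, w.Ok θ K EE a ∧ w.Lv K ω ℓ ∧ ∀ j, ¬ w.Z j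

theorem InWin0.toInWin (h : InWin0 θ K EE a ω ℓ) : InWin θ K EE a ω ℓ := by
  obtain ⟨w, h1, h2, -⟩ := h
  exact ⟨w, h1, h2⟩

theorem InWin.isLoop (h : InWin θ K EE a ω ℓ) : IsLoop ω ℓ := by
  obtain ⟨w, h1, h2⟩ := h
  exact h2.loop

theorem InWin.cases (h : InWin θ K EE a ω ℓ) (h0 : 0 < θ) (h1 : θ < Real.pi / 2) :
    fLp θ K a ω ℓ = 0 ∨ ∃ (r : Ed → ℝ) (p : ℝ), fLp θ K a ω ℓ = p * ∏ e ∈ exs K ℓ, r e ∧
      (p = 1 ∨ p = (2 * Real.cos θ)⁻¹) ∧ ∀ e ∈ exs K ℓ, 1 / 2 ≤ r e ∧ r e ≤ rM θ ∧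
        (e ∉ EE → nxt (bS K) ω e ∉ EE → r e = 1) := by
  obtain ⟨w, hw, hv⟩ := h
  rcases hw.loop h0 h1 hv with ⟨h2, -⟩ | ⟨r, p, h2, h3, h4⟩
  · exact Or.inl h2
  · exact Or.inr ⟨r, p, h2, h3.imp id And.left, h4⟩

theorem InWin0.cases (h : InWin0 θ K EE a ω ℓ) (h0 : 0 < θ) (h1 : θ < Real.pi / 2) :
    fLp θ K a ω ℓ = 0 ∨ ∃ r : Ed → ℝ, fLp θ K a ω ℓ = ∏ e ∈ exs K ℓ, r e ∧
      ∀ e ∈ exs K ℓ, 1 / 2 ≤ r e ∧ r e ≤ rM θ ∧
        (e ∉ EE → nxt (bS K) ω e ∉ EE → r e = 1) := by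
  obtain ⟨w, hw, hv, hZ⟩ := h
  rcases hw.loop h0 h1 hv with ⟨h2, -⟩ | ⟨r, p, h2, h3, h4⟩
  · exact Or.inl h2
  · refine Or.inr ⟨r, ?_, h4⟩
    rcases h3 with rfl | ⟨-, x, -, -, -, j, hj, -⟩
    · rw [h2, one_mul]
    · exact absurd hj (hZ j)

theorem InWin.nonneg (h : InWin θ K EE a ω ℓ) (h0 : 0 < θ) (h1 : θ < Real.pi / 2) :
    0 ≤ fLp θ K a ω ℓ := by
  have hc : 0 < Real.cos θ := Real.cos_pos_of_mem_Ioo ⟨by linarith, h1⟩
  rcases h.cases h0 h1 with h2 | ⟨r, p, h2, h3, h4⟩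
  · exact h2.ge
  · rw [h2]
    refine mul_nonneg ?_ (prod_nonneg fun e he => le_trans (by norm_num) (h4 e he).1)
    rcases h3 with rfl | rfl <;> positivity

/-- Off the regular end sides and the invisible base sites: `0` or `1`. -/
theorem InWin0.one (h : InWin0 θ K EE a ω ℓ) (h0 : 0 < θ) (h1 : θ < Real.pi / 2)
    (hE : ∀ e ∈ ℓ, e ∉ EE) : fLp θ K a ω ℓ = 0 ∨ fLp θ K a ω ℓ = 1 := by
  rcases h.cases h0 h1 with h2 | ⟨r, h2, h3⟩
  · exact Or.inl h2
  · right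
    rw [h2]
    refine prod_eq_one fun e he => ?_
    obtain ⟨g1, g2, g3⟩ := mem_exs.1 he
    exact (h3 e he).2.2 (hE e g3) (hE _ (nxt_mem (S := bS K) h.toInWin.isLoop g1 g3).2)

open Classical in
/-- The strands with an end in `EE`. -/
noncomputable def eex (K : Finset (ℤ × ℤ)) (EE : Set Ed) (ω : Cfg) (ℓ : Finset Ed) : Finset Ed :=
  (exs K ℓ).filter fun e => e ∈ EE ∨ nxt (bS K) ω e ∈ EE

theorem mem_eex : e ∈ eex K EE ω ℓ ↔ e ∈ exs K ℓ ∧ (e ∈ EE ∨ nxt (bS K) ω e ∈ EE) := by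
  classical
  unfold eex
  exact mem_filter

theorem prod_eex {r : Ed → ℝ} (h : ∀ e ∈ exs K ℓ, 1 / 2 ≤ r e ∧ r e ≤ rM θ ∧
    (e ∉ EE → nxt (bS K) ω e ∉ EE → r e = 1)) :
    (1 / 2) ^ (eex K EE ω ℓ).card ≤ ∏ e ∈ exs K ℓ, r e ∧
      ∏ e ∈ exs K ℓ, r e ≤ rM θ ^ (eex K EE ω ℓ).card := by
  classical
  have h4 : ∏ e ∈ exs K ℓ, r e = ∏ e ∈ eex K EE ω ℓ, r e := by
    unfold eex
    rw [prod_filter]
    refine prod_congr rfl fun e he => ?_
    split_ifs with g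
    · rfl
    · rw [not_or] at g
      exact (h e he).2.2 g.1 g.2
  have h5 : ∀ e ∈ eex K EE ω ℓ, e ∈ exs K ℓ := fun e he => (mem_eex.1 he).1
  rw [h4]
  refine ⟨?_, ?_⟩
  · rw [← prod_const]
    exact prod_le_prod (fun _ _ => by norm_num) fun e he => (h e (h5 e he)).1
  · rw [← prod_const]
    exact prod_le_prod (fun e he => le_trans (by norm_num) (h e (h5 e he)).1) fun e he =>
      (h e (h5 e he)).2.1

/-- **[W3] The bounds of the factor of a loop in a window** (no invisible base site). -/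
theorem InWin0.bd (h : InWin0 θ K EE a ω ℓ) (h0 : 0 < θ) (h1 : θ < Real.pi / 2)
    (hne : fLp θ K a ω ℓ ≠ 0) : (1 / 2) ^ (eex K EE ω ℓ).card ≤ fLp θ K a ω ℓ ∧
      fLp θ K a ω ℓ ≤ rM θ ^ (eex K EE ω ℓ).card := by
  rcases h.cases h0 h1 with h2 | ⟨r, h2, h3⟩
  · exact absurd h2 hne
  · rw [h2]
    exact prod_eex h3

/-- There are few strands with an end in `EE`. -/
theorem sum_eex {T : Finset (Finset Ed)} (hT : ∀ ℓ ∈ T, IsLoop ω ℓ) (EE : Finset Ed) :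
    ∑ ℓ ∈ T, (eex K (EE : Set Ed) ω ℓ).card ≤ EE.card := by
  classical
  set f : Ed → Ed := fun e => if e ∈ EE then e else nxt (bS K) ω e with hf
  have hfm : ∀ ℓ ∈ T, ∀ e ∈ eex K (EE : Set Ed) ω ℓ, f e ∈ EE ∧ f e ∈ ℓ := by
    intro ℓ hℓ e he
    obtain ⟨g1, g2⟩ := mem_eex.1 he
    obtain ⟨g3, g4, g5⟩ := mem_exs.1 g1
    simp only [hf]
    split_ifs with g6
    · exact ⟨g6, g5⟩
    · exact ⟨mem_coe.1 (g2.resolve_left fun h => g6 (mem_coe.1 h)),
        (nxt_mem (S := bS K) (hT ℓ hℓ) g3 g5).2⟩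
  have hent : ∀ ℓ ∈ T, ∀ e ∈ eex K (EE : Set Ed) ω ℓ, hdv (nxt (bS K) ω e) ∈ K := by
    intro ℓ hℓ e he
    obtain ⟨g1, g2⟩ := mem_eex.1 he
    obtain ⟨g3, g4, g5⟩ := mem_exs.1 g1
    exact (QX.exc_last g4 (returns_loop (hT ℓ hℓ) g5 g3)).1
  have hinj : ∀ ℓ ∈ T, Set.InjOn f (eex K (EE : Set Ed) ω ℓ) := by
    intro ℓ hℓ e he e' he' h
    obtain ⟨g1, -⟩ := mem_eex.1 (mem_coe.1 he)
    obtain ⟨g3, g4, g5⟩ := mem_exs.1 g1
    obtain ⟨g1', -⟩ := mem_eex.1 (mem_coe.1 he')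
    obtain ⟨g3', g4', g5'⟩ := mem_exs.1 g1'
    simp only [hf] at h
    split_ifs at h with k1 k2 k2
    · exact h
    · exact absurd (hent ℓ hℓ e' (mem_coe.1 he')) (h ▸ g4)
    · exact absurd (hent ℓ hℓ e (mem_coe.1 he)) (h.symm ▸ g4')
    · exact H680.S.nxt_inj (hT ℓ hℓ) g3 g5 g3' g5' h
  have h1 : ∀ ℓ ∈ T, (eex K (EE : Set Ed) ω ℓ).card = ((eex K (EE : Set Ed) ω ℓ).image f).card :=
    fun ℓ hℓ => (card_image_of_injOn (hinj ℓ hℓ)).symm
  rw [sum_congr rfl h1, ← card_biUnion]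
  · refine card_le_card fun x hx => ?_
    obtain ⟨ℓ, hℓ, hx⟩ := mem_biUnion.1 hx
    obtain ⟨e, he, rfl⟩ := mem_image.1 hx
    exact (hfm ℓ hℓ e he).1
  · intro ℓ hℓ ℓ' hℓ' hne
    rw [Function.onFun, Finset.disjoint_left]
    intro x hx hx'
    obtain ⟨e, he, rfl⟩ := mem_image.1 hx
    obtain ⟨e', he', h⟩ := mem_image.1 hx'
    refine hne (IsLoop.eq_of_mem (hT ℓ hℓ) (hT ℓ' hℓ') (hfm ℓ hℓ e he).2 ?_)
    rw [← h]
    exact (hfm ℓ' hℓ' e' he').2

/-- **[W4] Products over loops in windows.** -/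
theorem prod_win (h0 : 0 < θ) (h1 : θ < Real.pi / 2) {T : Finset (Finset Ed)} {EE : Finset Ed}
    (hT : ∀ ℓ ∈ T, InWin0 θ K (EE : Set Ed) a ω ℓ) :
    0 ≤ ∏ ℓ ∈ T, fLp θ K a ω ℓ ∧ (∏ ℓ ∈ T, fLp θ K a ω ℓ ≠ 0 →
      (1 / 2) ^ EE.card ≤ ∏ ℓ ∈ T, fLp θ K a ω ℓ) ∧
      ∏ ℓ ∈ T, fLp θ K a ω ℓ ≤ rM θ ^ EE.card := by
  have hs1 := one_le_rM h0 h1
  have hle := sum_eex (K := K) (ω := ω) (fun ℓ hℓ => (hT ℓ hℓ).toInWin.isLoop) EE
  have hn : 0 ≤ ∏ ℓ ∈ T, fLp θ K a ω ℓ := prod_nonneg fun ℓ hℓ => (hT ℓ hℓ).toInWin.nonneg h0 h1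
  have key : ∏ ℓ ∈ T, fLp θ K a ω ℓ ≠ 0 →
      (1 / 2 : ℝ) ^ (∑ ℓ ∈ T, (eex K (EE : Set Ed) ω ℓ).card) ≤ ∏ ℓ ∈ T, fLp θ K a ω ℓ ∧
      ∏ ℓ ∈ T, fLp θ K a ω ℓ ≤ rM θ ^ (∑ ℓ ∈ T, (eex K (EE : Set Ed) ω ℓ).card) := by
    intro hne
    have hb : ∀ ℓ ∈ T, (1 / 2) ^ (eex K (EE : Set Ed) ω ℓ).card ≤ fLp θ K a ω ℓ ∧
        fLp θ K a ω ℓ ≤ rM θ ^ (eex K (EE : Set Ed) ω ℓ).card := fun ℓ hℓ =>
      (hT ℓ hℓ).bd h0 h1 ((prod_ne_zero_iff.1 hne) ℓ hℓ)
    rw [← prod_pow_eq_pow_sum, ← prod_pow_eq_pow_sum]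
    exact ⟨prod_le_prod (fun _ _ => by positivity) fun ℓ hℓ => (hb ℓ hℓ).1,
      prod_le_prod (fun ℓ hℓ => le_trans (by positivity) (hb ℓ hℓ).1) fun ℓ hℓ => (hb ℓ hℓ).2⟩
  refine ⟨hn, fun hne => le_trans ?_ (key hne).1, ?_⟩
  · exact pow_le_pow_of_le_one (by norm_num) (by norm_num) hle
  · by_cases hne : ∏ ℓ ∈ T, fLp θ K a ω ℓ = 0
    · rw [hne]
      have : (0 : ℝ) ≤ rM θ := by linarith
      positivity
    · exact (key hne).2.trans (pow_le_pow_right₀ hs1 hle)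

end win

end Vale.Agent.P167.N.ID
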