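import Vale.Agent.P167.N.ID.CellC
import Vale.Agent.P167.N.ID.WinTab

/-!
# P167, `q < 1`, START: the weights of the exits of a cell, loops without mixed arcs

`psi`: the raw outward phases of the steps of a cell, bases at `zc` (closed) and `zo` (open). `wS_same`,
`wS_mix`: the weights. `fLp_one`: a loop of one colour has the factor `0` or `1`; in a bounded cell `1`.
-/

set_option autoImplicit false

namespace Vale.Agent.P167.N.ID

open Finset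
open Vale.Agent.P167.BR
open Vale.Agent.P167.FK
open Vale.Agent.P167.Top
open Vale.Agent.P167.H871
open Vale.Agent.P167.H871.Q
open Vale.Agent.P167.A (plane)
open Vale.Agent.P167.XDL (bS mem_bS P4_be)
open Vale.Agent.P167.H199 (strand ret mem_strand loop_nx loop_iter ret_min ret_le
  strand_sub sum_strand Returns strand_unique ah at' cang)
open Vale.Agent.P167.H680.S (nxt nxt_mem nxt_induct nxt_inj trS sum_rule MixE)
open Vale.Agent.P167.QX (returns_loop card_out_in fLp wS VisL out_stays)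

variable {ω : Cfg} {ℓ : Finset Ed} {K : Finset (ℤ × ℤ)} {B E : Set (ℤ × ℤ)} {n k₀ z zc zo : ℕ}
  {P : ℕ → ℤ × ℤ} {u : ℕ → ℤ} {τ : ℤ} {b x y g h : Ed} {i j k l i' j' : ℕ}
  {D : Finset (ℤ × ℤ)} {θ β C0 : ℝ} {a : Ed → Bool → ℝ}

/-- The directions of the steps, base `z`. -/
def lab (u : ℕ → ℤ) (τ : ℤ) (z k : ℕ) : ℤ := u k + 4 * τ * (if k < z then 1 else 0)

/-- The raw outward phases of the steps. -/
noncomputable def psi (θ β C0 : ℝ) (u : ℕ → ℤ) (τ : ℤ) (k₀ zc zo k : ℕ) : ℝ :=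
  if k < k₀ then C0 + θ / 4 * (lab u τ zc k : ℤ) else C0 + β + θ / 4 * (lab u τ zo k : ℤ)

/-- The sign of a colour. -/
def sgr (c : Bool) : ℝ := if c = true then -1 else 1

/-- The phases of the sides of a cell off the boxes. -/
structure Phs (θ β C0 : ℝ) (K : Finset (ℤ × ℤ)) (B E : Set (ℤ × ℤ)) (n : ℕ) (P : ℕ → ℤ × ℤ)
    (u : ℕ → ℤ) (τ : ℤ) (k₀ zc zo : ℕ) (a : Ed → Bool → ℝ) : Prop where
  out : ∀ k < n, ∀ x, At P u x k → hdv x ∈ E → tlv x ∈ K → hdv x ∉ B → tlv x ∉ B →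
    ah plane a x = psi θ β C0 u τ k₀ zc zo k + sgr (decide (¬ k < k₀)) * ((3 * θ - Real.pi) / 4)
  inn : ∀ k < n, ∀ x, At P u x k → tlv x ∈ E → hdv x ∈ K → hdv x ∉ B → tlv x ∉ B →
    at' plane a x = -psi θ β C0 u τ k₀ zc zo k + sgr (decide (¬ k < k₀)) * ((3 * θ - Real.pi) / 4)
  off : ∀ e ∉ bS K, ∀ b, a e b = 0

/-- The angle of an exit. -/
theorem cang_ex (F : Cell K B E n P u τ) (C : LC B ω ℓ)
    (H : Phs θ β C0 K B E n P u τ k₀ zc zo a) (X : Ex K E n P u ω b i j) (hb : b ∈ ℓ) :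
    cang plane θ a ω (strand (nx ω) (bS K) b) = θ / 4 * (trS (bS K) ω b : ℤ) +
      (psi θ β C0 u τ k₀ zc zo i - psi θ β C0 u τ k₀ zc zo j) +
      (sgr (decide (¬ i < k₀)) + sgr (decide (¬ j < k₀))) * ((3 * θ - Real.pi) / 4) := by
  have hbS := X.memS F
  have hr := C.rets hbS hb
  have hbK : hdv b ∉ K := fun h => F.dis _ h X.hdE
  have h1 := cang_strand (θ := θ) (a := a) hbS hr fun k k1 k2 => by
    have e3 : a ((nx ω)^[k] b) = 0 := by
      funext c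
      exact H.off _ (ret_min k1 k2) c
    unfold ah at'
    rw [e3]
    simp
  have h2 := H.inn j X.hj _ X.at2 X.lst X.hdK (C.hd_off (C.it_mem hb _)) (C.tl_off (C.it_mem hb _))
  have h3 : (nx ω)^[ret (nx ω) (bS K) b] b = nxt (bS K) ω b := rfl
  rw [h1, H.out i X.hi b X.at1 X.hdE X.tlK (C.hd_off hb) (C.tl_off hb), h3, h2]
  unfold trS
  ring

/-- The weights of the strands between steps of the same colour. -/
noncomputable def wq (θ : ℝ) (s c : ℤ) : ℝ :=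
  Real.cos (θ / 4 * c + s * ((3 * θ - Real.pi) / 2)) / Real.sin θ

/-- The weights of the mixed strands, closed step `p`, open step `r`. -/
noncomputable def wm (θ β : ℝ) (zc zo p r : ℕ) : ℝ :=
  Real.cos (θ / 2 + β + θ * ((if r < zo then 1 else 0) - (if p < zc then 1 else 0))) / Real.sin θ

/-- **The weight of an exit between steps of the same colour.** -/
theorem wS_same (F : Cell K B E n P u τ) (C : LC B ω ℓ)
    (H : Phs θ β C0 K B E n P u τ k₀ zc zo a) (X : Ex K E n P u ω b i j) (hb : b ∈ ℓ) :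
    (i < k₀ → j < k₀ → wS θ K a ω b =
      wq θ 1 (trS (bS K) ω b - (lab u τ zc j - lab u τ zc i))) ∧
    (¬ i < k₀ → ¬ j < k₀ → wS θ K a ω b =
      wq θ (-1) (trS (bS K) ω b - (lab u τ zo j - lab u τ zo i))) := by
  have h1 := cang_ex F C H X hb
  constructor
  · intro hi hj
    unfold wS wq
    rw [h1]
    unfold psi sgr
    rw [if_pos hi, if_pos hj, decide_eq_false (not_not.2 hi), decide_eq_false (not_not.2 hj)]
    congr 2
    push_cast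
    ring
  · intro hi hj
    unfold wS wq
    rw [h1]
    unfold psi sgr
    rw [if_neg hi, if_neg hj, decide_eq_true hi, decide_eq_true hj]
    congr 2
    push_cast
    simp only [if_true]
    ring

/-- **The weight of a mixed exit** of a bounded cell. -/
theorem wS_mix (F : Cell K B E n P u 1) (C : LC B ω ℓ)
    (H : Phs θ β C0 K B E n P u 1 k₀ zc zo a) (X : Ex K E n P u ω b i j) (hb : b ∈ ℓ) :
    (i < k₀ → ¬ j < k₀ → wS θ K a ω b = wm θ β zc zo i j) ∧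
    (¬ i < k₀ → j < k₀ → wS θ K a ω b = wm θ β zc zo j i) := by
  have h1 := cang_ex F C H X hb
  obtain ⟨hne, c, h2, h3⟩ := turn_gen (Or.inl rfl) F.bd X F.dis
  constructor
  · intro hi hj
    have hc : c = -2 := by
      rcases h3 with ⟨-, h3 | h3⟩ | ⟨h3, -⟩
      · exact h3
      · omega
      · omega
    unfold wS wm
    rw [h1, h2, hc, ← Real.cos_neg]
    unfold psi sgr lab
    rw [if_pos hi, if_neg hj, decide_eq_false (not_not.2 hi), decide_eq_true hj]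
    congr 2
    push_cast
    simp only [if_true]
    ring
  · intro hi hj
    have hc : c = 2 := by
      rcases h3 with ⟨h3, -⟩ | ⟨-, h3 | h3⟩
      · omega
      · exact h3
      · omega
    unfold wS wm
    rw [h1, h2, hc]
    unfold psi sgr lab
    rw [if_neg hi, if_pos hj, decide_eq_true hi, decide_eq_false (not_not.2 hj)]
    congr 2
    push_cast
    simp only [if_true]
    ring

theorem wq_val {s : ℤ} (hs : s = 1 ∨ s = -1) (h : Real.sin θ ≠ 0) :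
    wq θ s (-2 * s) = 1 ∧ wq θ s (2 * s) = 2 * Real.cos θ ∧ wq θ s (-6 * s) = 0 := by
  have e1 : Real.cos (θ - Real.pi / 2) = Real.sin θ := Real.cos_sub_pi_div_two θ
  have e2 : Real.cos (2 * θ - Real.pi / 2) = Real.sin (2 * θ) := Real.cos_sub_pi_div_two _
  have e3 : Real.sin (2 * θ) / Real.sin θ = 2 * Real.cos θ := by
    rw [Real.sin_two_mul]; field_simp
  unfold wq
  rcases hs with rfl | rfl
  · refine ⟨?_, ?_, ?_⟩
    · rw [show θ / 4 * ((-2 * 1 : ℤ) : ℝ) + ((1 : ℤ) : ℝ) * ((3 * θ - Real.pi) / 2) =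
        θ - Real.pi / 2 by push_cast; ring, e1, div_self h]
    · rw [show θ / 4 * ((2 * 1 : ℤ) : ℝ) + ((1 : ℤ) : ℝ) * ((3 * θ - Real.pi) / 2) =
        2 * θ - Real.pi / 2 by push_cast; ring, e2, e3]
    · rw [show θ / 4 * ((-6 * 1 : ℤ) : ℝ) + ((1 : ℤ) : ℝ) * ((3 * θ - Real.pi) / 2) =
        -(Real.pi / 2) by push_cast; ring, Real.cos_neg, Real.cos_pi_div_two, zero_div]
  · refine ⟨?_, ?_, ?_⟩
    · rw [show θ / 4 * ((-2 * -1 : ℤ) : ℝ) + ((-1 : ℤ) : ℝ) * ((3 * θ - Real.pi) / 2) =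
        -(θ - Real.pi / 2) by push_cast; ring, Real.cos_neg, e1, div_self h]
    · rw [show θ / 4 * ((2 * -1 : ℤ) : ℝ) + ((-1 : ℤ) : ℝ) * ((3 * θ - Real.pi) / 2) =
        -(2 * θ - Real.pi / 2) by push_cast; ring, Real.cos_neg, e2, e3]
    · rw [show θ / 4 * ((-6 * -1 : ℤ) : ℝ) + ((-1 : ℤ) : ℝ) * ((3 * θ - Real.pi) / 2) =
        Real.pi / 2 by push_cast; ring, Real.cos_pi_div_two, zero_div]

/-! ### loops without mixed arcs -/

open Classical in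
/-- The step of a side. -/
noncomputable def ix (n : ℕ) (P : ℕ → ℤ × ℤ) (u : ℕ → ℤ) (b : Ed) : ℕ :=
  if h : ∃ k < n, At P u b k then h.choose else 0

theorem ix_eq {σ : ℤ} (h : Bd E n P u σ) (hk : k < n) (hat : At P u b k) : ix n P u b = k := by
  have h1 : ∃ k < n, At P u b k := ⟨k, hk, hat⟩
  unfold ix
  rw [dif_pos h1]
  exact at_idx h h1.choose_spec.1 hk h1.choose_spec.2 hat

/-- The bases have the good parity. -/
structure Gd (K : Finset (ℤ × ℤ)) (B : Set (ℤ × ℤ)) (n : ℕ) (P : ℕ → ℤ × ℤ) (u : ℕ → ℤ)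
    (k₀ zc zo : ℕ) : Prop where
  gc : oq P u zc ∈ K → oq P u zc ∉ B → zc < k₀ → (0 < zc ∨ k₀ = n) → ¬ Even ((P zc).1 + (P zc).2)
  go : oq P u zo ∈ K → oq P u zo ∉ B → ¬ zo < k₀ → (k₀ < zo ∨ k₀ = 0) →
    Even ((P zo).1 + (P zo).2)

/-- The arc around the base. -/
def BaseE (K : Finset (ℤ × ℤ)) (P : ℕ → ℤ × ℤ) (u : ℕ → ℤ) (zc zo : ℕ) (ω : Cfg) (b : Ed) : Prop :=
  (ω (hdv b) = false ∧ At P u (nxt (bS K) ω b) zc) ∨ (ω (hdv b) = true ∧ At P u b zo)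

/-- The corrected turning of an arc. -/
theorem arc_lab (F : Cell K B E n P u τ) (hzc : zc < n) (hzo : zo < n)
    (A : Arc K E n k₀ P u ω b k l) :
    (k < k₀ → trS (bS K) ω b = lab u τ zc l - lab u τ zc k + 2 + 4 * τ * (if l = zc then 1 else 0)) ∧
    (¬ k < k₀ → trS (bS K) ω b =
      lab u τ zo l - lab u τ zo k - 2 - 4 * τ * (if k = zo then 1 else 0)) := by
  have hn1 : u n = u 0 + 4 * τ := by have := F.bd.per 0; rwa [zero_add] at this
  have hk := A.hk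
  have hl := A.hk'
  rcases A.cs with ⟨-, a1, a2, a3, a4, a5, a6, a7⟩ | ⟨-, a1, a2, a3, a4, a5, a6, a7⟩
  · refine ⟨fun _ => ?_, fun h => absurd a1 h⟩
    rw [a4]
    unfold lab
    rw [a5]
    by_cases h : k + 1 = n
    · rw [h, Nat.mod_self] at a6
      subst a6
      rw [if_pos h, hn1, if_neg (show ¬ k < zc by omega)]
      by_cases h2 : 0 < zc
      · rw [if_pos h2, if_neg (by omega)]; ring
      · rw [if_neg h2, if_pos (by omega)]; ring
    · rw [Nat.mod_eq_of_lt (by omega)] at a6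
      subst a6
      rw [if_neg h, add_zero]
      by_cases h2 : k + 1 = zc
      · rw [if_neg (by omega), if_pos (by omega), if_pos h2]; ring
      · rw [if_neg h2]
        by_cases h3 : k < zc
        · rw [if_pos (show k + 1 < zc by omega), if_pos h3]; ring
        · rw [if_neg (show ¬ k + 1 < zc by omega), if_neg h3]; ring
  · refine ⟨fun h => absurd h a1, fun _ => ?_⟩
    rw [a4]
    unfold lab
    rw [a5]
    by_cases h : l + 1 = n
    · rw [h, Nat.mod_self] at a6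
      subst a6
      rw [if_pos h, hn1, if_neg (show ¬ l < zo by omega)]
      by_cases h2 : 0 < zo
      · rw [if_pos h2, if_neg (by omega)]; ring
      · rw [if_neg h2, if_pos (by omega)]; ring
    · rw [Nat.mod_eq_of_lt (by omega)] at a6
      subst a6
      rw [if_neg h, add_zero]
      by_cases h2 : l + 1 = zo
      · rw [if_pos (by omega), if_neg (by omega), if_pos h2]; ring
      · rw [if_neg h2]
        by_cases h3 : l < zo
        · rw [if_pos h3, if_pos (show l + 1 < zo by omega)]; ring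
        · rw [if_neg h3, if_neg (show ¬ l + 1 < zo by omega)]; ring

/-- No arc around a base of good parity. -/
theorem arc_base (C : LC B ω ℓ) (G : Gd K B n P u k₀ zc zo)
    (hb : b ∈ ℓ) (A : Arc K E n k₀ P u ω b k l) :
    (k < k₀ → l ≠ zc) ∧ (¬ k < k₀ → k ≠ zo) := by
  have hk := A.hk
  have hl := A.hk'
  have hlK : oq P u l ∈ K := A.tl ▸ A.tlK
  have hlB : oq P u l ∉ B := A.tl ▸ C.tl_off (C.it_mem hb _)
  have hkK : oq P u k ∈ K := A.hd ▸ A.hdK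
  have hkB : oq P u k ∉ B := A.hd ▸ C.hd_off hb
  rcases A.cs with ⟨-, a1, a2, a3, a4, a5, a6, a7⟩ | ⟨-, a1, a2, a3, a4, a5, a6, a7⟩
  · refine ⟨fun _ => ?_, fun h => absurd a1 h⟩
    rintro rfl
    refine absurd a3 (G.gc hlK hlB a2 ?_)
    by_cases h : k + 1 = n
    · exact Or.inr (a7 h)
    · left
      rw [Nat.mod_eq_of_lt (by omega)] at a6
      omega
  · refine ⟨fun h => absurd h a1, fun _ => ?_⟩
    rintro rfl
    refine a3 (G.go hkK hkB a1 ?_)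
    by_cases h : l + 1 = n
    · exact Or.inr (a7 h)
    · left
      rw [Nat.mod_eq_of_lt (by omega)] at a6
      omega

theorem arc_baseE (F : Cell K B E n P u τ)
    (hzc : zc < n) (hzo : zo < n) (A : Arc K E n k₀ P u ω b k l) :
    BaseE K P u zc zo ω b ↔ ((k < k₀ ∧ l = zc) ∨ (¬ k < k₀ ∧ k = zo)) := by
  unfold BaseE
  rw [A.hd]
  have h1 : At P u (nxt (bS K) ω b) zc ↔ l = zc :=
    ⟨fun h => at_idx F.bd A.hk' hzc A.at2 h, fun h => h ▸ A.at2⟩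
  have h2 : At P u b zo ↔ k = zo := ⟨fun h => at_idx F.bd A.hk hzo A.at1 h, fun h => h ▸ A.at1⟩
  rw [h1, h2]
  rcases A.cs with ⟨a0, a1, a2, a3, a4, a5, a6, a7⟩ | ⟨a0, a1, a2, a3, a4, a5, a6, a7⟩
  · rw [a0]; simp [a1]
  · rw [a0]; simp [not_lt.1 a1]

/-- The sides of a loop without mixed arcs and mixed exits have one colour. -/
theorem one_colour (F : Cell K B E n P u τ) (C : LC B ω ℓ) (hk₀ : k₀ ≤ n)
    (hc : Clr K B n P u k₀ ω) (hm : ∀ b ∈ ℓ, ¬ MixE K ω b)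
    (hsame : ∀ b ∈ ℓ, ∀ i j, Ex K E n P u ω b i j → (i < k₀ ↔ j < k₀)) {b0 : Ed}
    (h1 : b0 ∈ bS K) (h2 : b0 ∈ ℓ) (h3 : Sd E b0) :
    (∀ b ∈ bS K, b ∈ ℓ → Sd E b ∧ ∃ k < n, k < k₀ ∧ At P u b k) ∨
      (∀ b ∈ bS K, b ∈ ℓ → Sd E b ∧ ∃ k < n, ¬ k < k₀ ∧ At P u b k) := by
  have hat : ∃ k < n, At P u b0 k := by
    rw [mem_bS] at h1
    rcases h3 with h | h
    · exact exists_at F.bd F.n0 F.cov (Or.inl ⟨h, fun h' => by
        rcases h1 with h5 | h5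
        · exact F.dis _ h5.1 h
        · exact F.dis _ h5.2 h'⟩)
    · exact exists_at F.bd F.n0 F.cov (Or.inr ⟨h, fun h' => by
        rcases h1 with h5 | h5
        · exact F.dis _ h5.1 h'
        · exact F.dis _ h5.2 h⟩)
  obtain ⟨k, hk, hk2⟩ := hat
  have hen : ∀ (c : Bool), ∀ b ∈ ℓ, ∀ k < n, At P u b k → hdv b ∈ K → tlv b ∈ E →
      (decide (k < k₀) = c) → hdv (nxt (bS K) ω b) ∈ E ∧
        ∃ k' < n, (decide (k' < k₀) = c) ∧ At P u (nxt (bS K) ω b) k' := by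
    intro c b hb k hk hat e1 e2 e3
    obtain ⟨k1, k2, A⟩ := F.arc_pure C hk₀ hc hb e1 e2 (hm b hb)
    have e : k1 = k := at_idx F.bd A.hk hk A.at1 hat
    subst e
    refine ⟨A.hdE, k2, A.hk', ?_, A.at2⟩
    rw [← e3]
    rcases A.cs with ⟨-, a1, a2, -⟩ | ⟨-, a1, a2, -⟩
    · rw [decide_eq_true a1, decide_eq_true a2]
    · rw [decide_eq_false a1, decide_eq_false a2]
  have hex : ∀ (c : Bool), ∀ b ∈ ℓ, ∀ i j, Ex K E n P u ω b i j → decide (i < k₀) = c →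
      decide (j < k₀) = c := by
    intro c b hb i j X e1
    rw [← e1, decide_eq_decide]
    exact (hsame b hb i j X).symm
  by_cases h4 : k < k₀
  · left
    intro b hb hbℓ
    obtain ⟨g1, k', g2, g3, g4⟩ := trap F C (S := fun k => decide (k < k₀) = true) h1 h2 h3
      ⟨k, hk, decide_eq_true h4, hk2⟩ (hex true) (hen true) hb hbℓ
    exact ⟨g1, k', g2, of_decide_eq_true g3, g4⟩
  · right
    intro b hb hbℓ
    obtain ⟨g1, k', g2, g3, g4⟩ := trap F C (S := fun k => decide (k < k₀) = false) h1 h2 h3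
      ⟨k, hk, decide_eq_false h4, hk2⟩ (hex false) (hen false) hb hbℓ
    exact ⟨g1, k', g2, of_decide_eq_false g3, g4⟩

open Classical in
/-- The number of the arcs around the base. -/
noncomputable def dB (K : Finset (ℤ × ℤ)) (P : ℕ → ℤ × ℤ) (u : ℕ → ℤ) (zc zo : ℕ) (ω : Cfg)
    (b : Ed) : ℕ := if BaseE K P u zc zo ω b then 1 else 0

/-- A loop with an arc around the base. -/
def BaseL (K : Finset (ℤ × ℤ)) (P : ℕ → ℤ × ℤ) (u : ℕ → ℤ) (zc zo : ℕ) (ω : Cfg)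
    (ℓ : Finset Ed) : Prop := ∃ b ∈ bS K, hdv b ∈ K ∧ b ∈ ℓ ∧ BaseE K P u zc zo ω b

/-- The steps of a loop are of one colour. -/
def OneC (K : Finset (ℤ × ℤ)) (E : Set (ℤ × ℤ)) (n : ℕ) (P : ℕ → ℤ × ℤ) (u : ℕ → ℤ) (k₀ zc zo : ℕ)
    (ℓ : Finset Ed) (z : ℕ) (s : ℤ) : Prop :=
  (z = zc ∧ s = 1 ∧ ∀ b ∈ bS K, b ∈ ℓ → Sd E b ∧ ∃ k < n, k < k₀ ∧ At P u b k) ∨
    (z = zo ∧ s = -1 ∧ ∀ b ∈ bS K, b ∈ ℓ → Sd E b ∧ ∃ k < n, ¬ k < k₀ ∧ At P u b k)

theorem OneC.sg {s : ℤ} (h : OneC K E n P u k₀ zc zo ℓ z s) : s = 1 ∨ s = -1 := by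
  rcases h with ⟨-, h, -⟩ | ⟨-, h, -⟩ <;> tauto

theorem OneC.sd {s : ℤ} (h : OneC K E n P u k₀ zc zo ℓ z s) (hb : b ∈ bS K) (hbℓ : b ∈ ℓ) :
    Sd E b := by
  rcases h with ⟨-, -, h⟩ | ⟨-, -, h⟩ <;> exact (h b hb hbℓ).1

/-- The corrected turning of an exit. -/
noncomputable def cc (K : Finset (ℤ × ℤ)) (n : ℕ) (P : ℕ → ℤ × ℤ) (u : ℕ → ℤ) (τ : ℤ) (z : ℕ)
    (ω : Cfg) (b : Ed) : ℤ :=
  trS (bS K) ω b - (lab u τ z (ix n P u (nxt (bS K) ω b)) - lab u τ z (ix n P u b))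

theorem cc_ex (F : Cell K B E n P u τ) (X : Ex K E n P u ω b i j) :
    cc K n P u τ z ω b = trS (bS K) ω b - (lab u τ z j - lab u τ z i) := by
  unfold cc
  rw [ix_eq F.bd X.hi X.at1, ix_eq F.bd X.hj X.at2]

theorem OneC.exit {s : ℤ} (h : OneC K E n P u k₀ zc zo ℓ z s) (F : Cell K B E n P u τ)
    (C : LC B ω ℓ) (hb : b ∈ bS K) (hbℓ : b ∈ ℓ) (hbK : hdv b ∉ K) :
    ∃ i j, Ex K E n P u ω b i j := by
  have h3 : tlv b ∈ K := by
    rw [mem_bS] at hb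
    rcases hb with h | h
    · exact absurd h.1 hbK
    · exact h.2
  exact F.exit C hbℓ ((h.sd hb hbℓ).resolve_right fun h => F.dis _ h3 h) h3

theorem OneC.out {s : ℤ} (h : OneC K E n P u k₀ zc zo ℓ z s) (hτ : τ = 1 ∨ τ = -1)
    (F : Cell K B E n P u τ)
    (C : LC B ω ℓ) (hb : b ∈ bS K) (hbℓ : b ∈ ℓ) (hbK : hdv b ∉ K) :
    cc K n P u τ z ω b = 2 * s ∨ cc K n P u τ z ω b = -2 * s ∨ cc K n P u τ z ω b = 6 * s ∨
      cc K n P u τ z ω b = -6 * s := by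
  obtain ⟨i, j, X⟩ := h.exit F C hb hbℓ hbK
  obtain ⟨hne, c, t1, t2⟩ := turn_gen hτ F.bd X F.dis
  rw [cc_ex F X, t1]
  have hs := h.sg
  clear h
  unfold lab
  rcases hτ with rfl | rfl <;> rcases hs with rfl | rfl <;> split_ifs <;> omega

theorem OneC.arc {s : ℤ} (h : OneC K E n P u k₀ zc zo ℓ z s) (hτ : τ = 1 ∨ τ = -1)
    (F : Cell K B E n P u τ) (C : LC B ω ℓ) (hk₀ : k₀ ≤ n)
    (hc : Clr K B n P u k₀ ω) (hm : ∀ b ∈ ℓ, ¬ MixE K ω b) (hzc : zc < n) (hzo : zo < n)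
    (G : τ = -1 → Gd K B n P u k₀ zc zo) (hb : b ∈ bS K) (hbℓ : b ∈ ℓ) (hbK : hdv b ∈ K) :
    trS (bS K) ω b = lab u τ z (ix n P u (nxt (bS K) ω b)) - lab u τ z (ix n P u b) + 2 * s +
      4 * s * dB K P u zc zo ω b := by
  have h4 : tlv b ∈ E := (h.sd hb hbℓ).resolve_left fun h => F.dis _ hbK h
  obtain ⟨k, l, A⟩ := F.arc_pure C hk₀ hc hbℓ hbK h4 (hm b hbℓ)
  obtain ⟨e1, e2⟩ := arc_lab F hzc hzo A
  have e3 := arc_baseE F hzc hzo A
  have e4 := fun h : τ = -1 => arc_base C (G h) hbℓ A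
  rw [ix_eq F.bd A.hk A.at1, ix_eq F.bd A.hk' A.at2]
  unfold dB
  rcases h with ⟨rfl, rfl, h⟩ | ⟨rfl, rfl, h⟩
  · obtain ⟨-, k', a1, a2, a3⟩ := h b hb hbℓ
    have := at_idx F.bd a1 A.hk a3 A.at1
    have hk : k < k₀ := by omega
    rw [e1 hk]
    by_cases hl : l = z
    · rw [if_pos hl, if_pos (e3.2 (Or.inl ⟨hk, hl⟩))]
      rcases hτ with rfl | rfl
      · push_cast; ring
      · exact absurd hl ((e4 rfl).1 hk)
    · rw [if_neg hl, if_neg (fun h => by rcases e3.1 h with h | h <;> tauto)]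
      push_cast; ring
  · obtain ⟨-, k', a1, a2, a3⟩ := h b hb hbℓ
    have := at_idx F.bd a1 A.hk a3 A.at1
    have hk : ¬ k < k₀ := by omega
    rw [e2 hk]
    by_cases hl : k = z
    · rw [if_pos hl, if_pos (e3.2 (Or.inr ⟨hk, hl⟩))]
      rcases hτ with rfl | rfl
      · push_cast; ring
      · exact absurd hl ((e4 rfl).2 hk)
    · rw [if_neg hl, if_neg (fun h => by rcases e3.1 h with h | h <;> tauto)]
      push_cast; ring

theorem OneC.wt {s : ℤ} (h : OneC K E n P u k₀ zc zo ℓ z s) (F : Cell K B E n P u τ)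
    (C : LC B ω ℓ) (H : Phs θ β C0 K B E n P u τ k₀ zc zo a) (hb : b ∈ bS K) (hbℓ : b ∈ ℓ)
    (hbK : hdv b ∉ K) : wS θ K a ω b = wq θ s (cc K n P u τ z ω b) := by
  obtain ⟨i, j, X⟩ := h.exit F C hb hbℓ hbK
  rw [cc_ex F X]
  obtain ⟨w1, w2⟩ := wS_same F C H X hbℓ
  obtain ⟨n1, n2⟩ := nxt_mem C.hl hb hbℓ
  rcases h with ⟨rfl, rfl, h⟩ | ⟨rfl, rfl, h⟩
  · obtain ⟨-, k1, a1, a2, a3⟩ := h b hb hbℓ
    obtain ⟨-, k2, b1, b2, b3⟩ := h _ n1 n2
    have e1 := at_idx F.bd a1 X.hi a3 X.at1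
    have e2 := at_idx F.bd b1 X.hj b3 X.at2
    exact w1 (e1 ▸ a2) (e2 ▸ b2)
  · obtain ⟨-, k1, a1, a2, a3⟩ := h b hb hbℓ
    obtain ⟨-, k2, b1, b2, b3⟩ := h _ n1 n2
    have e1 := at_idx F.bd a1 X.hi a3 X.at1
    have e2 := at_idx F.bd b1 X.hj b3 X.at2
    exact w2 (e1 ▸ a2) (e2 ▸ b2)

open Classical in
/-- The factor of a loop from the numbers of its strands. -/
theorem fLp_cnt {s : ℤ} (hs1 : s = 1 ∨ s = -1) (hs : Real.sin θ ≠ 0) (hcos : Real.cos θ ≠ 0)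
    {c : Ed → ℤ} {d : Ed → ℕ} {Q : Prop}
    (hw : ∀ b ∈ bS K, b ∈ ℓ → hdv b ∉ K → wS θ K a ω b = wq θ s (c b))
    (g1 : ∀ b ∈ bS K, b ∈ ℓ → hdv b ∉ K → c b = 2 * s ∨ c b = -2 * s)
    (g2 : ((bS K).filter fun e => (hdv e ∉ K ∧ e ∈ ℓ) ∧ c e = 2 * s).card +
          ∑ e ∈ (bS K).filter (fun e => hdv e ∈ K ∧ e ∈ ℓ), d e = 1)
    (h1 : Q → ∃ e ∈ bS K, hdv e ∈ K ∧ e ∈ ℓ ∧ d e = 1)
    (h0 : ¬ Q → ∀ e ∈ bS K, hdv e ∈ K → e ∈ ℓ → d e = 0) :
    fLp θ K a ω ℓ = if Q then (2 * Real.cos θ)⁻¹ else 1 := by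
  obtain ⟨v1, v2, -⟩ := wq_val (θ := θ) hs1 hs
  have e0 : fLp θ K a ω ℓ = (2 * Real.cos θ) ^
      ((bS K).filter fun e => (hdv e ∉ K ∧ e ∈ ℓ) ∧ c e = 2 * s).card / (2 * Real.cos θ) := by
    unfold fLp
    have e1 : ∏ e ∈ (bS K).filter (fun e => hdv e ∉ K ∧ e ∈ ℓ), wS θ K a ω e =
        ∏ e ∈ (bS K).filter (fun e => hdv e ∉ K ∧ e ∈ ℓ),
          if c e = 2 * s then 2 * Real.cos θ else 1 := by
      refine prod_congr rfl fun e he => ?_
      obtain ⟨k1, k2, k3⟩ := mem_filter.1 he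
      rw [hw e k1 k3 k2]
      rcases g1 e k1 k3 k2 with k4 | k4
      · rw [if_pos k4, k4, v2]
      · rw [if_neg (by rw [k4]; rcases hs1 with rfl | rfl <;> norm_num), k4, v1]
    rw [e1, prod_ite, prod_const, prod_const_one, mul_one, filter_filter]
  by_cases hB : Q
  · obtain ⟨b, b1, b2, b3, b4⟩ := h1 hB
    have e5 : 1 ≤ ∑ e ∈ (bS K).filter (fun e => hdv e ∈ K ∧ e ∈ ℓ), d e := by
      rw [← b4]
      exact single_le_sum (f := d) (fun _ _ => Nat.zero_le _) (mem_filter.2 ⟨b1, b2, b3⟩)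
    rw [if_pos hB, e0,
      show ((bS K).filter fun e => (hdv e ∉ K ∧ e ∈ ℓ) ∧ c e = 2 * s).card = 0 by omega,
      pow_zero, one_div]
  · have e5 : ∑ e ∈ (bS K).filter (fun e => hdv e ∈ K ∧ e ∈ ℓ), d e = 0 := by
      refine sum_eq_zero fun e he => ?_
      obtain ⟨k1, k2, k3⟩ := mem_filter.1 he
      exact h0 hB e k1 k2 k3
    rw [if_neg hB, e0,
      show ((bS K).filter fun e => (hdv e ∉ K ∧ e ∈ ℓ) ∧ c e = 2 * s).card = 1 by omega,
      pow_one, div_self (mul_ne_zero two_ne_zero hcos)]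

open Classical in
/-- **The factor of a loop of one colour**: `0` (an exit of zero type), `(2 cos θ)⁻¹` (an arc around
an invisible base) or `1`. -/
theorem fLp_val (hτ : τ = 1 ∨ τ = -1) (F : Cell K B E n P u τ) (C : LC B ω ℓ) (hk₀ : k₀ ≤ n)
    (hc : Clr K B n P u k₀ ω) (hm : ∀ b ∈ ℓ, ¬ MixE K ω b)
    (H : Phs θ β C0 K B E n P u τ k₀ zc zo a) (hzc : zc < n) (hzo : zo < n)
    (G : τ = -1 → Gd K B n P u k₀ zc zo)
    (hs : Real.sin θ ≠ 0) (hcos : Real.cos θ ≠ 0) {b0 : Ed} (h1 : b0 ∈ bS K) (h2 : b0 ∈ ℓ)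
    {z : ℕ} {s : ℤ} (hz : OneC K E n P u k₀ zc zo ℓ z s) :
    (fLp θ K a ω ℓ = 0 ∧ ∃ b ∈ ℓ, ∃ i j, Ex K E n P u ω b i j ∧
      trS (bS K) ω b - (lab u τ z j - lab u τ z i) = -6 * s) ∨
    (fLp θ K a ω ℓ = (if BaseL K P u zc zo ω ℓ then (2 * Real.cos θ)⁻¹ else 1) ∧
      ∀ b ∈ ℓ, ∀ i j, Ex K E n P u ω b i j →
      trS (bS K) ω b - (lab u τ z j - lab u τ z i) = 2 * s ∨
        trS (bS K) ω b - (lab u τ z j - lab u τ z i) = -2 * s) := by
  obtain ⟨v1, v2, v3⟩ := wq_val (θ := θ) hz.sg hs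
  rcases count_kill2 C.hl ⟨b0, h1, h2⟩ hz.sg (fun b => lab u τ z (ix n P u b)) (cc K n P u τ z ω)
      (dB K P u zc zo ω)
      (fun b hb hbℓ hbK => ⟨by unfold cc; ring, hz.out hτ F C hb hbℓ hbK⟩)
      (fun b hb hbℓ hbK => hz.arc hτ F C hk₀ hc hm hzc hzo G hb hbℓ hbK) with
    ⟨b, g1, g2, g3, g4⟩ | ⟨g1, g2⟩
  · left
    obtain ⟨i, j, X⟩ := hz.exit F C g1 g2 g3
    refine ⟨?_, b, g2, i, j, X, by rw [← cc_ex F X]; exact g4⟩
    unfold fLp
    rw [prod_eq_zero (i := b) (mem_filter.2 ⟨g1, g3, g2⟩)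
      (by rw [hz.wt F C H g1 g2 g3, g4, v3]), zero_div]
  · right
    refine ⟨?_, fun b hb i j X => ?_⟩
    · refine fLp_cnt hz.sg hs hcos (fun b hb hbℓ hbK => hz.wt F C H hb hbℓ hbK) g1 g2 ?_ ?_
      · rintro ⟨b, b1, b2, b3, b4⟩
        exact ⟨b, b1, b2, b3, if_pos b4⟩
      · intro h e e1 e2 e3
        exact if_neg fun h' => h ⟨e, e1, e2, e3, h'⟩
    · rw [← cc_ex F X]
      exact g1 b (X.memS F) hb fun h => F.dis _ h X.hdE

open Classical in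
/-- **Loops without mixed arcs in a bounded cell** have the factor `1`, or `(2 cos θ)⁻¹` if they
turn around an invisible base. -/
theorem fLp_bdd (F : Cell K B (D : Set (ℤ × ℤ)) n P u 1) (C : LC B ω ℓ) (hk₀ : k₀ ≤ n)
    (hc : Clr K B n P u k₀ ω) (hm : ∀ b ∈ ℓ, ¬ MixE K ω b)
    (H : Phs θ β C0 K B (D : Set (ℤ × ℤ)) n P u 1 k₀ zc zo a) (hzc : zc < n) (hzo : zo < n)
    (hs : Real.sin θ ≠ 0) (hcos : Real.cos θ ≠ 0) {b0 : Ed} (h1 : b0 ∈ bS K) (h2 : b0 ∈ ℓ)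
    (h3 : Sd (D : Set (ℤ × ℤ)) b0) :
    fLp θ K a ω ℓ = if BaseL K P u zc zo ω ℓ then (2 * Real.cos θ)⁻¹ else 1 := by
  have hno : ∀ {s : ℤ} {z : ℕ}, (s = 1 ∨ s = -1) → ∀ b ∈ ℓ, ∀ i j,
      Ex K (D : Set (ℤ × ℤ)) n P u ω b i j →
      trS (bS K) ω b - (lab u 1 z j - lab u 1 z i) ≠ -6 * s := by
    intro s z hs1 b hb i j X h
    obtain ⟨hne, c, t1, t2⟩ := turn_gen (Or.inl rfl) F.bd X F.dis
    rw [t1] at h
    unfold lab at h
    rcases hs1 with rfl | rfl <;> split_ifs at h <;> omega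
  have hG : (1 : ℤ) = -1 → Gd K B n P u k₀ zc zo := fun h => absurd h (by decide)
  rcases one_colour F C hk₀ hc hm (fun b hb i j X => no_mixed F C hk₀ hc hm X hb) h1 h2 h3 with h | h
  · rcases fLp_val (Or.inl rfl) F C hk₀ hc hm H hzc hzo hG hs hcos h1 h2 (Or.inl ⟨rfl, rfl, h⟩) with
      ⟨-, b, hb, i, j, X, h4⟩ | ⟨h4, -⟩
    · exact absurd h4 (hno (Or.inl rfl) b hb i j X)
    · exact h4
  · rcases fLp_val (Or.inl rfl) F C hk₀ hc hm H hzc hzo hG hs hcos h1 h2 (Or.inr ⟨rfl, rfl, h⟩) with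
      ⟨-, b, hb, i, j, X, h4⟩ | ⟨h4, -⟩
    · exact absurd h4 (hno (Or.inr rfl) b hb i j X)
    · exact h4

end Vale.Agent.P167.N.ID
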