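import Vale.Agent.P167.N.Kit
import Vale.Agent.P167.H601.Q.Cls

/-!
# P167, `q < 1`, START: the closed frame, independent of the rows

The comparison of the functional of a domain with and without the event that there are no arms at the
holes (`H601.Q.Cls`), from a bound for the arms inside of the domain.
-/

set_option autoImplicit false

namespace Vale.Agent.P167.N.ID

open Finset

open Vale.Agent.P167 Vale.Agent.P167.N

open Vale.Agent.P167.FK Vale.Agent.P167.FKA

open Vale.Agent.P167.H398.Q (Arm NA Tch)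

open Vale.Agent.P167.H601.Q

variable {Q : ℝ} {D : Finset (ℤ × ℤ)} {η : Cfg}

/-- **The closed frame.** The squares outside of `D` which touch `D` are frozen, and have the colour
`b i` in the box of the hole `i`; the arms inside of `D` are rare. -/
theorem cls_gen (hQ0 : 0 < Q) {K : Finset (ℤ × ℤ)} {σ : Cfg}
    (hK : ∀ v ∉ D, ∀ w ∈ D, Tch v w → v ∈ K) {ι : Type} (I : Finset ι) (c : ι → ℤ × ℤ)
    (b : ι → Bool) {r R : ℤ} (hrR : r < R)
    (hcol : ∀ i ∈ I, ∀ v ∈ K, v ∈ Bq (c i) R → σ v = b i) {ε e : ℝ}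
    (hin : ∀ i ∈ I, Ex Q D η ((InA (b i) (c i) r R D).indicator 1) ≤ ε)
    (he : I.card * ε ≤ e) (he2 : e ≤ 1 / 2) (hησ : ∀ v ∈ K, η v = σ v) {X : Cfg → ℝ} {M : ℝ}
    (hM : Ex Q D η (fun ω => X ω ^ 2) ≤ M) :
    |Ex Q D η (fun ω => X ω * (NA I b c r R).indicator 1 ω) -
        Ex Q D η X * Ex Q D η ((NA I b c r R).indicator 1)| ≤
      4 * (Real.sqrt (M * e) + |Ex Q D η X| * e) * Ex Q D η ((NA I b c r R).indicator 1) := by
  classical
  by_cases hoff : ∃ i ∈ I, ArmI (b i) (c i) r R (fc (b i) η ∩ (↑D : Set (ℤ × ℤ))ᶜ)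
  · -- an arm outside of `D`
    obtain ⟨i, hi, ha⟩ := hoff
    have h0 : ∀ S, S ⊆ D → (NA I b c r R).indicator (1 : Cfg → ℝ) (cf D η S) = 0 := by
      intro S _
      have hmem : Arm (b i) (c i) r R (cf D η S) := by
        refine arm_iff.1 (ArmI.mono (F := fc (b i) η ∩ (↑D : Set (ℤ × ℤ))ᶜ) ?_ ha)
        rw [← fc_off (ω := cf D η S) (ω' := η) fun v hv => cf_out hv]
        exact Set.inter_subset_left
      exact Set.indicator_of_notMem (fun h : cf D η S ∈ NA I b c r R => h i hi hmem) _
    have h1 : Ex Q D η (fun ω => X ω * (NA I b c r R).indicator 1 ω) = 0 := by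
      rw [← Ex_const (Q := Q) (D := D) (η := η) hQ0 0]
      exact Ex_congr fun S hS => by rw [h0 S hS, mul_zero]
    have h2 : Ex Q D η ((NA I b c r R).indicator 1) = 0 := by
      rw [← Ex_const (Q := Q) (D := D) (η := η) hQ0 0]
      exact Ex_congr fun S hS => h0 S hS
    rw [h1, h2]
    simp
  · push Not at hoff
    refine rare hQ0 hM (le_trans ?_ he) he2
    have h1 := H662.Q.err_union (Q := Q) (A := D) (ξ := η) hQ0 I
      (fun i => {ω | Arm (b i) (c i) r R ω}) (fun _ => ε) (H := fun _ => 1)
      (fun _ => zero_le_one) ?_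
    · rw [Ex_const hQ0, mul_one, Finset.sum_const, nsmul_eq_mul] at h1
      refine le_trans (le_of_eq ?_) h1
      refine Ex_congr fun S _ => ?_
      rw [one_mul]
      congr 1
      ext ω
      simp only [NA, Set.mem_compl_iff, Set.mem_ofPred_eq, not_forall, not_not, Set.mem_iUnion]
    · intro i hi
      rw [Ex_const hQ0, mul_one]
      refine le_trans (le_of_eq ?_) (hin i hi)
      refine Ex_congr fun S _ => ?_
      rw [one_mul]
      have h2 : cf D η S ∈ {ω | Arm (b i) (c i) r R ω} ↔ cf D η S ∈ InA (b i) (c i) r R D := by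
        constructor
        · intro h
          have h3 : ArmI (b i) (c i) r R (fc (b i) (cf D η S)) := arm_iff.2 h
          have h5 : ∀ v ∉ D, ∀ w ∈ D, |v.1 - w.1| ≤ 1 ∧ |v.2 - w.2| ≤ 1 → v ∈ Bq (c i) R →
              v ∉ fc (b i) (cf D η S) := by
            intro v hv w hw hvw hvB hvF
            have hvK := hK v hv w hw hvw
            refine hvF ?_
            rw [cf_out hv, hησ v hvK]
            exact hcol i hi v hvK hvB
          rcases armI_split hrR h5 h3 with h4 | h4
          · exact h4
          · rw [fc_off (ω := cf D η S) (ω' := η) fun v hv => cf_out hv] at h4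
            exact absurd h4 (hoff i hi)
        · intro h
          exact arm_iff.1 (ArmI.mono Set.inter_subset_left h)
      by_cases h : cf D η S ∈ InA (b i) (c i) r R D
      · rw [Set.indicator_of_mem h, Set.indicator_of_mem (h2.2 h)]
      · rw [Set.indicator_of_notMem h, Set.indicator_of_notMem fun h' => h (h2.1 h')]

end Vale.Agent.P167.N.ID
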