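import Vale.Agent.P167.QX.Trap
import Vale.Agent.P167.H680.S.Tel
import Vale.Agent.P167.Top.Turn
import Vale.Agent.P167.K8.Pot
import Vale.Agent.P167.H871.OutX

/-!
# P167, `q < 1`: a small loop at a row has an excursion of closed type

`W ℓ` is an exterior potential of the loop `ℓ`. If all excursions of `ℓ` off `I` had the bounded side
on the other side than `ℓ`, the sum of their potentials would have the wrong sign. A loop which stays
in a small box does not visit the open squares of `I` if it is counterclockwise, and not the closed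
ones if it is clockwise.
-/

set_option autoImplicit false

namespace Vale.Agent.P167.N.ID

open Finset
open Vale.Agent.P167.BR
open Vale.Agent.P167.XDL (bS mem_bS)
open Vale.Agent.P167.FK
open Vale.Agent.P167.H199 (strand ret mem_strand loop_nx loop_iter ret_min ret_le Returns)
open Vale.Agent.P167.QX (exc mem_exc exc_last exc_nx exc_ni exc_disj out_stays in_stays returns_loop
  exists_strand_loop ExtPot ExtConn far_edge Thin Bx Ins mem_Bx ins_of_pot Chn Esc ClT lst lst_in InB)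
open Vale.Agent.P167.H680.S (nxt nxt_mem nxt_image)
open Vale.Agent.P167.H871 (IsC)

variable {I : Finset (ℤ × ℤ)} {ω : Cfg} {ℓ A : Finset Ed} {e e' x y : Ed} {φ : ℤ × ℤ → ℤ} {σ : ℤ}
  {p q z z' v : ℤ × ℤ} {b : Bool}

/-! ### potentials -/

/-- The values of an exterior potential. -/
theorem ext_vals (hc : ExtConn I) (hφ : ExtPot I A σ φ) (hx : hdv x ∉ I ∨ tlv x ∉ I) :
    (φ (ls x) = 0 ∨ φ (ls x) = σ) ∧ (φ (rs x) = 0 ∨ φ (rs x) = σ) := by
  classical
  obtain ⟨c, hc⟩ := hc (fun z => if φ z = 0 ∨ φ z = σ then 0 else 1) (fun x hx => by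
    have hj := hφ.jump x hx
    by_cases hxA : x ∈ A
    · have h1 := hφ.left x hxA
      have h2 := hφ.right x hxA
      rcases hφ.sgn with h | h
      · rw [h] at h1 h2
        have h1 : φ (ls x) = 1 := by rw [h1]; norm_num
        have h2 : φ (rs x) = 0 := by rw [h2]; norm_num
        rw [if_pos (Or.inr (by rw [h1, h])), if_pos (Or.inl h2)]
      · rw [h] at h1 h2
        have h1 : φ (ls x) = 0 := by rw [h1]; norm_num
        have h2 : φ (rs x) = -1 := by rw [h2]; norm_num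
        rw [if_pos (Or.inl h1), if_pos (Or.inr (by rw [h2, h]))]
    · rw [if_neg hxA, add_zero] at hj
      rw [hj])
  obtain ⟨R, hR⟩ := hφ.far
  obtain ⟨y, hy, hy1, -⟩ := far_edge I R R
  have h1 := (hc y hy).1
  beta_reduce at h1
  rw [if_pos (Or.inl (hR _ (Or.inl hy1)))] at h1
  obtain ⟨g1, g2⟩ := hc x hx
  constructor
  · by_contra hne
    rw [if_neg hne] at g1
    omega
  · by_contra hne
    rw [if_neg hne] at g2
    omega

/-- The winding number vanishes far away. -/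
theorem W_far (ℓ : Finset Ed) (hl : IsLoop ω ℓ) :
    ∃ R : ℤ, ∀ z : ℤ × ℤ, (R < |z.1| ∨ R < |z.2|) → W ℓ z = 0 := by
  classical
  -- a box which contains the squares of the loop
  obtain ⟨M, hM⟩ : ∃ M : ℤ, ∀ y ∈ ℓ, |(hdv y).1| ≤ M ∧ |(hdv y).2| ≤ M ∧ |(tlv y).1| ≤ M ∧
      |(tlv y).2| ≤ M := by
    obtain ⟨M, hM⟩ := (ℓ.image fun y => |(hdv y).1| + |(hdv y).2| + |(tlv y).1| + |(tlv y).2|).bddAbove
    refine ⟨M, fun y hy => ?_⟩
    have h1 := hM (mem_coe.2 (mem_image_of_mem _ hy))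
    have g1 := abs_nonneg (hdv y).1
    have g2 := abs_nonneg (hdv y).2
    have g3 := abs_nonneg (tlv y).1
    have g4 := abs_nonneg (tlv y).2
    beta_reduce at h1
    omega
  refine ⟨M + 2, fun z hz => ?_⟩
  have hM0 : 0 ≤ M := by
    obtain ⟨y, hy⟩ := hl.nonempty
    exact (abs_nonneg _).trans (hM y hy).1
  have off : ∀ w : ℤ × ℤ, (M < |w.1| ∨ M < |w.2|) → ∀ y ∈ ℓ, hdv y ≠ w ∧ tlv y ≠ w := by
    intro w hw y hy
    obtain ⟨h1, h2, h3, h4⟩ := hM y hy
    exact ⟨fun h => by rw [h] at h1 h2; omega, fun h => by rw [h] at h3 h4; omega⟩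
  have hor : ∀ a b : ℤ, (M < |a| ∨ M < |b|) → W ℓ (a, b) = W ℓ (a + 1, b) := by
    intro a b h
    have h1 := s_jump ω ℓ hl (Sum.inr (a, b - 1))
    have h2 : (Sum.inr (a, b - 1) : Ed) ∉ ℓ := by
      intro hy
      have h3 := off (a, b) h _ hy
      simp only [hdv, tlv] at h3
      split_ifs at h3 <;> simp at h3
    rw [if_neg h2] at h1
    simp only [ls, rs] at h1
    split_ifs at h1 <;> simp only [sub_add_cancel] at h1 <;> omega
  have ver : ∀ a b : ℤ, (M < |a| ∨ M < |b|) → W ℓ (a, b) = W ℓ (a, b + 1) := by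
    intro a b h
    have h1 := s_jump ω ℓ hl (Sum.inl (a - 1, b))
    have h2 : (Sum.inl (a - 1, b) : Ed) ∉ ℓ := by
      intro hy
      have h3 := off (a, b) h _ hy
      simp only [hdv, tlv] at h3
      split_ifs at h3 <;> simp at h3
    rw [if_neg h2] at h1
    simp only [ls, rs] at h1
    split_ifs at h1 <;> simp only [sub_add_cancel] at h1 <;> omega
  -- the right part
  have right : ∀ t : ℤ × ℤ, M + 1 < t.1 → W ℓ t = 0 := fun t ht =>
    W_zero_right ℓ fun u hu _ => by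
      obtain ⟨h1, -, h3, -⟩ := hM _ hu
      simp only [hdv, tlv] at h1 h3
      split_ifs at h1 h3 <;> simp only [abs_le] at h1 h3 <;> omega
  have above : ∀ t : ℤ × ℤ, M + 1 < |t.2| → W ℓ t = 0 := fun t ht => by
    rcases le_total t.1 (M + 2) with h | h
    · have h3 : ∀ a, t.1 ≤ a → (fun a => W ℓ (a, t.2)) a = (fun a => W ℓ (a, t.2)) (a + 1) :=
        fun a _ => hor a t.2 (Or.inr (by omega))
      have h4 := QX.const_geA h3 (M + 2) h
      beta_reduce at h4
      rw [right (M + 2, t.2) (by simp only; omega)] at h4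
      exact h4.symm
    · exact right t (by omega)
  rcases hz with hz | hz
  · rcases lt_abs.1 hz with h | h
    · exact right z (by omega)
    · -- the left part
      rcases le_total z.2 (M + 2) with h5 | h5
      · have h3 : ∀ b, z.2 ≤ b → (fun b => W ℓ (z.1, b)) b = (fun b => W ℓ (z.1, b)) (b + 1) :=
          fun b _ => ver z.1 b (Or.inl (by rw [lt_abs]; right; omega))
        have h4 := QX.const_geA h3 (M + 2) h5
        beta_reduce at h4
        rw [above (z.1, M + 2) (by simp only; rw [lt_abs]; left; omega)] at h4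
        exact h4.symm
      · exact above z (by rw [lt_abs]; left; omega)
  · exact above z (by omega)

/-- **The winding number of a loop is an exterior potential.** -/
theorem loop_pot (I : Finset (ℤ × ℤ)) (hl : IsLoop ω ℓ) : ∃ σ, ExtPot I ℓ σ (W ℓ) := by
  have hj := s_jump ω ℓ hl
  rcases turn_loop hl with ⟨-, h⟩ | ⟨-, h⟩
  · refine ⟨1, Or.inl rfl, fun x _ => hj x, fun x hx => ?_, fun x hx => ?_, W_far ℓ hl⟩
    · have h1 := hj x
      rw [if_pos hx] at h1
      have h2 := h (rs x)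
      have h3 := h (ls x)
      norm_num
      omega
    · have h1 := hj x
      rw [if_pos hx] at h1
      have h2 := h (rs x)
      have h3 := h (ls x)
      norm_num
      omega
  · refine ⟨-1, Or.inr rfl, fun x _ => hj x, fun x hx => ?_, fun x hx => ?_, W_far ℓ hl⟩
    · have h1 := hj x
      rw [if_pos hx] at h1
      have h2 := h (rs x)
      have h3 := h (ls x)
      norm_num
      omega
    · have h1 := hj x
      rw [if_pos hx] at h1
      have h2 := h (rs x)
      have h3 := h (ls x)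
      norm_num
      omega

/-! ### the excursions of a loop -/

/-- The exits of the loop. -/
noncomputable def Xit (I : Finset (ℤ × ℤ)) (ℓ : Finset Ed) : Finset Ed := by
  classical
  exact (bS I).filter fun e => hdv e ∉ I ∧ e ∈ ℓ

theorem mem_Xit : e ∈ Xit I ℓ ↔ hdv e ∉ I ∧ tlv e ∈ I ∧ e ∈ ℓ := by
  classical
  unfold Xit
  rw [mem_filter, mem_bS]
  tauto

/-- The edges of the loop off `I` are in excursions. -/
theorem exists_exc (hl : IsLoop ω ℓ) (hne : (Xit I ℓ).Nonempty) (hx : x ∈ ℓ)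
    (hxI : hdv x ∉ I ∨ tlv x ∉ I) : ∃ e ∈ Xit I ℓ, x ∈ exc I ω e := by
  classical
  obtain ⟨e0, he0⟩ := hne
  obtain ⟨h1, h2, h3⟩ := mem_Xit.1 he0
  have hS : ∃ e ∈ bS I, e ∈ ℓ := ⟨e0, mem_bS.2 (Or.inr ⟨h1, h2⟩), h3⟩
  obtain ⟨y, hy, hxy⟩ := exists_strand_loop hl hS hx
  obtain ⟨hyS, hyℓ⟩ := mem_filter.1 hy
  by_cases hyI : hdv y ∉ I
  · refine ⟨y, mem_Xit.2 ⟨hyI, ?_, hyℓ⟩, mem_insert_of_mem hxy⟩
    rw [mem_bS] at hyS
    tauto
  · -- `y` is an entry, `x = y`
    rw [not_not] at hyI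
    obtain ⟨k, hk, rfl⟩ := mem_strand.1 hxy
    have hk0 : k = 0 := by
      by_contra hk0
      obtain ⟨j, rfl⟩ : ∃ j, k = j + 1 := ⟨k - 1, by omega⟩
      have g1 := in_stays hyI hk
      have g2 := in_stays (ω := ω) hyI (k := j) (by omega)
      rw [Function.iterate_succ_apply', tlv_nx] at hxI
      rw [Function.iterate_succ_apply'] at g1
      rcases hxI with h | h
      · exact h g1
      · exact h g2
    subst hk0
    -- the strand before `y`
    have h4 := nxt_image (S := bS I) hl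
    have h5 : y ∈ (bS I).filter (· ∈ ℓ) := by
      rw [mem_filter]
      exact ⟨hyS, hyℓ⟩
    rw [← h4, mem_image] at h5
    obtain ⟨y', hy', hyy⟩ := h5
    obtain ⟨g1, g2⟩ := mem_filter.1 hy'
    have hr := returns_loop hl g2 g1
    have g3 : hdv y' ∉ I := by
      intro h
      have h6 : tlv y ∈ I := by
        rw [← hyy]
        unfold nxt
        obtain ⟨m, hm⟩ : ∃ m, ret (nx ω) (bS I) y' = m + 1 :=
          ⟨_, (Nat.sub_add_cancel hr.spec.1).symm⟩
        rw [hm, Function.iterate_succ_apply', tlv_nx]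
        exact in_stays h (by omega)
      rw [mem_bS] at hyS
      tauto
    refine ⟨y', mem_Xit.2 ⟨g3, ?_, g2⟩, mem_exc.2 ⟨_, le_rfl, hyy⟩⟩
    rw [mem_bS] at g1
    tauto

/-- **The excursions of a loop have the orientation of the loop at least once.** -/
theorem exists_sgn (hc : ExtConn I) (hl : IsLoop ω ℓ) (hne : (Xit I ℓ).Nonempty)
    (hpot : ∀ e ∈ Xit I ℓ, ∃ σ φ, ExtPot I (exc I ω e) σ φ) (hW : ExtPot I ℓ σ (W ℓ)) :
    ∃ e ∈ Xit I ℓ, ∃ φ, ExtPot I (exc I ω e) σ φ := by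
  classical
  by_contra hcon
  push Not at hcon
  have hpot' : ∀ e, ∃ φ, e ∈ Xit I ℓ → ExtPot I (exc I ω e) (-σ) φ := by
    intro e
    by_cases he : e ∈ Xit I ℓ
    · obtain ⟨s, φ, hφ⟩ := hpot e he
      refine ⟨φ, fun _ => ?_⟩
      have h1 : s ≠ σ := fun h => hcon e he φ (h ▸ hφ)
      have h2 : s = -σ := by
        rcases hφ.sgn with h | h <;> rcases hW.sgn with h' | h' <;> omega
      rw [← h2]
      exact hφ
    · exact ⟨fun _ => 0, fun h => absurd h he⟩
  choose φ hφ using hpot'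
  have hret : ∀ e ∈ Xit I ℓ, Returns (nx ω) (bS I) e := fun e he => by
    obtain ⟨h1, h2, h3⟩ := mem_Xit.1 he
    exact returns_loop hl h3 (mem_bS.2 (Or.inr ⟨h1, h2⟩))
  have hsub : ∀ e ∈ Xit I ℓ, ∀ x ∈ exc I ω e, x ∈ ℓ := fun e he x hx => by
    obtain ⟨k, -, rfl⟩ := mem_exc.1 hx
    exact loop_iter hl (mem_Xit.1 he).2.2 k
  obtain ⟨c, hcc⟩ := hc (fun z => W ℓ z - ∑ e ∈ Xit I ℓ, φ e z) (fun x hx => by
    have h1 := hW.jump x hx
    have h2 : ∑ e ∈ Xit I ℓ, φ e (ls x) = ∑ e ∈ Xit I ℓ, φ e (rs x) + if x ∈ ℓ then 1 else 0 := by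
      have h3 : ∀ e ∈ Xit I ℓ, φ e (ls x) = φ e (rs x) + if x ∈ exc I ω e then 1 else 0 :=
        fun e he => (hφ e he).jump x hx
      rw [sum_congr rfl h3, sum_add_distrib]
      congr 1
      by_cases hxl : x ∈ ℓ
      · rw [if_pos hxl]
        obtain ⟨e1, he1, hx1⟩ := exists_exc hl hne hxl hx
        rw [sum_eq_single_of_mem e1 he1, if_pos hx1]
        intro e2 he2 hne2
        rw [if_neg]
        obtain ⟨a1, a2, -⟩ := mem_Xit.1 he1
        obtain ⟨b1, b2, -⟩ := mem_Xit.1 he2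
        exact exc_disj a1 a2 (hret _ he1) b1 b2 (hret _ he2) (Ne.symm hne2) hx1
      · rw [if_neg hxl]
        exact sum_eq_zero fun e he => if_neg fun h => hxl (hsub e he x h)
    rw [h1, h2]
    ring)
  -- the constant is `0`
  have hc0 : c = 0 := by
    obtain ⟨R, hR⟩ := hW.far
    choose R' hR' using fun e : Xit I ℓ => (hφ e.1 e.2).far
    obtain ⟨M, hM⟩ : ∃ M : ℤ, ∀ e : Xit I ℓ, R' e ≤ M := by
      obtain ⟨M, hM⟩ := (univ.image R').bddAbove
      exact ⟨M, fun e => hM (mem_coe.2 (mem_image_of_mem _ (mem_univ e)))⟩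
    obtain ⟨y, hy, hy1, hy2⟩ := far_edge I R M
    have h1 := (hcc y hy).1
    beta_reduce at h1
    rw [hR _ (Or.inl hy1), sum_eq_zero fun e he => hR' ⟨e, he⟩ _ (Or.inl
      (lt_of_le_of_lt (hM ⟨e, he⟩) hy2))] at h1
    omega
  obtain ⟨e0, he0⟩ := hne
  obtain ⟨a1, a2, a3⟩ := mem_Xit.1 he0
  obtain ⟨g1, g2⟩ := hcc e0 (Or.inl a1)
  rcases hW.sgn with h | h
  · have h1 := hW.left e0 a3
    rw [h] at h1
    have h1 : W ℓ (ls e0) = 1 := by rw [h1]; norm_num
    have h2 : ∑ e ∈ Xit I ℓ, φ e (ls e0) ≤ 0 := sum_nonpos fun e he => by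
      rcases (ext_vals hc (hφ e he) (Or.inl a1)).1 with h3 | h3 <;> omega
    omega
  · have h1 := hW.right e0 a3
    rw [h] at h1
    have h1 : W ℓ (rs e0) = -1 := by rw [h1]; norm_num
    have h2 : 0 ≤ ∑ e ∈ Xit I ℓ, φ e (rs e0) := sum_nonneg fun e he => by
      rcases (ext_vals hc (hφ e he) (Or.inl a1)).2 with h3 | h3 <;> omega
    omega

/-! ### colours -/

theorem isC' {v s : ℤ × ℤ} :
    IsC v s ↔ (s.1 = v.1 ∨ s.1 = v.1 + 1) ∧ (s.2 = v.2 ∨ s.2 = v.2 + 1) := Iff.rfl

/-- The parity of the sites joined by the squares of colour `b`. -/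
def Pb (b : Bool) (z : ℤ × ℤ) : Prop := (Even (z.1 + z.2) ↔ b = true)

/-- The winding number at the joined corners of a square. -/
theorem corner_eq (hl : IsLoop ω ℓ) (hv : ω v = b) (h1 : IsC v z) (h2 : IsC v z') (p1 : Pb b z)
    (p2 : Pb b z') : W ℓ z = W ℓ z' := by
  have hO : K8.Inv ω (ℓ : Set Ed) := fun e => by
    rw [mem_coe, mem_coe]
    constructor
    · intro h
      have h3 : ℓ.image (nx ω) = ℓ := by
        apply eq_of_subset_of_card_le
        · intro y hy
          obtain ⟨x, hx, rfl⟩ := mem_image.1 hy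
          exact loop_nx hl hx
        · rw [card_image_of_injective _ (s_nx ω).1]
      rw [← h3, mem_image] at h
      obtain ⟨x, hx, hxe⟩ := h
      exact (s_nx ω).1 hxe ▸ hx
    · exact loop_nx hl
  have hp : K8.IsPot (ℓ : Set Ed) (W ℓ) := fun e => by
    classical
    rw [s_jump ω ℓ hl e]
    simp only [mem_coe]
  obtain ⟨a, c⟩ := v
  obtain ⟨k1, k2⟩ := K8.pot_square hO hp a c
  obtain ⟨z1, z2⟩ := z
  obtain ⟨z1', z2'⟩ := z'
  unfold Pb at p1 p2
  rw [isC'] at h1 h2
  simp only at h1 h2 p1 p2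
  have hev : Even (a + c) ∨ ¬ Even (a + c) := em _
  have e1 : ∀ s t : ℤ, Even (s + t) ↔ (s + t) % 2 = 0 := fun s t => Int.even_iff
  rw [e1] at p1 p2
  rw [e1] at k1 k2
  obtain ⟨h11, h12⟩ := h1
  obtain ⟨h21, h22⟩ := h2
  have c1 : z1 = a ∨ z1 = a + 1 := by omega
  have c2 : z2 = c ∨ z2 = c + 1 := by omega
  have c3 : z1' = a ∨ z1' = a + 1 := by omega
  have c4 : z2' = c ∨ z2' = c + 1 := by omega
  cases b
  · simp only [Bool.false_eq_true, iff_false] at p1 p2
    rcases c1 with rfl | rfl <;> rcases c2 with rfl | rfl <;> rcases c3 with rfl | rfl <;>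
      rcases c4 with rfl | rfl <;> first
      | rfl
      | (exfalso; omega)
      | exact k1 (Or.inr ⟨by omega, hv⟩)
      | exact (k1 (Or.inr ⟨by omega, hv⟩)).symm
      | exact k2 (Or.inr ⟨by omega, hv⟩)
      | exact (k2 (Or.inr ⟨by omega, hv⟩)).symm
  · simp only [iff_true] at p1 p2
    rcases c1 with rfl | rfl <;> rcases c2 with rfl | rfl <;> rcases c3 with rfl | rfl <;>
      rcases c4 with rfl | rfl <;> first
      | rfl
      | (exfalso; omega)
      | exact k1 (Or.inl ⟨by omega, hv⟩)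
      | exact (k1 (Or.inl ⟨by omega, hv⟩)).symm
      | exact k2 (Or.inl ⟨by omega, hv⟩)
      | exact (k2 (Or.inl ⟨by omega, hv⟩)).symm

/-- Two squares of a thin set with a common corner have a common corner of each parity. -/
theorem common (hI : Thin I) {v1 v2 : ℤ × ℤ} (h1 : v1 ∈ I) (h2 : v2 ∈ I) (c1 : IsC v1 z)
    (c2 : IsC v2 z) (b : Bool) : ∃ t, IsC v1 t ∧ IsC v2 t ∧ Pb b t := by
  rw [isC'] at c1 c2
  unfold Pb
  simp only [isC', Int.even_iff]
  rcases hI with ⟨c, hc⟩ | ⟨c, hc⟩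
  · have g1 := hc _ h1
    have g2 := hc _ h2
    by_cases hp : ((z.1 + c) % 2 = 0 ↔ b = true)
    · exact ⟨(z.1, c), by simp only; omega, by simp only; omega, hp⟩
    · refine ⟨(z.1, c + 1), by simp only; omega, by simp only; omega, ?_⟩
      simp only
      by_cases hb : b = true
      · simp only [hb, iff_true] at hp ⊢
        omega
      · simp only [hb] at hp ⊢
        simp only [Bool.false_eq_true, iff_false, not_not] at hp ⊢
        omega
  · have g1 := hc _ h1
    have g2 := hc _ h2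
    by_cases hp : ((c + z.2) % 2 = 0 ↔ b = true)
    · exact ⟨(c, z.2), by simp only; omega, by simp only; omega, hp⟩
    · refine ⟨(c + 1, z.2), by simp only; omega, by simp only; omega, ?_⟩
      simp only
      by_cases hb : b = true
      · simp only [hb, iff_true] at hp ⊢
        omega
      · simp only [hb] at hp ⊢
        simp only [Bool.false_eq_true, iff_false, not_not] at hp ⊢
        omega

/-- **A loop in a small box does not join sites off the box.** -/
theorem no_col (hI : Thin I) (hl : IsLoop ω ℓ) (hW : ExtPot I ℓ σ (W ℓ))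
    (hbox : ∀ y ∈ ℓ, hdv y ∈ Bx p q ∧ tlv y ∈ Bx p q) (hne : ∃ v ∈ I, v ∈ Bx p q)
    (hesc : Esc I ω b p q) (hv : v ∈ I) (hvb : ω v = b) (hy : hdv y = v) (hz : z = ls y ∨ z = rs y)
    (hzb : Pb b z) : W ℓ z = 0 := by
  by_contra hcon
  have hyc : IsC v (ls y) ∧ IsC v (rs y) := by
    rw [← hy]
    obtain ⟨⟨a1, a2⟩, -, ⟨a3, a4⟩, -⟩ := QX.corners y
    rw [isC', isC']
    omega
  have hzc : IsC v z := by rcases hz with rfl | rfl; exacts [hyc.1, hyc.2]
  obtain ⟨⟨z', hz1, hz2⟩, -⟩ := hesc y (hy.symm ▸ hv) (hy.symm ▸ hvb)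
  have key : ∃ u ∈ I, ω u = b ∧ IsC u z' ∧ ∀ t, IsC u t → Pb b t → W ℓ t ≠ 0 := by
    clear hz2
    induction hz1 with
    | refl =>
      exact ⟨v, hv, hvb, hyc.1, fun t ht hp => by
        rw [← corner_eq hl hvb hzc ht hzb hp]; exact hcon⟩
    | @tail s t _ h ih =>
      obtain ⟨u, u1, u2, u3, u4⟩ := ih
      obtain ⟨y', hy', hst⟩ := h
      obtain ⟨w, w1, w2, w3, w4⟩ : ∃ w ∈ I, ω w = b ∧ IsC w (ls y') ∧ IsC w (rs y') := by
        obtain ⟨⟨a1, a2⟩, ⟨a3, a4⟩, ⟨a5, a6⟩, a7, a8⟩ := QX.corners y'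
        rcases hy' with ⟨g1, -, g2⟩ | ⟨g1, -, g2⟩
        · exact ⟨_, g1, g2, by rw [isC']; omega, by rw [isC']; omega⟩
        · exact ⟨_, g1, g2, by rw [isC']; omega, by rw [isC']; omega⟩
      have hs : IsC w s ∧ IsC w t := by
        rcases hst with ⟨rfl, rfl⟩ | ⟨rfl, rfl⟩
        · exact ⟨w3, w4⟩
        · exact ⟨w4, w3⟩
      obtain ⟨t0, t1, t2, t3⟩ := common hI u1 w1 u3 hs.1 b
      refine ⟨w, w1, w2, hs.2, fun t' ht' hp => ?_⟩
      rw [← corner_eq hl w2 t2 ht' t3 hp]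
      exact u4 _ t1 t3
  obtain ⟨u, u1, u2, u3, u4⟩ := key
  have hins : ∀ t, IsC u t → Pb b t → Ins p q t := fun t h1 h2 =>
    ins_of_pot hI hW hbox hne (u4 t h1 h2)
  apply hz2
  obtain ⟨a, c⟩ := u
  have i1 : ∀ s t : ℤ, IsC (a, c) (s, t) ↔ (s = a ∨ s = a + 1) ∧ (t = c ∨ t = c + 1) := fun s t =>
    isC'
  by_cases hp : Pb b (a, c)
  · have h1 := hins (a, c) (by rw [i1]; omega) hp
    have h2 := hins (a + 1, c + 1) (by rw [i1]; omega) (by
      unfold Pb at hp ⊢
      rw [← hp, Int.even_iff, Int.even_iff]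
      omega)
    rw [isC'] at u3
    unfold Ins at h1 h2 ⊢
    simp only at h1 h2 u3 ⊢
    omega
  · have hp' : Pb b (a + 1, c) ∧ Pb b (a, c + 1) := by
      unfold Pb at hp ⊢
      simp only [Int.even_iff] at hp ⊢
      by_cases hb : b = true
      · simp only [hb, iff_true] at hp ⊢
        omega
      · simp only [hb] at hp ⊢
        simp only [Bool.false_eq_true, iff_false, not_not] at hp ⊢
        omega
    have h1 := hins (a + 1, c) (by rw [i1]; omega) hp'.1
    have h2 := hins (a, c + 1) (by rw [i1]; omega) hp'.2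
    rw [isC'] at u3
    unfold Ins at h1 h2 ⊢
    simp only at h1 h2 u3 ⊢
    omega

/-- **(COUNT) A loop in a small box which visits `I` has an excursion of closed type.** -/
theorem exists_clT (hI : Thin I) (hc : ExtConn I) (hl : IsLoop ω ℓ)
    (hbox : ∀ y ∈ ℓ, hdv y ∈ Bx p q ∧ tlv y ∈ Bx p q) (hesc : ∀ b, Esc I ω b p q)
    (hne : (Xit I ℓ).Nonempty)
    (hpot : ∀ e ∈ Xit I ℓ, ∃ σ φ, ExtPot I (exc I ω e) σ φ) :
    ∃ e ∈ Xit I ℓ, ClT I ω e := by
  obtain ⟨σ, hW⟩ := loop_pot I hl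
  obtain ⟨e, he, φ, hφ⟩ := exists_sgn hc hl hne hpot hW
  obtain ⟨h1, h2, h3⟩ := mem_Xit.1 he
  refine ⟨e, he, ?_⟩
  have hr := returns_loop hl h3 (mem_bS.2 (Or.inr ⟨h1, h2⟩))
  obtain ⟨g1, g2⟩ := lst_in h1 hr
  have hneI : ∃ v ∈ I, v ∈ Bx p q := ⟨tlv e, h2, (hbox e h3).2⟩
  have hlast : lst I ω e ∈ ℓ := loop_iter hl h3 _
  -- the predecessor of `e`
  obtain ⟨y, hy, rfl⟩ : ∃ y ∈ ℓ, nx ω y = e := by
    have hb : ℓ.image (nx ω) = ℓ := by
      apply eq_of_subset_of_card_le
      · intro y hy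
        obtain ⟨x, hx, rfl⟩ := mem_image.1 hy
        exact loop_nx hl hx
      · rw [card_image_of_injective _ (s_nx ω).1]
    rw [← hb, mem_image] at h3
    obtain ⟨x, hx, hxe⟩ := h3
    exact ⟨x, hx, hxe⟩
  rw [tlv_nx] at h2
  have pL : ∀ y, Pb true (ls y) := fun y => by
    unfold Pb
    exact iff_of_true (BR.even_ls y) rfl
  have pR : ∀ y, Pb false (rs y) := fun y => by
    unfold Pb
    exact iff_of_false (BR.odd_rs y) (by simp)
  have key : ∀ y ∈ ℓ, hdv y ∈ I → (σ = 1 → ω (hdv y) = false) ∧ (σ = -1 → ω (hdv y) = true) := by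
    intro y hy hyI
    constructor
    · intro hs
      by_contra hcon
      have h4 := no_col hI hl hW hbox hneI (hesc true) hyI (by simpa using hcon) rfl
        (Or.inl rfl) (pL y)
      have h5 := hW.left y hy
      rw [h4, hs] at h5
      norm_num at h5
    · intro hs
      by_contra hcon
      have h4 := no_col hI hl hW hbox hneI (hesc false) hyI (by simpa using hcon) rfl
        (Or.inr rfl) (pR y)
      have h5 := hW.right y hy
      rw [h4, hs] at h5
      norm_num at h5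
  rcases hW.sgn with h | h
  · left
    refine ⟨?_, (key _ hlast g1).1 h, φ, h ▸ hφ⟩
    rw [tlv_nx]
    exact (key y hy h2).1 h
  · right
    refine ⟨?_, (key _ hlast g1).2 h, φ, h ▸ hφ⟩
    rw [tlv_nx]
    exact (key y hy h2).2 h

end Vale.Agent.P167.N.ID
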