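import Vale.Agent.P167.H871.Q.Bump

/-!
# P167, general `q`, frames with a box and a spoke: the boundary curve of the region between two
closed lattice paths, cut along a vertical column of squares

`E` = the squares inside of the outer path, `F` = the squares inside of the inner path, the strip
`(x, y + j)`, `j < H`, joins the two paths.  The region `E \ F \ strip` has one boundary curve: the
outer path, up the west side of the strip, the inner path in the other direction, down the east side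
of the strip.
-/

namespace Vale.Agent.P167.N.ID

open Vale.Agent.P167.Top
open Vale.Agent.P167.H871
open Vale.Agent.P167.H871.Q

/-- The squares of the strip. -/
def strip (x y : ℤ) (H : ℕ) : Set (ℤ × ℤ) := {v | v.1 = x ∧ y ≤ v.2 ∧ v.2 < y + H}

/-- The curve around the region, one period (`a + H + b + H` steps). -/
def cp (a b H : ℕ) (P₁ P₂ : ℕ → ℤ × ℤ) (x y : ℤ) (k : ℕ) : ℤ × ℤ :=
  if k < a then P₁ (k + 1) else if k < a + H then (x, y + ((k - a : ℕ) : ℤ))
    else if k < a + H + b then P₂ (b + 1 - (k - (a + H)))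
    else (x + 1, y + H - ((k - (a + H + b) : ℕ) : ℤ))

/-- The directions of the curve. -/
def cu (a b H : ℕ) (u₁ u₂ : ℕ → ℤ) (k : ℕ) : ℤ :=
  if k < a then u₁ (k + 1) else if k < a + H then 5
    else if k < a + H + b then u₂ (b - (k - (a + H))) + 2
    else if k < a + H + b + H then 3 else u₁ 1 + 4

/-- The sites, all indices. -/
def CP (a b H : ℕ) (P₁ P₂ : ℕ → ℤ × ℤ) (x y : ℤ) (k : ℕ) : ℤ × ℤ :=
  cp a b H P₁ P₂ x y (k % (a + H + b + H))

/-- The directions, all indices. -/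
def CU (a b H : ℕ) (u₁ u₂ : ℕ → ℤ) (k : ℕ) : ℤ :=
  cu a b H u₁ u₂ (k % (a + H + b + H)) + 4 * 1 * ((k / (a + H + b + H) : ℕ) : ℤ)

/-- Two closed lattice paths joined by a strip. -/
structure Cut (E F : Set (ℤ × ℤ)) (a b H : ℕ) (P₁ P₂ : ℕ → ℤ × ℤ) (u₁ u₂ : ℕ → ℤ) (x y : ℤ) :
    Prop where
  b1 : Bd E (a + 1) P₁ u₁ 1
  c1 : Cov E P₁ u₁
  b2 : Bd F (b + 1) P₂ u₂ 1
  c2 : Cov F P₂ u₂
  ha : 2 ≤ a
  hb : 2 ≤ b
  hH : 1 ≤ H
  s1 : P₁ 0 = (x, y)
  t1 : u₁ 0 = 0
  v1 : u₁ 1 ≤ 0
  w1 : u₁ a = 4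
  s2 : P₂ 0 = (x, y + H)
  t2 : u₂ 0 = 0
  v2 : 0 ≤ u₂ 1
  w2 : u₂ b ≤ 4
  f1 : ∀ (k : ℕ) (z j : ℤ), x ≤ z → z ≤ x + 1 → 0 < j → j ≤ H → P₁ k ≠ (z, y + j)
  f2 : ∀ (k : ℕ) (z j : ℤ), x ≤ z → z ≤ x + 1 → 0 ≤ j → j < H → P₂ k ≠ (z, y + j)
  dis : ∀ k l : ℕ, P₁ k ≠ P₂ l
  sq : ∀ z j : ℤ, x - 1 ≤ z → z ≤ x + 1 → 0 ≤ j → j < H → (z, y + j) ∈ E ∧ (z, y + j) ∉ F
  l1 : ∀ k, sqL (P₁ k) (u₁ k) ∉ F
  l2 : ∀ k, sqL (P₂ k) (u₂ k - 1) ∈ E

namespace Cut

variable {E F : Set (ℤ × ℤ)} {a b H : ℕ} {P₁ P₂ : ℕ → ℤ × ℤ} {u₁ u₂ : ℕ → ℤ} {x y : ℤ}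

theorem sq_vals (z w : ℤ) (d : ℤ) : (d % 4 = 0 → sqL (z, w) d = (z, w)) ∧
    (d % 4 = 1 → sqL (z, w) d = (z - 1, w)) ∧ (d % 4 = 2 → sqL (z, w) d = (z - 1, w - 1)) ∧
    (d % 4 = 3 → sqL (z, w) d = (z, w - 1)) := by
  refine ⟨fun h => ?_, fun h => ?_, fun h => ?_, fun h => ?_⟩ <;> unfold sqL <;> simp [h] <;> omega

/-- The corners of the left square of a step. -/
theorem sq_corner {P : ℤ × ℤ} {d z w : ℤ} (h : sqL P d = (z, w)) :
    (P.1 = z ∨ P.1 = z + 1) ∧ (P.2 = w ∨ P.2 = w + 1) := by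
  unfold sqL at h
  simp only [Prod.mk.injEq] at h
  split_ifs at h <;> omega

section

variable (h : Cut E F a b H P₁ P₂ u₁ u₂ x y)

include h

theorem inj1 {k l : ℕ} (h1 : k < a + 1) (h2 : l < a + 1) (h3 : P₁ k = P₁ l) : k = l := by
  rcases lt_trichotomy k l with h4 | h4 | h4
  · exact absurd h3 (h.b1.inj _ _ h4 (by omega))
  · exact h4
  · exact absurd h3.symm (h.b1.inj _ _ h4 (by omega))

theorem inj2 {k l : ℕ} (h1 : k < b + 1) (h2 : l < b + 1) (h3 : P₂ k = P₂ l) : k = l := by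
  rcases lt_trichotomy k l with h4 | h4 | h4
  · exact absurd h3 (h.b2.inj _ _ h4 (by omega))
  · exact h4
  · exact absurd h3.symm (h.b2.inj _ _ h4 (by omega))

theorem p11 : P₁ 1 = (x + 1, y) := by
  have := h.b1.step 0
  rw [h.s1, h.t1, zero_add] at this
  rw [this]
  ext <;> simp [vec, dx, dy]

theorem p21 : P₂ 1 = (x + 1, y + H) := by
  have := h.b2.step 0
  rw [h.s2, h.t2, zero_add] at this
  rw [this]
  ext <;> simp [vec, dx, dy]

theorem pa : P₁ (a + 1) = (x, y) := by
  have := h.b1.perP 0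
  rw [zero_add] at this
  rw [this, h.s1]

theorem pb : P₂ (b + 1) = (x, y + H) := by
  have := h.b2.perP 0
  rw [zero_add] at this
  rw [this, h.s2]

theorem ua : u₁ (a + 1) = 4 := by
  have := h.b1.per 0
  rw [zero_add, h.t1] at this
  rw [this]
  norm_num

theorem ub : u₂ (b + 1) = 4 := by
  have := h.b2.per 0
  rw [zero_add, h.t2] at this
  rw [this]
  norm_num

/-- The left squares of the outer path are not in the strip, except for the first step. -/
theorem off1 {k : ℕ} (h1 : 1 ≤ k) (h2 : k ≤ a) : sqL (P₁ k) (u₁ k) ∉ strip x y H := by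
  intro h3
  rcases hz : sqL (P₁ k) (u₁ k) with ⟨z, w⟩
  rw [hz] at h3
  obtain ⟨h4, h5, h6⟩ := h3
  simp only at h4 h5 h6
  subst h4
  have g1 := sq_corner hz
  have g2 := sqL_next' (P₁ k) (u₁ k)
  rw [← h.b1.step k, hz] at g2
  have g3 := sq_corner g2
  have key : ∀ l, (P₁ l).1 = z ∨ (P₁ l).1 = z + 1 → (P₁ l).2 = w ∨ (P₁ l).2 = w + 1 →
      P₁ l = (z, y) ∨ P₁ l = (z + 1, y) := by
    intro l e1 e2
    have e3 := h.f1 l (P₁ l).1 ((P₁ l).2 - y) (by omega) (by omega)
    have e4 : (P₁ l).2 = y := by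
      by_contra e5
      exact e3 (by omega) (by omega) (by ext <;> simp)
    rcases e1 with e1 | e1
    · exact Or.inl (by ext <;> simp [e1, e4])
    · exact Or.inr (by ext <;> simp [e1, e4])
  rcases key k g1.1 g1.2 with g4 | g4
  · rw [← h.s1] at g4
    have := h.inj1 (by omega) (by omega) g4
    omega
  · rw [← h.p11] at g4
    have g5 := h.inj1 (by omega) (by omega) g4
    subst g5
    rcases key 2 g3.1 g3.2 with g6 | g6
    · rw [← h.s1] at g6
      have := h.inj1 (by have := h.ha; omega) (by omega) g6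
      omega
    · rw [← h.p11] at g6
      have := h.inj1 (by have := h.ha; omega) (by have := h.ha; omega) g6
      omega

/-- The right squares of the inner path are not in the strip, except for the first step. -/
theorem off2 {k : ℕ} (h1 : 1 ≤ k) (h2 : k ≤ b) : sqL (P₂ k) (u₂ k - 1) ∉ strip x y H := by
  intro h3
  rcases hz : sqL (P₂ k) (u₂ k - 1) with ⟨z, w⟩
  rw [hz] at h3
  obtain ⟨h4, h5, h6⟩ := h3
  simp only at h4 h5 h6
  subst h4
  have g1 := sq_corner hz
  have g2 := sqL_next (P₂ k) (u₂ k)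
  rw [← h.b2.step k, hz] at g2
  have g3 := sq_corner g2
  have key : ∀ l, (P₂ l).1 = z ∨ (P₂ l).1 = z + 1 → (P₂ l).2 = w ∨ (P₂ l).2 = w + 1 →
      P₂ l = (z, y + H) ∨ P₂ l = (z + 1, y + H) := by
    intro l e1 e2
    have e3 := h.f2 l (P₂ l).1 ((P₂ l).2 - y) (by omega) (by omega)
    have e4 : (P₂ l).2 = y + H := by
      by_contra e5
      exact e3 (by omega) (by omega) (by ext <;> simp)
    rcases e1 with e1 | e1
    · exact Or.inl (by ext <;> simp [e1, e4])
    · exact Or.inr (by ext <;> simp [e1, e4])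
  have hb := h.hb
  rcases key k g1.1 g1.2 with g4 | g4
  · rw [← h.s2] at g4
    have := h.inj2 (by omega) (by omega) g4
    omega
  · rw [← h.p21] at g4
    have g5 := h.inj2 (by omega) (by omega) g4
    subst g5
    rcases key 2 g3.1 g3.2 with g6 | g6
    · rw [← h.s2] at g6
      have := h.inj2 (by omega) (by omega) g6
      omega
    · rw [← h.p21] at g6
      have := h.inj2 (by omega) (by omega) g6
      omega

omit h in
theorem hcp (k : ℕ) : (k < a → cp a b H P₁ P₂ x y k = P₁ (k + 1)) ∧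
    (∀ i : ℕ, i < H → k = a + i → cp a b H P₁ P₂ x y k = (x, y + (i : ℤ))) ∧
    (∀ i : ℕ, i < b → k = a + H + i → cp a b H P₁ P₂ x y k = P₂ (b + 1 - i)) ∧
    (∀ i : ℕ, k = a + H + b + i → cp a b H P₁ P₂ x y k = (x + 1, y + H - (i : ℤ))) := by
  unfold cp
  refine ⟨fun h => if_pos h, fun i hi hk => ?_, fun i hi hk => ?_, fun i hk => ?_⟩
  · rw [if_neg (by omega), if_pos (by omega), show k - a = i by omega]
  · rw [if_neg (by omega), if_neg (by omega), if_pos (by omega), show k - (a + H) = i by omega]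
  · rw [if_neg (by omega), if_neg (by omega), if_neg (by omega),
      show k - (a + H + b) = i by omega]

omit h in
theorem hcu (k : ℕ) : (k < a → cu a b H u₁ u₂ k = u₁ (k + 1)) ∧
    (∀ i : ℕ, i < H → k = a + i → cu a b H u₁ u₂ k = 5) ∧
    (∀ i : ℕ, i < b → k = a + H + i → cu a b H u₁ u₂ k = u₂ (b - i) + 2) ∧
    (∀ i : ℕ, i < H → k = a + H + b + i → cu a b H u₁ u₂ k = 3) ∧
    (k = a + H + b + H → cu a b H u₁ u₂ k = u₁ 1 + 4) := by
  unfold cu
  refine ⟨fun h => if_pos h, fun i hi hk => ?_, fun i hi hk => ?_, fun i hi hk => ?_, fun hk => ?_⟩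
  · rw [if_neg (by omega), if_pos (by omega)]
  · rw [if_neg (by omega), if_neg (by omega), if_pos (by omega), show k - (a + H) = i by omega]
  · rw [if_neg (by omega), if_neg (by omega), if_neg (by omega), if_pos (by omega)]
  · rw [if_neg (by omega), if_neg (by omega), if_neg (by omega), if_neg (by omega)]

omit h in
theorem hcase (k : ℕ) (hk : k < a + H + b + H) : k < a ∨ (∃ i, i < H ∧ k = a + i) ∨
    (∃ i, i < b ∧ k = a + H + i) ∨ (∃ i, i < H ∧ k = a + H + b + i) := by
  rcases (by omega : k < a ∨ (a ≤ k ∧ k < a + H) ∨ (a + H ≤ k ∧ k < a + H + b) ∨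
    (a + H + b ≤ k)) with g | g | g | g
  · exact Or.inl g
  · exact Or.inr (Or.inl ⟨k - a, by omega, by omega⟩)
  · exact Or.inr (Or.inr (Or.inl ⟨k - (a + H), by omega, by omega⟩))
  · exact Or.inr (Or.inr (Or.inr ⟨k - (a + H + b), by omega, by omega⟩))

/-- The square `(z, y + j)` is in the region. -/
theorem inR {z j : ℤ} (h1 : x - 1 ≤ z) (h2 : z ≤ x + 1) (h3 : z ≠ x) (h4 : 0 ≤ j) (h5 : j < H) :
    (z, y + j) ∈ (E \ F) \ strip x y H := by
  obtain ⟨g1, g2⟩ := h.sq z j h1 h2 h4 h5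
  exact ⟨⟨g1, g2⟩, fun g3 => h3 g3.1⟩

/-- **The boundary curve of the region.** -/
theorem bd : Bd ((E \ F) \ strip x y H) (a + H + b + H) (CP a b H P₁ P₂ x y)
    (CU a b H u₁ u₂) 1 := by
  have ha := h.ha
  have hb := h.hb
  have hH := h.hH
  have hP := fun k => hcp (a := a) (b := b) (H := H) (P₁ := P₁) (P₂ := P₂) (x := x) (y := y) k
  have hU := fun k => hcu (a := a) (b := b) (H := H) (u₁ := u₁) (u₂ := u₂) k
  refine bd_fin (p := cp a b H P₁ P₂ x y) (u := cu a b H u₁ u₂) (by omega) ?_ ?_ ?_ ?_ ?_ ?_ ?_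
  · rw [(hP _).2.2.2 H rfl, (hP 0).1 (by omega), zero_add, h.p11]
    simp
  · rw [(hU _).2.2.2.2 rfl, (hU 0).1 (by omega)]
    norm_num
  · -- the steps
    intro k hk
    rcases hcase k hk with g | ⟨i, hi, g⟩ | ⟨i, hi, g⟩ | ⟨i, hi, g⟩
    · rw [(hP k).1 g, (hU k).1 g, ← h.b1.step]
      rcases (by omega : k + 1 < a ∨ k + 1 = a) with g' | g'
      · rw [(hP (k + 1)).1 g']
      · rw [(hP (k + 1)).2.1 0 (by omega) (by omega), g', h.pa]
        simp
    · rw [(hP k).2.1 i hi g, (hU k).2.1 i hi g]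
      have e : vec 5 = (0, 1) := rfl
      rw [e]
      rcases (by omega : i + 1 < H ∨ i + 1 = H) with g' | g'
      · rw [(hP (k + 1)).2.1 (i + 1) g' (by omega)]
        ext
        · simp
        · simp; ring
      · rw [(hP (k + 1)).2.2.1 0 (by omega) (by omega), Nat.sub_zero, h.pb, ← g']
        ext
        · simp
        · simp; ring
    · rw [(hP k).2.2.1 i hi g, (hU k).2.2.1 i hi g, vec_back]
      have e1 := h.b2.step (b - i)
      rw [show b - i + 1 = b + 1 - i by omega] at e1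
      rw [e1, add_assoc, add_neg_cancel, add_zero]
      rcases (by omega : i + 1 < b ∨ i + 1 = b) with g' | g'
      · rw [(hP (k + 1)).2.2.1 (i + 1) g' (by omega)]
        congr 1
        omega
      · rw [(hP (k + 1)).2.2.2 0 (by omega), show b - i = 1 by omega, h.p21]
        simp
    · rw [(hP k).2.2.2 i g, (hU k).2.2.2.1 i hi g, (hP (k + 1)).2.2.2 (i + 1) (by omega)]
      have e : vec 3 = (0, -1) := rfl
      rw [e]
      ext
      · simp
      · simp; ring
  · -- the turns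
    intro k hk
    rcases hcase k hk with g | ⟨i, hi, g⟩ | ⟨i, hi, g⟩ | ⟨i, hi, g⟩
    · rw [(hU k).1 g]
      rcases (by omega : k + 1 < a ∨ k + 1 = a) with g' | g'
      · rw [(hU (k + 1)).1 g']
        exact h.b1.turn (k + 1)
      · rw [(hU (k + 1)).2.1 0 (by omega) (by omega), g', h.w1]
        norm_num
    · rw [(hU k).2.1 i hi g]
      rcases (by omega : i + 1 < H ∨ i + 1 = H) with g' | g'
      · rw [(hU (k + 1)).2.1 (i + 1) g' (by omega)]
        norm_num
      · rw [(hU (k + 1)).2.2.1 0 (by omega) (by omega), Nat.sub_zero]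
        have e1 := h.b2.turn b
        have e2 := h.w2
        rw [h.ub] at e1
        rw [abs_le] at e1 ⊢
        omega
    · rw [(hU k).2.2.1 i hi g]
      rcases (by omega : i + 1 < b ∨ i + 1 = b) with g' | g'
      · rw [(hU (k + 1)).2.2.1 (i + 1) g' (by omega)]
        have e1 := h.b2.turn (b - (i + 1))
        rw [show b - (i + 1) + 1 = b - i by omega] at e1
        rw [abs_le] at e1 ⊢
        omega
      · rw [(hU (k + 1)).2.2.2.1 0 (by omega) (by omega), show b - i = 1 by omega]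
        have e1 := h.b2.turn 0
        have e2 := h.v2
        rw [zero_add, h.t2] at e1
        rw [abs_le] at e1 ⊢
        omega
    · rw [(hU k).2.2.2.1 i hi g]
      rcases (by omega : i + 1 < H ∨ i + 1 = H) with g' | g'
      · rw [(hU (k + 1)).2.2.2.1 (i + 1) g' (by omega)]
        norm_num
      · rw [(hU (k + 1)).2.2.2.2 (by omega)]
        have e1 := h.b1.turn 0
        have e2 := h.v1
        rw [zero_add, h.t1] at e1
        rw [abs_le] at e1 ⊢
        omega
  · -- no site twice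
    intro k l hkl hl he
    rcases hcase (a := a) (b := b) (H := H) k (by omega) with g | ⟨i, hi, g⟩ | ⟨i, hi, g⟩ | ⟨i, hi, g⟩ <;>
      rcases hcase l hl with g' | ⟨j, hj, g'⟩ | ⟨j, hj, g'⟩ | ⟨j, hj, g'⟩
    · rw [(hP k).1 g, (hP l).1 g'] at he
      have := h.inj1 (by omega) (by omega) he
      omega
    · rw [(hP k).1 g, (hP l).2.1 j hj g'] at he
      rcases Nat.eq_zero_or_pos j with g'' | g''
      · subst g''
        simp only [Nat.cast_zero, add_zero] at he
        rw [← h.s1] at he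
        have := h.inj1 (by omega) (by omega) he
        omega
      · exact h.f1 (k + 1) x j le_rfl (by omega) (by omega) (by omega) he
    · rw [(hP k).1 g, (hP l).2.2.1 j hj g'] at he
      exact h.dis _ _ he
    · rw [(hP k).1 g, (hP l).2.2.2 j g'] at he
      exact h.f1 (k + 1) (x + 1) (H - j) (by omega) le_rfl (by omega) (by omega)
        (by rw [he]; ext <;> simp; ring)
    · omega
    · rw [(hP k).2.1 i hi g, (hP l).2.1 j hj g'] at he
      simp only [Prod.mk.injEq] at he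
      omega
    · rw [(hP k).2.1 i hi g, (hP l).2.2.1 j hj g'] at he
      exact h.f2 _ x i le_rfl (by omega) (by omega) (by omega) he.symm
    · rw [(hP k).2.1 i hi g, (hP l).2.2.2 j g'] at he
      simp only [Prod.mk.injEq] at he
      omega
    · omega
    · omega
    · rw [(hP k).2.2.1 i hi g, (hP l).2.2.1 j hj g'] at he
      rcases Nat.eq_zero_or_pos i with g'' | g''
      · subst g''
        rw [Nat.sub_zero, h.pb, ← h.s2] at he
        have := h.inj2 (by omega) (by omega) he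
        omega
      · have := h.inj2 (by omega) (by omega) he
        omega
    · rw [(hP k).2.2.1 i hi g, (hP l).2.2.2 j g'] at he
      rcases Nat.eq_zero_or_pos j with g'' | g''
      · subst g''
        simp only [Nat.cast_zero, sub_zero] at he
        rw [← h.p21] at he
        rcases Nat.eq_zero_or_pos i with g3 | g3
        · subst g3
          rw [Nat.sub_zero, h.pb, ← h.s2] at he
          have := h.inj2 (by omega) (by omega) he
          omega
        · have := h.inj2 (by omega) (by omega) he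
          omega
      · exact h.f2 _ (x + 1) (H - j) (by omega) le_rfl (by omega) (by omega)
          (by rw [he]; ext <;> simp; ring)
    · omega
    · omega
    · omega
    · rw [(hP k).2.2.2 i g, (hP l).2.2.2 j g'] at he
      simp only [Prod.mk.injEq] at he
      omega
  · -- left squares
    intro k hk
    rcases hcase k hk with g | ⟨i, hi, g⟩ | ⟨i, hi, g⟩ | ⟨i, hi, g⟩
    · rw [(hP k).1 g, (hU k).1 g]
      exact ⟨⟨h.b1.left _, h.l1 _⟩, h.off1 (by omega) (by omega)⟩
    · rw [(hP k).2.1 i hi g, (hU k).2.1 i hi g, (sq_vals _ _ 5).2.1 (by norm_num)]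
      exact h.inR (by omega) (by omega) (by omega) (by omega) (by omega)
    · rw [(hP k).2.2.1 i hi g, (hU k).2.2.1 i hi g]
      have e1 := h.b2.step (b - i)
      rw [show b - i + 1 = b + 1 - i by omega] at e1
      have e2 := sqL_next (P₂ (b - i)) (u₂ (b - i))
      rw [e1, sqL_congr (d' := u₂ (b - i) - 2) (by omega), e2]
      exact ⟨⟨h.l2 _, h.b2.right _⟩, h.off2 (by omega) (by omega)⟩
    · rw [(hP k).2.2.2 i g, (hU k).2.2.2.1 i hi g, (sq_vals _ _ 3).2.2.2 (by norm_num),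
        show y + (H : ℤ) - i - 1 = y + ((H : ℤ) - i - 1) by ring]
      exact h.inR (by omega) (by omega) (by omega) (by omega) (by omega)
  · -- right squares
    intro k hk
    rcases hcase k hk with g | ⟨i, hi, g⟩ | ⟨i, hi, g⟩ | ⟨i, hi, g⟩
    · rw [(hP k).1 g, (hU k).1 g]
      exact fun g1 => h.b1.right _ g1.1.1
    · rw [(hP k).2.1 i hi g, (hU k).2.1 i hi g, (sq_vals _ _ (5 - 1)).1 (by norm_num)]
      exact fun g1 => g1.2 ⟨rfl, by simp, by simp [hi]⟩
    · rw [(hP k).2.2.1 i hi g, (hU k).2.2.1 i hi g]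
      have e1 := h.b2.step (b - i)
      rw [show b - i + 1 = b + 1 - i by omega] at e1
      have e2 := sqL_next' (P₂ (b - i)) (u₂ (b - i))
      rw [e1, show u₂ (b - i) + 2 - 1 = u₂ (b - i) + 1 by ring, e2]
      exact fun g1 => g1.1.2 (h.b2.left _)
    · rw [(hP k).2.2.2 i g, (hU k).2.2.2.1 i hi g, (sq_vals _ _ (3 - 1)).2.2.1 (by norm_num)]
      exact fun g1 => g1.2 ⟨by simp, by simp only; omega, by simp only; omega⟩

/-- The outer path on the curve. -/
theorem i1 {k : ℕ} (h1 : 1 ≤ k) (h2 : k ≤ a) : CP a b H P₁ P₂ x y (k - 1) = P₁ k ∧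
    CU a b H u₁ u₂ (k - 1) = u₁ k := by
  unfold CP CU
  rw [Nat.mod_eq_of_lt (by have := h.hH; omega), Nat.div_eq_of_lt (by have := h.hH; omega)]
  rw [(hcp (k - 1)).1 (by omega), (hcu (k - 1)).1 (by omega), show k - 1 + 1 = k by omega]
  simp

omit h in
/-- The west side of the strip. -/
theorem i2 {j : ℕ} (h1 : j < H) : CP a b H P₁ P₂ x y (a + j) = (x, y + (j : ℤ)) ∧
    CU a b H u₁ u₂ (a + j) = 5 := by
  unfold CP CU
  rw [Nat.mod_eq_of_lt (by omega), Nat.div_eq_of_lt (by omega)]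
  rw [(hcp (a + j)).2.1 j h1 rfl, (hcu (a + j)).2.1 j h1 rfl]
  simp

/-- The inner path on the curve. -/
theorem i3 {m : ℕ} (h1 : 1 ≤ m) (h2 : m ≤ b) :
    CP a b H P₁ P₂ x y (a + H + (b - m)) = P₂ (m + 1) ∧
      CU a b H u₁ u₂ (a + H + (b - m)) = u₂ m + 2 ∧
      M4 (CP a b H P₁ P₂ x y (a + H + (b - m))) (CU a b H u₁ u₂ (a + H + (b - m))) =
        M4 (P₂ m) (u₂ m) := by
  have hH := h.hH
  have e1 : CP a b H P₁ P₂ x y (a + H + (b - m)) = P₂ (m + 1) := by
    unfold CP
    rw [Nat.mod_eq_of_lt (by omega), (hcp _).2.2.1 (b - m) (by omega) rfl,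
      show b + 1 - (b - m) = m + 1 by omega]
  have e2 : CU a b H u₁ u₂ (a + H + (b - m)) = u₂ m + 2 := by
    unfold CU
    rw [Nat.mod_eq_of_lt (by omega), Nat.div_eq_of_lt (by omega),
      (hcu _).2.2.1 (b - m) (by omega) rfl, show b - (b - m) = m by omega]
    simp
  exact ⟨e1, e2, by rw [e1, e2, h.b2.step, M4_rev]⟩

omit h in
/-- The east side of the strip. -/
theorem i4 {j : ℕ} (h1 : j < H) :
    CP a b H P₁ P₂ x y (a + H + b + (H - 1 - j)) = (x + 1, y + (j : ℤ) + 1) ∧
      CU a b H u₁ u₂ (a + H + b + (H - 1 - j)) = 3 ∧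
      M4 (CP a b H P₁ P₂ x y (a + H + b + (H - 1 - j))) (CU a b H u₁ u₂ (a + H + b + (H - 1 - j))) =
        M4 (x + 1, y + (j : ℤ)) 1 := by
  have e1 : CP a b H P₁ P₂ x y (a + H + b + (H - 1 - j)) = (x + 1, y + (j : ℤ) + 1) := by
    unfold CP
    rw [Nat.mod_eq_of_lt (by omega), (hcp _).2.2.2 (H - 1 - j) rfl]
    ext
    · simp
    · simp only
      omega
  have e2 : CU a b H u₁ u₂ (a + H + b + (H - 1 - j)) = 3 := by
    unfold CU
    rw [Nat.mod_eq_of_lt (by omega), Nat.div_eq_of_lt (by omega),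
      (hcu _).2.2.2.1 (H - 1 - j) (by omega) rfl]
    simp
  refine ⟨e1, e2, ?_⟩
  rw [e1, e2]
  have := M4_rev (x + 1, y + (j : ℤ)) 1
  rw [show (1 : ℤ) + 2 = 3 by norm_num] at this
  rw [← this]
  congr 1
  ext
  · simp [vec, dx]
  · simp [vec, dy]

omit h in
/-- Every step of the curve. -/
theorem steps {k : ℕ} (hk : k < a + H + b + H) : (∃ m, 1 ≤ m ∧ m ≤ a ∧ k = m - 1) ∨
    (∃ j, j < H ∧ k = a + j) ∨ (∃ m, 1 ≤ m ∧ m ≤ b ∧ k = a + H + (b - m)) ∨
    (∃ j, j < H ∧ k = a + H + b + (H - 1 - j)) := by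
  rcases hcase k hk with g | ⟨i, hi, g⟩ | ⟨i, hi, g⟩ | ⟨i, hi, g⟩
  · exact Or.inl ⟨k + 1, by omega, by omega, by omega⟩
  · exact Or.inr (Or.inl ⟨i, hi, g⟩)
  · exact Or.inr (Or.inr (Or.inl ⟨b - i, by omega, by omega, by omega⟩))
  · exact Or.inr (Or.inr (Or.inr ⟨H - 1 - i, by omega, by omega⟩))

/-- Every side of the region is a side of the curve. -/
theorem cov : Cov ((E \ F) \ strip x y H) (CP a b H P₁ P₂ x y) (CU a b H u₁ u₂) := by
  have ha := h.ha
  have hb := h.hb
  have hH := h.hH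
  have hP := fun k => hcp (a := a) (b := b) (H := H) (P₁ := P₁) (P₂ := P₂) (x := x) (y := y) k
  have hU := fun k => hcu (a := a) (b := b) (H := H) (u₁ := u₁) (u₂ := u₂) k
  have key : ∀ k < a + H + b + H, ∀ (v : ℤ × ℤ) (t : ℤ), cp a b H P₁ P₂ x y k = v →
      cu a b H u₁ u₂ k % 4 = t % 4 →
      ∃ k, CP a b H P₁ P₂ x y k = v ∧ CU a b H u₁ u₂ k % 4 = t % 4 := by
    intro k hk v t h1 h2
    refine ⟨k, ?_, ?_⟩
    · unfold CP
      rw [Nat.mod_eq_of_lt hk, h1]
    · unfold CU
      rw [Nat.mod_eq_of_lt hk, Nat.div_eq_of_lt hk, ← h2]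
      simp
  intro v t h1 h2
  obtain ⟨⟨hE, hF⟩, hS⟩ := h1
  by_cases c1 : sqL v (t - 1) ∈ E
  swap
  · -- a side of the outer path
    obtain ⟨k, hk, h3, h4⟩ := h.c1.lt h.b1 (by omega) hE c1
    rcases Nat.eq_zero_or_pos k with g | g
    · exfalso
      subst g
      rw [h.s1] at h3
      rw [h.t1] at h4
      apply hS
      rw [← h3, (sq_vals x y t).1 (by omega)]
      exact ⟨rfl, le_rfl, by simp; omega⟩
    · refine key (k - 1) (by omega) v t ?_ ?_
      · rw [(hP _).1 (by omega), show k - 1 + 1 = k by omega, h3]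
      · rw [(hU _).1 (by omega), show k - 1 + 1 = k by omega, h4]
  by_cases c2 : sqL v (t - 1) ∈ F
  · -- a side of the inner path
    have e1 : sqL (v + vec t) (t + 2) = sqL v (t - 1) := by
      rw [sqL_congr (d' := t - 2) (by omega), sqL_next]
    have e2 : sqL (v + vec t) (t + 2 - 1) = sqL v t := by
      rw [show t + 2 - 1 = t + 1 by ring, sqL_next']
    obtain ⟨k, hk, h3, h4⟩ := h.c2.lt h.b2 (by omega) (v := v + vec t) (t := t + 2)
      (e1 ▸ c2) (e2 ▸ hF)
    rcases Nat.eq_zero_or_pos k with g | g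
    · exfalso
      subst g
      rw [h.s2] at h3
      rw [h.t2] at h4
      have e3 : vec t = (-1, 0) := by
        rw [vec_congr (d' := 2) (by omega)]; rfl
      rw [e3] at h3
      have h5 : v = (x + 1, y + H) := by
        have h6 := congrArg Prod.fst h3
        have h7 := congrArg Prod.snd h3
        simp only [Prod.fst_add, Prod.snd_add] at h6 h7
        ext <;> simp only <;> omega
      apply hS
      rw [h5, (sq_vals _ _ t).2.2.1 (by omega)]
      exact ⟨by simp, by simp only; omega, by simp only; omega⟩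
    · refine key (a + H + (b - k)) (by omega) v t ?_ ?_
      · rw [(hP _).2.2.1 (b - k) (by omega) rfl, show b + 1 - (b - k) = k + 1 by omega,
          h.b2.step k, h3, vec_congr h4, vec_back]
        abel
      · rw [(hU _).2.2.1 (b - k) (by omega) rfl, show b - (b - k) = k by omega]
        omega
  · -- a side of the strip
    have c3 : sqL v (t - 1) ∈ strip x y H := by
      by_contra c3
      exact h2 ⟨⟨c1, c2⟩, c3⟩
    obtain ⟨v1, v2⟩ := v
    rcases (by omega : t % 4 = 0 ∨ t % 4 = 1 ∨ t % 4 = 2 ∨ t % 4 = 3) with g | g | g | g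
    · rw [(sq_vals _ _ (t - 1)).2.2.2 (by omega)] at c3
      rw [(sq_vals _ _ t).1 (by omega)] at hS hF
      obtain ⟨q1, q2, q3⟩ := c3
      simp only at q1 q2 q3
      exfalso
      have q4 : v2 = y + H := by
        by_contra q4
        exact hS ⟨q1, by simp only; omega, by simp only; omega⟩
      have q5 := h.b2.left 0
      rw [h.s2, h.t2, (sq_vals _ _ 0).1 (by norm_num)] at q5
      rw [q1, q4] at hF
      exact hF q5
    · rw [(sq_vals _ _ (t - 1)).1 (by omega)] at c3
      obtain ⟨q1, q2, q3⟩ := c3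
      simp only at q1 q2 q3
      refine key (a + (v2 - y).toNat) (by omega) _ t ?_ ?_
      · rw [(hP _).2.1 (v2 - y).toNat (by omega) rfl]
        ext <;> simp only <;> omega
      · rw [(hU _).2.1 (v2 - y).toNat (by omega) rfl]
        omega
    · rw [(sq_vals _ _ (t - 1)).2.1 (by omega)] at c3
      rw [(sq_vals _ _ t).2.2.1 (by omega)] at hS hE
      obtain ⟨q1, q2, q3⟩ := c3
      simp only at q1 q2 q3
      exfalso
      have q4 : v2 = y := by
        by_contra q4
        exact hS ⟨q1, by simp only; omega, by simp only; omega⟩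
      have q5 := h.b1.right 0
      rw [h.s1, h.t1, (sq_vals _ _ (0 - 1)).2.2.2 (by norm_num)] at q5
      rw [q1, q4] at hE
      exact q5 hE
    · rw [(sq_vals _ _ (t - 1)).2.2.1 (by omega)] at c3
      obtain ⟨q1, q2, q3⟩ := c3
      simp only at q1 q2 q3
      refine key (a + H + b + (y + H - v2).toNat) (by omega) _ t ?_ ?_
      · rw [(hP _).2.2.2 (y + H - v2).toNat rfl]
        ext <;> simp only <;> omega
      · rw [(hU _).2.2.2.1 (y + H - v2).toNat (by omega) rfl]
        omega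

end

end Cut

end Vale.Agent.P167.N.ID
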