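import Vale.Agent.P167.N.ID.HosG
import Vale.Agent.P167.N.QX.L1A
import Vale.Agent.P167.H398.Q.Cnt
import Vale.Agent.P167.H562.SML
import Vale.Agent.P167.H945.Nrm

/-!
# P167, `q < 1`: the functional of a family of rows with flow, up to the loops which meet the rows

For separate rows of an arbitrary system of straight walls: number of the exits (`exits_cardF`), no
inner loops (`no_innerF`), `flowA`: the functional `RT` with flow is bounded by the loops which meet
the rows, the large loops which see the flow and the exponential of the small loops of the flow.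
-/

set_option autoImplicit false

namespace Vale.Agent.P167.N.ID

open Finset MeasureTheory Filter

open Vale.Agent.P167 Vale.Agent.P167.N

open Vale.Agent.P167.BR hiding dv

open Vale.Agent.P167.FK (Good)

open Vale.Agent.P167.XDL (bS mem_bS)

open Vale.Agent.P167.H825 (dv epos)

open Vale.Agent.P167.H825.Q (Row)

open Vale.Agent.P167.H680.T (WCG WallG uI mem_uI nm_ht Sepd bS_biUnion ax ax_nx trans_mem')

open Vale.Agent.P167.H945.Q (nm_sub_le nm_comm)

open Vale.Agent.P167.H685 (LE mem_LE)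

open Vale.Agent.P167.H562.QM (MajA)

open Vale.Agent.P167.H562.MAJ (Sm)

open Vale.Agent.P167.QX (RT fLp LpO RT_prod)

/-- The squares of different shapes are at distance more than one. -/
def SepR {ι : Type} (g : ι → Row) : Prop :=
  ∀ i j, i ≠ j → ∀ u ∈ (g i).I, ∀ v ∈ (g j).I, 1 < nm (u - v)

section shape

variable {ι : Type} [Fintype ι] {g : ι → Row} {ω : Cfg}

omit [Fintype ι] in
theorem SepR.same (h : SepR g) {i j : ι} {u v : ℤ × ℤ} (hu : u ∈ (g i).I) (hv : v ∈ (g j).I)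
    (huv : nm (u - v) ≤ 1) : i = j := by
  by_contra hij
  have := h i j hij u hu v hv
  omega

omit [Fintype ι] in
theorem SepR.sepd (h : SepR g) {i j : ι} (hij : i ≠ j) : Sepd (g i).I (g j).I := by
  refine ⟨?_, fun e h1 h2 => ?_, fun e h1 h2 => ?_⟩
  · rw [Finset.disjoint_left]
    intro v hv hv'
    refine hij (h.same hv hv' ?_)
    rw [sub_self]
    simp [nm]
  · exact hij (h.same h1 h2 (nm_ht e))
  · refine hij (h.same h1 h2 ?_)
    rw [nm_comm]
    exact nm_ht e

/-- **The number of the exits.** -/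
theorem exits_cardF (h : SepR g) (hL : ∀ i, 1 ≤ (g i).L) :
    ((bS (uI g)).filter fun e => hdv e ∉ uI g).card = ∑ i, ((g i).L + 1) := by
  classical
  have tl : ∀ i e, e ∈ (bS (g i).I).filter (fun e => hdv e ∉ (g i).I) → tlv e ∈ (g i).I := by
    intro i e he
    obtain ⟨g1, g2⟩ := mem_filter.1 he
    rw [mem_bS] at g1
    rcases g1 with ⟨g1, -⟩ | ⟨-, g1⟩
    · exact absurd g1 g2
    · exact g1
  have hE : (bS (uI g)).filter (fun e => hdv e ∉ uI g) =
      univ.biUnion fun i => (bS (g i).I).filter fun e => hdv e ∉ (g i).I := by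
    ext e
    simp only [mem_filter, mem_biUnion, mem_univ, true_and]
    constructor
    · rintro ⟨h1, h2⟩
      rw [mem_bS] at h1
      rcases h1 with ⟨h1, -⟩ | ⟨-, h1⟩
      · exact absurd h1 h2
      · obtain ⟨i, hi⟩ := mem_uI.1 h1
        have h3 : hdv e ∉ (g i).I := fun h => h2 (mem_uI.2 ⟨i, h⟩)
        exact ⟨i, mem_bS.2 (Or.inr ⟨h3, hi⟩), h3⟩
    · rintro ⟨i, h1, h2⟩
      have h3 : tlv e ∈ (g i).I := tl i e (mem_filter.2 ⟨h1, h2⟩)
      have h4 : hdv e ∉ uI g := by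
        intro h'
        obtain ⟨j, hj⟩ := mem_uI.1 h'
        have := h.same hj h3 (nm_ht e)
        subst this
        exact h2 hj
      exact ⟨mem_bS.2 (Or.inr ⟨h4, mem_uI.2 ⟨i, h3⟩⟩), h4⟩
  rw [hE, card_biUnion]
  · exact sum_congr rfl fun i _ => QX.card_exits (hL i)
  · intro i _ j _ hij
    rw [Function.onFun, Finset.disjoint_left]
    intro e he he'
    exact Finset.disjoint_left.1 (h.sepd hij).dis (tl i e he) (tl j e he')

/-- **There are no inner loops.** -/
theorem no_innerF (h : SepR g) (ω : Cfg) : ∀ A ∈ pcs ω (uI g), ¬ IsLp (uI g) A := by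
  intro A hA' hl
  obtain ⟨e, he⟩ := pcs_nonempty hA'
  have h1 : nx ω e ∈ A := (nx_mem_iff hA' (hl e he)).1 he
  have h2 : nx ω (nx ω e) ∈ A := (nx_mem_iff hA' (hl _ h1)).1 h1
  have key : ∀ e, hdv e ∈ uI g → tlv e ∈ uI g → ∃ i, ax (g i).o e = true ∧ hdv e ∈ (g i).I := by
    intro e g1 g2
    obtain ⟨i, hi⟩ := mem_uI.1 g1
    obtain ⟨j, hj⟩ := mem_uI.1 g2
    have hij : i = j := h.same hi hj (nm_ht e)
    subst hij
    refine ⟨i, ?_, hi⟩
    cases h : ax (g i).o e
    · exact absurd (trans_mem' h hi hj) id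
    · rfl
  obtain ⟨i, a1, b1⟩ := key (nx ω e) (hl _ h1) (by rw [tlv_nx]; exact hl _ he)
  obtain ⟨j, a2, b2⟩ := key (nx ω (nx ω e)) (hl _ h2) (by rw [tlv_nx]; exact hl _ h1)
  have hij : j = i := by
    have h4 := nm_ht (nx ω (nx ω e))
    rw [tlv_nx] at h4
    exact h.same b2 b1 h4
  subst hij
  rw [ax_nx, a1] at a2
  simp at a2

end shape

section flow

variable {X : Type} {RS : RSys X} {ι : Type} [Fintype ι] {r : ι → X} {c : Ed → ℝ} {ω : Cfg}
  {θ κ κ' B : ℝ} {n N : ℕ} {Z : Finset (ℤ × ℤ)}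

/-- The phases off the rows. -/
theorem ph_off (hL : ∀ i, 1 ≤ (RS.shape (r i)).L) (h : SepR fun i => RS.shape (r i)) {e : Ed}
    (he : e ∉ bS (uI fun i => RS.shape (r i))) :
    (⟨fun i => RS.wall (r i) 0, c⟩ : WCG ι).ph e false +
      (⟨fun i => RS.wall (r i) 0, c⟩ : WCG ι).ph e true = c e := by
  classical
  have hS : ∀ k, (RS.wall (r k) 0).a e = 0 := by
    intro k
    apply (RS.wall (r k) 0).off
    intro h1
    apply he
    rw [(RS.cuts (r k) 0 (hL k)).S] at h1
    rw [uI, bS_biUnion univ fun i _ j _ hij => h.sepd hij]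
    exact mem_biUnion.2 ⟨k, mem_univ _, h1⟩
  show (∑ k, (RS.wall (r k) 0).a e false + c e / 2) +
    (∑ k, (RS.wall (r k) 0).a e true + c e / 2) = c e
  rw [sum_eq_zero fun k _ => by rw [hS k]; rfl, sum_eq_zero fun k _ => by rw [hS k]; rfl]
  ring

/-- **The functional of a family of rows with flow.** -/
theorem flowA (hθ : 0 < θ) (hθ' : Ang θ) (hgd : Good ω)
    (hL : ∀ i, 1 ≤ (RS.shape (r i)).L) (hsep : SepR fun i => RS.shape (r i))
    (hcf : (Function.support c).Finite) (hn : 0 < n)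
    (hdle : ∀ z, |dv c z| ≤ B / n ^ 2) (hκ' : 0 < κ') (hB : 0 ≤ B)
    (hBθ : B * κ' ^ 2 ≤ Real.pi / 2 - θ) (hκκ : κ' * n + 4 ≤ κ * n)
    (hfar : ∀ e, c e ≠ 0 → ∀ i, ∀ v ∈ (RS.shape (r i)).I, κ * n ≤ (nm (v - epos e) : ℝ))
    (hZ : ∀ e, c e ≠ 0 → hdv e ∈ Z) (hN : MajA Z (κ' * n) ω N) :
    |RT θ (uI fun i => RS.shape (r i)) (⟨fun i => RS.wall (r i) 0, c⟩ : WCG ι).ph ω| ≤
      (∏ i, (2 * Real.sin θ) ^ ((RS.shape (r i)).L + 1)) *
        (((Real.cos θ)⁻¹) ^ N * Real.exp (-(Real.tan θ * Sm (dv c) (κ' * n) ω)) *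
          |∏ ℓ ∈ LE ω (bS (uI fun i => RS.shape (r i))),
            fLp θ (uI fun i => RS.shape (r i))
              (⟨fun i => RS.wall (r i) 0, c⟩ : WCG ι).ph ω ℓ|) := by
  classical
  have hs := hθ'.sin_pos
  have hc0 := hθ'.cos_pos
  have hn1 : (1 : ℝ) ≤ n := by exact_mod_cast hn
  have hκn : 0 < κ' * n := by positivity
  set K := uI fun i => RS.shape (r i) with hK
  set a := (⟨fun i => RS.wall (r i) 0, c⟩ : WCG ι).ph with ha
  have hex := exits_cardF hsep hL
  obtain ⟨𝓕, h𝓕, hLp⟩ := Vale.Agent.P167.N.QX.LpO_le (ω := ω) (K := K) (a := a) hθ hθ' hcf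
    (fun e he => ph_off hL hsep he) (d := κ' * n)
    (fun ℓ hl hsl => by
      have h := Vale.Agent.P167.H562.SML.bd_G (κ := κ') (ρ := n) (Cm := B) hn1 hB hdle ω ℓ (κ' * n)
        hl le_rfl hsl
      refine h.trans (le_trans (le_of_eq ?_) hBθ)
      have hn0 : (n : ℝ) ≠ 0 := by positivity
      field_simp) (by
      rintro ℓ hl hsl ⟨e, he, hce⟩ e' he' hK'
      have key : ∀ v ∈ K, ∀ y ∈ ℓ, κ * n - 1 ≤ (nm (hdv y - v) : ℝ) + κ' * n := by
        intro v hv y hy
        obtain ⟨i, hi⟩ := mem_uI.1 hv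
        have g1 := hfar e hce i v hi
        have g2 : (nm (v - epos e) : ℝ) ≤ nm (epos e - hdv e) + nm (hdv e - hdv y) +
            nm (hdv y - v) := by
          have a0 := nm_comm v (epos e)
          have a1 := nm_sub_le (epos e) (hdv e) v
          have a2 := nm_sub_le (hdv e) (hdv y) v
          have : nm (v - epos e) ≤ nm (epos e - hdv e) + nm (hdv e - hdv y) +
            nm (hdv y - v) := by linarith
          exact_mod_cast this
        have g3 : (nm (epos e - hdv e) : ℝ) ≤ 1 := by exact_mod_cast (QX.nm_pos e).1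
        have g4 := hsl _ (mem_image_of_mem hdv he) _ (mem_image_of_mem hdv hy)
        linarith
      rcases mem_eds.1 hK' with h | h
      · have g := key _ h e' he'
        rw [sub_self] at g
        have : (nm (0 : ℤ × ℤ) : ℝ) = 0 := by simp [nm]
        rw [this] at g
        linarith
      · have g := key _ h e' he'
        have : (nm (hdv e' - tlv e') : ℝ) ≤ 1 := by exact_mod_cast nm_ht e'
        linarith)
  -- the number of the big loops
  have hcount : 𝓕.card ≤ N := by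
    refine hN _ (fun γ hγ => Vale.Agent.P167.H945.isSeg_of_loop (h𝓕 γ hγ).1) (fun γ hγ γ' hγ' hne => ?_)
      fun γ hγ => ?_
    · rw [Finset.disjoint_left]
      intro x hx hx'
      exact hne ((h𝓕 γ hγ).1.eq_of_mem (h𝓕 γ' hγ').1 hx hx')
    · obtain ⟨hl, -, hsm, e, he, hce⟩ := h𝓕 γ hγ
      refine ⟨⟨e, he, hZ _ hce⟩, ?_⟩
      unfold Small at hsm
      push Not at hsm
      obtain ⟨u, hu, v, hv, huv⟩ := hsm
      obtain ⟨e1, h1, rfl⟩ := mem_image.1 hu
      obtain ⟨e2, h2, rfl⟩ := mem_image.1 hv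
      exact ⟨e1, h1, e2, h2, huv⟩
  -- conclusion
  have hcc : 1 ≤ (Real.cos θ)⁻¹ := (one_le_inv₀ hc0).2 (Real.cos_le_one _)
  have hP1 : 0 ≤ ∏ i, (2 * Real.sin θ) ^ ((RS.shape (r i)).L + 1) :=
    prod_nonneg fun _ _ => by positivity
  have hin : ((pcs ω K).filter (IsLp K)).card = 0 := by
    rw [card_eq_zero, filter_eq_empty_iff]
    exact no_innerF hsep ω
  rw [RT_prod hgd hs.ne' hc0.ne', hex, hin, pow_zero, inv_one, mul_one, abs_mul, abs_mul,
    abs_of_nonneg (by positivity : 0 ≤ (2 * Real.sin θ) ^ (∑ i, ((RS.shape (r i)).L + 1))),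
    ← prod_pow_eq_pow_sum]
  set E := Real.exp (-(Real.tan θ * Sm (dv c) (κ' * n) ω)) with hE
  have hE0 : 0 < E := Real.exp_pos _
  set P := |∏ ℓ ∈ LE ω (bS K), fLp θ K a ω ℓ| with hP
  have hP0 : 0 ≤ P := abs_nonneg _
  calc (∏ i, (2 * Real.sin θ) ^ ((RS.shape (r i)).L + 1)) * |LpO θ K a ω| * P
      ≤ (∏ i, (2 * Real.sin θ) ^ ((RS.shape (r i)).L + 1)) * (((Real.cos θ)⁻¹) ^ 𝓕.card * E) *
          P := mul_le_mul_of_nonneg_right (mul_le_mul_of_nonneg_left hLp hP1) hP0
    _ ≤ (∏ i, (2 * Real.sin θ) ^ ((RS.shape (r i)).L + 1)) * (((Real.cos θ)⁻¹) ^ N * E) * P := by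
        refine mul_le_mul_of_nonneg_right (mul_le_mul_of_nonneg_left
          (mul_le_mul_of_nonneg_right (pow_le_pow_right₀ hcc hcount) hE0.le) hP1) hP0
    _ = _ := by ring

end flow

end Vale.Agent.P167.N.ID
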