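import Vale.Agent.P167.N.Kit
import Vale.Agent.P167.QX.Maj
import Vale.Agent.P167.QX.L1E

/-!
# P167, `q < 1`: the law-free majorant of the product over the loops, from windows

`maj_w` (needs `2 cos θ ≤ 1`): all loops and strands of diameter `< d` are described by tables (`W1`, `W2`): the weights are
at most `τ x` in absolute value, except for the feet `ft`; the number of pairwise disjoint segments of
diameter `≥ d` is at most `N`. Then the product over all loops is at most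
`(2 cos θ sin θ) ^ (-(N + ft.card))` times the product of `τ` over the small strands.
Nothing is assumed about the large strands, the large loops and the loops with feet. (`ft`: the strands
with an end at an end side of a row, and the exits next to the invisible bases.)
-/

set_option autoImplicit false

namespace Vale.Agent.P167.N.ID

open Finset

open Vale.Agent.P167 Vale.Agent.P167.N

open Vale.Agent.P167.A (plane)

open Vale.Agent.P167.BR hiding dv

open Vale.Agent.P167.XDL (bS mem_bS)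

open Vale.Agent.P167.FK (Good)

open Vale.Agent.P167.H199 (strand ret mem_strand Returns)

open Vale.Agent.P167.H685 (LE mem_LE)

open Vale.Agent.P167.H562.QM (MajA)

open Vale.Agent.P167.QX (wS fLp prod_by_loops abs_wS_le one_le_inv_sin)

/-- The strand of the cut edge `e` has diameter less than `d` (seen from its first square). -/
def SmS (S : Finset Ed) (d : ℝ) (ω : Cfg) (e : Ed) : Prop :=
  ∀ k < ret (nx ω) S e, (nm (hdv ((nx ω)^[k] e) - hdv e) : ℝ) < d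

/-- The loop has diameter less than `d`. -/
def SmL (d : ℝ) (ℓ : Finset Ed) : Prop :=
  ∀ e1 ∈ ℓ, ∀ e2 ∈ ℓ, (nm (hdv e1 - hdv e2) : ℝ) < d

variable {K Z : Finset (ℤ × ℤ)} {ω : Cfg} {θ d : ℝ} {a : Ed → Bool → ℝ} {ft : Finset Ed}
  {τ : Ed → ℝ} {N : ℕ}

open Classical in
/-- The loops of diameter at least `d` which meet the cuts. -/
theorem card_big_loops (hM : MajA Z d ω N) (hZ : ∀ x ∈ bS K, hdv x ∈ Z) :
    ((LE ω (bS K)).filter fun ℓ => ¬ SmL d ℓ).card ≤ N := by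
  refine hM _ (fun γ hγ => ?_) (fun γ hγ γ' hγ' hne => ?_) fun γ hγ => ?_
  · exact H945.isSeg_of_loop (mem_LE.1 (mem_filter.1 hγ).1).1
  · rw [Finset.disjoint_left]
    intro x hx hx'
    exact hne (IsLoop.eq_of_mem (mem_LE.1 (mem_filter.1 hγ).1).1 (mem_LE.1 (mem_filter.1 hγ').1).1
      hx hx')
  · obtain ⟨h1, h2⟩ := mem_filter.1 hγ
    obtain ⟨-, e, he, heγ⟩ := mem_LE.1 h1
    unfold SmL at h2
    push Not at h2
    obtain ⟨e1, h3, e2, h4, h5⟩ := h2
    exact ⟨⟨e, heγ, hZ e he⟩, e1, h3, e2, h4, h5⟩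

/-- A set of cut edges whose strands are large. -/
theorem seg_count {S X : Finset Ed} (hg : Good ω) (hX : X ⊆ S) (h : MajA Z d ω N)
    (h1 : ∀ e ∈ X, hdv e ∈ Z) (h2 : ∀ e ∈ X, ¬ SmS S d ω e) : X.card ≤ N := by
  classical
  set g : Ed → Finset Ed := fun e => strand (nx ω) S e with hgg
  have hret : ∀ e ∈ X, Returns (nx ω) S e := fun e he => QX.returns_good hg (hX he)
  have hself : ∀ e ∈ X, e ∈ g e := fun e he => H199.self_mem_strand (hret e he)
  have huniq : ∀ e ∈ X, ∀ e' ∈ X, ∀ x, x ∈ g e → x ∈ g e' → e = e' := fun e he e' he' x h1 h2 =>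
    H199.strand_unique (s_nx ω).1 (hX he) (hX he') h1 h2
  have hgi : Set.InjOn g X := fun e he e' he' h =>
    huniq e he e' he' e (hself e he) (h ▸ hself e he)
  rw [← card_image_of_injOn hgi]
  refine h _ (fun γ hγ => ?_) (fun γ hγ γ' hγ' hne => ?_) fun γ hγ => ?_
  · obtain ⟨e, he, rfl⟩ := mem_image.1 hγ
    exact H945.isSeg_strand (hret e he)
  · obtain ⟨e, he, rfl⟩ := mem_image.1 hγ
    obtain ⟨e', he', rfl⟩ := mem_image.1 hγ'
    rw [Finset.disjoint_left]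
    intro x hx hx'
    exact hne (by rw [huniq e he e' he' x hx hx'])
  · obtain ⟨e, he, rfl⟩ := mem_image.1 hγ
    have h3 := h2 e he
    unfold SmS at h3
    push Not at h3
    obtain ⟨j, hj, hj'⟩ := h3
    exact ⟨⟨e, hself e he, h1 e he⟩, _, mem_strand.2 ⟨j, hj, rfl⟩, e, hself e he, hj'⟩

open Classical in
/-- **The majorant of the product over the loops, from windows.** -/
theorem maj_w (hg : Good ω) (hs : 0 < Real.sin θ) (hc : 0 < 2 * Real.cos θ)
    (hc1 : 2 * Real.cos θ ≤ 1) (hM : MajA Z d ω N) (hZ : ∀ x ∈ bS K, hdv x ∈ Z)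
    (hτ0 : ∀ x, 0 ≤ τ x)
    (W1 : ∀ x ∈ bS K, hdv x ∉ K → SmS (bS K) d ω x →
      |wS θ K a ω x| ≤ (if x ∈ ft then (Real.sin θ)⁻¹ else 1) * τ x)
    (W2 : ∀ ℓ, IsLoop ω ℓ → (∃ e ∈ bS K, e ∈ ℓ) → SmL d ℓ →
      (∀ x ∈ bS K, hdv x ∉ K → x ∈ ℓ → x ∉ ft) → |fLp θ K a ω ℓ| ≤
      ∏ x ∈ (bS K).filter (fun x => hdv x ∉ K ∧ x ∈ ℓ), τ x) :
    |∏ ℓ ∈ LE ω (bS K), fLp θ K a ω ℓ| ≤
      ((2 * Real.cos θ)⁻¹ * (Real.sin θ)⁻¹) ^ (N + ft.card) *
        ∏ x ∈ (bS K).filter (fun x => hdv x ∉ K ∧ SmS (bS K) d ω x), τ x := by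
  have hi := one_le_inv_sin hs
  have hci : 1 ≤ (2 * Real.cos θ)⁻¹ := (one_le_inv₀ hc).2 hc1
  have hi0 : 0 ≤ (Real.sin θ)⁻¹ := by linarith
  have hci0 : 0 ≤ (2 * Real.cos θ)⁻¹ := by linarith
  -- the factor of an outer strand
  set ρ : Ed → ℝ := fun x => if SmS (bS K) d ω x then
    (if x ∈ ft then (Real.sin θ)⁻¹ else 1) * τ x else (Real.sin θ)⁻¹ with hρ
  have hρ0 : ∀ x, 0 ≤ ρ x := by
    intro x
    simp only [hρ]
    split_ifs
    · exact mul_nonneg hi0 (hτ0 x)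
    · exact mul_nonneg zero_le_one (hτ0 x)
    · exact hi0
  have hρx : ∀ x ∈ bS K, hdv x ∉ K → |wS θ K a ω x| ≤ ρ x := by
    intro x h1 h2
    simp only [hρ]
    by_cases h : SmS (bS K) d ω x
    · rw [if_pos h]
      exact W1 x h1 h2 h
    · rw [if_neg h]
      exact abs_wS_le hs x
  -- the loops
  set bad : Finset Ed → Prop := fun ℓ => ¬ SmL d ℓ ∨ ∃ x ∈ bS K, hdv x ∉ K ∧ x ∈ ℓ ∧ x ∈ ft
    with hbad
  have hloop : ∀ ℓ ∈ LE ω (bS K), |fLp θ K a ω ℓ| ≤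
      (if bad ℓ then (2 * Real.cos θ)⁻¹ else 1) *
        ∏ x ∈ (bS K).filter (fun x => hdv x ∉ K ∧ x ∈ ℓ), ρ x := by
    intro ℓ hℓ
    obtain ⟨h1, e, he, heℓ⟩ := mem_LE.1 hℓ
    by_cases h : bad ℓ
    · rw [if_pos h]
      unfold fLp
      rw [abs_div, abs_of_pos hc, abs_prod, div_eq_inv_mul]
      refine mul_le_mul_of_nonneg_left ?_ hci0
      refine prod_le_prod (fun _ _ => abs_nonneg _) fun x hx => ?_
      obtain ⟨k1, k2, k3⟩ := mem_filter.1 hx
      exact hρx x k1 k2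
    · rw [if_neg h, one_mul]
      simp only [hbad, not_or, not_not, not_exists, not_and] at h
      refine (W2 ℓ h1 ⟨e, he, heℓ⟩ h.1 h.2).trans (le_of_eq ?_)
      refine prod_congr rfl fun x hx => ?_
      obtain ⟨k1, k2, k3⟩ := mem_filter.1 hx
      have k4 : SmS (bS K) d ω x := fun k hk => h.1 _ (H199.loop_iter h1 k3 k) _ k3
      simp only [hρ, if_pos k4, if_neg (h.2 x k1 k2 k3), one_mul]
  -- the number of the bad loops
  have hcard : ((LE ω (bS K)).filter bad).card ≤ N + ft.card := by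
    have e1 : (LE ω (bS K)).filter bad ⊆ ((LE ω (bS K)).filter fun ℓ => ¬ SmL d ℓ) ∪
        ((LE ω (bS K)).filter fun ℓ => ∃ x ∈ ft, x ∈ ℓ) := by
      intro ℓ hℓ
      obtain ⟨h1, h2⟩ := mem_filter.1 hℓ
      rcases h2 with h2 | ⟨x, -, -, h3, h4⟩
      · exact mem_union_left _ (mem_filter.2 ⟨h1, h2⟩)
      · exact mem_union_right _ (mem_filter.2 ⟨h1, x, h4, h3⟩)
    refine (card_le_card e1).trans ((card_union_le _ _).trans ?_)
    refine add_le_add (card_big_loops hM hZ) ?_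
    have hex : ∀ ℓ ∈ (LE ω (bS K)).filter (fun ℓ => ∃ x ∈ ft, x ∈ ℓ), ∃ x ∈ ft, x ∈ ℓ :=
      fun ℓ hℓ => (mem_filter.1 hℓ).2
    choose! g hg1 hg2 using hex
    refine card_le_card_of_injOn g (fun ℓ hℓ => hg1 ℓ hℓ) fun ℓ hℓ ℓ' hℓ' h => ?_
    exact IsLoop.eq_of_mem (mem_LE.1 (mem_filter.1 hℓ).1).1 (mem_LE.1 (mem_filter.1 hℓ').1).1
      (hg2 ℓ hℓ) (by rw [h]; exact hg2 ℓ' hℓ')
  rw [abs_prod]
  refine (prod_le_prod (fun _ _ => abs_nonneg _) hloop).trans ?_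
  rw [prod_mul_distrib, ← prod_by_loops hg (bS K) (fun x => hdv x ∉ K) ρ]
  have e1 : ∏ ℓ ∈ LE ω (bS K), (if bad ℓ then (2 * Real.cos θ)⁻¹ else 1) ≤
      ((2 * Real.cos θ)⁻¹) ^ (N + ft.card) := by
    rw [prod_ite, prod_const_one, mul_one, prod_const]
    exact pow_le_pow_right₀ hci hcard
  have e2 : ∏ x ∈ (bS K).filter (fun x => hdv x ∉ K), ρ x ≤
      ((Real.sin θ)⁻¹) ^ (N + ft.card) *
        ∏ x ∈ (bS K).filter (fun x => hdv x ∉ K ∧ SmS (bS K) d ω x), τ x := by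
    rw [← prod_filter_mul_prod_filter_not _ (fun x => SmS (bS K) d ω x), filter_filter,
      filter_filter]
    have a1 : ∏ x ∈ (bS K).filter (fun x => hdv x ∉ K ∧ SmS (bS K) d ω x), ρ x =
        (∏ x ∈ (bS K).filter (fun x => hdv x ∉ K ∧ SmS (bS K) d ω x),
          (if x ∈ ft then (Real.sin θ)⁻¹ else 1)) *
        ∏ x ∈ (bS K).filter (fun x => hdv x ∉ K ∧ SmS (bS K) d ω x), τ x := by
      rw [← prod_mul_distrib]
      refine prod_congr rfl fun x hx => ?_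
      simp only [hρ, if_pos (mem_filter.1 hx).2.2]
    have a2 : ∏ x ∈ (bS K).filter (fun x => hdv x ∉ K ∧ ¬ SmS (bS K) d ω x), ρ x ≤
        ((Real.sin θ)⁻¹) ^ N := by
      rw [prod_congr rfl (g := fun _ => (Real.sin θ)⁻¹) fun x hx => by
        simp only [hρ, if_neg (mem_filter.1 hx).2.2], prod_const]
      refine pow_le_pow_right₀ hi ?_
      exact seg_count hg (filter_subset _ _) hM
        (fun e he => hZ e (mem_filter.1 he).1) fun e he => (mem_filter.1 he).2.2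
    have a3 : (∏ x ∈ (bS K).filter (fun x => hdv x ∉ K ∧ SmS (bS K) d ω x),
        (if x ∈ ft then (Real.sin θ)⁻¹ else 1)) ≤ ((Real.sin θ)⁻¹) ^ ft.card := by
      rw [prod_ite, prod_const_one, mul_one, prod_const]
      refine pow_le_pow_right₀ hi (card_le_card fun x hx => (mem_filter.1 hx).2)
    have a4 : 0 ≤ ∏ x ∈ (bS K).filter (fun x => hdv x ∉ K ∧ SmS (bS K) d ω x), τ x :=
      prod_nonneg fun x _ => hτ0 x
    have a5 : (0 : ℝ) ≤ ((Real.sin θ)⁻¹) ^ N := pow_nonneg hi0 _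
    have a6 : (0 : ℝ) ≤ ((Real.sin θ)⁻¹) ^ ft.card := pow_nonneg hi0 _
    have a7 : 0 ≤ ∏ x ∈ (bS K).filter (fun x => hdv x ∉ K ∧ ¬ SmS (bS K) d ω x), ρ x :=
      prod_nonneg fun x _ => hρ0 x
    rw [a1, pow_add]
    calc _ ≤ (((Real.sin θ)⁻¹) ^ ft.card *
          ∏ x ∈ (bS K).filter (fun x => hdv x ∉ K ∧ SmS (bS K) d ω x), τ x) *
          ((Real.sin θ)⁻¹) ^ N := by gcongr
      _ = _ := by ring
  have e3 : 0 ≤ ∏ x ∈ (bS K).filter (fun x => hdv x ∉ K), ρ x := prod_nonneg fun x _ => hρ0 x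
  have a5 : (0 : ℝ) ≤ ((2 * Real.cos θ)⁻¹) ^ (N + ft.card) := pow_nonneg hci0 _
  calc _ ≤ ((2 * Real.cos θ)⁻¹) ^ (N + ft.card) *
        ∏ x ∈ (bS K).filter (fun x => hdv x ∉ K), ρ x := mul_le_mul_of_nonneg_right e1 e3
    _ ≤ ((2 * Real.cos θ)⁻¹) ^ (N + ft.card) * (((Real.sin θ)⁻¹) ^ (N + ft.card) *
        ∏ x ∈ (bS K).filter (fun x => hdv x ∉ K ∧ SmS (bS K) d ω x), τ x) := by gcongr
    _ = _ := by rw [mul_pow]; ring

end Vale.Agent.P167.N.ID
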