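import Vale.Agent.P167.N.ID.StA
import Vale.Agent.P167.N.ID.MajW
import Vale.Agent.P167.N.ID.FlowA

/-!
# P167, `q < 1`, START: the law-free majorant `L1Sg` of a family of frames, from windows

* `FrS.WinG`: the loops and strands of diameter `< κ' n` of the frame without flow (windows).
* `l1sg_of`: `FrS.L1Sg` from the geometry and the windows.
-/

set_option autoImplicit false

namespace Vale.Agent.P167.N.ID

open Finset MeasureTheory Filter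

open Vale.Agent.P167 Vale.Agent.P167.N

open Vale.Agent.P167.A (plane)

open Vale.Agent.P167.BR hiding dv

open Vale.Agent.P167.FK

open Vale.Agent.P167.XDL (bS mem_bS)

open Vale.Agent.P167.H825 (dv epos enl FlowIn)

open Vale.Agent.P167.H825.Q (Row)

open Vale.Agent.P167.H680.T (WCG WallG uI mem_uI nm_ht)

open Vale.Agent.P167.H945.Q (nm_sub_le nm_comm)

open Vale.Agent.P167.QX (RT wS fLp)

open Vale.Agent.P167.H199 (cang strand ret mem_strand)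

open Vale.Agent.P167.H685 (LE mem_LE)

open Vale.Agent.P167.H562.QM (MajA)

open Vale.Agent.P167.H562.MAJ (Sm)

variable {X : Type} (RS : RSys X) {Kx : Type} [Fintype Kx] [DecidableEq Kx] (F : Fct RS Kx)
  (Kt : Finset Kx) (Φ : FrS X) (θ β : ℝ) {l : ℕ} (p : ZMod l → ℤ × ℤ) (S₀ : Finset (ℤ × ℤ))

open Classical in
/-- **The windows of the frames** (no flow). If a factor is zero, there is a killed strand. `ft`: the
strands with an end at an end side of a row, and the exits next to the invisible bases; `τ`: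
`2 cos θ` for the strands over a junction of the second kind, `1` otherwise. -/
def FrS.WinG : Prop :=
  ∃ (M : ℕ) (C D κ₁ : ℝ), 0 < C ∧ 1 ≤ D ∧ 0 < κ₁ ∧ ∀ κ' : ℝ, 0 < κ' → κ' < κ₁ → ∃ δ₀ : ℝ, 0 < δ₀ ∧
  ∀ δ : ℝ, 0 < δ → δ < δ₀ → ∀ᶠ n : ℕ in atTop, ∀ ω : Cfg, Good ω → Φ.Frz RS δ n ω →
  (Φ.Tt RS F Kt δ n ⌊δ * n / 16⌋ ω * Φ.Tj RS F Kt δ n ⌊4 * κ' * n⌋ ω = 0 →
    ∃ x ∈ bS (Φ.U RS δ n), hdv x ∉ Φ.U RS δ n ∧ SmS (bS (Φ.U RS δ n)) (D * κ' * n) ω x ∧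
      wS θ (Φ.U RS δ n) (Φ.ph RS δ n 0) ω x = 0) ∧
  ∃ (ft : Finset Ed) (τ : Ed → ℝ), ft.card ≤ M ∧ (∀ x, 0 ≤ τ x) ∧
    (∀ x ∈ bS (Φ.U RS δ n), hdv x ∉ Φ.U RS δ n → SmS (bS (Φ.U RS δ n)) (κ' * n) ω x →
      |wS θ (Φ.U RS δ n) (Φ.ph RS δ n 0) ω x| ≤
        (if x ∈ ft then (Real.sin θ)⁻¹ else 1) * τ x) ∧
    (∀ ℓ, IsLoop ω ℓ → (∃ e ∈ bS (Φ.U RS δ n), e ∈ ℓ) → SmL (κ' * n) ℓ →
      (∀ x ∈ bS (Φ.U RS δ n), hdv x ∉ Φ.U RS δ n → x ∈ ℓ → x ∉ ft) →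
      |fLp θ (Φ.U RS δ n) (Φ.ph RS δ n 0) ω ℓ| ≤
        ∏ x ∈ (bS (Φ.U RS δ n)).filter (fun x => hdv x ∉ Φ.U RS δ n ∧ x ∈ ℓ), τ x) ∧
    ∀ (Z : Finset (ℤ × ℤ)) (N : ℕ), (∀ x ∈ bS (Φ.U RS δ n), hdv x ∈ Z) → MajA Z (κ' * n) ω N →
      Φ.Tt RS F Kt δ n ⌊δ * n / 16⌋ ω * Φ.Tj RS F Kt δ n ⌊4 * κ' * n⌋ ω ≠ 0 →
      ∏ x ∈ (bS (Φ.U RS δ n)).filter (fun x => hdv x ∉ Φ.U RS δ n ∧
        SmS (bS (Φ.U RS δ n)) (κ' * n) ω x), τ x ≤
      C ^ (N + 1) * (Φ.Tt RS F Kt δ n ⌊δ * n / 16⌋ ω * Φ.Tj RS F Kt δ n ⌊4 * κ' * n⌋ ω)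

variable {RS F Kt Φ θ β p S₀}

/-- The weights of the strands which do not see the flow. -/
theorem wS_flow {K : Finset (ℤ × ℤ)} {a a' : Ed → Bool → ℝ} {ω : Cfg} {x : Ed}
    (h : ∀ k ≤ ret (nx ω) (bS K) x, a ((nx ω)^[k] x) = a' ((nx ω)^[k] x)) :
    wS θ K a ω x = wS θ K a' ω x := by
  unfold wS cang
  congr 2
  refine sum_congr rfl fun y hy => ?_
  obtain ⟨k, hk, rfl⟩ := mem_strand.1 hy
  have h1 := h k hk.le
  have h2 := h (k + 1) hk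
  rw [Function.iterate_succ_apply'] at h2
  have e1 : H199.ah plane a ((nx ω)^[k] x) = H199.ah plane a' ((nx ω)^[k] x) := by
    unfold H199.ah
    rw [h1]
  have e2 : H199.at' plane a (plane.nx ω ((nx ω)^[k] x)) =
      H199.at' plane a' (plane.nx ω ((nx ω)^[k] x)) := by
    rw [A.plane_nx]
    unfold H199.at'
    rw [h2]
  rw [e1, e2]

section far

variable {δ κ κ' B : ℝ} {n : ℕ} {c : Ed → ℝ} {ω : Cfg}

/-- The flow vanishes near the rows. -/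
theorem flow_near (hdom : Disjoint (Φ.U RS δ n) (enl S₀ n)) (hfl : FlowIn (enl S₀ n) κ B n c)
    {v : ℤ × ℤ} (hv : v ∈ Φ.U RS δ n) {y : Ed} (hy : (nm (v - epos y) : ℝ) ≤ κ * n) : c y = 0 := by
  by_contra h
  exact Finset.disjoint_left.1 hdom hv (hfl.sup y h v hy)

theorem ph_near (hdom : Disjoint (Φ.U RS δ n) (enl S₀ n)) (hfl : FlowIn (enl S₀ n) κ B n c)
    {v : ℤ × ℤ} (hv : v ∈ Φ.U RS δ n) {y : Ed} (hy : (nm (v - epos y) : ℝ) ≤ κ * n) :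
    Φ.ph RS δ n c y = Φ.ph RS δ n 0 y := by
  funext b
  show ∑ i, (RS.wall (Φ.r δ n i) 0).a y b + c y / 2 =
    ∑ i, (RS.wall (Φ.r δ n i) 0).a y b + (0 : Ed → ℝ) y / 2
  rw [flow_near hdom hfl hv hy]
  rfl

/-- The small strands do not see the flow. -/
theorem wS_near (hgd : Good ω) (hdom : Disjoint (Φ.U RS δ n) (enl S₀ n))
    (hfl : FlowIn (enl S₀ n) κ B n c) (hκ : κ' * n + 4 ≤ κ * n) {x : Ed}
    (hx : x ∈ bS (Φ.U RS δ n)) (h1 : hdv x ∉ Φ.U RS δ n)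
    (h2 : SmS (bS (Φ.U RS δ n)) (κ' * n) ω x) :
    wS θ (Φ.U RS δ n) (Φ.ph RS δ n c) ω x = wS θ (Φ.U RS δ n) (Φ.ph RS δ n 0) ω x := by
  have ht : tlv x ∈ Φ.U RS δ n := by
    rw [mem_bS] at hx
    tauto
  have hr := (QX.returns_good hgd hx).spec.1
  refine wS_flow fun k hk => ph_near hdom hfl ht ?_
  have a1 : (nm (tlv x - hdv x) : ℝ) ≤ 1 := by
    rw [nm_comm]
    exact_mod_cast nm_ht x
  have key : ∃ w : ℤ × ℤ, (nm (w - hdv x) : ℝ) < κ' * n ∧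
      (nm (w - epos ((nx ω)^[k] x)) : ℝ) ≤ 1 := by
    rcases Nat.lt_or_ge k (ret (nx ω) (bS (Φ.U RS δ n)) x) with h | h
    · refine ⟨_, h2 k h, ?_⟩
      rw [nm_comm]
      exact_mod_cast (QX.nm_pos ((nx ω)^[k] x)).1
    · obtain ⟨m, hm⟩ : ∃ m, k = m + 1 := ⟨k - 1, by omega⟩
      refine ⟨tlv ((nx ω)^[k] x), ?_, ?_⟩
      · rw [hm, Function.iterate_succ_apply', tlv_nx]
        exact h2 m (by omega)
      · rw [nm_comm]
        exact_mod_cast (QX.nm_pos ((nx ω)^[k] x)).2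
  obtain ⟨w, hw1, hw2⟩ := key
  have b1 := nm_sub_le (tlv x) (hdv x) (epos ((nx ω)^[k] x))
  have b2 := nm_sub_le (hdv x) w (epos ((nx ω)^[k] x))
  rw [nm_comm (hdv x) w] at b2
  have b3 : (nm (tlv x - epos ((nx ω)^[k] x)) : ℝ) ≤ nm (tlv x - hdv x) + (nm (w - hdv x) +
      nm (w - epos ((nx ω)^[k] x))) := by exact_mod_cast b1.trans (by linarith)
  linarith

end far

/-- **The law-free majorant of the functional of a frame.** -/
theorem l1sg_of (h1 : Ang θ) (hG : Φ.Geo RS F Kt θ β p S₀) (hW : Φ.WinG RS F Kt θ)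
    (hbx : ∀ᶠ n : ℕ in atTop, ∀ v ∈ enl S₀ n, (nm v : ℝ) ≤ Φ.R * n) :
    Φ.L1Sg RS F Kt θ S₀ := by
  classical
  have h0 := h1.pos
  have hs := h1.sin_pos
  have hc0 := h1.cos_pos
  have hlt := h1.lt
  have hc1 : 2 * Real.cos θ ≤ 1 := h1.kit.lt.le
  obtain ⟨M, C, D, κ₁, hC, hD, hκ₁, hW⟩ := hW
  have hD0 : 0 < D := by linarith
  obtain ⟨g, hg, -, δg, hδg, hG⟩ := hG
  intro κ B hκ
  set γ : ℝ := min (1 / 2) (Real.pi / 2 - θ) with hγ
  have hγ0 : 0 < γ := lt_min (by norm_num) (by linarith)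
  refine ⟨min κ₁ (min (κ / (8 * D)) (γ / (|B| + 1))), by positivity, fun κ' hκ' hκ1 => ?_⟩
  have k1 : κ' < κ₁ := lt_of_lt_of_le hκ1 (min_le_left _ _)
  have k2D : κ' < κ / (8 * D) := lt_of_lt_of_le hκ1 ((min_le_right _ _).trans (min_le_left _ _))
  have k2' : D * κ' < κ / 8 := by
    rw [lt_div_iff₀ (by positivity)] at k2D ⊢
    linarith
  have k2 : κ' < κ / 8 := lt_of_le_of_lt (by nlinarith) k2'
  have k3 : κ' < γ / (|B| + 1) := lt_of_lt_of_le hκ1 ((min_le_right _ _).trans (min_le_right _ _))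
  have hBk : |B| * κ' ^ 2 ≤ γ := by
    have g0 := abs_nonneg B
    rw [lt_div_iff₀ (by positivity)] at k3
    have g1 : γ ≤ 1 / 2 := min_le_left _ _
    have g2 : κ' < 1 := by nlinarith
    nlinarith
  obtain ⟨δ₀, hδ₀, hW⟩ := hW κ' hκ' k1
  set X : ℝ := (Real.cos θ)⁻¹ with hX
  set Y : ℝ := (2 * Real.cos θ)⁻¹ * (Real.sin θ)⁻¹ with hY
  have hX1 : 1 ≤ X := (one_le_inv₀ hc0).2 (Real.cos_le_one _)
  have hY1 : 1 ≤ Y := one_le_mul_of_one_le_of_one_le ((one_le_inv₀ (by linarith)).2 hc1)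
    (QX.one_le_inv_sin hs)
  have hC1 : 1 ≤ max C 1 := le_max_right _ _
  have hM1 : 1 ≤ Y ^ M * max C 1 := one_le_mul_of_one_le_of_one_le (one_le_pow₀ hY1) hC1
  refine ⟨X * Y * (Y ^ M * max C 1), min δ₀ δg,
    one_le_mul_of_one_le_of_one_le (one_le_mul_of_one_le_of_one_le hX1 hY1) hM1,
    lt_min hδ₀ hδg, fun δ hδ hδ1 => ?_⟩
  have d1 : δ < δ₀ := lt_of_lt_of_le hδ1 (min_le_left _ _)
  have d2 : δ < δg := lt_of_lt_of_le hδ1 (min_le_right _ _)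
  have ev : ∀ {x : ℝ} (y : ℝ), 0 < x → ∀ᶠ n : ℕ in atTop, y < x * n := fun y hx =>
    (tendsto_natCast_atTop_atTop.const_mul_atTop hx).eventually_gt_atTop y
  filter_upwards [hW δ hδ d1, hG δ hδ d2, hbx, eventually_ge_atTop 1, ev 2 hδ, ev 1 hg, ev 8 hκ]
    with n hW hG hbx hn1 en1 en2 en3
  intro c hcf hfl ω hgd hfz Z N₁ N₂ hZ hN1 hN2
  have hn0 : (0 : ℝ) < n := by exact_mod_cast hn1
  have hnR : (1 : ℝ) ≤ n := by exact_mod_cast hn1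
  obtain ⟨wz, ft, τ, w0, w1, w2, w3, w4⟩ := hW ω hgd hfz
  have hL : ∀ i, 1 ≤ (RS.shape (Φ.r δ n i)).L := fun i => by
    obtain ⟨a1, a2⟩ := hG.val i
    have a3 : (1 : ℝ) < F.mg (Φ.r δ n i) := by linarith
    have a4 : 1 < F.mg (Φ.r δ n i) := by exact_mod_cast a3
    exact le_trans (by omega) (F.mg_le a1)
  have hsep : SepR fun i => RS.shape (Φ.r δ n i) := by
    intro i j hij u hu v hv
    have a1 := hG.sepr i j hij u hu v hv
    have a2 : (1 : ℝ) < nm (u - v) := by linarith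
    exact_mod_cast a2
  have hκκ : κ' * n + 4 ≤ κ * n := by
    have : κ' * n ≤ κ / 8 * n := mul_le_mul_of_nonneg_right k2.le hn0.le
    linarith
  have hfl' : FlowIn (enl S₀ n) κ |B| n c :=
    ⟨hfl.sup, fun e => (hfl.cle e).trans (div_le_div_of_nonneg_right (le_abs_self B) hn0.le),
      fun z => (hfl.dle z).trans (div_le_div_of_nonneg_right (le_abs_self B) (by positivity))⟩
  have hZe : ∀ e, c e ≠ 0 → hdv e ∈ Z := by
    intro e he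
    have b1 : epos e ∈ enl S₀ n := by
      refine hfl.sup e he _ ?_
      rw [sub_self]
      have : (nm (0 : ℤ × ℤ) : ℝ) = 0 := by simp [nm]
      rw [this]
      positivity
    have b2 := hbx _ b1
    have b3 := nm_sub_le (hdv e) (epos e) 0
    rw [sub_zero, sub_zero, nm_comm] at b3
    have b4 := (QX.nm_pos e).1
    have b5 : (nm (hdv e) : ℝ) ≤ 1 + nm (epos e) := by exact_mod_cast (by omega)
    exact hZ _ (by linarith)
  have hZx : ∀ x ∈ bS (Φ.U RS δ n), hdv x ∈ Z := by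
    intro x hx
    rw [mem_bS] at hx
    have key : ∀ v w : ℤ × ℤ, v ∈ Φ.U RS δ n → nm (w - v) ≤ 1 → w ∈ Z := by
      intro v w hv hw
      obtain ⟨i, hi⟩ := mem_uIA.1 hv
      have b1 := hG.rbox i v hi
      have b2 := nm_sub_le w v 0
      rw [sub_zero, sub_zero] at b2
      have b3 : (nm w : ℝ) ≤ 1 + nm v := by exact_mod_cast (by omega)
      exact hZ _ (by linarith)
    rcases hx with ⟨h, -⟩ | ⟨-, h⟩
    · refine key _ _ h ?_
      rw [sub_self]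
      simp [nm]
    · exact key _ _ h (nm_ht x)
  have hflow := flowA (RS := RS) (r := Φ.r δ n) (ω := ω) h0 h1 hgd hL hsep hcf (by omega) hfl'.dle
    hκ' (abs_nonneg B) (hBk.trans (min_le_right _ _)) hκκ (fun e he i v hv => by
      by_contra h
      push Not at h
      exact he (flow_near hG.dom hfl (mem_uIA.2 ⟨i, hv⟩) h.le)) hZe hN2
  have hmaj := maj_w (K := Φ.U RS δ n) (Z := Z) (ω := ω) (θ := θ) (d := κ' * n)
    (a := Φ.ph RS δ n c) (ft := ft) (τ := τ) (N := N₂) hgd hs (by linarith) hc1 hN2 hZx w1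
    (fun x hx hx2 hx3 => by
      rw [wS_near hgd hG.dom hfl hκκ hx hx2 hx3]
      exact w2 x hx hx2 hx3)
    (fun ℓ hl hm hsm hft => by
      have : fLp θ (Φ.U RS δ n) (Φ.ph RS δ n c) ω ℓ = fLp θ (Φ.U RS δ n) (Φ.ph RS δ n 0) ω ℓ := by
        unfold fLp
        congr 1
        refine prod_congr rfl fun x hx => ?_
        obtain ⟨b1, b2, b3⟩ := mem_filter.1 hx
        exact wS_near hgd hG.dom hfl hκκ b1 b2 fun k _ =>
          hsm _ (H199.loop_iter hl b3 k) _ b3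
      rw [this]
      exact w3 ℓ hl hm hsm hft)
  set T : ℝ := Φ.Tt RS F Kt δ n ⌊δ * n / 16⌋ ω * Φ.Tj RS F Kt δ n ⌊4 * κ' * n⌋ ω with hT
  have hT0 : 0 ≤ T := mul_nonneg
    (prod_nonneg fun i _ => prod_nonneg fun k _ => F.nonneg _ _ _ _ _)
    (prod_nonneg fun i _ => prod_nonneg fun k _ => F.nonneg _ _ _ _ _)
  have hP1 : 0 ≤ ∏ i, (2 * Real.sin θ) ^ ((RS.shape (Φ.r δ n i)).L + 1) :=
    prod_nonneg fun _ _ => by positivity
  refine hflow.trans (mul_le_mul_of_nonneg_left ?_ hP1)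
  set E : ℝ := Real.exp (-(Real.tan θ * Sm (dv c) (κ' * n) ω)) with hE
  have hE0 : 0 < E := Real.exp_pos _
  have hX0 : 0 ≤ X := by linarith
  have hY0 : 0 ≤ Y := by linarith
  by_cases hTz : T = 0
  · -- a killed strand
    obtain ⟨x, hx, hx1, hx2, hx3⟩ := wz hTz
    have hx4 : wS θ (Φ.U RS δ n) (Φ.ph RS δ n c) ω x = 0 := by
      rw [wS_near (κ' := D * κ') hgd hG.dom hfl (by
        have : D * κ' * n ≤ κ / 8 * n := mul_le_mul_of_nonneg_right k2'.le hn0.le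
        linarith) hx hx1 hx2]
      exact hx3
    have hz : ∏ ℓ ∈ LE ω (bS (Φ.U RS δ n)), fLp θ (Φ.U RS δ n) (Φ.ph RS δ n c) ω ℓ = 0 := by
      obtain ⟨ℓ, hl, hxl⟩ := hgd x
      refine prod_eq_zero (mem_LE.2 ⟨hl, x, hx, hxl⟩) ?_
      unfold fLp
      rw [prod_eq_zero (mem_filter.2 ⟨hx, hx1, hxl⟩) hx4, zero_div]
    have hz' : |∏ ℓ ∈ LE ω (bS (Φ.U RS δ n)), fLp θ (Φ.U RS δ n) (Φ.ph RS δ n c) ω ℓ| = 0 := by
      rw [hz, abs_zero]
    refine (mul_eq_zero_of_right _ hz').le.trans ?_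
    rw [hTz, mul_zero]
  have hmaj2 : |∏ ℓ ∈ LE ω (bS (Φ.U RS δ n)), fLp θ (Φ.U RS δ n) (Φ.ph RS δ n c) ω ℓ| ≤
      Y ^ (N₂ + M) * (C ^ (N₂ + 1) * T) := by
    refine hmaj.trans (mul_le_mul (pow_le_pow_right₀ hY1 (by omega)) (w4 Z N₂ hZx hN2 hTz)
      (prod_nonneg fun x _ => w1 x) (by positivity))
  have hE1 : X ^ N₂ * (Y ^ (N₂ + M) * C ^ (N₂ + 1)) ≤ (X * Y * (Y ^ M * max C 1)) ^ (N₁ + N₂ + 1) := by
    clear_value X Y
    have e1 : X ^ N₂ ≤ X ^ (N₁ + N₂ + 1) := pow_le_pow_right₀ hX1 (by omega)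
    have e2 : Y ^ N₂ ≤ Y ^ (N₁ + N₂ + 1) := pow_le_pow_right₀ hY1 (by omega)
    have e3 : Y ^ M * C ^ (N₂ + 1) ≤ (Y ^ M * max C 1) ^ (N₁ + N₂ + 1) := by
      rw [mul_pow]
      refine mul_le_mul (le_self_pow₀ (one_le_pow₀ hY1) (by omega)) ?_ (by positivity)
        (by positivity)
      exact (pow_le_pow_left₀ hC.le (le_max_left _ _) _).trans
        (pow_le_pow_right₀ hC1 (by omega))
    calc X ^ N₂ * (Y ^ (N₂ + M) * C ^ (N₂ + 1)) = X ^ N₂ * Y ^ N₂ * (Y ^ M * C ^ (N₂ + 1)) := by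
          rw [pow_add]; ring
      _ ≤ X ^ (N₁ + N₂ + 1) * Y ^ (N₁ + N₂ + 1) * (Y ^ M * max C 1) ^ (N₁ + N₂ + 1) :=
          mul_le_mul (mul_le_mul e1 e2 (by positivity) (by positivity)) e3 (by positivity)
            (by positivity)
      _ = _ := by rw [← mul_pow, ← mul_pow]
  refine (mul_le_mul_of_nonneg_left hmaj2 (by positivity)).trans ?_
  calc X ^ N₂ * E * (Y ^ (N₂ + M) * (C ^ (N₂ + 1) * T))
      = (X ^ N₂ * (Y ^ (N₂ + M) * C ^ (N₂ + 1))) * (E * T) := by ring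
    _ ≤ (X * Y * (Y ^ M * max C 1)) ^ (N₁ + N₂ + 1) * (E * T) :=
        mul_le_mul_of_nonneg_right hE1 (mul_nonneg hE0.le hT0)
    _ = _ := by ring

end Vale.Agent.P167.N.ID
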