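import Vale.Agent.P167.N.ID.HosA

/-!
# P167, `q < 1`, HOS: labels of the rows which are invariant under reflections

The normalisation `Zpg` of a row with a base or a junction is not exactly invariant under the
reflections (the killed tip is at the other distance from the special point). It is comparable to
`Zlab = (2 sin θ) ^ (L + 1) * P(frozen) * ∏ a (type of the special point) (radius)`.

* `RATg`: ratio mixing around a special point.
* `Grm`: two special points look the same up to a radius.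
* `TyS`: a system of types of special points with one-point quantities `a`.
* `one_point`: the expectation of a factor is comparable to the one-point quantity.
* `zpg_lab`: `Zpg` is comparable to `Zlab`.
-/

set_option autoImplicit false

namespace Vale.Agent.P167.N.ID

open Finset MeasureTheory Filter

open Vale.Agent.P167 Vale.Agent.P167.N

open Vale.Agent.P167.BR hiding dv

open Vale.Agent.P167.FK

open Vale.Agent.P167.FKA (Loc Ind Loc.ind Ex_mono Ex_congr Ex_const Ex_nonneg cf_out)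

open Vale.Agent.P167.H519 (IsLim)

open Vale.Agent.P167.H506.Q (EF fz LF EF_const EF_mul_left EF_nonneg fz_nonneg)

open Vale.Agent.P167.H945.Q (LF.prod ind_prod nm_sub_le nm_comm nm_of_Bq Bq_of_nm)

variable {X Kx : Type} {RS : RSys X}

/-- **Ratio mixing around a special point**, all configurations outside of the box. -/
def RATg (RS : RSys X) {Kx : Type} (F : Fct RS Kx) (θ : ℝ) : Prop :=
  ∃ (Λ : ℤ) (a ρ₀ : ℝ), 1 ≤ Λ ∧ 0 < a ∧ ∀ (x : X) (k : Kx) (ρ : ℤ), F.Val x → F.Sp x k →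
    ρ₀ ≤ ρ → 8 * ρ ≤ F.mg x → ∀ η η' : Cfg, Good η → Good η' →
      (∀ v ∈ Bq (F.ctr x k) (4 * ρ), v ∈ RS.I x → η v = RS.fr x v) →
      (∀ v ∈ Bq (F.ctr x k) (4 * ρ), v ∈ RS.I x → η' v = RS.fr x v) →
      ∀ G : Cfg → ℝ, (∀ ω, 0 ≤ G ω) → Loc (Bq (F.ctr x k) (ρ / Λ)) G →
        Ex (2 * Real.cos θ) (Bq (F.ctr x k) (4 * ρ) \ RS.I x) η G ≤
          a * Ex (2 * Real.cos θ) (Bq (F.ctr x k) (4 * ρ) \ RS.I x) η' G

/-- **The special points look the same** up to the radius `ρ`. -/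
structure Grm (F : Fct RS Kx) (x : X) (k : Kx) (x' : X) (k' : Kx) (ρ : ℤ) : Prop where
  ctr : F.ctr x' k' = F.ctr x k
  I : ∀ v ∈ Bq (F.ctr x k) (4 * ρ), v ∈ RS.I x' ↔ v ∈ RS.I x
  fr : ∀ v ∈ Bq (F.ctr x k) (4 * ρ), v ∈ RS.I x → RS.fr x' v = RS.fr x v
  T : ∀ ρ' ≤ ρ, ∀ ω, Good ω →
    (∀ v ∈ Bq (F.ctr x k) (4 * ρ), v ∈ RS.I x → ω v = RS.fr x v) →
    F.T (RS.I x') x' k' ρ' ω = F.T (RS.I x) x k ρ' ω

theorem Grm.symm {F : Fct RS Kx} {x x' : X} {k k' : Kx} {ρ : ℤ} (h : Grm F x k x' k' ρ) :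
    Grm F x' k' x k ρ where
  ctr := h.ctr.symm
  I v hv := (h.I v (h.ctr ▸ hv)).symm
  fr v hv hI := (h.fr v (h.ctr ▸ hv) ((h.I v (h.ctr ▸ hv)).1 hI)).symm
  T ρ' hρ ω hg hω := (h.T ρ' hρ ω hg fun v hv hI => by
    have h1 := (h.I v hv).2 hI
    rw [hω v (h.ctr.symm ▸ hv) h1, h.fr v hv hI]).symm

/-- **A system of types** of special points with one-point quantities `a`. -/
structure TyS (F : Fct RS Kx) (P : Measure Cfg) where
  Ty : Type
  ty : X → Kx → Ty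
  a : Ty → ℤ → ℝ
  ρ₀ : ℝ
  ref : ∀ (x : X) (k : Kx) (ρ : ℤ), F.Val x → F.Sp x k → ρ₀ ≤ ρ → 8 * ρ ≤ F.mg x →
    ∃ (x' : X) (k' : Kx), F.Val x' ∧ F.Sp x' k' ∧ 8 * ρ ≤ F.mg x' ∧ Grm F x k x' k' ρ ∧
      EF P (RS.I x') (RS.fr x') (F.T (RS.I x') x' k' ρ) = a (ty x k) ρ

section one

variable {F : Fct RS Kx} {θ : ℝ} {P : Measure Cfg}

/-- **Comparison of two special points which look the same**, all boundary conditions. -/
theorem grm_le (hA : P1ag RS F θ) (hC : P1cg RS F θ)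
    (hR : RATg RS F θ) : ∃ C ρ₀ : ℝ, 0 < C ∧ ∀ (x x' : X) (k k' : Kx) (ρ : ℤ), F.Val x →
    F.Val x' → F.Sp x k → F.Sp x' k' → ρ₀ ≤ ρ → 8 * ρ ≤ F.mg x → 8 * ρ ≤ F.mg x' →
    Grm F x k x' k' ρ → ∀ η η' : Cfg, Good η → Good η' → (∀ v ∈ RS.I x, η v = RS.fr x v) →
    (∀ v ∈ RS.I x', η' v = RS.fr x' v) →
    Ex (2 * Real.cos θ) (Bq (F.ctr x k) (4 * ρ) \ RS.I x) η (F.T (RS.I x) x k ρ) ≤
      C * Ex (2 * Real.cos θ) (Bq (F.ctr x' k') (4 * ρ) \ RS.I x') η'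
        (F.T (RS.I x') x' k' ρ) := by
  obtain ⟨Λ, a, ρr, hΛ, ha, hR⟩ := hR
  have hΛ' : (1 : ℝ) ≤ Λ := by exact_mod_cast hΛ
  obtain ⟨CA, ρA, hCA, hA⟩ := hA (2 * Λ) (by linarith)
  obtain ⟨CC, ρC, hCC, hC⟩ := hC (2 * Λ) (by linarith)
  refine ⟨CC * (a * CA), max (max ρr ((Λ : ℝ) * (|ρA| + |ρC| + 2))) (2 * Λ), by positivity, ?_⟩
  intro x x' k k' ρ hx hx' hk hk' hρ hm hm' hG η η' hη hη' hf hf'
  have e1 : ρr ≤ ρ := (le_max_left _ _).trans ((le_max_left _ _).trans hρ)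
  have e2 : (Λ : ℝ) * (|ρA| + |ρC| + 2) ≤ ρ := (le_max_right _ _).trans ((le_max_left _ _).trans hρ)
  have hΛ0 : (0 : ℤ) < Λ := by omega
  have hΛ0' : (0 : ℝ) < Λ := by linarith
  -- the small radius
  set s : ℤ := ρ / Λ with hs
  have hs1 : Λ * s ≤ ρ := Int.mul_ediv_self_le (by omega)
  have hs2 : ρ < Λ * (s + 1) := by
    have := Int.lt_ediv_add_one_mul_self ρ hΛ0
    rw [mul_comm]
    exact this
  have hs2' : (ρ : ℝ) < Λ * (s + 1) := by exact_mod_cast hs2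
  have hs3 : |ρA| + |ρC| + 1 ≤ (s : ℝ) := by
    have h1 : (Λ : ℝ) * (|ρA| + |ρC| + 2) < Λ * (s + 1) := e2.trans_lt hs2'
    have h2 := lt_of_mul_lt_mul_left h1 hΛ0'.le
    linarith
  have hs4 : (1 : ℝ) ≤ s := by
    have := abs_nonneg ρA
    have := abs_nonneg ρC
    linarith
  have hs4' : (1 : ℤ) ≤ s := by exact_mod_cast hs4
  have hsρ : s ≤ ρ := by
    have : s ≤ Λ * s := le_mul_of_one_le_left (by omega) hΛ
    omega
  have hlen : (ρ : ℝ) ≤ 2 * Λ * s := by nlinarith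
  have hsA : ρA ≤ s := by
    have := le_abs_self ρA
    have := abs_nonneg ρC
    linarith
  have hsC : ρC ≤ s := by
    have := le_abs_self ρC
    have := abs_nonneg ρA
    linarith
  -- the domains agree
  have hD : Bq (F.ctr x' k') (4 * ρ) \ RS.I x' = Bq (F.ctr x k) (4 * ρ) \ RS.I x := by
    rw [hG.ctr]
    ext v
    rw [Finset.mem_sdiff, Finset.mem_sdiff]
    constructor
    · rintro ⟨h1, h2⟩
      exact ⟨h1, fun h3 => h2 ((hG.I v h1).2 h3)⟩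
    · rintro ⟨h1, h2⟩
      exact ⟨h1, fun h3 => h2 ((hG.I v h1).1 h3)⟩
  have hf'' : ∀ v ∈ Bq (F.ctr x k) (4 * ρ), v ∈ RS.I x → η' v = RS.fr x v := fun v hv hI => by
    rw [hf' v ((hG.I v hv).2 hI), hG.fr v hv hI]
  -- change of the factor
  have hT : Ex (2 * Real.cos θ) (Bq (F.ctr x k) (4 * ρ) \ RS.I x) η' (F.T (RS.I x) x k s) =
      Ex (2 * Real.cos θ) (Bq (F.ctr x' k') (4 * ρ) \ RS.I x') η' (F.T (RS.I x') x' k' s) := by
    rw [hD]
    refine Ex_congr fun S _ => (hG.T s hsρ _ (f_good.1 _ _ _ hη') fun v hv hI => ?_).symm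
    rw [cf_out fun h => (Finset.mem_sdiff.1 h).2 hI]
    exact hf'' v hv hI
  calc Ex (2 * Real.cos θ) (Bq (F.ctr x k) (4 * ρ) \ RS.I x) η (F.T (RS.I x) x k ρ)
      ≤ CC * Ex (2 * Real.cos θ) (Bq (F.ctr x k) (4 * ρ) \ RS.I x) η (F.T (RS.I x) x k s) :=
        hC x k s ρ hx hk hsC hsρ hlen hm η hη hf
    _ ≤ CC * (a * Ex (2 * Real.cos θ) (Bq (F.ctr x k) (4 * ρ) \ RS.I x) η'
          (F.T (RS.I x) x k s)) := by
        refine mul_le_mul_of_nonneg_left ?_ hCC.le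
        exact hR x k ρ hx hk e1 hm η η' hη hη' (fun v _ hI => hf v hI) hf'' _
          (fun ω => F.nonneg _ _ _ _ _) (F.loc _ _ _ _)
    _ = CC * (a * Ex (2 * Real.cos θ) (Bq (F.ctr x' k') (4 * ρ) \ RS.I x') η'
          (F.T (RS.I x') x' k' s)) := by rw [hT]
    _ ≤ CC * (a * (CA * Ex (2 * Real.cos θ) (Bq (F.ctr x' k') (4 * ρ) \ RS.I x') η'
          (F.T (RS.I x') x' k' ρ))) := by
        refine mul_le_mul_of_nonneg_left (mul_le_mul_of_nonneg_left ?_ ha.le) hCC.le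
        exact hA x' k' s ρ hx' hk' hsA hsρ hlen hm' η' hη' hf'
    _ = _ := by ring

/-- **One-point quantities**: the expectation of the factor is comparable to the quantity of the
type, for all boundary conditions. -/
theorem one_point (hQ : Kit (2 * Real.cos θ)) (hP : IsLim (2 * Real.cos θ) P)
    (hg : ∀ᵐ ω ∂P, Good ω) (hA : P1ag RS F θ) (hC : P1cg RS F θ) (hR : RATg RS F θ)
    (S : TyS F P) : ∃ C ρ₀ : ℝ, 0 < C ∧ ∀ (x : X) (k : Kx) (ρ : ℤ), F.Val x → F.Sp x k →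
    ρ₀ ≤ ρ → 8 * ρ ≤ F.mg x → ∀ η : Cfg, Good η → (∀ v ∈ RS.I x, η v = RS.fr x v) →
      Ex (2 * Real.cos θ) (Bq (F.ctr x k) (4 * ρ) \ RS.I x) η (F.T (RS.I x) x k ρ) ≤
        C * S.a (S.ty x k) ρ ∧
      S.a (S.ty x k) ρ ≤
        C * Ex (2 * Real.cos θ) (Bq (F.ctr x k) (4 * ρ) \ RS.I x) η (F.T (RS.I x) x k ρ) := by
  obtain ⟨C, ρ₁, hC0, key⟩ := grm_le hA hC hR
  refine ⟨C, max ρ₁ S.ρ₀, hC0, fun x k ρ hx hk hρ hm η hη hf => ?_⟩
  have h1 : ρ₁ ≤ ρ := (le_max_left _ _).trans hρ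
  obtain ⟨x', k', hx', hk', hm', hG, ha⟩ := S.ref x k ρ hx hk ((le_max_right _ _).trans hρ) hm
  have hp := Vale.Agent.P167.N.H506.Q.fz_pos hQ hP hg (RS.I x') (RS.fr x')
  have hLT : LF (F.T (RS.I x') x' k' ρ) := ⟨_, F.loc _ _ _ _⟩
  have hLc : ∀ c : ℝ, LF fun _ : Cfg => c := fun c => ⟨∅, fun _ _ _ => rfl⟩
  have hG1 : Ind (Bq (F.ctr x' k') (4 * ρ) \ RS.I x') fun _ : Cfg => (1 : ℝ) :=
    fun _ _ _ => rfl
  have hdis : Disjoint (Bq (F.ctr x' k') (4 * ρ) \ RS.I x') (RS.I x') := disjoint_sdiff_self_left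
  constructor
  · have h2 := Vale.Agent.P167.N.H945.Q.EF_lift hQ hP hg hdis (σ := RS.fr x')
      (G := fun _ => 1) (fun _ => zero_le_one) hG1 (hLc 1)
      (hLc (Ex (2 * Real.cos θ) (Bq (F.ctr x k) (4 * ρ) \ RS.I x) η (F.T (RS.I x) x k ρ)))
      hLT (C := C) fun ζ hζ hζf => by
        rw [Ex_const hQ.pos]
        exact key x x' k k' ρ hx hx' hk hk' h1 hm hm' hG η ζ hη hζ hf hζf
    simp only [one_mul] at h2
    rw [EF_const hp, ha] at h2
    exact h2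
  · have h2 := Vale.Agent.P167.N.H945.Q.EF_lift hQ hP hg hdis (σ := RS.fr x')
      (G := fun _ => 1) (fun _ => zero_le_one) hG1 (hLc 1) hLT
      (hLc (Ex (2 * Real.cos θ) (Bq (F.ctr x k) (4 * ρ) \ RS.I x) η (F.T (RS.I x) x k ρ)))
      (C := C) fun ζ hζ hζf => by
        rw [Ex_const hQ.pos]
        exact key x' x k' k ρ hx' hx hk' hk h1 hm' hm hG.symm ζ η hζ hη hζf hf
    simp only [one_mul] at h2
    rw [EF_const hp, ha] at h2
    exact h2

end one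

/-- **The invariant label** of a row. -/
noncomputable def Zlab {F : Fct RS Kx} {P : Measure Cfg} [Fintype Kx] (S : TyS F P) (θ : ℝ)
    (_n : ℕ) (x : X) : ℝ := by
  classical
  exact (2 * Real.sin θ) ^ ((RS.shape x).L + 1) * ((∫ ω, fz (RS.I x) (RS.fr x) ω ∂P) *
    ∏ k, if F.Sp x k then S.a (S.ty x k) ((F.mg x / 8 : ℕ) : ℤ) else 1)

section lab

variable {F : Fct RS Kx} {θ : ℝ} {P : Measure Cfg}

theorem TyS.a_nonneg (S : TyS F P) {x : X} {k : Kx} {ρ : ℤ} (hx : F.Val x) (hk : F.Sp x k)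
    (hρ : S.ρ₀ ≤ ρ) (hm : 8 * ρ ≤ F.mg x) : 0 ≤ S.a (S.ty x k) ρ := by
  obtain ⟨x', k', -, -, -, -, h⟩ := S.ref x k ρ hx hk hρ hm
  rw [← h]
  exact EF_nonneg fun ω => F.nonneg _ _ _ _ _

/-- **The product of the factors of one row** is comparable to the product of the one-point
quantities. -/
theorem prod_lab (hQ : Kit (2 * Real.cos θ)) (hP : IsLim (2 * Real.cos θ) P)
    (hg : ∀ᵐ ω ∂P, Good ω) (hA : P1ag RS F θ) (hC : P1cg RS F θ) (hR : RATg RS F θ)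
    (S : TyS F P) : ∃ C ρ₀ : ℝ, 1 ≤ C ∧ ∀ (x : X) (ρ : ℤ), F.Val x → ρ₀ ≤ ρ → 8 * ρ ≤ F.mg x →
    ∀ (s : Finset Kx) (b : Kx → ℝ), (∀ k, F.Sp x k → b k = S.a (S.ty x k) ρ) →
      (∀ k, ¬ F.Sp x k → b k = 1) →
      EF P (RS.I x) (RS.fr x) (fun ω => ∏ k ∈ s, F.T (RS.I x) x k ρ ω) ≤
        C ^ s.card * ∏ k ∈ s, b k ∧
      ∏ k ∈ s, b k ≤
        C ^ s.card * EF P (RS.I x) (RS.fr x) (fun ω => ∏ k ∈ s, F.T (RS.I x) x k ρ ω) := by
  classical
  obtain ⟨C, ρ₁, hC0, key⟩ := one_point hQ hP hg hA hC hR S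
  refine ⟨max C 1, max (max ρ₁ S.ρ₀) 1, le_max_right _ _, fun x ρ hx hρ hm s b hb hb' => ?_⟩
  have r1 : ρ₁ ≤ ρ := (le_max_left _ _).trans ((le_max_left _ _).trans hρ)
  have r2 : S.ρ₀ ≤ ρ := (le_max_right _ _).trans ((le_max_left _ _).trans hρ)
  have r3 : (1 : ℤ) ≤ ρ := by
    have h : (1 : ℝ) ≤ ρ := (le_max_right _ _).trans hρ
    exact_mod_cast h
  have hm1 : 1 ≤ F.mg x := by omega
  have hb0 : ∀ k, 0 ≤ b k := fun k => by
    by_cases hk : F.Sp x k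
    · rw [hb k hk]
      exact S.a_nonneg hx hk r2 hm
    · rw [hb' k hk]
      exact zero_le_one
  have hp := Vale.Agent.P167.N.H506.Q.fz_pos hQ hP hg (RS.I x) (RS.fr x)
  have hC1 : 1 ≤ max C 1 := le_max_right _ _
  have hCle : C ≤ max C 1 := le_max_left _ _
  obtain ⟨C', hC'⟩ : ∃ C', C' = max C 1 := ⟨_, rfl⟩
  rw [← hC'] at hC1 hCle ⊢
  have hC'0 : 0 < C' := by linarith
  have hLc : ∀ c : ℝ, LF fun _ : Cfg => c := fun c => ⟨∅, fun _ _ _ => rfl⟩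
  induction s using Finset.induction_on with
  | empty =>
    simp only [prod_empty, card_empty, pow_zero, one_mul]
    rw [EF_const hp]
    exact ⟨le_rfl, le_rfl⟩
  | insert k s hks ih =>
    obtain ⟨ih1, ih2⟩ := ih
    have hP0 : 0 ≤ ∏ j ∈ s, b j := prod_nonneg fun j _ => hb0 j
    have hE0 : 0 ≤ EF P (RS.I x) (RS.fr x) (fun ω => ∏ k ∈ s, F.T (RS.I x) x k ρ ω) :=
      EF_nonneg fun ω => prod_nonneg fun j _ => F.nonneg _ _ _ _ _
    rw [card_insert_of_notMem hks, prod_insert hks]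
    have e1 : (fun ω => ∏ j ∈ insert k s, F.T (RS.I x) x j ρ ω) =
        fun ω => (∏ j ∈ s, F.T (RS.I x) x j ρ ω) * F.T (RS.I x) x k ρ ω := by
      funext ω
      rw [prod_insert hks, mul_comm]
    rw [e1]
    by_cases hk : F.Sp x k
    · -- a special point
      have hind : Ind (Bq (F.ctr x k) (4 * ρ) \ RS.I x)
          fun ω => ∏ j ∈ s, F.T (RS.I x) x j ρ ω := by
        refine ind_prod _ fun j hj => ?_
        by_cases hj' : F.Sp x j
        · refine Loc.ind ?_ (F.loc _ _ _ _)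
          rw [Finset.disjoint_left]
          intro v hv hv'
          have h1 := nm_of_Bq hv
          have h2 := nm_of_Bq (Finset.mem_sdiff.1 hv').1
          have h3 := F.sep hx hm1 hk hj' fun h => hks (h ▸ hj)
          have h4 := nm_sub_le (F.ctr x k) v (F.ctr x j)
          rw [nm_comm (F.ctr x k) v] at h4
          omega
        · intro ω ω' _
          rw [F.plain hj', F.plain hj']
      have hgl : LF fun ω => ∏ j ∈ s, F.T (RS.I x) x j ρ ω :=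
        LF.prod _ fun j _ => ⟨_, F.loc _ _ _ _⟩
      have hg0 : ∀ ω, 0 ≤ ∏ j ∈ s, F.T (RS.I x) x j ρ ω := fun ω =>
        prod_nonneg fun j _ => F.nonneg _ _ _ _ _
      have hdis : Disjoint (Bq (F.ctr x k) (4 * ρ) \ RS.I x) (RS.I x) :=
        disjoint_sdiff_self_left
      have hLT : LF (F.T (RS.I x) x k ρ) := ⟨_, F.loc _ _ _ _⟩
      have h1 := Vale.Agent.P167.N.H945.Q.EF_lift hQ hP hg hdis (σ := RS.fr x) hg0 hind hgl hLT
        (hLc (b k)) (C := C) fun ζ hζ hζf => by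
          rw [Ex_const hQ.pos, hb k hk]
          exact (key x k ρ hx hk r1 hm ζ hζ hζf).1
      have h2 := Vale.Agent.P167.N.H945.Q.EF_lift hQ hP hg hdis (σ := RS.fr x) hg0 hind hgl
        (hLc (b k)) hLT (C := C) fun ζ hζ hζf => by
          rw [Ex_const hQ.pos, hb k hk]
          exact (key x k ρ hx hk r1 hm ζ hζ hζf).2
      have e2 : EF P (RS.I x) (RS.fr x) (fun ω => (∏ j ∈ s, F.T (RS.I x) x j ρ ω) * b k) =
          b k * EF P (RS.I x) (RS.fr x) (fun ω => ∏ j ∈ s, F.T (RS.I x) x j ρ ω) := by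
        rw [← EF_mul_left]
        congr 1
        funext ω
        ring
      rw [e2] at h1 h2
      have hET0 : 0 ≤ EF P (RS.I x) (RS.fr x)
          (fun ω => (∏ j ∈ s, F.T (RS.I x) x j ρ ω) * F.T (RS.I x) x k ρ ω) :=
        EF_nonneg fun ω => mul_nonneg (hg0 ω) (F.nonneg _ _ _ _ _)
      constructor
      · calc EF P (RS.I x) (RS.fr x)
              (fun ω => (∏ j ∈ s, F.T (RS.I x) x j ρ ω) * F.T (RS.I x) x k ρ ω)
            ≤ C * (b k * EF P (RS.I x) (RS.fr x)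
                (fun ω => ∏ j ∈ s, F.T (RS.I x) x j ρ ω)) := h1
          _ ≤ C' * (b k * (C' ^ s.card * ∏ j ∈ s, b j)) := by
              have := hb0 k
              gcongr
          _ = _ := by ring
      · calc b k * ∏ j ∈ s, b j
            ≤ b k * (C' ^ s.card * EF P (RS.I x) (RS.fr x)
                (fun ω => ∏ k ∈ s, F.T (RS.I x) x k ρ ω)) :=
              mul_le_mul_of_nonneg_left ih2 (hb0 k)
          _ = C' ^ s.card * (b k * EF P (RS.I x) (RS.fr x)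
                (fun ω => ∏ k ∈ s, F.T (RS.I x) x k ρ ω)) := by ring
          _ ≤ C' ^ s.card * (C * EF P (RS.I x) (RS.fr x)
                (fun ω => (∏ j ∈ s, F.T (RS.I x) x j ρ ω) * F.T (RS.I x) x k ρ ω)) := by
              gcongr
          _ ≤ C' ^ s.card * (C' * EF P (RS.I x) (RS.fr x)
                (fun ω => (∏ j ∈ s, F.T (RS.I x) x j ρ ω) * F.T (RS.I x) x k ρ ω)) := by
              gcongr
          _ = _ := by ring
    · -- no special point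
      have e3 : (fun ω => (∏ j ∈ s, F.T (RS.I x) x j ρ ω) * F.T (RS.I x) x k ρ ω) =
          fun ω => ∏ j ∈ s, F.T (RS.I x) x j ρ ω := by
        funext ω
        rw [F.plain hk, mul_one]
      rw [e3, hb' k hk, one_mul]
      have h1 : C' ^ s.card ≤ C' ^ (s.card + 1) := pow_le_pow_right₀ hC1 (Nat.le_succ _)
      exact ⟨ih1.trans (mul_le_mul_of_nonneg_right h1 hP0),
        ih2.trans (mul_le_mul_of_nonneg_right h1 hE0)⟩

/-- **The normalisation is comparable to the invariant label**, one row. -/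
theorem zpg_lab_one [Fintype Kx] (hs : 0 < Real.sin θ) (hQ : Kit (2 * Real.cos θ))
    (hP : IsLim (2 * Real.cos θ) P) (hg : ∀ᵐ ω ∂P, Good ω) (hA : P1ag RS F θ) (hC : P1cg RS F θ)
    (hR : RATg RS F θ) (S : TyS F P) : ∃ C ρ₀ : ℝ, 1 ≤ C ∧ ∀ (n : ℕ) (x : X), F.Val x →
    ρ₀ ≤ F.mg x → Zpg RS F θ P n x ≤ C * Zlab S θ n x ∧ Zlab S θ n x ≤ C * Zpg RS F θ P n x := by
  classical
  obtain ⟨C, ρ₀, hC1, key⟩ := prod_lab hQ hP hg hA hC hR S
  have hC0 : 0 < C := by linarith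
  refine ⟨C ^ (univ : Finset Kx).card, 8 * (|ρ₀| + 1), one_le_pow₀ hC1, fun n x hx hm => ?_⟩
  have hp := Vale.Agent.P167.N.H506.Q.fz_pos hQ hP hg (RS.I x) (RS.fr x)
  have h8 : 8 * (((F.mg x / 8 : ℕ) : ℤ)) ≤ F.mg x := by
    have := Nat.mul_div_le (F.mg x) 8
    exact_mod_cast this
  have h9 : ρ₀ ≤ (((F.mg x / 8 : ℕ) : ℤ) : ℝ) := by
    have h1 : F.mg x < 8 * (F.mg x / 8 + 1) := by omega
    have h2 : ((F.mg x : ℕ) : ℝ) < 8 * (((F.mg x / 8 : ℕ) : ℝ) + 1) := by exact_mod_cast h1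
    have h3 := le_abs_self ρ₀
    rw [Int.cast_natCast]
    linarith
  obtain ⟨k1, k2⟩ := key x ((F.mg x / 8 : ℕ) : ℤ) hx h9 h8 univ
    (fun k => if F.Sp x k then S.a (S.ty x k) ((F.mg x / 8 : ℕ) : ℤ) else 1)
    (fun k hk => by simp only [hk, if_true]) fun k hk => by simp only [hk, if_false]
  have e1 : ∫ ω, fz (RS.I x) (RS.fr x) ω *
      ∏ k, F.T (RS.I x) x k ((F.mg x / 8 : ℕ) : ℤ) ω ∂P =
      (∫ ω, fz (RS.I x) (RS.fr x) ω ∂P) * EF P (RS.I x) (RS.fr x)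
        (fun ω => ∏ k, F.T (RS.I x) x k ((F.mg x / 8 : ℕ) : ℤ) ω) := by
    unfold EF
    field_simp
  have hs0 : 0 < (2 * Real.sin θ) ^ ((RS.shape x).L + 1) := by positivity
  unfold Zpg Zlab
  rw [e1]
  constructor
  · calc (2 * Real.sin θ) ^ ((RS.shape x).L + 1) * ((∫ ω, fz (RS.I x) (RS.fr x) ω ∂P) *
          EF P (RS.I x) (RS.fr x) (fun ω => ∏ k, F.T (RS.I x) x k ((F.mg x / 8 : ℕ) : ℤ) ω))
        ≤ (2 * Real.sin θ) ^ ((RS.shape x).L + 1) * ((∫ ω, fz (RS.I x) (RS.fr x) ω ∂P) *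
          (C ^ (univ : Finset Kx).card *
            ∏ k, if F.Sp x k then S.a (S.ty x k) ((F.mg x / 8 : ℕ) : ℤ) else 1)) :=
          mul_le_mul_of_nonneg_left (mul_le_mul_of_nonneg_left k1 hp.le) hs0.le
      _ = _ := by ring
  · calc (2 * Real.sin θ) ^ ((RS.shape x).L + 1) * ((∫ ω, fz (RS.I x) (RS.fr x) ω ∂P) *
          ∏ k, if F.Sp x k then S.a (S.ty x k) ((F.mg x / 8 : ℕ) : ℤ) else 1)
        ≤ (2 * Real.sin θ) ^ ((RS.shape x).L + 1) * ((∫ ω, fz (RS.I x) (RS.fr x) ω ∂P) *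
          (C ^ (univ : Finset Kx).card *
            EF P (RS.I x) (RS.fr x)
              (fun ω => ∏ k, F.T (RS.I x) x k ((F.mg x / 8 : ℕ) : ℤ) ω))) :=
          mul_le_mul_of_nonneg_left (mul_le_mul_of_nonneg_left k2 hp.le) hs0.le
      _ = _ := by ring

/-- **The normalisation is comparable to the invariant label**. -/
theorem zpg_lab [Fintype Kx] (hs : 0 < Real.sin θ) (hQ : Kit (2 * Real.cos θ))
    (hP : IsLim (2 * Real.cos θ) P) (hg : ∀ᵐ ω ∂P, Good ω) (hA : P1ag RS F θ) (hC : P1cg RS F θ)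
    (hR : RATg RS F θ) (S : TyS F P) {Ok : ℝ → ℕ → X → Prop}
    (hOk : ∀ {κ : ℝ} {n : ℕ} {x : X}, Ok κ n x → F.Val x ∧ κ * n ≤ F.mg x) :
    ∃ C : ℝ, 1 ≤ C ∧ ∀ κ : ℝ, 0 < κ → ∀ᶠ n : ℕ in atTop, ∀ x, Ok κ n x →
      Zpg RS F θ P n x ≤ C * Zlab S θ n x ∧ Zlab S θ n x ≤ C * Zpg RS F θ P n x := by
  obtain ⟨C, ρ₀, hC1, key⟩ := zpg_lab_one hs hQ hP hg hA hC hR S
  refine ⟨C, hC1, fun κ hκ => ?_⟩
  filter_upwards [(tendsto_natCast_atTop_atTop.const_mul_atTop hκ).eventually_ge_atTop ρ₀]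
    with n hn x hx
  obtain ⟨h1, h2⟩ := hOk hx
  exact key n x h1 (hn.trans h2)

/-- **HOS with the invariant label.** -/
theorem hosrg_lab [Fintype Kx] {S : TyS F P} {Ok : ℝ → ℕ → X → Prop} {C : ℝ} (hC1 : 1 ≤ C)
    (h : ∀ κ : ℝ, 0 < κ → ∀ᶠ n : ℕ in atTop, ∀ x, Ok κ n x →
      Zpg RS F θ P n x ≤ C * Zlab S θ n x ∧ Zlab S θ n x ≤ C * Zpg RS F θ P n x)
    (hs : 0 < Real.sin θ) (hH : HOSRg RS Ok θ P (Zpg RS F θ P)) :
    HOSRg RS Ok θ P (Zlab S θ) := by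
  intro κ R B M hκ
  obtain ⟨C₁, hC₁, hev⟩ := hH κ R B M hκ
  refine ⟨C₁ * C ^ M, by positivity, ?_⟩
  filter_upwards [hev, h κ hκ] with n h1 h2
  intro ι _ r c hc hM hA hr hL σ hσ
  refine (h1 ι r c hc hM hA hr hL σ hσ).trans ?_
  rw [mul_assoc]
  refine mul_le_mul_of_nonneg_left ?_ hC₁.le
  have hZ : ∀ x, 0 ≤ Zpg RS F θ P n x := fun x =>
    mul_nonneg (by positivity) (integral_nonneg fun ω => mul_nonneg (fz_nonneg _ _ _)
      (prod_nonneg fun k _ => F.nonneg _ _ _ _ _))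
  have hZl : ∀ i, 0 ≤ Zlab S θ n (r i) := fun i => by
    have h3 := (h2 (r i) (hr i)).1
    have h4 := hZ (r i)
    by_contra hn
    push Not at hn
    have : C * Zlab S θ n (r i) < 0 := mul_neg_of_pos_of_neg (by linarith) hn
    linarith
  calc ∏ i, Zpg RS F θ P n (r i) ≤ ∏ i, (C * Zlab S θ n (r i)) :=
        prod_le_prod (fun i _ => hZ _) fun i _ => (h2 (r i) (hr i)).1
    _ = C ^ Fintype.card ι * ∏ i, Zlab S θ n (r i) := by
        rw [prod_mul_distrib, prod_const, card_univ]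
    _ ≤ C ^ M * ∏ i, Zlab S θ n (r i) :=
        mul_le_mul_of_nonneg_right (pow_le_pow_right₀ hC1 hM) (prod_nonneg fun i _ => hZl i)

end lab

end Vale.Agent.P167.N.ID
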