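import Vale.Agent.P167.N.ID.StA
import Vale.Agent.P167.N.ID.HosD
import Vale.Agent.P167.N.ID.Lab

/-!
# P167, `q < 1`, START: the product of the normalisations of the rows

`p3sg`: `P3Sg` for an abstract family of frames, from its geometry and the comparison of the radii
in both directions; `p3sg_lab`: the same for the invariant label.
-/

set_option autoImplicit false

namespace Vale.Agent.P167.N.ID

open Finset MeasureTheory Filter

open Vale.Agent.P167 Vale.Agent.P167.N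

open Vale.Agent.P167.BR hiding dv

open Vale.Agent.P167.FK

open Vale.Agent.P167.FKA (Loc Ind Loc.ind Ex_mono Ex_congr Ex_nonneg)

open Vale.Agent.P167.H519 (IsLim)

open Vale.Agent.P167.H199 (Rsc nbh mem_nbh Cw Cw_pos subset_nbh)

open Vale.Agent.P167.H506.Q (EF fz LF EF_nonneg fz_nonneg fz_loc)

open Vale.Agent.P167.H945.Q (nm_sub_le nm_comm nm_of_Bq Bq_of_nm rsc_of sep_sq exists_sq LF.prod
  ind_prod)

variable {X : Type} {RS : RSys X} {Kx : Type} {F : Fct RS Kx} {θ : ℝ}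

section chg

variable {ι : Type} [Fintype ι] {r : ι → X}

/-- The factors with the radii `s`, all frozen squares. -/
noncomputable def fR (F : Fct RS Kx) (r : ι → X) (s : ι × Kx → ℤ) (p : ι × Kx) (ω : Cfg) : ℝ :=
  F.T (RS.uI r) (r p.1) p.2 (s p) ω

theorem fR_nonneg (F : Fct RS Kx) (r : ι → X) (s : ι × Kx → ℤ) (p : ι × Kx) (ω : Cfg) :
    0 ≤ fR F r s p ω := F.nonneg _ _ _ _ _

theorem fR_loc (F : Fct RS Kx) (r : ι → X) (s : ι × Kx → ℤ) (p : ι × Kx) :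
    Loc (F.bx (r p.1) p.2 (s p)) (fR F r s p) := F.loc' _ _ _ _

/-- **Zones of the special points**: boxes of radius `W`; the factors have radii at most `S`. -/
structure ZnA (F : Fct RS Kx) (r : ι → X) (W S : ι × Kx → ℤ) : Prop where
  val : ∀ i, F.Val (r i) ∧ 1 ≤ F.mg (r i)
  own : ∀ q : ι × Kx, F.Sp (r q.1) q.2 → ∀ v ∈ Bq (F.ctr (r q.1) q.2) (W q), v ∈ RS.uI r →
    v ∈ RS.I (r q.1)
  tch : ∀ (i : ι) (e : Ed), hdv e ∈ RS.I (r i) → tlv e ∈ RS.uI r → tlv e ∈ RS.I (r i)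
  sep : ∀ q q' : ι × Kx, q ≠ q' → F.Sp (r q.1) q.2 → F.Sp (r q'.1) q'.2 →
    W q + S q' < nm (F.ctr (r q.1) q.2 - F.ctr (r q'.1) q'.2)

/-- The other rows are not seen. -/
theorem ZnA.T_eq {W S : ι × Kx → ℤ} (hZ : ZnA F r W S)
    {q : ι × Kx} (hq : F.Sp (r q.1) q.2) {t : ℤ} (ht : t ≤ W q) (ω : Cfg) :
    F.T (RS.uI r) (r q.1) q.2 t ω = F.T (RS.I (r q.1)) (r q.1) q.2 t ω :=
  F.own (hZ.val q.1).1 (hZ.val q.1).2 (fun _ hv => mem_uIA.2 ⟨_, hv⟩)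
    (fun _ hv' h => hZ.own q hq _ (bq_le ht hv') h) fun e he h => hZ.tch q.1 e he h

variable [Fintype Kx]

/-- **Change of one radius**, in the presence of all rows. -/
theorem fR_step (h1 : Ang θ) {P : Measure Cfg} (hP : IsLim (2 * Real.cos θ) P)
    (hg : ∀ᵐ ω ∂P, Good ω) {σ : Cfg} (hσ : RS.Frz r σ) {W S : ι × Kx → ℤ} (hZ : ZnA F r W S)
    [DecidableEq ι] [DecidableEq Kx] {q : ι × Kx} {t : ℤ} {C : ℝ} (hC : 1 ≤ C)
    {s : ι × Kx → ℤ} (hs : ∀ p, s p ≤ S p) (ht : t ≤ W q) (hsq : s q ≤ W q)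
    (h : F.Sp (r q.1) q.2 → ∀ η : Cfg, Good η → (∀ v ∈ RS.I (r q.1), η v = RS.fr (r q.1) v) →
      Ex (2 * Real.cos θ) (Bq (F.ctr (r q.1) q.2) (W q) \ RS.I (r q.1)) η
          (F.T (RS.I (r q.1)) (r q.1) q.2 (s q)) ≤
        C * Ex (2 * Real.cos θ) (Bq (F.ctr (r q.1) q.2) (W q) \ RS.I (r q.1)) η
          (F.T (RS.I (r q.1)) (r q.1) q.2 t)) :
    EF P (RS.uI r) σ (PG (fR F r s)) ≤
      C * EF P (RS.uI r) σ (PG (fR F r (Function.update s q t))) := by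
  have e1 : ∀ (u : ℤ) (ω : Cfg), PG (fR F r (Function.update s q u)) ω =
      (∏ l ∈ univ.erase q, fR F r s l ω) * F.T (RS.uI r) (r q.1) q.2 u ω := by
    intro u ω
    unfold PG
    rw [← Finset.prod_erase_mul univ _ (mem_univ q)]
    congr 1
    · refine prod_congr rfl fun l hl => ?_
      unfold fR
      rw [Function.update_of_ne (ne_of_mem_erase hl)]
    · unfold fR
      rw [Function.update_self]
  have e2 : PG (fR F r s) = fun ω => (∏ l ∈ univ.erase q, fR F r s l ω) *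
      F.T (RS.uI r) (r q.1) q.2 (s q) ω := by
    funext ω
    rw [← e1, Function.update_eq_self]
  have e3 : PG (fR F r (Function.update s q t)) = fun ω =>
      (∏ l ∈ univ.erase q, fR F r s l ω) * F.T (RS.uI r) (r q.1) q.2 t ω := funext (e1 t)
  rw [e2, e3]
  by_cases hk : F.Sp (r q.1) q.2
  · have hD : Disjoint (Bq (F.ctr (r q.1) q.2) (W q) \ RS.I (r q.1)) (RS.uI r) := by
      rw [Finset.disjoint_left]
      intro v hv hv'
      obtain ⟨hv1, hv2⟩ := Finset.mem_sdiff.1 hv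
      exact hv2 (hZ.own q hk v hv1 hv')
    refine EF_chgG (K := RS.uI r) (σ := σ) (Bx := fun l => F.bx (r l.1) l.2 (s l)) h1.kit hP hg
      (fR_nonneg F r s) (fR_loc F r s)
      (D1 := Bq (F.ctr (r q.1) q.2) (W q) \ RS.I (r q.1)) hD ?_ ⟨_, F.loc _ _ _ _⟩
      ⟨_, F.loc _ _ _ _⟩ fun ζ hζ hk' => ?_
    · intro l hl
      rw [Finset.disjoint_left]
      intro v hv hv'
      obtain ⟨hl', hv⟩ := Fct.mem_bx.1 hv
      have h2 := hZ.sep q l (Ne.symm hl) hk hl'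
      have h3 := nm_of_Bq hv
      have h4 := nm_of_Bq (Finset.mem_sdiff.1 hv').1
      have h5 := nm_sub_le (F.ctr (r q.1) q.2) v (F.ctr (r l.1) l.2)
      rw [nm_comm (F.ctr (r q.1) q.2) v] at h5
      have h6 := hs l
      linarith
    · have e4 : ∀ u ≤ W q, F.T (RS.uI r) (r q.1) q.2 u = F.T (RS.I (r q.1)) (r q.1) q.2 u :=
        fun u hu => funext fun ω => hZ.T_eq hk hu ω
      rw [e4 _ hsq, e4 _ ht]
      exact h hk ζ hζ fun v hv => by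
        rw [hk' v (mem_uIA.2 ⟨_, hv⟩)]
        exact hσ _ v hv
  · have e : ∀ R ω, F.T (RS.uI r) (r q.1) q.2 R ω = 1 := fun R ω => F.plain hk
    simp only [e, mul_one]
    have hE : 0 ≤ EF P (RS.uI r) σ (fun ω => ∏ l ∈ univ.erase q, fR F r s l ω) :=
      EF_nonneg fun ω => prod_nonneg fun _ _ => fR_nonneg _ _ _ _ _
    exact le_mul_of_one_le_left hE hC

/-- **Change of all radii**, in the presence of all rows. -/
theorem fR_all (h1 : Ang θ) {P : Measure Cfg} (hP : IsLim (2 * Real.cos θ) P)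
    (hg : ∀ᵐ ω ∂P, Good ω) {σ : Cfg} (hσ : RS.Frz r σ) {W S s t : ι × Kx → ℤ}
    (hZ : ZnA F r W S) (hs : ∀ p, s p ≤ S p) (ht : ∀ p, t p ≤ S p) (hsW : ∀ p, s p ≤ W p)
    (htW : ∀ p, t p ≤ W p) {C : ℝ} (hC : 1 ≤ C)
    (h : ∀ q : ι × Kx, F.Sp (r q.1) q.2 → ∀ η : Cfg, Good η →
      (∀ v ∈ RS.I (r q.1), η v = RS.fr (r q.1) v) →
      Ex (2 * Real.cos θ) (Bq (F.ctr (r q.1) q.2) (W q) \ RS.I (r q.1)) η
          (F.T (RS.I (r q.1)) (r q.1) q.2 (s q)) ≤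
        C * Ex (2 * Real.cos θ) (Bq (F.ctr (r q.1) q.2) (W q) \ RS.I (r q.1)) η
          (F.T (RS.I (r q.1)) (r q.1) q.2 (t q))) :
    EF P (RS.uI r) σ (PG (fR F r s)) ≤
      C ^ Fintype.card (ι × Kx) * EF P (RS.uI r) σ (PG (fR F r t)) := by
  classical
  have hC0 : 0 ≤ C := by linarith
  have key : ∀ J : Finset (ι × Kx), EF P (RS.uI r) σ (PG (fR F r s)) ≤
      C ^ J.card * EF P (RS.uI r) σ (PG (fR F r fun l => if l ∈ J then t l else s l)) := by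
    intro J
    induction J using Finset.induction_on with
    | empty => simp
    | insert a J ha ih =>
      refine ih.trans ?_
      rw [card_insert_of_notMem ha, pow_succ, mul_assoc]
      refine mul_le_mul_of_nonneg_left ?_ (pow_nonneg hC0 _)
      have h2 := fR_step h1 hP hg hσ hZ (q := a) (t := t a) hC
        (s := fun l => if l ∈ J then t l else s l) (fun l => by
          show (if l ∈ J then t l else s l) ≤ S l
          split_ifs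
          · exact ht l
          · exact hs l) (htW a) (by
          show (if a ∈ J then t a else s a) ≤ W a
          rw [if_neg ha]
          exact hsW a) (fun hk η hη hf => by
          show Ex _ _ _ (F.T _ _ _ (if a ∈ J then t a else s a)) ≤ _
          rw [if_neg ha]
          exact h a hk η hη hf)
      have e : Function.update (fun l => if l ∈ J then t l else s l) a (t a) =
          fun l => if l ∈ insert a J then t l else s l := by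
        funext l
        by_cases hl : l = a
        · subst hl
          rw [Function.update_self, if_pos (mem_insert_self _ _)]
        · rw [Function.update_of_ne hl]
          simp [hl]
      rw [e] at h2
      exact h2
  have := key univ
  simpa using this

end chg

/-! ### one row -/

theorem uI_unitA (x : X) : RS.uI (fun _ : Unit => x) = RS.I x := by
  ext v
  rw [mem_uIA]
  exact ⟨fun ⟨_, h⟩ => h, fun h => ⟨(), h⟩⟩

theorem PG_unitA [Fintype Kx] (F : Fct RS Kx) (x : X) (ρ : ℤ) :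
    PG (fR F (fun _ : Unit => x) fun _ => ρ) = fun ω => ∏ k, F.T (RS.I x) x k ρ ω := by
  funext ω
  unfold PG fR
  rw [Fintype.prod_prod_type]
  simp [uI_unitA]

/-- The zones of one row. -/
theorem znA_unit {x : X} (hx : F.Val x) (hm : 32 ≤ F.mg x) {ρ : ℤ} (hρ : 8 * ρ ≤ F.mg x) :
    ZnA F (fun _ : Unit => x) (fun _ => 4 * ρ) (fun _ => ρ) := by
  have hm1 : 1 ≤ F.mg x := by omega
  refine ⟨fun _ => ⟨hx, hm1⟩, fun q _ v _ h => ?_, fun _ e _ h => ?_, fun q q' hne h1 h2 => ?_⟩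
  · rw [uI_unitA] at h
    exact h
  · rw [uI_unitA] at h
    exact h
  · have hk : q.2 ≠ q'.2 := fun h => hne (Prod.ext rfl h)
    have h3 := F.sep hx hm1 h1 h2 hk
    show 4 * ρ + ρ < _
    omega

/-- **One row**, from the intrinsic radius down to the radius `δ n / 32`. -/
theorem row_downA [Fintype Kx] (F : Fct RS Kx) (h1 : Ang θ) (hc : P1cg RS F θ)
    {P : Measure Cfg} (hP : IsLim (2 * Real.cos θ) P) (hg : ∀ᵐ ω ∂P, Good ω) {δ R g : ℝ}
    (hδ : 0 < δ) (hδg : 8 * δ ≤ g) :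
    ∃ C : ℝ, 1 ≤ C ∧ ∀ᶠ n : ℕ in atTop, ∀ x : X, F.Val x → g * n ≤ F.mg x →
      ((RS.shape x).L : ℝ) ≤ 2 * R * n + 1 →
      ∫ ω, fz (RS.I x) (RS.fr x) ω * ∏ k, F.T (RS.I x) x k ((F.mg x / 8 : ℕ) : ℤ) ω ∂P ≤
        C * ∫ ω, fz (RS.I x) (RS.fr x) ω *
          ∏ k, F.T (RS.I x) x k ⌊δ * n / 32⌋ ω ∂P := by
  have hPp : IsProbabilityMeasure P := hP.1
  obtain ⟨Λ, hΛ⟩ : ∃ Λ : ℝ, Λ = max 1 (8 * (2 * |R| + 1) / δ) := ⟨_, rfl⟩
  obtain ⟨C, ρ₀, hC, hP1⟩ := hc Λ (by rw [hΛ]; exact le_max_left _ _)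
  refine ⟨(max C 1) ^ Fintype.card (Unit × Kx), one_le_pow₀ (le_max_right _ _), ?_⟩
  have hlim : Tendsto (fun n : ℕ => δ * (n : ℝ)) atTop atTop :=
    tendsto_natCast_atTop_atTop.const_mul_atTop hδ
  filter_upwards [hlim.eventually_ge_atTop 100, hlim.eventually_ge_atTop (32 * (ρ₀ + 1)),
    eventually_ge_atTop 1] with n hn hnρ hn1
  intro x hx hmx hL
  have hn1' : (1 : ℝ) ≤ n := by exact_mod_cast hn1
  have hgn : 8 * (δ * n) ≤ g * n := by nlinarith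
  obtain ⟨m, hm⟩ : ∃ m, m = F.mg x := ⟨_, rfl⟩
  rw [← hm] at hmx ⊢
  have hm3 : m ≤ (RS.shape x).L := by rw [hm]; exact F.mg_le hx
  have hm32 : 32 ≤ m := by
    have : (32 : ℝ) ≤ m := by linarith
    exact_mod_cast this
  obtain ⟨ρ, hρ⟩ : ∃ ρ : ℤ, ρ = ⌊δ * n / 32⌋ := ⟨_, rfl⟩
  have hρ1 : (ρ : ℝ) ≤ δ * n / 32 := by rw [hρ]; exact Int.floor_le _
  have hρ2 : δ * n / 32 - 1 < ρ := by rw [hρ]; exact Int.sub_one_lt_floor _
  rw [← hρ]
  obtain ⟨rd, hrd⟩ : ∃ rd : ℤ, rd = ((m / 8 : ℕ) : ℤ) := ⟨_, rfl⟩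
  rw [← hrd]
  have h8 : ((m : ℝ) - 7) / 8 ≤ (rd : ℝ) := by
    rw [hrd, Int.cast_natCast]
    have : (m : ℝ) ≤ 8 * ((m / 8 : ℕ) : ℝ) + 7 := by
      have h9 : m ≤ 8 * (m / 8) + 7 := by omega
      exact_mod_cast h9
    linarith
  have h9 : (rd : ℝ) ≤ m / 8 := by
    rw [hrd, Int.cast_natCast]
    have : 8 * ((m / 8 : ℕ) : ℝ) ≤ m := by
      have h9 : 8 * (m / 8) ≤ m := by omega
      exact_mod_cast h9
    linarith
  have hρrad : ρ ≤ rd := by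
    have : (ρ : ℝ) ≤ (rd : ℝ) := by linarith
    exact_mod_cast this
  have hm8 : 8 * rd ≤ F.mg x := by
    rw [hrd, ← hm]
    have : 8 * (m / 8) ≤ m := by omega
    exact_mod_cast this
  have hrd0 : 0 ≤ rd := by rw [hrd]; exact Int.natCast_nonneg _
  have hΛρ : (rd : ℝ) ≤ Λ * ρ := by
    have h10 : δ * n / 64 ≤ (ρ : ℝ) := by linarith
    have h11 : (m : ℝ) ≤ 2 * R * n + 1 := by
      have : (m : ℝ) ≤ (RS.shape x).L := by exact_mod_cast hm3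
      linarith
    have h12 : R * n ≤ |R| * n := mul_le_mul_of_nonneg_right (le_abs_self R) (by linarith)
    have h13 : (m : ℝ) / 8 ≤ (2 * |R| + 1) * n / 8 := by nlinarith
    have h14 : 8 * (2 * |R| + 1) / δ * (δ * n / 64) = (2 * |R| + 1) * n / 8 := by
      field_simp
      ring
    have h15 : 8 * (2 * |R| + 1) / δ ≤ Λ := by rw [hΛ]; exact le_max_right _ _
    have h16 : 0 ≤ Λ := le_trans (by positivity) h15
    calc (rd : ℝ) ≤ 8 * (2 * |R| + 1) / δ * (δ * n / 64) := by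
          rw [h14]
          linarith
      _ ≤ Λ * (δ * n / 64) := mul_le_mul_of_nonneg_right h15 (by positivity)
      _ ≤ Λ * ρ := mul_le_mul_of_nonneg_left h10 h16
  have hσ : RS.Frz (fun _ : Unit => x) (RS.fr x) := fun _ v _ => rfl
  have key := fR_all h1 hP hg hσ (W := fun _ => 4 * rd) (S := fun _ => rd) (s := fun _ => rd)
    (t := fun _ => ρ) (znA_unit (F := F) hx (by omega) hm8) (fun _ => le_rfl) (fun _ => hρrad)
    (fun _ => by show rd ≤ 4 * rd; omega) (fun _ => by show ρ ≤ 4 * rd; omega)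
    (C := max C 1) (le_max_right _ _) (fun q hq η hη hf => by
      have h2 := hP1 x q.2 ρ rd hx hq (by linarith) hρrad hΛρ hm8 η hη hf
      refine h2.trans (mul_le_mul_of_nonneg_right (le_max_left _ _) ?_)
      exact Ex_nonneg (by linarith [h1.kit.pos]) fun S _ => F.nonneg _ _ _ _ _)
  rw [uI_unitA, PG_unitA, PG_unitA] at key
  exact EF_int (Vale.Agent.P167.N.H506.Q.fz_pos h1.kit hP hg (RS.I x) (RS.fr x)) key

/-! ### decoupling -/

/-- **Decoupling of the rows**, lower bound. -/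
theorem decoupleB [Fintype Kx] (F : Fct RS Kx) (h1 : Ang θ) {P : Measure Cfg}
    (hP : IsLim (2 * Real.cos θ) P) {Λ : ℤ} {c' : ℝ} (hc' : Rsc (2 * Real.cos θ) Λ c')
    {ι : Type} [Fintype ι] {r : ι → X} (hr : ∀ i, F.Val (r i) ∧ 1 ≤ F.mg (r i))
    {σ : Cfg} (hσ : RS.Frz r σ) {ρ κw : ℤ} (hκw : 0 ≤ κw) (hρΛ : Λ ≤ ρ) (hρ1 : 1 ≤ ρ)
    (hsep : ∀ i j, i ≠ j → ∀ v ∈ RS.I (r i), ∀ w ∈ RS.I (r j), 6 * (ρ + 1) < nm (v - w))
    (hL : ∀ i, ((RS.shape (r i)).L : ℤ) ≤ κw * ρ) :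
    ∏ i, ∫ ω, fz (RS.I (r i)) (RS.fr (r i)) ω * ∏ k, F.T (RS.I (r i)) (r i) k ρ ω ∂P ≤
      Cw Λ κw c' (Fintype.card ι) *
        ∫ ω, fz (RS.uI r) σ ω * PG (fR F r fun _ => ρ) ω ∂P := by
  classical
  have key := (Vale.Agent.P167.N.H199.walls_lim hP h1.kit hc' (κ := κw) (s := ρ + 1) hκw
    (by linarith) (univ : Finset ι)
    (W := fun i => RS.I (r i)) (x := fun i => (RS.shape (r i)).sq 0) (fun i _ w hw' => by
      obtain ⟨k, hk, rfl⟩ := exists_sq hw'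
      have h3 : nm ((RS.shape (r i)).sq k - (RS.shape (r i)).sq 0) = k := by
        rw [sep_sq]
        simp
      rw [h3]
      have h4 : (k : ℤ) ≤ (RS.shape (r i)).L := by exact_mod_cast hk.le
      have h5 := hL i
      have h6 : κw * ρ ≤ κw * (ρ + 1) := mul_le_mul_of_nonneg_left (by omega) hκw
      omega) (fun i _ j _ hij v hv w hw' => hsep i j hij v hv w hw')
    (F := fun i ω => fz (RS.I (r i)) (RS.fr (r i)) ω * ∏ k, F.T (RS.I (r i)) (r i) k ρ ω)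
    (fun i _ ω => mul_nonneg (fz_nonneg _ _ _) (prod_nonneg fun k _ => F.nonneg _ _ _ _ _))
    (fun i _ => by
      intro ω ω' hw'
      have hsub : RS.I (r i) ⊆ nbh (RS.I (r i)) (ρ + 1) := subset_nbh (by omega)
      have e1 : fz (RS.I (r i)) (RS.fr (r i)) ω = fz (RS.I (r i)) (RS.fr (r i)) ω' :=
        fz_loc _ _ _ _ fun v hv => hw' v (hsub hv)
      have e2 : ∀ k, F.T (RS.I (r i)) (r i) k ρ ω = F.T (RS.I (r i)) (r i) k ρ ω' := fun k => by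
        refine F.loc' _ _ _ _ _ _ fun v hv => ?_
        obtain ⟨hk, hv⟩ := Fct.mem_bx.1 hv
        obtain ⟨u, hu, hu'⟩ := F.near (hr i).1 (hr i).2 hk
        refine hw' v (mem_nbh.2 ⟨u, hu, ?_⟩)
        have h2 := nm_of_Bq hv
        have h3 := nm_sub_le v (F.ctr (r i) k) u
        linarith
      show fz (RS.I (r i)) (RS.fr (r i)) ω * ∏ k, F.T (RS.I (r i)) (r i) k ρ ω =
        fz (RS.I (r i)) (RS.fr (r i)) ω' * ∏ k, F.T (RS.I (r i)) (r i) k ρ ω'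
      rw [e1]
      congr 1
      exact prod_congr rfl fun k _ => e2 k)).1
  rw [Finset.card_univ] at key
  refine key.trans (le_of_eq ?_)
  congr 1
  refine integral_congr_ae (Eventually.of_forall fun ω => ?_)
  show ∏ i, (fz (RS.I (r i)) (RS.fr (r i)) ω * ∏ k, F.T (RS.I (r i)) (r i) k ρ ω) =
    fz (RS.uI r) σ ω * PG (fR F r fun _ => ρ) ω
  rw [prod_mul_distrib, fz_prodA hσ ω]
  congr 1
  unfold PG
  rw [Fintype.prod_prod_type]
  refine prod_congr rfl fun i _ => prod_congr rfl fun k _ => ?_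
  show F.T (RS.I (r i)) (r i) k ρ ω = F.T (RS.uI r) (r i) k ρ ω
  by_cases hk : F.Sp (r i) k
  · symm
    refine F.own (hr i).1 (hr i).2 (fun v hv => mem_uIA.2 ⟨_, hv⟩) (fun v hv h => ?_)
      fun e he h => ?_
    · obtain ⟨j, hj⟩ := mem_uIA.1 h
      by_cases hij : i = j
      · rw [hij]; exact hj
      · exfalso
        obtain ⟨u, hu, hu'⟩ := F.near (hr i).1 (hr i).2 hk
        have a1 := hsep i j hij u hu v hj
        have a2 : nm (v - F.ctr (r i) k) ≤ ρ := nm_of_Bq hv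
        have a3 := nm_sub_le v (F.ctr (r i) k) u
        rw [nm_comm u] at a1
        omega
    · obtain ⟨j, hj⟩ := mem_uIA.1 h
      by_cases hij : i = j
      · rw [hij]; exact hj
      · exfalso
        have a1 := hsep i j hij _ he _ hj
        have a2 := H680.T.nm_ht e
        omega
  · rw [F.plain hk, F.plain hk]

/-! ### the frames -/

/-- A point between two points is near. -/
theorem nm_hull {u v w : ℤ × ℤ} (h1 : min u.1 v.1 ≤ w.1) (h2 : w.1 ≤ max u.1 v.1)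
    (h3 : min u.2 v.2 ≤ w.2) (h4 : w.2 ≤ max u.2 v.2) : nm (u - w) ≤ nm (u - v) := by
  show max |u.1 - w.1| |u.2 - w.2| ≤ max |u.1 - v.1| |u.2 - v.2|
  have a1 : |u.1 - w.1| ≤ |u.1 - v.1| := by
    rcases abs_cases (u.1 - w.1) with h | h <;> rcases abs_cases (u.1 - v.1) with h' | h' <;> omega
  have a2 : |u.2 - w.2| ≤ |u.2 - v.2| := by
    rcases abs_cases (u.2 - w.2) with h | h <;> rcases abs_cases (u.2 - v.2) with h' | h' <;> omega
  exact max_le_max a1 a2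

/-- The radii in the frame. -/
noncomputable def rKt (Kt : Finset Kx) [DecidableEq Kx] {ι : Type} (a b : ℤ) (q : ι × Kx) : ℤ :=
  if q.2 ∈ Kt then a else b

theorem PG_split [Fintype Kx] [DecidableEq Kx] (F : Fct RS Kx) (Kt : Finset Kx) {ι : Type}
    [Fintype ι] (r : ι → X) (a b : ℤ) (ω : Cfg) :
    PG (fR F r (rKt Kt a b)) ω =
      (∏ i, ∏ k ∈ Kt, F.T (RS.uI r) (r i) k a ω) *
        ∏ i, ∏ k ∈ Ktᶜ, F.T (RS.uI r) (r i) k b ω := by
  unfold PG fR rKt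
  rw [Fintype.prod_prod_type, ← prod_mul_distrib]
  refine prod_congr rfl fun i _ => ?_
  rw [← Finset.prod_mul_prod_compl Kt]
  congr 1
  · exact prod_congr rfl fun k hk => by
      show F.T _ _ _ (if k ∈ Kt then a else b) ω = _
      rw [if_pos hk]
  · exact prod_congr rfl fun k hk => by
      show F.T _ _ _ (if k ∈ Kt then a else b) ω = _
      rw [if_neg (Finset.mem_compl.1 hk)]

section frame

variable [Fintype Kx] [DecidableEq Kx] {Kt : Finset Kx} {Φ : FrS X} {β : ℝ} {l : ℕ}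
  {p : ZMod l → ℤ × ℤ} {S₀ : Finset (ℤ × ℤ)} {g δ : ℝ} {n : ℕ}

omit [Fintype Kx] [DecidableEq Kx] in
/-- A row of a frame is not long. -/
theorem FrS.GeoN.len (hG : Φ.GeoN RS F Kt θ β p S₀ g δ n) (h1 : 1 ≤ g * n) (i : Φ.ι) :
    ((RS.shape (Φ.r δ n i)).L : ℝ) ≤ 2 * Φ.R * n + 1 := by
  have hmg : 1 ≤ F.mg (Φ.r δ n i) := by
    have h2 : (1 : ℝ) ≤ F.mg (Φ.r δ n i) := h1.trans (hG.val i).2
    exact_mod_cast h2
  have hL : 1 ≤ (RS.shape (Φ.r δ n i)).L := hmg.trans (F.mg_le (hG.val i).1)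
  have h2 := hG.rbox i _ (Vale.Agent.P167.H680.T.sq_mem.2
    (show 0 < (RS.shape (Φ.r δ n i)).L by omega))
  have h3 := hG.rbox i _ (Vale.Agent.P167.H680.T.sq_mem.2
    (show (RS.shape (Φ.r δ n i)).L - 1 < (RS.shape (Φ.r δ n i)).L by omega))
  have h4 := sep_sq (RS.shape (Φ.r δ n i)) ((RS.shape (Φ.r δ n i)).L - 1) 0
  have h5 := nm_sub_le ((RS.shape (Φ.r δ n i)).sq ((RS.shape (Φ.r δ n i)).L - 1)) 0
    ((RS.shape (Φ.r δ n i)).sq 0)
  rw [h4, sub_zero, zero_sub, H199.nm_neg] at h5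
  have h6 : (((RS.shape (Φ.r δ n i)).L : ℤ) : ℝ) - 1 ≤
      (nm ((RS.shape (Φ.r δ n i)).sq ((RS.shape (Φ.r δ n i)).L - 1)) : ℝ) +
        nm ((RS.shape (Φ.r δ n i)).sq 0) := by
    have h7 : ((RS.shape (Φ.r δ n i)).L : ℤ) - 1 ≤
        |(((RS.shape (Φ.r δ n i)).L - 1 : ℕ) : ℤ) - (0 : ℕ)| := by
      refine le_trans (le_of_eq ?_) (le_abs_self _)
      push_cast [Nat.cast_sub hL]
      ring
    exact_mod_cast h7.trans h5
  push_cast at h6
  linarith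

omit [Fintype Kx] [DecidableEq Kx] in
/-- Far from the holes the rows are far from each other. -/
theorem FrS.GeoN.far (hG : Φ.GeoN RS F Kt θ β p S₀ g δ n) (h1 : 1 ≤ g * n) (hδ : 0 ≤ δ * n)
    {i j : Φ.ι} (hij : i ≠ j) {k : Kx} (hk : k ∉ Kt) (hsp : F.Sp (Φ.r δ n i) k) {v : ℤ × ℤ}
    (hv : v ∈ RS.I (Φ.r δ n j)) :
    g * n - 2 * (δ * n) - 2 ≤ (nm (F.ctr (Φ.r δ n i) k - v) : ℝ) := by
  have hmg : 1 ≤ F.mg (Φ.r δ n i) := by
    have h2 : (1 : ℝ) ≤ F.mg (Φ.r δ n i) := h1.trans (hG.val i).2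
    exact_mod_cast h2
  obtain ⟨u, hu, hu'⟩ := F.near (hG.val i).1 hmg hsp
  have hu'' : (nm (F.ctr (Φ.r δ n i) k - u) : ℝ) ≤ 1 := by exact_mod_cast hu'
  have a1 : (nm (u - v) : ℝ) ≤ nm (u - F.ctr (Φ.r δ n i) k) + nm (F.ctr (Φ.r δ n i) k - v) := by
    exact_mod_cast nm_sub_le u _ v
  rw [nm_comm u (F.ctr (Φ.r δ n i) k)] at a1
  by_contra hlt
  push Not at hlt
  obtain ⟨x, w, b1, b2, b3, b4, b5⟩ := hG.hull i j hij u hu v hv (by linarith)
  have c1 : (nm (u - w) : ℝ) ≤ nm (u - v) := by exact_mod_cast nm_hull b1 b2 b3 b4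
  have c2 := hG.oth i k hk hsp x
  have c3 : (nm (F.ctr (Φ.r δ n i) k - Φ.h δ n x) : ℝ) ≤
      nm (F.ctr (Φ.r δ n i) k - u) + nm (u - Φ.h δ n x) := by exact_mod_cast nm_sub_le _ u _
  have c4 : (nm (u - Φ.h δ n x) : ℝ) ≤ nm (u - w) + nm (w - Φ.h δ n x) := by
    exact_mod_cast nm_sub_le _ w _
  linarith

omit [Fintype Kx] [DecidableEq Kx] in
/-- The rows of a frame are separate. -/
theorem FrS.GeoN.near_own (hG : Φ.GeoN RS F Kt θ β p S₀ g δ n) (h1 : 1 ≤ g * n)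
    {i : Φ.ι} {k : Kx} (hsp : F.Sp (Φ.r δ n i) k) {v : ℤ × ℤ} (hv : v ∈ Φ.U RS δ n)
    (h : (nm (v - F.ctr (Φ.r δ n i) k) : ℝ) < δ * n / 2 - 1) : v ∈ RS.I (Φ.r δ n i) := by
  have hmg : 1 ≤ F.mg (Φ.r δ n i) := by
    have h2 : (1 : ℝ) ≤ F.mg (Φ.r δ n i) := h1.trans (hG.val i).2
    exact_mod_cast h2
  obtain ⟨j, hj⟩ := mem_uIA.1 hv
  by_cases hij : i = j
  · rw [hij]; exact hj
  · exfalso
    obtain ⟨u, hu, a1, -⟩ := ctr_u F (hG.val i).1 hmg hsp v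
    have a2 := hG.sepr i j hij u hu v hj
    rw [nm_comm u] at a2
    linarith

/-- **The zones of the frame**: radius `ρt` at the tips, `ρj` at the other special points. -/
theorem FrS.GeoN.znA (hG : Φ.GeoN RS F Kt θ β p S₀ g δ n) (hn : 100 ≤ δ * n)
    (hδg : 8 * δ ≤ g) {ρt ρj : ℤ} (t0 : 1 ≤ ρt) (t1 : (ρt : ℝ) ≤ δ * n / 16)
    (j0 : 1 ≤ ρj) (j1 : (ρj : ℝ) ≤ g * n / 25) :
    ZnA F (Φ.r δ n) (fun q => 4 * rKt Kt ρt ρj q) (rKt Kt ρt ρj) := by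
  have hn0 : (0 : ℝ) ≤ n := Nat.cast_nonneg n
  have hgn : 8 * (δ * n) ≤ g * n := by nlinarith
  have h1n : 1 ≤ g * n := by linarith
  have hmg : ∀ i, 1 ≤ F.mg (Φ.r δ n i) := fun i => by
    have h2 : (1 : ℝ) ≤ F.mg (Φ.r δ n i) := h1n.trans (hG.val i).2
    exact_mod_cast h2
  have hr : ∀ q : Φ.ι × Kx, 1 ≤ rKt Kt ρt ρj q ∧
      ((rKt Kt ρt ρj q : ℤ) : ℝ) ≤ g * n / 25 ∧
      (q.2 ∈ Kt → ((rKt Kt ρt ρj q : ℤ) : ℝ) ≤ δ * n / 16) := fun q => by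
    unfold rKt
    split_ifs with h
    · exact ⟨t0, by linarith, fun _ => t1⟩
    · exact ⟨j0, j1, fun h' => absurd h' h⟩
  refine ⟨fun i => ⟨(hG.val i).1, hmg i⟩, fun q hq v hv hvU => ?_, fun i e he h => ?_,
    fun q q' hne hq hq' => ?_⟩
  · obtain ⟨r1, r2, r3⟩ := hr q
    have hv' : (nm (v - F.ctr (Φ.r δ n q.1) q.2) : ℝ) ≤ ((4 * rKt Kt ρt ρj q : ℤ) : ℝ) := by
      exact_mod_cast nm_of_Bq hv
    push_cast at hv'
    by_cases hk : q.2 ∈ Kt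
    · refine hG.near_own h1n hq hvU ?_
      have := r3 hk
      linarith
    · obtain ⟨j, hj⟩ := mem_uIA.1 hvU
      by_cases hij : q.1 = j
      · rw [hij]; exact hj
      · exfalso
        have := hG.far h1n (by linarith) hij hk hq hj
        rw [nm_comm] at this
        linarith
  · obtain ⟨j, hj⟩ := mem_uIA.1 h
    by_cases hij : i = j
    · rw [hij]; exact hj
    · exfalso
      have a1 := hG.sepr i j hij _ he _ hj
      have a2 : (nm (hdv e - tlv e) : ℝ) ≤ 1 := by exact_mod_cast H680.T.nm_ht e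
      linarith
  · obtain ⟨r1, r2, r3⟩ := hr q
    obtain ⟨r1', r2', r3'⟩ := hr q'
    have key : ((4 * rKt Kt ρt ρj q + rKt Kt ρt ρj q' : ℤ) : ℝ) <
        (nm (F.ctr (Φ.r δ n q.1) q.2 - F.ctr (Φ.r δ n q'.1) q'.2) : ℝ) := by
      push_cast
      by_cases hi : q.1 = q'.1
      · obtain ⟨i, k⟩ := q
        obtain ⟨i', k'⟩ := q'
        obtain rfl : i = i' := hi
        have h3 := F.sep (hG.val i).1 (hmg i) hq hq' fun h => hne (Prod.ext rfl h)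
        have h4 : ((F.mg (Φ.r δ n i) : ℤ) : ℝ) - 2 ≤
            (nm (F.ctr (Φ.r δ n i) k - F.ctr (Φ.r δ n i) k') : ℝ) := by exact_mod_cast h3
        have h5 := (hG.val i).2
        push_cast at h4
        linarith
      · obtain ⟨u, hu, hu'⟩ := F.near (hG.val q.1).1 (hmg q.1) hq
        obtain ⟨u', hu2, hu2'⟩ := F.near (hG.val q'.1).1 (hmg q'.1) hq'
        have b1 : (nm (F.ctr (Φ.r δ n q.1) q.2 - u) : ℝ) ≤ 1 := by exact_mod_cast hu'
        have b2 : (nm (F.ctr (Φ.r δ n q'.1) q'.2 - u') : ℝ) ≤ 1 := by exact_mod_cast hu2'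
        have b3 : (nm (F.ctr (Φ.r δ n q.1) q.2 - u') : ℝ) ≤
            nm (F.ctr (Φ.r δ n q.1) q.2 - F.ctr (Φ.r δ n q'.1) q'.2) +
              nm (F.ctr (Φ.r δ n q'.1) q'.2 - u') := by exact_mod_cast nm_sub_le _ _ _
        have b4 : (nm (F.ctr (Φ.r δ n q'.1) q'.2 - u) : ℝ) ≤
            nm (F.ctr (Φ.r δ n q'.1) q'.2 - F.ctr (Φ.r δ n q.1) q.2) +
              nm (F.ctr (Φ.r δ n q.1) q.2 - u) := by exact_mod_cast nm_sub_le _ _ _
        rw [nm_comm (F.ctr (Φ.r δ n q'.1) q'.2) (F.ctr (Φ.r δ n q.1) q.2)] at b4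
        by_cases hk : q.2 ∈ Kt
        · by_cases hk' : q'.2 ∈ Kt
          · have b5 := hG.sepr q.1 q'.1 hi u hu u' hu2
            have b6 : (nm (u - u') : ℝ) ≤ nm (u - F.ctr (Φ.r δ n q.1) q.2) +
                nm (F.ctr (Φ.r δ n q.1) q.2 - u') := by exact_mod_cast nm_sub_le _ _ _
            rw [nm_comm u (F.ctr (Φ.r δ n q.1) q.2)] at b6
            have := r3 hk
            have := r3' hk'
            linarith
          · have := hG.far h1n (by linarith) (Ne.symm hi) hk' hq' hu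
            linarith
        · have := hG.far h1n (by linarith) hi hk hq hu2
          linarith
    exact_mod_cast key

/-- **The product of the normalisations of the rows of a frame.** -/
theorem p3sg (h1 : Ang θ) (hR : RSW (2 * Real.cos θ)) {P : Measure Cfg}
    (hP : IsLim (2 * Real.cos θ) P) (hgd : ∀ᵐ ω ∂P, Good ω) (ha : P1ag RS F θ)
    (hc : P1cg RS F θ) (hGeo : Φ.Geo RS F Kt θ β p S₀) :
    Φ.P3Sg RS F Kt θ P (Zpg RS F θ P) := by
  classical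
  have hPp : IsProbabilityMeasure P := hP.1
  obtain ⟨g, hg0, hg1, δ₀, hδ₀, hG⟩ := hGeo
  refine ⟨g / 100, by positivity, fun κ' hκ' hκ'g => ⟨min (min δ₀ (g / 8)) κ', by positivity,
    fun δ hδ hδ' => ?_⟩⟩
  have hδ1 : δ < δ₀ := hδ'.trans_le ((min_le_left _ _).trans (min_le_left _ _))
  have hδg : 8 * δ ≤ g := by
    have := hδ'.trans_le ((min_le_left _ _).trans (min_le_right _ _))
    linarith
  have hδκ : δ ≤ κ' := (hδ'.trans_le (min_le_right _ _)).le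
  -- constants
  obtain ⟨C1, hC1, hdown⟩ := row_downA F (R := Φ.R) (g := g) h1 hc hP hgd hδ hδg
  obtain ⟨Λ₁, hΛ₁⟩ : ∃ Λ₁ : ℝ, Λ₁ = max 4 (256 * κ' / δ) := ⟨_, rfl⟩
  obtain ⟨C2, ρ₀, hC2, H2⟩ := ha Λ₁ (by rw [hΛ₁]; exact le_trans (by norm_num) (le_max_left _ _))
  obtain ⟨Λ, c', hΛ, hc', hc'1, hRsc⟩ := rsc_of hR
  obtain ⟨κw, hκw⟩ : ∃ κw : ℤ, 64 * (2 * |Φ.R| + 1) / δ ≤ κw := ⟨⌈_⌉, Int.le_ceil _⟩
  have hκw0 : 0 ≤ κw := by
    have : (0 : ℝ) ≤ κw := le_trans (by positivity) hκw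
    exact_mod_cast this
  obtain ⟨c3, hc3⟩ : ∃ c3 : ℕ, c3 = Fintype.card Φ.ι := ⟨_, rfl⟩
  obtain ⟨c4, hc4⟩ : ∃ c4 : ℕ, c4 = Fintype.card (Φ.ι × Kx) := ⟨_, rfl⟩
  have hCw : 0 < Cw Λ κw c' c3 := Cw_pos hc' _
  have hC20 : 0 < max C2 1 := lt_of_lt_of_le one_pos (le_max_right _ _)
  have hC10 : 0 < C1 := by linarith
  refine ⟨C1 ^ c3 * (Cw Λ κw c' c3 * (max C2 1) ^ c4), by positivity, ?_⟩
  have hlim : Tendsto (fun n : ℕ => δ * (n : ℝ)) atTop atTop :=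
    tendsto_natCast_atTop_atTop.const_mul_atTop hδ
  filter_upwards [hG δ hδ hδ1, hdown, hlim.eventually_ge_atTop 1000,
    hlim.eventually_ge_atTop (64 * ((Λ : ℝ) + 1)), hlim.eventually_ge_atTop (64 * (ρ₀ + 1)),
    eventually_ge_atTop 1] with n hG hn1 hn hnΛ hnρ hn1'
  intro σ hσ
  have hn1'' : (1 : ℝ) ≤ n := by exact_mod_cast hn1'
  have hgn : 8 * (δ * n) ≤ g * n := by nlinarith
  have h1n : 1 ≤ g * n := by linarith
  have hκn : δ * n ≤ κ' * n := mul_le_mul_of_nonneg_right hδκ (by linarith)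
  have hκgn : 100 * (κ' * n) ≤ g * n := by nlinarith
  have hmg : ∀ i, 1 ≤ F.mg (Φ.r δ n i) := fun i => by
    have h2 : (1 : ℝ) ≤ F.mg (Φ.r δ n i) := h1n.trans (hG.val i).2
    exact_mod_cast h2
  -- the radii
  obtain ⟨ρ, hρ⟩ : ∃ ρ : ℤ, ρ = ⌊δ * n / 32⌋ := ⟨_, rfl⟩
  obtain ⟨ρt, hρt⟩ : ∃ ρt : ℤ, ρt = ⌊δ * n / 16⌋ := ⟨_, rfl⟩
  obtain ⟨ρj, hρj⟩ : ∃ ρj : ℤ, ρj = ⌊4 * κ' * n⌋ := ⟨_, rfl⟩
  have r1 : (ρ : ℝ) ≤ δ * n / 32 := by rw [hρ]; exact Int.floor_le _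
  have r2 : δ * n / 32 - 1 < ρ := by rw [hρ]; exact Int.sub_one_lt_floor _
  have t1 : (ρt : ℝ) ≤ δ * n / 16 := by rw [hρt]; exact Int.floor_le _
  have t2 : δ * n / 16 - 1 < ρt := by rw [hρt]; exact Int.sub_one_lt_floor _
  have j1 : (ρj : ℝ) ≤ 4 * κ' * n := by rw [hρj]; exact Int.floor_le _
  have j2 : 4 * κ' * n - 1 < ρj := by rw [hρj]; exact Int.sub_one_lt_floor _
  have hρpos : (1 : ℝ) ≤ ρ := by linarith
  have hρpos' : 1 ≤ ρ := by exact_mod_cast hρpos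
  have hρt' : ρ ≤ ρt := by
    have : (ρ : ℝ) ≤ ρt := by linarith
    exact_mod_cast this
  have hρj' : ρ ≤ ρj := by
    have : (ρ : ℝ) ≤ ρj := by nlinarith
    exact_mod_cast this
  have hZ := hG.znA (by linarith) hδg (ρt := ρt) (ρj := ρj) (by omega) t1 (by omega)
    (by linarith)
  -- decoupling
  have hdec := decoupleB F h1 hP hRsc (r := Φ.r δ n) (fun i => ⟨(hG.val i).1, hmg i⟩) hσ hκw0
    (ρ := ρ) (κw := κw) (by
      have : (Λ : ℝ) < ρ := by linarith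
      exact_mod_cast this.le) hρpos'
    (fun i j hij v hv w hw => by
      have h2 := hG.sepr i j hij v hv w hw
      have h3 : ((6 * (ρ + 1) : ℤ) : ℝ) < (nm (v - w) : ℝ) := by push_cast; linarith
      exact_mod_cast h3) (fun i => by
      have h2 := hG.len h1n i
      have h12 : Φ.R * n ≤ |Φ.R| * n := mul_le_mul_of_nonneg_right (le_abs_self _) (by linarith)
      have h10 : δ * n / 64 ≤ (ρ : ℝ) := by linarith
      have h14 : 64 * (2 * |Φ.R| + 1) / δ * (δ * n / 64) = (2 * |Φ.R| + 1) * n := by field_simp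
      have h5 : (2 * |Φ.R| + 1) * n ≤ κw * ρ := by
        calc (2 * |Φ.R| + 1) * n = 64 * (2 * |Φ.R| + 1) / δ * (δ * n / 64) := h14.symm
          _ ≤ κw * (δ * n / 64) := mul_le_mul_of_nonneg_right hκw (by positivity)
          _ ≤ κw * ρ := mul_le_mul_of_nonneg_left h10 (by exact_mod_cast hκw0)
      have h6 : (((RS.shape (Φ.r δ n i)).L : ℤ) : ℝ) ≤ ((κw * ρ : ℤ) : ℝ) := by
        push_cast
        nlinarith
      exact_mod_cast h6)
  -- comparison of the radii in the frame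
  have hQ0 : (0 : ℝ) < 2 * Real.cos θ := by linarith [h1.kit.pos]
  have hρΛ : ∀ t : ℝ, t ≤ max (δ * n / 16) (4 * κ' * n) → t ≤ Λ₁ * ρ := by
    intro t ht
    have h10 : δ * n / 64 ≤ (ρ : ℝ) := by linarith
    rcases le_max_iff.1 ht with h | h
    · calc t ≤ 4 * (δ * n / 64) := by linarith
        _ ≤ 4 * ρ := by linarith
        _ ≤ Λ₁ * ρ := mul_le_mul_of_nonneg_right (by rw [hΛ₁]; exact le_max_left _ _) (by linarith)
    · calc t ≤ 256 * κ' / δ * (δ * n / 64) := by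
            refine h.trans (le_of_eq ?_)
            field_simp
            ring
        _ ≤ 256 * κ' / δ * ρ := mul_le_mul_of_nonneg_left h10 (by positivity)
        _ ≤ Λ₁ * ρ := mul_le_mul_of_nonneg_right (by rw [hΛ₁]; exact le_max_right _ _)
            (by linarith)
  have hrK : ∀ q : Φ.ι × Kx, ρ ≤ rKt Kt ρt ρj q ∧
      ((rKt Kt ρt ρj q : ℤ) : ℝ) ≤ max (δ * n / 16) (4 * κ' * n) := fun q => by
    unfold rKt
    split_ifs
    · exact ⟨hρt', t1.trans (le_max_left _ _)⟩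
    · exact ⟨hρj', j1.trans (le_max_right _ _)⟩
  have hall := fR_all h1 hP hgd hσ (s := fun _ => ρ) (t := rKt Kt ρt ρj) hZ
    (fun q => (hrK q).1) (fun _ => le_rfl)
    (fun q => by have := (hrK q).1; show ρ ≤ 4 * _; omega)
    (fun q => by have := (hrK q).1; show _ ≤ 4 * _; omega)
    (C := max C2 1) (le_max_right _ _) (fun q hq η hη hf => by
      have hnn : 0 ≤ Ex (2 * Real.cos θ)
          (Bq (F.ctr (Φ.r δ n q.1) q.2) (4 * rKt Kt ρt ρj q) \ RS.I (Φ.r δ n q.1)) η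
          (F.T (RS.I (Φ.r δ n q.1)) (Φ.r δ n q.1) q.2 (rKt Kt ρt ρj q)) :=
        Ex_nonneg hQ0 fun S _ => F.nonneg _ _ _ _ _
      refine le_trans ?_ (mul_le_mul_of_nonneg_right (le_max_left C2 1) hnn)
      refine H2 (Φ.r δ n q.1) q.2 ρ (rKt Kt ρt ρj q) (hG.val q.1).1 hq (by linarith) (hrK q).1
        (hρΛ _ (hrK q).2) ?_ η hη hf
      have h3 : ((8 * rKt Kt ρt ρj q : ℤ) : ℝ) ≤ ((F.mg (Φ.r δ n q.1) : ℤ) : ℝ) := by
        have h4 := (hG.val q.1).2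
        have h5 := (hrK q).2
        have h6 : max (δ * n / 16) (4 * κ' * n) ≤ g * n / 8 :=
          max_le (by linarith) (by linarith)
        push_cast
        linarith
      exact_mod_cast h3)
  -- assembly
  have hpf : 0 < ∫ ω, fz (Φ.U RS δ n) σ ω ∂P :=
    Vale.Agent.P167.N.H506.Q.fz_pos h1.kit hP hgd _ _
  have hall' := EF_int hpf hall
  have hI0 : ∀ i, 0 ≤ ∫ ω, fz (RS.I (Φ.r δ n i)) (RS.fr (Φ.r δ n i)) ω *
      ∏ k, F.T (RS.I (Φ.r δ n i)) (Φ.r δ n i) k ρ ω ∂P := fun x =>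
    integral_nonneg fun ω => mul_nonneg (fz_nonneg _ _ _) (prod_nonneg fun k _ => F.nonneg _ _ _ _ _)
  have hI1 : ∀ i, 0 ≤ ∫ ω, fz (RS.I (Φ.r δ n i)) (RS.fr (Φ.r δ n i)) ω *
      ∏ k, F.T (RS.I (Φ.r δ n i)) (Φ.r δ n i) k ((F.mg (Φ.r δ n i) / 8 : ℕ) : ℤ) ω ∂P :=
    fun x => integral_nonneg fun ω => mul_nonneg (fz_nonneg _ _ _)
      (prod_nonneg fun k _ => F.nonneg _ _ _ _ _)
  have hstep : ∏ i, ∫ ω, fz (RS.I (Φ.r δ n i)) (RS.fr (Φ.r δ n i)) ω *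
      ∏ k, F.T (RS.I (Φ.r δ n i)) (Φ.r δ n i) k ((F.mg (Φ.r δ n i) / 8 : ℕ) : ℤ) ω ∂P ≤
      C1 ^ c3 * ∏ i, ∫ ω, fz (RS.I (Φ.r δ n i)) (RS.fr (Φ.r δ n i)) ω *
        ∏ k, F.T (RS.I (Φ.r δ n i)) (Φ.r δ n i) k ρ ω ∂P := by
    calc _ ≤ ∏ i, C1 * ∫ ω, fz (RS.I (Φ.r δ n i)) (RS.fr (Φ.r δ n i)) ω *
        ∏ k, F.T (RS.I (Φ.r δ n i)) (Φ.r δ n i) k ρ ω ∂P := by
          refine prod_le_prod (fun x _ => hI1 x) fun x _ => ?_
          rw [hρ]
          exact hn1 (Φ.r δ n x) (hG.val x).1 (hG.val x).2 (hG.len h1n x)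
      _ = _ := by rw [prod_mul_distrib, prod_const, Finset.card_univ, hc3]
  rw [← hc3] at hdec
  rw [← hc4] at hall'
  have hsp : ∀ ω, PG (fR F (Φ.r δ n) (rKt Kt ρt ρj)) ω =
      Φ.Tt RS F Kt δ n ρt ω * Φ.Tj RS F Kt δ n ρj ω := fun ω => PG_split F Kt _ _ _ ω
  simp only [hsp] at hall'
  obtain ⟨k, hk⟩ : ∃ k : ℝ, k = ∏ i, (2 * Real.sin θ) ^ ((RS.shape (Φ.r δ n i)).L + 1) :=
    ⟨_, rfl⟩
  have hs : 0 < Real.sin θ := h1.sin_pos
  have hk0 : 0 ≤ k := by rw [hk]; exact prod_nonneg fun i _ => by positivity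
  have e0 : ∏ i, Zpg RS F θ P n (Φ.r δ n i) = k *
      ∏ i, ∫ ω, fz (RS.I (Φ.r δ n i)) (RS.fr (Φ.r δ n i)) ω *
      ∏ k, F.T (RS.I (Φ.r δ n i)) (Φ.r δ n i) k ((F.mg (Φ.r δ n i) / 8 : ℕ) : ℤ) ω ∂P := by
    unfold Zpg
    rw [prod_mul_distrib, hk]
  rw [e0, ← hk, ← hρt, ← hρj]
  calc _ ≤ k * (C1 ^ c3 * ∏ i, ∫ ω, fz (RS.I (Φ.r δ n i)) (RS.fr (Φ.r δ n i)) ω *
        ∏ k, F.T (RS.I (Φ.r δ n i)) (Φ.r δ n i) k ρ ω ∂P) :=
        mul_le_mul_of_nonneg_left hstep hk0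
    _ ≤ k * (C1 ^ c3 * (Cw Λ κw c' c3 *
        ∫ ω, fz (RS.uI (Φ.r δ n)) σ ω * PG (fR F (Φ.r δ n) fun _ => ρ) ω ∂P)) := by gcongr
    _ ≤ k * (C1 ^ c3 * (Cw Λ κw c' c3 * ((max C2 1) ^ c4 *
        ∫ ω, fz (Φ.U RS δ n) σ ω *
          (Φ.Tt RS F Kt δ n ρt ω * Φ.Tj RS F Kt δ n ρj ω) ∂P))) := by
        refine mul_le_mul_of_nonneg_left (mul_le_mul_of_nonneg_left
          (mul_le_mul_of_nonneg_left hall' hCw.le) (by positivity)) hk0
    _ = _ := by ring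

/-- **`P3S` for another normalisation.** -/
theorem FrS.P3Sg.mono {P : Measure Cfg} {Zp Zp' : ℕ → X → ℝ}
    (h : Φ.P3Sg RS F Kt θ P Zp) (hGeo : Φ.Geo RS F Kt θ β p S₀) {C : ℝ} (hC : 1 ≤ C)
    (h0 : ∀ κ : ℝ, 0 < κ → ∀ᶠ n : ℕ in atTop, ∀ x, F.Val x → κ * n ≤ F.mg x →
      0 ≤ Zp' n x ∧ Zp' n x ≤ C * Zp n x) :
    Φ.P3Sg RS F Kt θ P Zp' := by
  obtain ⟨κ₁, hκ₁, h⟩ := h
  obtain ⟨g, hg0, -, δ₁, hδ₁, hG⟩ := hGeo
  refine ⟨κ₁, hκ₁, fun κ' hκ' hκ'1 => ?_⟩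
  obtain ⟨δ₀, hδ₀, h⟩ := h κ' hκ' hκ'1
  refine ⟨min δ₀ δ₁, by positivity, fun δ hδ hδ' => ?_⟩
  obtain ⟨C', hC', h⟩ := h δ hδ (hδ'.trans_le (min_le_left _ _))
  refine ⟨C ^ Fintype.card Φ.ι * C', by positivity, ?_⟩
  filter_upwards [h, hG δ hδ (hδ'.trans_le (min_le_right _ _)), h0 g hg0] with n a1 a2 a3
  intro σ hσ
  calc ∏ i, Zp' n (Φ.r δ n i) ≤ ∏ i, C * Zp n (Φ.r δ n i) :=
        prod_le_prod (fun i _ => (a3 _ (a2.val i).1 (a2.val i).2).1)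
          fun i _ => (a3 _ (a2.val i).1 (a2.val i).2).2
    _ = C ^ Fintype.card Φ.ι * ∏ i, Zp n (Φ.r δ n i) := by
        rw [prod_mul_distrib, prod_const, Finset.card_univ]
    _ ≤ C ^ Fintype.card Φ.ι * (C' * _) :=
        mul_le_mul_of_nonneg_left (a1 σ hσ) (by positivity)
    _ = _ := by ring

/-- **`P3S` for the invariant label.** -/
theorem p3sg_lab (h1 : Ang θ) (hR : RSW (2 * Real.cos θ)) {P : Measure Cfg}
    (hP : IsLim (2 * Real.cos θ) P) (hgd : ∀ᵐ ω ∂P, Good ω) (ha : P1ag RS F θ)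
    (hc : P1cg RS F θ) (hr : RATg RS F θ) (S : TyS F P) (hGeo : Φ.Geo RS F Kt θ β p S₀) :
    Φ.P3Sg RS F Kt θ P (Zlab S θ) := by
  obtain ⟨C, ρ₀, hC, key⟩ := zpg_lab_one h1.sin_pos h1.kit hP hgd ha hc hr S
  refine (p3sg h1 hR hP hgd ha hc hGeo).mono hGeo hC fun κ hκ => ?_
  filter_upwards [(tendsto_natCast_atTop_atTop.const_mul_atTop hκ).eventually_ge_atTop ρ₀]
    with n hn x hx hm
  obtain ⟨k1, k2⟩ := key n x hx (hn.trans hm)
  refine ⟨?_, k2⟩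
  have hs : 0 < Real.sin θ := h1.sin_pos
  have hZ : 0 ≤ Zpg RS F θ P n x :=
    mul_nonneg (by positivity) (integral_nonneg fun ω => mul_nonneg (fz_nonneg _ _ _)
      (prod_nonneg fun k _ => F.nonneg _ _ _ _ _))
  by_contra hneg
  push Not at hneg
  have : C * Zlab S θ n x < 0 := mul_neg_of_pos_of_neg (by linarith) hneg
  linarith

end frame

end Vale.Agent.P167.N.ID
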