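import Vale.Agent.P167.N.ID.H7S
import Vale.Agent.P167.N.ID.BaseMom
import Vale.Agent.P167.H662.S6.Main

/-!
# P167, `q < 1`, START: the closed frame `H6Sg` for abstract frames

* `ShpE`: the shape of the domain in small boxes.
* `FrS.h6sg`: **`H6Sg`** from `Geo`, `L2Sg`.
-/

set_option autoImplicit false

namespace Vale.Agent.P167.N.ID

open Finset MeasureTheory Filter

open Vale.Agent.P167 Vale.Agent.P167.N

open Vale.Agent.P167.BR hiding dv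

open Vale.Agent.P167.FK

open Vale.Agent.P167.FKA (Loc Ind cf_out)

open Vale.Agent.P167.E6 (IsPolygon Encloses)

open Vale.Agent.P167.XDL (bS)

open Vale.Agent.P167.H519 (IsLim)

open Vale.Agent.P167.H825 (dv enl FlowIn)

open Vale.Agent.P167.H825.Q (VT VT_eq)

open Vale.Agent.P167.H398.Q (CB NA Tch Bq_mono')

open Vale.Agent.P167.QX (fLp VisL XB)

open Vale.Agent.P167.H506.Q (EF EF_nonneg)

open Vale.Agent.P167.H662.S6 (EF_cfg exists_good er er_nonneg er_le rpow_small flo fin_num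
  EF_abs_eq)

open Vale.Agent.P167.Enl (nm_tri nm_sub_comm mem_Bq' isPolygon_qN encloses_qN qN)

variable {X : Type} {RS : RSys X} {Kx : Type} [Fintype Kx] [DecidableEq Kx] {F : Fct RS Kx}
  {Kt : Finset Kx} {Φ : FrS X} {θ β : ℝ} {l : ℕ} {p : ZMod l → ℤ × ℤ} {S₀ : Finset (ℤ × ℤ)}
  {g δ : ℝ} {n : ℕ} {P : Measure Cfg}

/-- **The shape of the domain** at the holes. -/
def FrS.ShD (Φ : FrS X) (S₀ : Finset (ℤ × ℤ)) : Prop :=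
  ∃ g : ℝ, 0 < g ∧ ∃ δ₀ : ℝ, 0 < δ₀ ∧ ∀ δ : ℝ, 0 < δ → δ < δ₀ → ∀ᶠ n : ℕ in atTop,
    ∀ x (r R : ℤ), (⌊δ * n⌋₊ : ℤ) + 4 ≤ r → (R : ℝ) ≤ g * n →
      H635.Shp (enl S₀ n) (Φ.h δ n x) r R

open Classical in
/-- The states of the closed frame. -/
noncomputable def FrS.cs (RS : RSys X) (Φ : FrS X) (δ : ℝ) (n : ℕ) (σ : Cfg) : Cfg :=
  fun v => if v ∈ Φ.U RS δ n then σ v else Φ.sc δ n v

omit [Fintype Kx] [DecidableEq Kx] in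
theorem FrS.cs_U {σ : Cfg} {v : ℤ × ℤ} (hv : v ∈ Φ.U RS δ n) : Φ.cs RS δ n σ v = σ v := by
  unfold FrS.cs
  rw [if_pos hv]

omit [Fintype Kx] [DecidableEq Kx] in
theorem FrS.cs_H {σ : Cfg} {v : ℤ × ℤ} (hv : v ∉ Φ.U RS δ n) :
    Φ.cs RS δ n σ v = Φ.sc δ n v := by
  unfold FrS.cs
  rw [if_neg hv]

omit [Fintype Kx] [DecidableEq Kx] in
/-- **The closing squares.** -/
theorem FrS.GeoN.clo (h : Φ.GeoN RS F Kt θ β p S₀ g δ n) {σ : Cfg} (hσ : Φ.Frz RS δ n σ) {R : ℤ}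
    (hR : (R : ℝ) < g * n) :
    Clo univ (Φ.b δ n) (Φ.h δ n) (Φ.U RS δ n) (Φ.Hc δ n) (enl S₀ n) (Φ.cs RS δ n σ)
      ((⌊δ * n⌋₊ : ℤ) + 4) R := by
  refine ⟨h.cls, ?_, h.tch, fun x _ v hv hx => ?_⟩
  · rw [disjoint_union_right]
    exact ⟨h.dom.symm, h.clsD.symm⟩
  · have h2 : (nm (v - Φ.h δ n x) : ℝ) ≤ R := by exact_mod_cast mem_Bq' hx
    by_cases hU : v ∈ Φ.U RS δ n
    · rw [FrS.cs_U hU]
      obtain ⟨i, hi⟩ := mem_uIA.1 hU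
      rw [hσ i v hi]
      exact h.col x i v hi (by linarith)
    · rw [FrS.cs_H hU]
      exact h.clc x v ((mem_union.1 hv).resolve_left hU) (by linarith)

omit [Fintype Kx] [DecidableEq Kx] in
/-- The mean of the functional of the domain. -/
theorem FrS.GeoN.mean (h0 : 0 < θ) (h1 : Ang θ) (hβ : Real.cos (θ / 2 + β) = Real.sin θ)
    [NeZero l] (hp : IsPolygon p) (hD : Encloses p S₀) (hn : 0 < n)
    (h : Φ.GeoN RS F Kt θ β p S₀ g δ n) {σ : Cfg} (hσ : Φ.Frz RS δ n σ) {ω : Cfg} (hω : Good ω)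
    (hk : ∀ v ∈ Φ.U RS δ n ∪ Φ.Hc δ n, ω v = Φ.cs RS δ n σ v) (f : ℤ × ℤ → ℝ) :
    Ex (2 * Real.cos θ) (enl S₀ n) ω (XB θ β (qN p n (Φ.t n)) (enl S₀ n) (Φ.k n) f) =
      VT θ β p S₀ n (Φ.t n) (Φ.k n) f := by
  have hsin : 0 < Real.sin θ :=
    Real.sin_pos_of_pos_of_lt_pi h0 (by linarith [Real.pi_pos, h1.lt])
  have hcos : 0 < Real.cos θ := by have := h1.kit.pos; linarith
  have hF : Φ.Frz RS δ n ω := (FrS.frz_iff hσ).2 fun v hv => by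
    rw [hk v (mem_union_left _ hv), FrS.cs_U hv]
  have hdob := h.dob ω hω hF fun v hv hvU => by
    rw [hk v (mem_union_right _ hv), FrS.cs_H hvU]
  exact (VT_eq hn hp hD hsin hcos hβ h.junc hdob f).symm

/-- **(H6S) The closed frame.** -/
theorem FrS.h6sg (h0 : 0 < θ) (h1 : Ang θ) (hβ : Real.cos (θ / 2 + β) = Real.sin θ)
    (hR : RSW (2 * Real.cos θ)) (hP : IsLim (2 * Real.cos θ) P) (hG : ∀ᵐ ω ∂P, Good ω)
    [NeZero l] (hp : IsPolygon p) (hD : Encloses p S₀) (hGeo : Φ.Geo RS F Kt θ β p S₀)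
    (hE : Φ.ShD S₀) (hL : Φ.L2Sg RS F Kt θ S₀) : Φ.H6Sg RS θ β p S₀ P := by
  classical
  have hPp : IsProbabilityMeasure P := hP.1
  have hsin : 0 < Real.sin θ :=
    Real.sin_pos_of_pos_of_lt_pi h0 (by linarith [Real.pi_pos, h1.lt])
  have hcos : 0 < Real.cos θ := by have := h1.kit.pos; linarith
  obtain ⟨α, C, hα, hC, hA, -⟩ := h1.kit.armS
  obtain ⟨α', C', hα', hC', hA'⟩ := h1.kit.armM
  intro κ B hκ
  obtain ⟨κL, hκL, hL⟩ := hL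
  obtain ⟨A, δL, -, hδL, hL⟩ := hL (κL / 2) (by positivity) (by linarith)
  obtain ⟨g₁, hg₁, -, δG, hδG, hGeo⟩ := hGeo
  obtain ⟨M0, hM0⟩ := m2_any h0 h1 hβ hR hp hD B hκ
  obtain ⟨g₂, hg₂, δE, hδE, hE⟩ := hE
  obtain ⟨g, hg⟩ : ∃ g, g = min g₁ g₂ := ⟨_, rfl⟩
  have hg0 : 0 < g := by rw [hg]; exact lt_min hg₁ hg₂
  have hgg1 : g ≤ g₁ := by rw [hg]; exact min_le_left _ _
  have hgg2 : g ≤ g₂ := by rw [hg]; exact min_le_right _ _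
  obtain ⟨M, hM⟩ : ∃ M, M = max M0 1 := ⟨_, rfl⟩
  have hM1 : 1 ≤ M := by rw [hM]; exact le_max_right _ _
  have hM0' : M0 ≤ M := by rw [hM]; exact le_max_left _ _
  refine ⟨min (κ / 2) (min κL (g / 8)), 8 * M,
    lt_min (by positivity) (lt_min hκL (by positivity)), by linarith, fun ε hε => ?_⟩
  obtain ⟨ε', hε'⟩ : ∃ ε', ε' = min 1 (ε / 4) := ⟨_, rfl⟩
  have hε'0 : 0 < ε' := by rw [hε']; exact lt_min one_pos (by positivity)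
  have hε'1 : ε' ≤ 1 := by rw [hε']; exact min_le_left _ _
  obtain ⟨e, he⟩ : ∃ e, e = min (1 / 2) (ε' ^ 2 / (64 * M)) := ⟨_, rfl⟩
  have he0 : 0 < e := by rw [he]; exact lt_min (by norm_num) (by positivity)
  have he12 : e ≤ 1 / 2 := by rw [he]; exact min_le_left _ _
  have her : er M e ≤ ε' := er_le hM1 hε'0 hε'1 (by rw [he]; exact min_le_right _ _)
  obtain ⟨N, hN⟩ : ∃ N : ℝ, N = ((univ : Finset Φ.H).card : ℝ) := ⟨_, rfl⟩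
  have hN0 : 0 ≤ N := by rw [hN]; exact Nat.cast_nonneg _
  obtain ⟨t', ht'0, ht'1, ht'⟩ := rpow_small hα' (a := N * C') (by positivity) he0
  obtain ⟨t, ht⟩ : ∃ t, t = min (1 / 4) (t' / 2) := ⟨_, rfl⟩
  have ht0 : 0 < t := by rw [ht]; exact lt_min (by norm_num) (by positivity)
  have ht4 : t ≤ 1 / 4 := by rw [ht]; exact min_le_left _ _
  have htt : 2 * t ≤ t' := by
    have : t ≤ t' / 2 := by rw [ht]; exact min_le_right _ _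
    linarith
  refine ⟨t, ht0, by linarith, fun κ₃ κ₄ h3 h34 h4 => ?_⟩
  obtain ⟨η, hη⟩ : ∃ η, η = min (1 / 2) (ε / (32 * M)) := ⟨_, rfl⟩
  have hη0 : 0 < η := by rw [hη]; exact lt_min (by norm_num) (by positivity)
  have hη1 : η ≤ 1 / 2 := by rw [hη]; exact min_le_left _ _
  have hη2 : η ≤ ε / (32 * M) := by rw [hη]; exact min_le_right _ _
  obtain ⟨t₂, ht₂0, -, ht₂⟩ := rpow_small hα (a := 8 * N * C + C) (by positivity) hη0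
  have hκ4 : 0 < κ₄ := (pos_iff_pos_of_mul_pos (lt_of_lt_of_le h3 h34)).1 ht0
  refine ⟨min (min δL (min δG δE)) (min (κ₃ / 4) (t₂ * κ₃ / 4)), by positivity,
    fun δ hδ hδ0 => ?_⟩
  simp only [lt_min_iff] at hδ0
  obtain ⟨⟨d1, dG, dE⟩, d3, d4⟩ := hδ0
  filter_upwards [hL δ hδ d1, hM0, hGeo δ hδ dG, hE δ hδ dE,
    tendsto_natCast_atTop_atTop.eventually_ge_atTop (16 / δ),
    tendsto_natCast_atTop_atTop.eventually_ge_atTop (2 / t / κ₄)] with n hLn hMn hGn hEn n1 n2 σ hσ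
  have n1' : 16 ≤ δ * (n : ℝ) := by
    rw [div_le_iff₀ hδ] at n1
    linarith
  have n2' : 2 / t ≤ κ₄ * (n : ℝ) := by
    rw [div_le_iff₀ hκ4] at n2
    linarith
  have hn : 0 < n := by
    rcases Nat.eq_zero_or_pos n with h | h
    · rw [h] at n1'; norm_num at n1'
    · exact h
  have hn0 : (0 : ℝ) ≤ n := Nat.cast_nonneg n
  obtain ⟨f1, f2, f3, f4, f5, f6, f7⟩ := flo (n := n) (κ := κ) (κL := κL) (g := g) (t₂ := t₂)
    ht0 ht4 h3 h34 (h4.trans (min_le_left _ _))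
    (h4.trans ((min_le_right _ _).trans (min_le_left _ _)))
    (h4.trans ((min_le_right _ _).trans (min_le_right _ _))) hδ d3.le d4.le n1' n2'
  have hgn1 : g * n ≤ g₁ * n := mul_le_mul_of_nonneg_right hgg1 hn0
  have hgn2 : g * n ≤ g₂ * n := mul_le_mul_of_nonneg_right hgg2 hn0
  have hshD : ∀ x, H635.Shp (enl S₀ n) (Φ.h δ n x) ((⌊δ * n⌋₊ : ℤ) + 4) ⌊κ₄ * (n : ℝ)⌋ :=
    fun x => hEn x _ _ le_rfl (by
      have h1 : (0 : ℤ) ≤ ⌊κ₄ * (n : ℝ)⌋ := by have := Int.natCast_nonneg ⌊δ * (n : ℝ)⌋₊; omega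
      have h2 : (0 : ℝ) ≤ (⌊κ₄ * (n : ℝ)⌋ : ℝ) := by exact_mod_cast h1
      linarith)
  obtain ⟨σ', hσ'g, hσ'⟩ := exists_good (Φ.U RS δ n) σ
  have hσ'f : Φ.Frz RS δ n σ' := (FrS.frz_iff hσ).2 hσ'
  have hFr : ∀ {ω : Cfg}, (∀ v ∈ Φ.U RS δ n, ω v = σ' v) → Φ.Frz RS δ n ω := fun h =>
    (FrS.frz_iff hσ'f).2 h
  have eE : ∀ f : Cfg → ℝ, Φ.E RS δ n P σ f = Φ.E RS δ n P σ' f := fun f => by
    unfold FrS.E
    exact (EF_cfg hσ' f).symm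
  simp only [eE]
  have r0 : 0 ≤ (⌊δ * (n : ℝ)⌋₊ : ℤ) := Int.natCast_nonneg _
  have hT0 : ∀ ω, Good ω → (∀ v ∈ Φ.U RS δ n, ω v = σ' v) → 0 ≤
      QX.TO θ (Φ.U RS δ n) (Φ.ph RS δ n 0)
        (hBA univ (Φ.h δ n) ⌊κ₃ * (n : ℝ)⌋ : Set (ℤ × ℤ)) ω :=
    fun ω hω hf => TO_nonnegA f1 fun ℓ h2 h3 => ((hLn ω hω (hFr hf)).1 ℓ h2 h3).1
  have hR4 : (0 : ℝ) < ((⌊κ₄ * (n : ℝ)⌋ - 1 : ℤ) : ℝ) := by
    have : 0 < ⌊κ₄ * (n : ℝ)⌋ - 1 := by omega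
    exact_mod_cast this
  have hR3 : (0 : ℝ) < (⌊κ₃ * (n : ℝ)⌋ : ℝ) := by
    have : 0 < ⌊κ₃ * (n : ℝ)⌋ := by omega
    exact_mod_cast this
  have q1 : (univ : Finset Φ.H).card *
      (C' * (((⌊κ₃ * (n : ℝ)⌋ + 1 : ℤ) : ℝ) / ((⌊κ₄ * (n : ℝ)⌋ - 1 : ℤ) : ℝ)) ^ α') ≤ e := by
    rw [← hN, ← mul_assoc]
    refine ht' _ (div_nonneg ?_ hR4.le) (f6.trans htt)
    have : (0 : ℤ) ≤ ⌊κ₃ * (n : ℝ)⌋ + 1 := by omega
    exact_mod_cast this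
  have q2 : (8 * N * C + C) *
      ((((⌊δ * (n : ℝ)⌋₊ : ℤ) + 4 : ℤ) : ℝ) / (⌊κ₃ * (n : ℝ)⌋ : ℝ)) ^ α ≤ η := by
    refine ht₂ _ (div_nonneg ?_ hR3.le) f7
    have : (0 : ℤ) ≤ (⌊δ * (n : ℝ)⌋₊ : ℤ) + 4 := by omega
    exact_mod_cast this
  have q0 : 0 ≤ ((((⌊δ * (n : ℝ)⌋₊ : ℤ) + 4 : ℤ) : ℝ) / (⌊κ₃ * (n : ℝ)⌋ : ℝ)) ^ α := by
    refine Real.rpow_nonneg (div_nonneg ?_ hR3.le) _
    have : (0 : ℤ) ≤ (⌊δ * (n : ℝ)⌋₊ : ℤ) + 4 := by omega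
    exact_mod_cast this
  have q3 := mul_nonneg hC.le q0
  have q4 := mul_nonneg hN0 q3
  have hR34 : (⌊κ₃ * (n : ℝ)⌋ : ℝ) ≤ ⌊κ₄ * (n : ℝ)⌋ := by
    exact_mod_cast (by omega : ⌊κ₃ * (n : ℝ)⌋ ≤ ⌊κ₄ * (n : ℝ)⌋)
  have key : ∀ c : Ed → ℝ, (Function.support c).Finite → FlowIn (enl S₀ n) κ B n c → _ :=
    fun c hcf hfl => h6_one (J := univ) (b := Φ.b δ n) (c := Φ.h δ n) (a := Φ.ph RS δ n 0)
      (K := Φ.U RS δ n) (H := Φ.Hc δ n) (D := enl S₀ n) (k := Φ.k n) (q := qN p n (Φ.t n))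
      (κ := σ') (s := Φ.cs RS δ n σ') (R₃ := ⌊κ₃ * (n : ℝ)⌋) (R₄ := ⌊κ₄ * (n : ℝ)⌋)
      (V := VT θ β p S₀ n (Φ.t n) (Φ.k n) (dv c)) (M := M) (e := e) (η := η) (f := c)
      h0 h1 hβ hP hG hA hC.le hA' (isPolygon_qN hn hp (Φ.t n)) (encloses_qN hn hp hD (Φ.t n)) hσ'g
      (fun v hv => FrS.cs_U hv) (hGn.clo hσ'f (by linarith)) (fun x _ => by
        obtain ⟨v, hv, h⟩ := hGn.out x
        exact ⟨v, hv, by rwa [nm_sub_comm]⟩) (by omega) f1 f2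
      f5 (fun x _ y _ hxy => hGn.box_dis (by linarith) x y hxy)
      (fun x _ => hGn.shp x _ _ le_rfl (by linarith))
      (fun x _ => (hshD x).mono (by omega) (by omega))
      (by rw [← hN]; linarith) (by linarith) (by linarith) he0.le q1 he12 hM1 hfl hT0
      (fun ω ω' hω hω' hf hf' hc hc' h => (hLn ω hω (hFr hf)).2.1 _ ω' f1 hω' (hFr hf')
        (FrS.cnf_of hc f3) (FrS.cnf_of hc' f3) fun v hv _ => h v hv)
      (fun ω hω => (hMn ω hω _ _ c hcf hfl).trans hM0')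
      (fun ω hω hk => hGn.mean h0 h1 hβ hp hD hn hσ'f hω hk (dv c))
  refine ⟨?_, fun c hcf hfl => ?_⟩
  · have c0 := cb_GfA (K := Φ.U RS δ n) (a := Φ.ph RS δ n 0) (J := univ) (b := Φ.b δ n)
      (c := Φ.h δ n) (β := β) (D := enl S₀ n) (k := Φ.k n) (q := qN p n (Φ.t n)) (f := 0)
      (R₃ := ⌊κ₃ * (n : ℝ)⌋) (R₄ := ⌊κ₄ * (n : ℝ)⌋) h0 h1
    have h5 := EF_abs_eq (P := P) (K := Φ.U RS δ n) (κ := σ') hG c0 fun ω hω hk => by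
      rw [GfA_zero (isPolygon_qN hn hp (Φ.t n)) (encloses_qN hn hp hD (Φ.t n)) hω hsin.ne'
        hcos.ne' hβ]
      exact mul_nonneg (hT0 ω hω hk) ind01A
    show 0 ≤ EF P (Φ.U RS δ n) σ' _
    refine le_of_le_of_eq ?_ h5
    exact EF_nonneg fun ω => abs_nonneg _
  · obtain ⟨r0, r1, r2, r3⟩ := key c hcf hfl
    obtain ⟨s1, s2⟩ := fin_num hM1 hε hη0.le (by linarith) hη2 he0.le (by rw [← hε']; exact her)
    exact ⟨r1.trans (mul_le_mul_of_nonneg_right s1 r0),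
      r2.trans (mul_le_mul_of_nonneg_right s2 r0), r3.trans (by linarith)⟩

end Vale.Agent.P167.N.ID
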