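import Vale.Agent.P167.N.ID.StH4

/-!
# P167, `q < 1`, START: abstract frames, `H2Sg`
-/

set_option autoImplicit false

namespace Vale.Agent.P167.N.ID

open Finset MeasureTheory Filter

open Vale.Agent.P167 Vale.Agent.P167.N

open Vale.Agent.P167.BR hiding dv

open Vale.Agent.P167.FK

open Vale.Agent.P167.H519 (IsLim)

open Vale.Agent.P167.H825 (dv epos enl FlowIn)

open Vale.Agent.P167.H506.Q (EF LF)

open Vale.Agent.P167.H562.QM (MajA)

open Vale.Agent.P167.H562.MAJ (Sm)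

open Vale.Agent.P167.H398.Q (CB fn_EF ev_large)

open Vale.Agent.P167.H945.Q (Bq_of_nm EF_comb)

variable {X : Type} {RS : RSys X} {Kx : Type} [Fintype Kx] [DecidableEq Kx] {F : Fct RS Kx}
  {Kt : Finset Kx} {Φ : FrS X} {θ β : ℝ} {l : ℕ} {p : ZMod l → ℤ × ℤ} {S₀ : Finset (ℤ × ℤ)}
  {P : Measure Cfg}

/-- From the moments with `A²` to the square. -/
theorem sq_comb {K : Finset (ℤ × ℤ)} {σ : Cfg} [IsProbabilityMeasure P]
    (hg : ∀ᵐ ω ∂P, Good ω) {T w : Cfg → ℝ} {N : Cfg → ℕ}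
    {A C E : ℝ} (hT : CB T) (hN : CB fun ω => (A ^ 2) ^ N ω * Real.exp (-(2 * w ω)))
    (h : EF P K σ (fun ω => T ω * ((A ^ 2) ^ N ω * Real.exp (-(2 * w ω)))) ≤ C * E) :
    EF P K σ (fun ω => T ω * (A ^ (N ω + 1) * Real.exp (-(w ω))) ^ 2) ≤ A ^ 2 * C * E := by
  have e : (fun ω => T ω * (A ^ (N ω + 1) * Real.exp (-(w ω))) ^ 2) =
      fun ω => A ^ 2 * (T ω * ((A ^ 2) ^ N ω * Real.exp (-(2 * w ω)))) := by
    funext ω
    have e1 : Real.exp (-(w ω)) ^ 2 = Real.exp (-(2 * w ω)) := by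
      rw [← Real.exp_nat_mul]
      congr 1
      push_cast
      ring
    rw [mul_pow, e1, pow_succ]
    ring
  rw [e, (fn_EF hg).smul (hT.mul hN)]
  calc A ^ 2 * _ ≤ A ^ 2 * (C * E) := mul_le_mul_of_nonneg_left h (by positivity)
    _ = _ := by ring

theorem cb_LF {f : Cfg → ℝ} (h : LF f) : CB f := by
  obtain ⟨B, hB⟩ := h
  exact CB.of_loc hB

/-- **Moments of the numbers of the large segments**, abstract frames. -/
theorem h2sgA (Φ : FrS X) (h0 : 0 < θ) (h1 : Ang θ) (hR : RSW (2 * Real.cos θ))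
    (hb : P1bg RS F θ)
    (hP : IsLim (2 * Real.cos θ) P) (hg : ∀ᵐ ω ∂P, Good ω) (hG : Φ.Geo RS F Kt θ β p S₀) :
    Φ.H2Sg RS F Kt θ S₀ P := by
  classical
  have hPp : IsProbabilityMeasure P := hP.1
  intro κ B hκ
  obtain ⟨g, hg0, hg1, δg, hδg, Lg⟩ := hG
  refine ⟨min (g / 64) (κ / 64), by positivity, fun κ' hκ' hκ'1 A hA => ?_⟩
  have hκg : 64 * κ' ≤ g := by
    have := (hκ'1.trans_le (min_le_left _ _)).le
    linarith
  have hκκ : 64 * κ' ≤ κ := by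
    have := (hκ'1.trans_le (min_le_right _ _)).le
    linarith
  -- the grids
  obtain ⟨G1, hG1⟩ : ∃ G1 : ℕ, 1000 ≤ G1 := ⟨1000, le_rfl⟩
  obtain ⟨G2, hG2⟩ : ∃ G2 : ℕ, 2 * (|Φ.R| + 2) / κ' + 1 ≤ (G2 : ℝ) := exists_nat_ge _
  obtain ⟨J₁, hJ₁⟩ : ∃ J₁ : Finset ((Φ.H × (ℤ × ℤ)) ⊕ (Φ.ι × Kx)),
    J₁ = (univ ×ˢ grd G1).disjSum univ := ⟨_, rfl⟩
  obtain ⟨J₂, hJ₂⟩ : ∃ J₂ : Finset ((ℤ × ℤ) ⊕ (Φ.ι × Kx)), J₂ = (grd G2).disjSum univ := ⟨_, rfl⟩
  obtain ⟨m₀, hm₀⟩ : ∃ m₀ : ℕ, m₀ = J₁.card + J₂.card + 1 := ⟨_, rfl⟩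
  obtain ⟨s, hs⟩ : ∃ s : ℝ, s = m₀ * Real.log (A ^ 2) := ⟨_, rfl⟩
  have hA2 : 1 ≤ A ^ 2 := one_le_pow₀ hA
  obtain ⟨C1, r0, hC1, hr0, L1⟩ :=
    maj1A (β := β) (p := p) (S₀ := S₀) (Kt := Kt) Φ h1 hR hb hP hg s G1 hG1
  obtain ⟨C2, n0, δ₁, hC2, hn0, hδ₁, L2⟩ :=
    maj2A (β := β) (p := p) (S₀ := S₀) (Kt := Kt) Φ h1 hR hb hP hg hκ' s
  obtain ⟨C3, n3, hC3, hn3, L3⟩ := flowFA (RS := RS) (F := F) (Kt := Kt) (β := β) (p := p)
    (S₀ := S₀) Φ h0 h1 hR hP hg B (2 * (m₀ : ℝ)) hκ' hκκ (by positivity)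
  obtain ⟨C, hC⟩ : ∃ C : ℝ, C = m₀ * (max C1 C2 + (C3 + 1)) := ⟨_, rfl⟩
  have hCm : 0 < max C1 C2 := lt_max_of_lt_left hC1
  have hm0' : (0 : ℝ) < m₀ := by
    rw [hm₀]
    positivity
  refine ⟨A ^ 2 * C, min (min δ₁ (g / 16)) (min δg (κ' / 16)), by rw [hC]; positivity,
    by positivity, fun δ hδ hδ' => ?_⟩
  have d1 : δ < δ₁ := hδ'.trans_le ((min_le_left _ _).trans (min_le_left _ _))
  have d2 : 16 * δ ≤ g := by
    have := (hδ'.trans_le ((min_le_left _ _).trans (min_le_right _ _))).le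
    linarith
  have d3 : δ < δg := hδ'.trans_le ((min_le_right _ _).trans (min_le_left _ _))
  have d4 : 16 * δ ≤ κ' := by
    have := (hδ'.trans_le ((min_le_right _ _).trans (min_le_right _ _))).le
    linarith
  filter_upwards [Lg δ hδ d3, ev_large hδ (max r0 100), ev_large hκ' 100,
    tendsto_natCast_atTop_atTop.eventually_ge_atTop (max (max n0 n3) 1)] with n ng e1 e2 e3
  have e1a : r0 ≤ δ * n := (le_max_left _ _).trans e1
  have e1b : 100 ≤ δ * n := (le_max_right _ _).trans e1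
  have e3a : n0 ≤ (n : ℝ) := ((le_max_left _ _).trans (le_max_left _ _)).trans e3
  have e3b : n3 ≤ (n : ℝ) := ((le_max_right _ _).trans (le_max_left _ _)).trans e3
  have e3c : (1 : ℝ) ≤ n := (le_max_right _ _).trans e3
  have hn0' : (0 : ℝ) ≤ n := by linarith
  have m1 : 64 * (κ' * n) ≤ g * n := by
    have := mul_le_mul_of_nonneg_right hκg hn0'
    linarith
  have m2 : 16 * (δ * n) ≤ g * n := by
    have := mul_le_mul_of_nonneg_right d2 hn0'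
    linarith
  intro σ hσ
  obtain ⟨N₁, a1, a2, a3⟩ := L1 (κ' := κ') ng e1a m2 (by linarith) (by linarith)
  obtain ⟨N₂, b1, b2, b3⟩ := L2 ng e3a hδ d1 hκg d2 d4 e1b e2 G2
  rw [← hJ₁] at a2
  rw [← hJ₂] at b2
  have a1' := a1
  have b1' := b1
  choose U₁ hU₁ using a1'
  choose U₂ hU₂ using b1'
  obtain ⟨ρ₁, hρ₁⟩ : ∃ ρ₁ : ℤ, ρ₁ = ⌊δ * (n : ℝ) / 16⌋ := ⟨_, rfl⟩
  obtain ⟨ρ₂, hρ₂⟩ : ∃ ρ₂ : ℤ, ρ₂ = ⌊4 * κ' * (n : ℝ)⌋ := ⟨_, rfl⟩
  have L3' := L3 ng e3b hδ d4 (by linarith)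
  rw [← hρ₁, ← hρ₂] at L3' ⊢
  simp only [← hρ₁, ← hρ₂] at a3 b3
  have hE : ∀ A' : Finset Kx, 0 ≤ EF P (Φ.U RS δ n) σ (PG (Φ.fK RS F Kt δ n A' ρ₁ ρ₂)) :=
    fun A' => H506.Q.EF_nonneg fun ω => PG_nonneg fK_nonneg ω
  refine ⟨Bq 0 (⌊κ' * (n : ℝ)⌋ * G2), J₁.biUnion U₁, J₂.biUnion U₂, fun ω => ∑ j ∈ J₁, N₁ j ω,
    fun ω => ∑ j ∈ J₂, N₂ j ω, fun v hv => ?_, fun ω ω' h => ?_, fun ω ω' h => ?_, a2, b2,
    fun c hc hf => ?_, ?_, ?_⟩
  · refine Bq_of_nm ?_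
    have f6 : κ' * n - 1 < ⌊κ' * (n : ℝ)⌋ := Int.sub_one_lt_floor _
    have h3 : (κ' * n / 2 : ℝ) ≤ ⌊κ' * (n : ℝ)⌋ := by linarith
    have h2 : (κ' * n / 2) * (2 * (|Φ.R| + 2) / κ' + 1) = (|Φ.R| + 2) * n + κ' * n / 2 := by
      field_simp
    have h4 : (κ' * n / 2) * (2 * (|Φ.R| + 2) / κ' + 1) ≤ ⌊κ' * (n : ℝ)⌋ * G2 :=
      mul_le_mul h3 hG2 (by positivity) (by linarith)
    have h6 : (Φ.R + 1) * n ≤ (|Φ.R| + 1) * n :=
      mul_le_mul_of_nonneg_right (by linarith [le_abs_self Φ.R]) (by linarith)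
    have h7 : (nm (v - 0) : ℝ) < ((⌊κ' * (n : ℝ)⌋ * G2 : ℤ) : ℝ) := by
      rw [sub_zero]
      push_cast
      nlinarith
    exact_mod_cast h7
  · exact sum_congr rfl fun j hj => hU₁ j ω ω' fun v hv => h v (mem_biUnion.2 ⟨j, hj, hv⟩)
  · exact sum_congr rfl fun j hj => hU₂ j ω ω' fun v hv => h v (mem_biUnion.2 ⟨j, hj, hv⟩)
  · -- both numbers and the flow
    have hfl := L3' c hc hf univ σ
    have hJc : (J₁.disjSum J₂).card + 1 ≤ m₀ := by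
      rw [card_disjSum, hm₀]
    have hJc' : (((J₁.disjSum J₂).card + 1 : ℕ) : ℝ) ≤ m₀ := by exact_mod_cast hJc
    obtain ⟨k1, k2⟩ := EF_comb (P := P) (K := Φ.U RS δ n) (σ := σ) (A := A ^ 2) hg hA2
      (PG_LF (fK_loc (RS := RS) (F := F) (Kt := Kt) (Φ := Φ) (δ := δ) (n := n) (A := univ)
        (ρ₁ := ρ₁) (ρ₂ := ρ₂)))
      (fun ω => PG_nonneg fK_nonneg ω) (J₁.disjSum J₂) (Sum.elim N₁ N₂)
      (fun j => by
        rcases j with j | j
        · exact a1 j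
        · exact b1 j)
      (z := fun ω => 2 * (Real.tan θ * Sm (dv c) (κ' * n) ω))
      (fun t ht ht' => by
        have := (hfl (2 * t) (by positivity) (by linarith)).1
        refine (congrArg LF ?_).mp this
        funext ω
        congr 1
        ring) hJc (C1 := max C1 C2) (C2 := C3 + 1)
      (E := EF P (Φ.U RS δ n) σ (PG (Φ.fK RS F Kt δ n univ ρ₁ ρ₂)))
      hCm.le (by positivity) (hE univ)
      (fun j => by
        rcases j with j | j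
        · have := a3 j univ (subset_univ _) σ hσ
          rw [hs] at this
          exact this.trans (mul_le_mul_of_nonneg_right (le_max_left _ _) (hE univ))
        · have := b3 j univ (subset_univ _) σ hσ
          rw [hs] at this
          exact this.trans (mul_le_mul_of_nonneg_right (le_max_right _ _) (hE univ)))
      (by
        have := (hfl (2 * (((J₁.disjSum J₂).card + 1 : ℕ) : ℝ)) (by positivity)
          (by linarith)).2
        refine le_trans (le_of_eq ?_) (this.trans (mul_le_mul_of_nonneg_right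
          (by linarith) (hE univ)))
        congr 1
        funext ω
        congr 2
        ring)
    rw [← hC] at k2
    have key := sq_comb (N := fun ω => ∑ j ∈ J₁.disjSum J₂, Sum.elim N₁ N₂ j ω)
      (w := fun ω => Real.tan θ * Sm (dv c) (κ' * n) ω) hg
      (cb_PG (fK_loc (RS := RS) (F := F) (Kt := Kt) (Φ := Φ) (δ := δ) (n := n) (A := univ)
        (ρ₁ := ρ₁) (ρ₂ := ρ₂))) (cb_LF k1) k2
    unfold FrS.E
    rw [← TtTj_eq] at key
    refine le_trans (le_of_eq ?_) key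
    congr 1
    funext ω
    rw [sum_disjSum]
    rfl
  · have hJc : J₁.card + 1 ≤ m₀ := by
      rw [hm₀]
      omega
    obtain ⟨k1, k2⟩ := EF_comb (P := P) (K := Φ.U RS δ n) (σ := σ) (A := A ^ 2) hg hA2
      (PG_LF (fK_loc (RS := RS) (F := F) (Kt := Kt) (Φ := Φ) (δ := δ) (n := n) (A := Kt)
        (ρ₁ := ρ₁) (ρ₂ := ρ₂)))
      (fun ω => PG_nonneg fK_nonneg ω) J₁ N₁ a1
      (z := fun _ => 2 * 0)
      (fun t ht ht' => ⟨∅, fun _ _ _ => rfl⟩) hJc (C1 := max C1 C2) (C2 := C3 + 1)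
      (E := EF P (Φ.U RS δ n) σ (PG (Φ.fK RS F Kt δ n Kt ρ₁ ρ₂)))
      hCm.le (by positivity) (hE Kt)
      (fun j => by
        have := a3 j Kt subset_rfl σ hσ
        rw [hs] at this
        exact this.trans (mul_le_mul_of_nonneg_right (le_max_left _ _) (hE Kt)))
      (by
        simp only [mul_zero, neg_zero, Real.exp_zero, mul_one]
        have := mul_le_mul_of_nonneg_right (by linarith : (1 : ℝ) ≤ C3 + 1) (hE Kt)
        rwa [one_mul] at this)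
    rw [← hC] at k2
    have key := sq_comb (N := fun ω => ∑ j ∈ J₁, N₁ j ω) (w := fun _ => 0) hg
      (cb_PG (fK_loc (RS := RS) (F := F) (Kt := Kt) (Φ := Φ) (δ := δ) (n := n) (A := Kt)
        (ρ₁ := ρ₁) (ρ₂ := ρ₂))) (cb_LF k1) k2
    unfold FrS.E
    rw [← Tt_eq] at key
    refine le_trans (le_of_eq ?_) key
    congr 1
    funext ω
    simp only [neg_zero, Real.exp_zero, mul_one]
  · have hJc : J₂.card + 1 ≤ m₀ := by
      rw [hm₀]
      omega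
    obtain ⟨k1, k2⟩ := EF_comb (P := P) (K := Φ.U RS δ n) (σ := σ) (A := A ^ 2) hg hA2
      (PG_LF (fK_loc (RS := RS) (F := F) (Kt := Kt) (Φ := Φ) (δ := δ) (n := n) (A := Ktᶜ)
        (ρ₁ := ρ₁) (ρ₂ := ρ₂)))
      (fun ω => PG_nonneg fK_nonneg ω) J₂ N₂ b1
      (z := fun _ => 2 * 0)
      (fun t ht ht' => ⟨∅, fun _ _ _ => rfl⟩) hJc (C1 := max C1 C2) (C2 := C3 + 1)
      (E := EF P (Φ.U RS δ n) σ (PG (Φ.fK RS F Kt δ n Ktᶜ ρ₁ ρ₂)))
      hCm.le (by positivity) (hE _)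
      (fun j => by
        have := b3 j Ktᶜ subset_rfl σ hσ
        rw [hs] at this
        exact this.trans (mul_le_mul_of_nonneg_right (le_max_right _ _) (hE _)))
      (by
        simp only [mul_zero, neg_zero, Real.exp_zero, mul_one]
        have := mul_le_mul_of_nonneg_right (by linarith : (1 : ℝ) ≤ C3 + 1) (hE Ktᶜ)
        rwa [one_mul] at this)
    rw [← hC] at k2
    have key := sq_comb (N := fun ω => ∑ j ∈ J₂, N₂ j ω) (w := fun _ => 0) hg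
      (cb_PG (fK_loc (RS := RS) (F := F) (Kt := Kt) (Φ := Φ) (δ := δ) (n := n) (A := Ktᶜ)
        (ρ₁ := ρ₁) (ρ₂ := ρ₂))) (cb_LF k1) k2
    unfold FrS.E
    rw [← Tj_eq] at key
    refine le_trans (le_of_eq ?_) key
    congr 1
    funext ω
    simp only [neg_zero, Real.exp_zero, mul_one]

end Vale.Agent.P167.N.ID
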