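import Vale.Agent.P167.N.ID.StE
import Vale.Agent.P167.N.ID.StH5
import Vale.Agent.P167.N.ID.H6S
import Vale.Agent.P167.N.ID.H7S

/-!
# P167, `q < 1`, START: the abstract theorem

`startG_of`: START for a family of frames from the geometry and the inputs `L1Sg`, `L2Sg`, `P2Tg`,
`P2Sg`, `P3Sg`.
-/

set_option autoImplicit false

namespace Vale.Agent.P167.N.ID

open Finset MeasureTheory Filter

open Vale.Agent.P167 Vale.Agent.P167.N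

open Vale.Agent.P167.FK

open Vale.Agent.P167.E6 (IsPolygon Encloses)

open Vale.Agent.P167.H519 (IsLim)

open Vale.Agent.P167.H825 (Box)

open Vale.Agent.P167.H825.Q (VT)

open Vale.Agent.P167.H680.T (Fam Cls)

variable {X : Type} {RS : RSys X} {Kx : Type} [Fintype Kx] [DecidableEq Kx] {F : Fct RS Kx}
  {Kt : Finset Kx} {Φ : FrS X} {θ β : ℝ} {l : ℕ} {p : ZMod l → ℤ × ℤ} {S₀ : Finset (ℤ × ℤ)}
  {P : Measure Cfg}

/-- **START for a family of frames.** -/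
theorem startG_of {Cl : Cls} {b : Box} {Zp : ℕ → X → ℝ} (h0 : 0 < θ) (h1 : Ang θ)
    (hβ : Real.cos (θ / 2 + β) = Real.sin θ) (hR : RSW (2 * Real.cos θ))
    (hP : IsLim (2 * Real.cos θ) P) (hgd : ∀ᵐ ω ∂P, Good ω) [NeZero l] (hp : IsPolygon p)
    (hD : Encloses p S₀) (hG : Φ.Geo RS F Kt θ β p S₀) (hE : Φ.ShD S₀)
    (hF : ∃ δ₀ : ℝ, 0 < δ₀ ∧ ∀ δ : ℝ, 0 < δ → δ < δ₀ → ∃ reg : Φ.ι → Fin 5,
      Fam Cl S₀ b reg fun n i => RS.wall (Φ.r δ n i) (RS.Zrow θ Zp n (Φ.r δ n i)))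
    (hZ : ∀ n w, Cl.Z n w = w.z) (hb : P1bg RS F θ)
    (hL1 : Φ.L1Sg RS F Kt θ S₀) (hL2 : Φ.L2Sg RS F Kt θ S₀)
    (hPT : Φ.P2Tg RS F Kt θ P) (hPS : Φ.P2Sg RS F Kt θ P)
    (hP3 : Φ.P3Sg RS F Kt θ P Zp) {κ B ε : ℝ} (hκ : 0 < κ) (hε : 0 < ε) :
    StartG θ P Cl S₀ b (fun n f => VT θ β p S₀ n (Φ.t n) (Φ.k n) f) κ B ε := by
  have hH2 := h2sgA Φ h0 h1 hR hb hP hgd hG
  exact startg_ofA h0 h1 hβ hP hgd hp hD hG hF hZ hL1 hL2 hH2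
    (FrS.h6sg h0 h1 hβ hR hP hgd hp hD hG hE hL2)
    (FrS.h7sg h0 h1 hβ hP hgd hp hD hG hL2 hPT hPS hH2) hP3 hκ hε

end Vale.Agent.P167.N.ID
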