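import Vale.Agent.P167.N.ID.Asm
import Vale.Agent.P167.N.ID.StG
import Vale.Agent.P167.N.ID.L1SgA
import Vale.Agent.P167.N.ID.P3

/-!
# P167, `0 < q < 1`, block 2A: START from the inputs for the frames

* `FrIn`: the inputs for one family of frames of rows.
* `startG_fr : FrIn → StartG`.
* `startt_of`: `STARTt` from a family of frames for every choice of the data.
-/

set_option autoImplicit false

namespace Vale.Agent.P167.N.ID

open Finset Filter Topology MeasureTheory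

open Vale.Agent.P167 Vale.Agent.P167.N

open Vale.Agent.P167.FK

open Vale.Agent.P167.H825 (dv enl FlowIn Box)

open Vale.Agent.P167.H825.Q (Bc VT)

open Vale.Agent.P167.H519 (IsLim)

open Vale.Agent.P167.E6 (IsPolygon Encloses)

open Vale.Agent.P167.H680.T (WallG Cls clL Fam)

open Vale.Agent.P167.N.H825.Q (GpT Nrm)

variable {θ β : ℝ}

/-- **The inputs for one family of frames.** -/
structure FrIn (θ β : ℝ) (hθ : 0 ≤ Real.cos θ) {P : Measure Cfg} (S : TyS (rowF hθ) P) {l : ℕ}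
    (p : ZMod l → ℤ × ℤ) (S₀ : Finset (ℤ × ℤ)) (b : Box) (Φ : FrS Row) : Prop where
  /-- the geometry -/
  geo : Φ.Geo (rowS θ) (rowF hθ) {true} θ β p S₀
  /-- the shape of the domain at the holes -/
  shd : Φ.ShD S₀
  /-- the domain is in the picture -/
  dbox : ∀ᶠ n : ℕ in atTop, ∀ v ∈ enl S₀ n, (nm v : ℝ) ≤ Φ.R * n
  /-- the rows are a family of walls of the class -/
  fam : ∃ δ₀ : ℝ, 0 < δ₀ ∧ ∀ δ : ℝ, 0 < δ → δ < δ₀ → ∃ reg : Φ.ι → Fin 5,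
    Fam (clW hθ S) S₀ b reg fun n i => (rowS θ).wall (Φ.r δ n i) (Zw hθ S n (Φ.r δ n i))
  /-- windows -/
  win : Φ.WinG (rowS θ) (rowF hθ) {true} θ
  /-- the loops of the frame -/
  l2 : Φ.L2Sg (rowS θ) (rowF hθ) {true} θ S₀
  /-- the loops at the holes -/
  p2t : Φ.P2Tg (rowS θ) (rowF hθ) {true} θ P
  /-- the loops off the holes -/
  p2s : Φ.P2Sg (rowS θ) (rowF hθ) {true} θ P

/-- **START for one family of frames.** -/
theorem startG_fr (h0 : 0 < θ) (h1 : Ang θ) (hθ : 0 ≤ Real.cos θ)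
    (hβ : Real.cos (θ / 2 + β) = Real.sin θ) (hR : RSW (2 * Real.cos θ)) {P : Measure Cfg}
    (hP : IsLim (2 * Real.cos θ) P) (hgd : ∀ᵐ ω ∂P, Good ω) (S : TyS (rowF hθ) P)
    (ha : P1ag (rowS θ) (rowF hθ) θ) (hb' : P1bg (rowS θ) (rowF hθ) θ)
    (hc : P1cg (rowS θ) (rowF hθ) θ) (hr : RATg (rowS θ) (rowF hθ) θ) {l : ℕ} [NeZero l]
    {p : ZMod l → ℤ × ℤ}
    {S₀ : Finset (ℤ × ℤ)} (hp : IsPolygon p) (hD : Encloses p S₀) {b : Box}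
    {Φ : FrS Row} (h : FrIn θ β hθ S p S₀ b Φ) {κ B ε : ℝ} (hκ : 0 < κ) (hε : 0 < ε) :
    StartG θ P (clW hθ S) S₀ b (fun n f => VT θ β p S₀ n (Φ.t n) (Φ.k n) f) κ B ε :=
  startG_of h0 h1 hβ hR hP hgd hp hD h.geo h.shd h.fam (fun _ _ => rfl) hb'
    (l1sg_of h1 h.geo h.win h.dbox) h.l2 h.p2t h.p2s (p3sg_lab h1 hR hP hgd ha hc hr S h.geo)
    hκ hε

/-- **`STARTt`** from a family of frames for every choice of the data. -/
theorem startt_of (h0 : 0 < θ) (h1 : Ang θ) (hθ : 0 ≤ Real.cos θ)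
    (hβ : Real.cos (θ / 2 + β) = Real.sin θ) (hR : RSW (2 * Real.cos θ)) {P : Measure Cfg}
    (hP : IsLim (2 * Real.cos θ) P) (hgd : ∀ᵐ ω ∂P, Good ω) (S : TyS (rowF hθ) P)
    (ha : P1ag (rowS θ) (rowF hθ) θ) (hb' : P1bg (rowS θ) (rowF hθ) θ)
    (hc : P1cg (rowS θ) (rowF hθ) θ) (hr : RATg (rowS θ) (rowF hθ) θ)
    (h : ∀ (l : ℕ) [NeZero l] (p : ZMod l → ℤ × ℤ) (S₀ : Finset (ℤ × ℤ)), IsPolygon p →
      Encloses p S₀ → Nrm p → ∀ tp : ℝ, 0 < tp → tp < 1 → ∀ bc : Bc, bc.In l → ∀ b : Box,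
      b.Ok S₀ → GpT b tp → bc.Gp b → ∃ Φ : FrS Row, FrIn θ β hθ S p S₀ b Φ ∧
        (∀ n, Φ.k n = bc.ka l n (Φ.t n)) ∧
        (∃ m : ℕ, ∀ᶠ n : ℕ in atTop, |(Φ.t n : ℝ) - tp * n| ≤ m) ∧
        ((bc = .free ∨ bc = .wired) ∨ ∀ᶠ n : ℕ in atTop, Φ.t n = ⌊tp * (n : ℝ)⌋₊)) :
    STARTt θ β P (clW hθ S) := by
  intro l _ p S₀ hp hD hN tp ht0 ht1 bc hbc b hb ht hg κ B hκ hB ε hε
  obtain ⟨Φ, hΦ, hk, ⟨m, hm⟩, ht⟩ := h l p S₀ hp hD hN tp ht0 ht1 bc hbc b hb ht hg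
  refine ⟨m, Φ.t, hm, ht, ?_⟩
  have key := startG_fr h0 h1 hθ hβ hR hP hgd S ha hb' hc hr hp hD hΦ
    (B := B) hκ hε
  have e : (fun n f => VT θ β p S₀ n (Φ.t n) (bc.ka l n (Φ.t n)) f) =
      fun n f => VT θ β p S₀ n (Φ.t n) (Φ.k n) f := by
    funext n f
    rw [hk n]
  rw [e]
  exact key

end Vale.Agent.P167.N.ID
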