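import Vale.Agent.P167.N.ID.CellI
import Vale.Agent.P167.N.ID.RowF
import Vale.Agent.P167.N.ID.MajW

/-!
# P167, `q < 1`, START: the exits over the junction and the factor of a power junction

`ks_le`: the exits of a loop over the junction of a cell are strands over the middle point of the row
of the junction, except for the large ones.
-/

set_option autoImplicit false

namespace Vale.Agent.P167.N.ID

open Finset
open Vale.Agent.P167.BR
open Vale.Agent.P167.FK
open Vale.Agent.P167.XDL (bS mem_bS)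
open Vale.Agent.P167.H199 (strand ret mem_strand Returns)
open Vale.Agent.P167.H680.S (nxt)
open Vale.Agent.P167.H562.QM (MajA)
open Vale.Agent.P167.H680.T (nm_ht)
open Vale.Agent.P167.H945.Q (lrs faces face nm_sub_le nm_comm)
open DobF (ks)

variable {ω : Cfg} {ℓ : Finset Ed} {K Z R : Finset (ℤ × ℤ)} {B : Set (ℤ × ℤ)} {c : CD} {d : ℝ}
  {ρ : ℤ} {N : ℕ}

/-- The distance of a square of the row from the middle point. -/
theorem Row.nm_zm (r : Row) (k : ℕ) : nm (r.toRow.sq k - r.zm) ≤ |(k : ℤ) - r.k0| + 1 := by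
  have h0 := abs_nonneg ((k : ℤ) - r.k0)
  show nm (r.toRow.sq k - r.st r.kf r.k0) ≤ _
  unfold Row.st H825.Q.Row.sq
  cases r.o <;> cases r.kf <;> simp only [nm, if_true, if_false, Bool.false_eq_true, Prod.fst_sub,
    Prod.snd_sub, max_le_iff] <;> constructor <;> rw [abs_le] <;>
    rcases abs_cases ((k : ℤ) - r.k0) with ⟨h1, h2⟩ | ⟨h1, h2⟩ <;> rw [h1] <;> omega

theorem bq_ofK {v z : ℤ × ℤ} {ρ : ℤ} (h : nm (v - z) < ρ) : v ∈ Bq z ρ := by
  unfold nm at h
  rw [max_lt_iff, abs_lt, abs_lt] at h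
  simp only [Prod.fst_sub, Prod.snd_sub] at h
  unfold Bq
  rw [mem_product, mem_Ico, mem_Ico]
  omega

open Classical in
/-- **The exits over the junction of a cell** are strands over the middle point of the row. -/
theorem ks_le (F : Cell K B (R : Set (ℤ × ℤ)) c.n c.P c.u 1) (C : LC B ω ℓ) (r : Row)
    (hf : ∀ k < r.L, ∀ e : Ed, r.toRow.sq k ∉ B →
      ((tlv e = r.toRow.sq k ∧ hdv e ∈ R) ∨ (hdv e = r.toRow.sq k ∧ tlv e ∈ R)) →
      e = face r.toRow r.kf k)
    (hn : ∀ i j, i < c.k₀ → c.zc ≤ i → ¬ j < c.k₀ → j < c.zo → oq c.P c.u i ∈ K →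
      oq c.P c.u i ∉ B → oq c.P c.u j ∈ K → oq c.P c.u j ∉ B →
      (nm (oq c.P c.u i - oq c.P c.u j) : ℝ) < d + 2 → ∃ k k', k < r.L ∧ k' < r.L ∧
        oq c.P c.u i = r.toRow.sq k ∧ oq c.P c.u j = r.toRow.sq k' ∧
        ((k < r.k0 ∧ r.k0 ≤ k') ∨ (k' < r.k0 ∧ r.k0 ≤ k)))
    (hd : 2 * d + 4 ≤ ρ) (hZ : ∀ v ∈ K, ∀ w, nm (v - w) ≤ 1 → w ∈ Z) (hM : MajA Z d ω N) :
    (ks c K R ω ℓ).card ≤
      (lrs K (faces r.toRow r.kf 0 r.k0) (faces r.toRow r.kf r.k0 r.L) (Bq r.zm ρ) ω).card +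
      (lrs K (faces r.toRow r.kf r.k0 r.L) (faces r.toRow r.kf 0 r.k0) (Bq r.zm ρ) ω).card +
      N := by
  set X := ks c K R ω ℓ with hX
  have hXe : ∀ e ∈ X, e ∈ bS K ∧ hdv e ∉ K ∧ e ∈ ℓ ∧
      KS K (R : Set (ℤ × ℤ)) c.n c.P c.u c.k₀ c.zc c.zo ω e := by
    intro e he
    obtain ⟨h1, ⟨h2, h3⟩, h4⟩ := mem_filter.1 he
    exact ⟨h1, h2, h3, h4⟩
  have htl : ∀ e ∈ X, tlv e ∈ K := by
    intro e he
    obtain ⟨h1, h2, -, -⟩ := hXe e he
    rw [mem_bS] at h1
    rcases h1 with h | h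
    · exact absurd h.1 h2
    · exact h.2
  -- the large ones
  have hbig : (X.filter fun e => ¬ SmS (bS K) d ω e).card ≤ N := by
    refine seg_count (S := bS K) C.hg (fun e he => (hXe e (mem_filter.1 he).1).1) hM
      (fun e he => ?_) fun e he => (mem_filter.1 he).2
    refine hZ _ (htl e (mem_filter.1 he).1) _ ?_
    rw [nm_comm]
    exact nm_ht e
  -- the small ones
  have hsm : (X.filter fun e => SmS (bS K) d ω e) ⊆
      lrs K (faces r.toRow r.kf 0 r.k0) (faces r.toRow r.kf r.k0 r.L) (Bq r.zm ρ) ω ∪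
      lrs K (faces r.toRow r.kf r.k0 r.L) (faces r.toRow r.kf 0 r.k0) (Bq r.zm ρ) ω := by
    intro e he
    obtain ⟨he1, he2⟩ := mem_filter.1 he
    obtain ⟨h1, h2, h3, i, j, Y, hY⟩ := hXe e he1
    have hr := C.rets h1 h3
    have hm := Y.hm
    obtain ⟨m, hm'⟩ : ∃ m, ret (nx ω) (bS K) e = m + 1 := ⟨ret (nx ω) (bS K) e - 1, by omega⟩
    have hnx : nxt (bS K) ω e = nx ω ((nx ω)^[m] e) := by
      unfold nxt
      rw [hm', Function.iterate_succ_apply']
    have hnℓ : nxt (bS K) ω e ∈ ℓ := by rw [hnx]; exact C.nx_mem (C.it_mem h3 m)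
    -- the feet
    have f1 : nm (oq c.P c.u i - hdv e) ≤ 1 := by
      rw [← Y.tl]
      have := nm_ht e
      rw [nm_comm] at this
      exact this
    have f2 : nm (hdv ((nx ω)^[m] e) - oq c.P c.u j) ≤ 1 := by
      have := nm_ht (nxt (bS K) ω e)
      rw [Y.hd, hnx, tlv_nx] at this
      rw [nm_comm]
      exact this
    have f3 := he2 m (by omega)
    have hdist : (nm (oq c.P c.u i - oq c.P c.u j) : ℝ) < d + 2 := by
      have a1 := nm_sub_le (oq c.P c.u i) (hdv e) (oq c.P c.u j)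
      have a2 := nm_sub_le (hdv e) (hdv ((nx ω)^[m] e)) (oq c.P c.u j)
      rw [nm_comm (hdv e) (hdv ((nx ω)^[m] e))] at a2
      have a3 : (nm (oq c.P c.u i - oq c.P c.u j) : ℝ) ≤
          nm (hdv ((nx ω)^[m] e) - hdv e) + 2 := by
        have : nm (oq c.P c.u i - oq c.P c.u j) ≤ nm (hdv ((nx ω)^[m] e) - hdv e) + 2 := by omega
        exact_mod_cast this
      linarith
    have tB : oq c.P c.u i ∉ B := by rw [← Y.tl]; exact C.tl_off h3
    have hB : oq c.P c.u j ∉ B := by rw [← Y.hd]; exact C.hd_off hnℓ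
    have tK : oq c.P c.u i ∈ K := by rw [← Y.tl]; exact Y.tlK
    have hK : oq c.P c.u j ∈ K := by rw [← Y.hd]; exact Y.hdK
    -- the positions
    obtain ⟨k, k', hk, hk', e1, e2, hkk⟩ : ∃ k k', k < r.L ∧ k' < r.L ∧
        oq c.P c.u i = r.toRow.sq k ∧ oq c.P c.u j = r.toRow.sq k' ∧
        ((k < r.k0 ∧ r.k0 ≤ k') ∨ (k' < r.k0 ∧ r.k0 ≤ k)) := by
      rcases hY with ⟨a1, a2, a3, a4⟩ | ⟨a1, a2, a3, a4⟩
      · exact hn i j a1 a3 a2 a4 tK tB hK hB hdist
      · obtain ⟨k, k', b1, b2, b3, b4, b5⟩ := hn j i a2 a3 a1 a4 hK hB tK tB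
          (by rw [nm_comm]; exact hdist)
        exact ⟨k', k, b2, b1, b4, b3, by tauto⟩
    have g1 : e = face r.toRow r.kf k := hf k hk e (by rw [← e1]; exact tB)
      (Or.inl ⟨by rw [Y.tl, e1], by
        have := Y.ins 0 (by omega)
        exact mem_coe.1 this⟩)
    have g2 : nxt (bS K) ω e = face r.toRow r.kf k' := hf k' hk' _ (by rw [← e2]; exact hB)
      (Or.inr ⟨by rw [Y.hd, e2], mem_coe.1 Y.lst⟩)
    -- the box
    have hbox : ∀ x ∈ strand (nx ω) (bS K) e, hdv x ∈ Bq r.zm ρ := by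
      intro x hx
      obtain ⟨t, ht, rfl⟩ := mem_strand.1 hx
      have a1 := he2 t ht
      have a2 := nm_sub_le (hdv ((nx ω)^[t] e)) (hdv e) r.zm
      have a3 := nm_sub_le (hdv e) (oq c.P c.u i) r.zm
      rw [nm_comm (hdv e) (oq c.P c.u i)] at a3
      have a4 : (nm (oq c.P c.u i - r.zm) : ℝ) < d + 3 := by
        have b1 := r.nm_zm k
        rw [← e1] at b1
        have b2 : |(k : ℤ) - r.k0| ≤ nm (oq c.P c.u i - oq c.P c.u j) := by
          rw [e1, e2]
          have b3 : |(k : ℤ) - k'| ≤ nm (r.toRow.sq k - r.toRow.sq k') := by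
            unfold H825.Q.Row.sq nm
            cases r.o
            · simp only [Bool.false_eq_true, if_false, Prod.snd_sub, add_sub_add_left_eq_sub]
              exact le_max_right _ _
            · simp only [if_true, Prod.fst_sub, add_sub_add_left_eq_sub]
              exact le_max_left _ _
          refine le_trans ?_ b3
          rcases hkk with ⟨c1, c2⟩ | ⟨c1, c2⟩
          · rw [abs_of_nonpos (by omega), abs_of_nonpos (by omega)]; omega
          · rw [abs_of_nonneg (by omega), abs_of_nonneg (by omega)]; omega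
        have b4 : (nm (oq c.P c.u i - r.zm) : ℝ) ≤ nm (oq c.P c.u i - oq c.P c.u j) + 1 := by
          have : nm (oq c.P c.u i - r.zm) ≤ nm (oq c.P c.u i - oq c.P c.u j) + 1 := by omega
          exact_mod_cast this
        linarith
      have a6 : (nm (hdv ((nx ω)^[t] e) - r.zm) : ℝ) ≤
          nm (hdv ((nx ω)^[t] e) - hdv e) + 1 + nm (oq c.P c.u i - r.zm) := by
        have : nm (hdv ((nx ω)^[t] e) - r.zm) ≤
          nm (hdv ((nx ω)^[t] e) - hdv e) + 1 + nm (oq c.P c.u i - r.zm) := by omega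
        exact_mod_cast this
      have a5 : (nm (hdv ((nx ω)^[t] e) - r.zm) : ℝ) < ρ := by linarith
      exact bq_ofK (by exact_mod_cast a5)
    have hlrs : ∀ {A A' : Finset Ed}, e ∈ A → nxt (bS K) ω e ∈ A' →
        e ∈ lrs K A A' (Bq r.zm ρ) ω := by
      intro A A' k1 k2
      unfold lrs
      exact mem_filter.2 ⟨k1, h1, h2, hr, k2, hbox⟩
    have hmem : ∀ {lo hi t : ℕ}, lo ≤ t → t < hi → face r.toRow r.kf t ∈
        faces r.toRow r.kf lo hi := fun k1 k2 => mem_image_of_mem _ (mem_Ico.2 ⟨k1, k2⟩)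
    rw [mem_union]
    rcases hkk with ⟨c1, c2⟩ | ⟨c1, c2⟩
    · left
      exact hlrs (by rw [g1]; exact hmem (Nat.zero_le _) c1) (by rw [g2]; exact hmem c2 hk')
    · right
      exact hlrs (by rw [g1]; exact hmem c2 hk) (by rw [g2]; exact hmem (Nat.zero_le _) c1)
  have h1 := card_filter_add_card_filter_not (s := X) (fun e => SmS (bS K) d ω e)
  have h2 := (card_le_card hsm).trans (card_union_le _ _)
  omega

end Vale.Agent.P167.N.ID
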