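import Vale.Agent.P167.N.ID.CellU
import Vale.Agent.P167.N.ID.KsT2
import Vale.Agent.P167.N.ID.L2G
import Vale.Agent.P167.N.ID.P1K2

/-!
# P167, `q < 1`, START: the cells of a family of frames

`FrS.OneG`: the frames have two cells of one colour (domain, exterior). `FrS.DobG`: the frames have
three cells (domain, region between the domain and the box, exterior), `FrS.DobK`: the exits over the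
base.
-/

set_option autoImplicit false

namespace Vale.Agent.P167.N.ID

open Finset Filter
open Vale.Agent.P167 Vale.Agent.P167.N
open Vale.Agent.P167.FK
open Vale.Agent.P167.H825 (enl)
open Vale.Agent.P167.H945.Q (face)

section

variable {X : Type} (RS : RSys X) (Φ : FrS X) (θ β : ℝ) (S₀ : Finset (ℤ × ℤ))

/-- Far from the holes. -/
def FrS.Far (g δ : ℝ) (n : ℕ) (v : ℤ × ℤ) : Prop := ∀ x, g * n ≤ (nm (v - Φ.h δ n x) : ℝ)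

/-- **A frame of one colour** has two cells. -/
def FrS.OneN (g δ : ℝ) (n : ℕ) : Prop :=
  ∃ (Y : Set (ℤ × ℤ)) (cD cX : CD),
    (∀ R₃ : ℤ, (⌊δ * (n : ℝ)⌋₊ : ℤ) + 4 ≤ R₃ →
      OneF θ β (Φ.U RS δ n) (Φ.hB δ n R₃ : Set (ℤ × ℤ)) (Φ.ph RS δ n 0) (enl S₀ n) Y cD cX ∧
      ∀ ω : Cfg, Φ.Frz RS δ n ω → cD.Clr (Φ.U RS δ n) (Φ.hB δ n R₃ : Set (ℤ × ℤ)) ω ∧
        cX.Clr (Φ.U RS δ n) (Φ.hB δ n R₃ : Set (ℤ × ℤ)) ω) ∧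
    (cD.k₀ = cD.n → Φ.Far g δ n (oq cD.P cD.u ((cD.zc + cD.n - 1) % cD.n))) ∧
    (cD.k₀ = 0 → Φ.Far g δ n (oq cD.P cD.u cD.zo))

/-- The frames of one colour. -/
def FrS.OneG : Prop :=
  ∃ g : ℝ, 0 < g ∧ ∃ δ₀ : ℝ, 0 < δ₀ ∧ ∀ δ : ℝ, 0 < δ → δ < δ₀ → ∀ᶠ n : ℕ in atTop,
    Φ.OneN RS θ β S₀ g δ n

/-- The cells of a Dobrushin frame. -/
def FrS.DobC (g δ : ℝ) (n : ℕ) (R : Finset (ℤ × ℤ)) (Y : Set (ℤ × ℤ)) (cD cR cX : CD) : Prop :=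
  (∀ R₃ : ℤ, (⌊δ * (n : ℝ)⌋₊ : ℤ) + 4 ≤ R₃ →
      DobF θ β (Φ.U RS δ n) (Φ.hB δ n R₃ : Set (ℤ × ℤ)) (Φ.ph RS δ n 0) (enl S₀ n) R Y cD cR cX ∧
      ∀ ω : Cfg, Φ.Frz RS δ n ω → cD.Clr (Φ.U RS δ n) (Φ.hB δ n R₃ : Set (ℤ × ℤ)) ω ∧
        cR.Clr (Φ.U RS δ n) (Φ.hB δ n R₃ : Set (ℤ × ℤ)) ω ∧
        cX.Clr (Φ.U RS δ n) (Φ.hB δ n R₃ : Set (ℤ × ℤ)) ω) ∧
    Φ.Far g δ n (oq cD.P cD.u cD.k₀) ∧ Φ.Far g δ n (oq cD.P cD.u (cD.k₀ - 1))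

end

/-- **The exits over the base** are strands over the middle point of a power junction. -/
structure DobK (θ : ℝ) (K : Finset (ℤ × ℤ)) (B : Set (ℤ × ℤ)) (R : Finset (ℤ × ℤ)) (cR : CD)
    (r : Row) (g : ℝ) : Prop where
  k2 : r.K2 θ
  np : ¬ r.Plain
  hf : ∀ k < r.L, ∀ e : Ed, r.toRow.sq k ∉ B →
    ((tlv e = r.toRow.sq k ∧ hdv e ∈ R) ∨ (hdv e = r.toRow.sq k ∧ tlv e ∈ R)) →
    e = face r.toRow r.kf k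
  hn : ∀ i j, i < cR.k₀ → cR.zc ≤ i → ¬ j < cR.k₀ → j < cR.zo → oq cR.P cR.u i ∈ K →
    oq cR.P cR.u i ∉ B → oq cR.P cR.u j ∈ K → oq cR.P cR.u j ∉ B →
    (nm (oq cR.P cR.u i - oq cR.P cR.u j) : ℝ) < g → ∃ k k', k < r.L ∧ k' < r.L ∧
      oq cR.P cR.u i = r.toRow.sq k ∧ oq cR.P cR.u j = r.toRow.sq k' ∧
      ((k < r.k0 ∧ r.k0 ≤ k') ∨ (k' < r.k0 ∧ r.k0 ≤ k))

variable (Φ : FrS Row) (θ β : ℝ) (S₀ : Finset (ℤ × ℤ))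

/-- **A Dobrushin frame** has three cells. -/
def FrS.Dob3 (g δ : ℝ) (n : ℕ) : Prop :=
  ∃ (R : Finset (ℤ × ℤ)) (Y : Set (ℤ × ℤ)) (cD cR cX : CD),
    Φ.DobC (rowS θ) θ β S₀ g δ n R Y cD cR cX ∧
    ∃ y, ∀ R₃ : ℤ, (⌊δ * (n : ℝ)⌋₊ : ℤ) + 4 ≤ R₃ →
      DobK θ (Φ.U (rowS θ) δ n) (Φ.hB δ n R₃ : Set (ℤ × ℤ)) R cR (Φ.r δ n y) (g * n)

/-- The Dobrushin frames. -/
def FrS.DobG : Prop :=
  ∃ g : ℝ, 0 < g ∧ ∃ δ₀ : ℝ, 0 < δ₀ ∧ ∀ δ : ℝ, 0 < δ → δ < δ₀ → ∀ᶠ n : ℕ in atTop,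
    Φ.Dob3 θ β S₀ g δ n

end Vale.Agent.P167.N.ID
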