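import Vale.Agent.P167.N.ID.FrLA

/-!
# P167, `q < 1`, START: the product over the loops off the holes

`L2Sg` (a), (c), (e) of a family of frames from its cells:

* `l2a_one`, `l2c_one`, `l2e_one`: frames of one colour (`FrS.OneG`).
* `l2a_dob`, `l2c_dob`, `l2e_dob`: Dobrushin frames (`FrS.DobG`).
-/

set_option autoImplicit false

namespace Vale.Agent.P167.N.ID

open Finset Filter Topology
open Vale.Agent.P167 Vale.Agent.P167.N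
open Vale.Agent.P167.FK
open Vale.Agent.P167.XDL (bS)
open Vale.Agent.P167.H825 (enl)
open Vale.Agent.P167.H680.S (Lo mem_Lo)
open Vale.Agent.P167.H685 (LE mem_LE)
open Vale.Agent.P167.QX (fLp VisL TO)
open Vale.Agent.P167.H562.QM (MajA)
open Vale.Agent.P167.H945.Q (lrs faces)

section

variable {X : Type} {RS : RSys X} {Φ : FrS X} {θ β : ℝ} {S₀ : Finset (ℤ × ℤ)}

/-- The loops of the frame off the boxes. -/
theorem lcB_of {ω : Cfg} {K : Finset (ℤ × ℤ)} {B : Set (ℤ × ℤ)} {ℓ : Finset Ed} (hg : Good ω)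
    (hℓ : ℓ ∈ LE ω (bS K)) (hv : ¬ VisL B ℓ) : LC B ω ℓ ∧ ∃ b ∈ bS K, b ∈ ℓ := by
  classical
  have h : ℓ ∈ Lo K B ω := by
    unfold Lo
    exact mem_filter.2 ⟨hℓ, hv⟩
  obtain ⟨h1, h2, h3⟩ := mem_Lo.1 h
  exact ⟨⟨hg, h1, h3⟩, h2⟩

/-- A confined loop over a far square does not visit the boxes of the holes. -/
theorem farB_vis {g κ δ : ℝ} {n : ℕ} {R : ℤ} {ω : Cfg} (hκ : κ < g) (hn : 0 < n)
    (hC : Φ.Cnf δ n R ⌊κ * n⌋ ω) {ℓ : Finset Ed} (hℓ : IsLoop ω ℓ)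
    (h : ∃ b ∈ ℓ, hdv b ∈ {v | Φ.Far g δ n v}) :
    ¬ VisL (Φ.hB δ n R : Set (ℤ × ℤ)) ℓ := by
  intro hv
  obtain ⟨x, hx⟩ := hC ℓ hℓ hv
  obtain ⟨b, hb, hF⟩ := h
  have h1 : hdv b ∈ Bq (Φ.h δ n x) ⌊κ * n⌋ := hx _ (by unfold vs; exact mem_image_of_mem _ hb)
  have h2 : g * n ≤ (nm (hdv b - Φ.h δ n x) : ℝ) := hF x
  have h3 : nm (hdv b - Φ.h δ n x) ≤ ⌊κ * n⌋ := by
    unfold Bq at h1
    rw [mem_product, mem_Ico, mem_Ico] at h1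
    unfold nm
    rw [max_le_iff, abs_le, abs_le, Prod.fst_sub, Prod.snd_sub]
    omega
  have h4 : (nm (hdv b - Φ.h δ n x) : ℝ) ≤ κ * n := by
    have : (nm (hdv b - Φ.h δ n x) : ℝ) ≤ (⌊κ * n⌋ : ℤ) := by exact_mod_cast h3
    exact this.trans (Int.floor_le _)
  have h5 : κ * (n : ℝ) < g * n := mul_lt_mul_of_pos_right hκ (by exact_mod_cast hn)
  linarith

/-! ### frames of one colour -/

/-- **(a)**, one colour. -/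
theorem l2a_one (hs : Real.sin θ ≠ 0) (hc : 0 < Real.cos θ) (h : Φ.OneG RS θ β S₀) :
    Φ.L2a RS θ := by
  obtain ⟨g, -, δ₀, hδ₀, H⟩ := h
  refine ⟨δ₀, hδ₀, fun δ hδ hδ' => ?_⟩
  filter_upwards [H δ hδ hδ'] with n hn ω hg hF ℓ hℓ hv
  obtain ⟨Y, cD, cX, h1, -, -⟩ := hn
  obtain ⟨F, hcl⟩ := h1 _ le_rfl
  obtain ⟨hD, hX⟩ := hcl ω hF
  obtain ⟨C, hS⟩ := lcB_of hg hℓ hv
  exact F.nonneg hD hX C hs hc hS

/-- **(c)**, one colour. -/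
theorem l2c_one (hs : Real.sin θ ≠ 0) (hc : 0 < Real.cos θ) (h : Φ.OneG RS θ β S₀) :
    Φ.L2c RS θ S₀ := by
  obtain ⟨g, hg, δ₀, hδ₀, H⟩ := h
  refine ⟨g / 2, δ₀, half_pos hg, hδ₀, fun δ hδ hδ' => ?_⟩
  filter_upwards [H δ hδ hδ', eventually_gt_atTop 0] with n hn hn0 ω hgd hF R₃ ω' hR hgd' hF' hC hC'
    hag
  obtain ⟨Y, cD, cX, h1, h2, h3⟩ := hn
  obtain ⟨F, hcl⟩ := h1 _ hR
  obtain ⟨hD, hX⟩ := hcl ω hF
  obtain ⟨hD', hX'⟩ := hcl ω' hF'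
  exact F.TO_agree hD hX hgd hgd' hD' hX' hs hc.ne'
    (fun v a1 a2 => hag v a1 fun a3 => a2 (mem_coe.2 a3)) (Sp := {v | Φ.Far g δ n v}) h2 h3
    (fun ℓ hℓ h => farB_vis (half_lt_self hg) hn0 hC hℓ h)
    (fun ℓ hℓ h => farB_vis (half_lt_self hg) hn0 hC' hℓ h)

/-! ### Dobrushin frames -/

end

section

variable {Φ : FrS Row} {θ β : ℝ} {S₀ : Finset (ℤ × ℤ)} {l : ℕ} {p : ZMod l → ℤ × ℤ}

/-- The factors are nonnegative. -/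
theorem rowTB_nonneg (hc : 0 ≤ Real.cos θ) (I : Finset (ℤ × ℤ)) (r : Row) (k : Bool) (R : ℤ)
    (ω : Cfg) : 0 ≤ r.T θ I k R ω :=
  (rowF hc).nonneg I r k R ω

/-- The product of the factors off the holes. -/
theorem tjB_eq (hc : 0 ≤ Real.cos θ) (δ : ℝ) (n : ℕ) (ρ : ℤ) (ω : Cfg) :
    Φ.Tj (rowS θ) (rowF hc) {true} δ n ρ ω =
      ∏ i, (Φ.r δ n i).T θ (Φ.U (rowS θ) δ n) false ρ ω := by
  unfold FrS.Tj
  refine prod_congr rfl fun i _ => ?_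
  have h : ({true}ᶜ : Finset Bool) = {false} := rfl
  rw [h, prod_singleton]
  rfl

theorem tjB_le_one (hc : 0 ≤ Real.cos θ) (hq : 2 * Real.cos θ ≤ 1) (δ : ℝ) (n : ℕ) (ρ : ℤ)
    (ω : Cfg) : Φ.Tj (rowS θ) (rowF hc) {true} δ n ρ ω ≤ 1 := by
  rw [tjB_eq]
  exact prod_le_one (fun i _ => rowTB_nonneg hc _ _ _ _ _) fun i _ => Row.T_le_one hc hq _ _ _ _ _

theorem tjB_le (hc : 0 ≤ Real.cos θ) (hq : 2 * Real.cos θ ≤ 1) (δ : ℝ) (n : ℕ) (ρ : ℤ)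
    (ω : Cfg) (y : Φ.ι) : Φ.Tj (rowS θ) (rowF hc) {true} δ n ρ ω ≤
      (Φ.r δ n y).T θ (Φ.U (rowS θ) δ n) false ρ ω := by
  classical
  rw [tjB_eq, ← mul_prod_erase univ _ (mem_univ y)]
  refine mul_le_of_le_one_right (rowTB_nonneg hc _ _ _ _ _) ?_
  exact prod_le_one (fun i _ => rowTB_nonneg hc _ _ _ _ _) fun i _ => Row.T_le_one hc hq _ _ _ _ _

/-- **(e)**, one colour. -/
theorem l2e_one (hs : Real.sin θ ≠ 0) (hc : 0 < Real.cos θ) (hq : 2 * Real.cos θ ≤ 1)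
    (h : Φ.OneG (rowS θ) θ β S₀) : Φ.L2e (rowS θ) (rowF hc.le) {true} θ := by
  obtain ⟨g, hg, δ₀, hδ₀, H⟩ := h
  refine ⟨g / 2, half_pos hg, fun κ' _ _ => ⟨1, δ₀, le_rfl, hδ₀, fun δ hδ hδ' => ?_⟩⟩
  filter_upwards [H δ hδ hδ'] with n hn ω hgd hF R₃ Z N₂ hR _ _ _ hne
  obtain ⟨Y, cD, cX, h1, -, -⟩ := hn
  obtain ⟨F, hcl⟩ := h1 _ hR
  obtain ⟨hD, hX⟩ := hcl ω hF
  rw [one_pow, one_mul]
  exact (tjB_le_one hc.le hq _ _ _ _).trans (F.TO_low hD hX hgd hs hc hq hne)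

/-- **(a)**, Dobrushin frames. -/
theorem l2a_dob (hs : Real.sin θ ≠ 0) (hc : 0 < Real.cos θ) (hβ : β = (θ - Real.pi) / 2)
    (h : Φ.DobG θ β S₀) : Φ.L2a (rowS θ) θ := by
  obtain ⟨g, -, δ₀, hδ₀, H⟩ := h
  refine ⟨δ₀, hδ₀, fun δ hδ hδ' => ?_⟩
  filter_upwards [H δ hδ hδ'] with n hn ω hg hF ℓ hℓ hv
  obtain ⟨R, Y, cD, cR, cX, ⟨h1, -, -⟩, -⟩ := hn
  obtain ⟨F, hcl⟩ := h1 _ le_rfl
  obtain ⟨hD, hR, hX⟩ := hcl ω hF
  obtain ⟨C, hS⟩ := lcB_of hg hℓ hv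
  exact F.nonneg hD hR hX C hs hc hβ hS

/-- **(c)**, Dobrushin frames. -/
theorem l2c_dob (hs : Real.sin θ ≠ 0) (hc : 0 < Real.cos θ) (hβ : β = (θ - Real.pi) / 2)
    (h : Φ.DobG θ β S₀) : Φ.L2c (rowS θ) θ S₀ := by
  obtain ⟨g, hg, δ₀, hδ₀, H⟩ := h
  refine ⟨g / 2, δ₀, half_pos hg, hδ₀, fun δ hδ hδ' => ?_⟩
  filter_upwards [H δ hδ hδ', eventually_gt_atTop 0] with n hn hn0 ω hgd hF R₃ ω' hR3 hgd' hF' hC
    hC' hag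
  obtain ⟨R, Y, cD, cR, cX, ⟨h1, h2, h3⟩, -⟩ := hn
  obtain ⟨F, hcl⟩ := h1 _ hR3
  obtain ⟨hD, hR, hX⟩ := hcl ω hF
  obtain ⟨hD', hR', hX'⟩ := hcl ω' hF'
  exact F.TO_agree hD hR hX hD' hR' hX' hgd hgd' hs hc.ne' hβ
    (fun v a1 a2 => hag v a1 fun a3 => a2 (mem_coe.2 a3)) (Sp := {v | Φ.Far g δ n v}) h2 h3
    (fun ℓ hℓ h => farB_vis (half_lt_self hg) hn0 hC hℓ h)
    (fun ℓ hℓ h => farB_vis (half_lt_self hg) hn0 hC' hℓ h)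

/-- **(e)**, Dobrushin frames. -/
theorem l2e_dob (hs : Real.sin θ ≠ 0) (hc : 0 < Real.cos θ) (hq : 2 * Real.cos θ ≤ 1)
    (hβ : β = (θ - Real.pi) / 2) (h : Φ.DobG θ β S₀)
    (hG : Φ.Geo (rowS θ) (rowF hc.le) {true} θ β p S₀) :
    Φ.L2e (rowS θ) (rowF hc.le) {true} θ := by
  obtain ⟨g, hg, δ₀, hδ₀, H⟩ := h
  obtain ⟨g', -, -, δ₁, hδ₁, HG⟩ := hG
  have hA : 1 ≤ (2 * Real.cos θ)⁻¹ := (one_le_inv₀ (by linarith)).2 hq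
  refine ⟨g / 2, half_pos hg, fun κ' hκ hκ' => ⟨(2 * Real.cos θ)⁻¹, min δ₀ δ₁, hA,
    lt_min hδ₀ hδ₁, fun δ hδ hδ' => ?_⟩⟩
  have e1 : ∀ᶠ n : ℕ in atTop, (5 : ℝ) ≤ 2 * κ' * n :=
    (tendsto_natCast_atTop_atTop.const_mul_atTop (by positivity)).eventually_ge_atTop _
  have e2 : ∀ᶠ n : ℕ in atTop, (2 : ℝ) ≤ g / 2 * n :=
    (tendsto_natCast_atTop_atTop.const_mul_atTop (by positivity)).eventually_ge_atTop _
  filter_upwards [H δ hδ (hδ'.trans_le (min_le_left _ _)), HG δ hδ (hδ'.trans_le (min_le_right _ _)),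
    e1, e2, eventually_gt_atTop 0] with n hn hGn e1 e2 hn0 ω hgd hF R₃ Z N₂ hR3 _ hZ hM hne
  have hn1 : (1 : ℝ) ≤ n := by exact_mod_cast hn0
  obtain ⟨R, Y, cD, cR, cX, ⟨h1, -, -⟩, y, hK⟩ := hn
  obtain ⟨F, hcl⟩ := h1 _ hR3
  obtain ⟨hD, hR, hX⟩ := hcl ω hF
  have K := hK _ hR3
  rcases F.TO_low hD hR hX hgd hs hc hq hβ hne with h | ⟨ℓ, C, -, -, h⟩
  · refine (tjB_le_one hc.le hq _ _ _ _).trans ?_
    calc (1 : ℝ) = 1 * 1 := (mul_one 1).symm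
      _ ≤ _ := mul_le_mul (one_le_pow₀ hA) h zero_le_one (by positivity)
  · have hT := tjB_le (Φ := Φ) hc.le hq δ n ⌊4 * κ' * n⌋ ω y
    have hT2 : (Φ.r δ n y).T θ (Φ.U (rowS θ) δ n) false ⌊4 * κ' * n⌋ ω =
        (Φ.r δ n y).T2 θ (Φ.U (rowS θ) δ n) ⌊4 * κ' * n⌋ ω := by
      unfold Row.T
      rw [if_neg Bool.false_ne_true, if_neg K.np, if_pos K.k2]
    rw [hT2] at hT
    have hd : 2 * (κ' * n) + 4 ≤ ((⌊4 * κ' * n⌋ : ℤ) : ℝ) := by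
      have := Int.lt_floor_add_one (4 * κ' * (n : ℝ))
      linarith
    have hks := ks_le (F := F.oR.cell) C (Φ.r δ n y) K.hf
      (fun i j a1 a2 a3 a4 a5 a6 a7 a8 a9 => K.hn i j a1 a2 a3 a4 a5 a6 a7 a8
        (a9.trans_le (by
          have : κ' * (n : ℝ) ≤ g / 2 * n := mul_le_mul_of_nonneg_right hκ'.le (by linarith)
          linarith))) hd
      (fun v hv w hw => hZ w ?_) hM
    · have hpos : (0 : ℝ) < 2 * Real.cos θ := by linarith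
      set k := (DobF.ks cR (Φ.U (rowS θ) δ n) R ω ℓ).card with hk
      set e := (lrs (Φ.U (rowS θ) δ n) (faces (Φ.r δ n y).toRow (Φ.r δ n y).kf 0 (Φ.r δ n y).k0)
        (faces (Φ.r δ n y).toRow (Φ.r δ n y).kf (Φ.r δ n y).k0 (Φ.r δ n y).L)
        (Bq (Φ.r δ n y).zm ⌊4 * κ' * n⌋) ω).card +
        (lrs (Φ.U (rowS θ) δ n) (faces (Φ.r δ n y).toRow (Φ.r δ n y).kf (Φ.r δ n y).k0 (Φ.r δ n y).L)
        (faces (Φ.r δ n y).toRow (Φ.r δ n y).kf 0 (Φ.r δ n y).k0)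
        (Bq (Φ.r δ n y).zm ⌊4 * κ' * n⌋) ω).card with he
      have h2 : (Φ.r δ n y).T2 θ (Φ.U (rowS θ) δ n) ⌊4 * κ' * n⌋ ω = (2 * Real.cos θ) ^ e := rfl
      rw [h2] at hT
      have h3 : (2 * Real.cos θ) ^ (1 + (e + N₂)) ≤ (2 * Real.cos θ) ^ (1 + k) :=
        pow_le_pow_of_le_one hpos.le hq (by omega)
      have h4 : (2 * Real.cos θ) ^ e = (2 * Real.cos θ)⁻¹ ^ (N₂ + 1) *
          (2 * Real.cos θ) ^ (1 + (e + N₂)) := by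
        rw [show 1 + (e + N₂) = (N₂ + 1) + e by ring, pow_add (2 * Real.cos θ) (N₂ + 1) e,
          ← mul_assoc, inv_pow, inv_mul_cancel₀ (pow_pos hpos _).ne', one_mul]
      calc _ ≤ (2 * Real.cos θ) ^ e := hT
        _ = (2 * Real.cos θ)⁻¹ ^ (N₂ + 1) * (2 * Real.cos θ) ^ (1 + (e + N₂)) := h4
        _ ≤ _ := mul_le_mul_of_nonneg_left (h3.trans h) (by positivity)
    · obtain ⟨i, hi⟩ : ∃ i, v ∈ (rowS θ).I (Φ.r δ n i) := mem_uIA.1 hv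
      have b1 := hGn.rbox i v hi
      have b2 : nm w ≤ nm v + nm (v - w) := by
        have a1 := H45.nm_sub_le w v 0
        rw [sub_zero, sub_zero, H945.Q.nm_comm] at a1
        omega
      have b3 : (nm w : ℝ) ≤ nm v + 1 := by
        have : nm w ≤ nm v + 1 := by omega
        exact_mod_cast this
      nlinarith

end

end Vale.Agent.P167.N.ID
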