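import Vale.Agent.P167.N.ID.FrLP

/-!
# P167, `q < 1`, START: the row of the base of a Dobrushin frame

* `srowJ_hf`: the face `kf` of a row along a side with a negative jump is the outer face.
* `sq_col`: squares of different colours of a row are on different sides of the special point.
* `dobK_of`: `DobK` for the row of the base.
-/

set_option autoImplicit false

namespace Vale.Agent.P167.N.ID

open Finset Filter Topology
open Vale.Agent.P167.Top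
open Vale.Agent.P167.H871
open Vale.Agent.P167.H871.Q
open Vale.Agent.P167.A (plane)
open Vale.Agent.P167.H199 (Gap ah at' mks mks_ok exists_Gap)
open Vale.Agent.P167.H825.Q (Bc stΦ stτ srow srow_sq osq jpos)
open Vale.Agent.P167.H680.T (WallG WCG sgb sq par uI mem_uI)
open Vale.Agent.P167.H398.Q (hB)
open Vale.Agent.P167.H662 (hsite)
open Vale.Agent.P167.E6 (IsPolygon Encloses dir face)
open Vale.Agent.P167.H825 (pdir enl ptau Marks Box)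
open Vale.Agent.P167.XDL (bS mem_bS)
open Vale.Agent.P167.Enl (sW eW tB tB_lt kOf kOf_lt uN qN PN bd_qN qN_nat pW uW pW_eq uW_eq pW_vp
  uW_same uW_mod vec_pred vp frmQ mem_frmQ mem_rowP sR eR row_dat row_num sR_num row_bds gn_big
  sqL_op BGap exists_BGap vp_far vp_same pA vp_pA op_near nm_tri theta_nonneg theta_le_one)

/-- The squares at a medial edge. -/
theorem ed_sq {e : Ed} {a b : ℤ × ℤ} (h : (tlv e = a ∧ hdv e = b) ∨ (hdv e = a ∧ tlv e = b)) :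
    (e = Sum.inl a ∧ b = (a.1 + 1, a.2)) ∨ (e = Sum.inl b ∧ a = (b.1 + 1, b.2)) ∨
    (e = Sum.inr a ∧ b = (a.1, a.2 + 1)) ∨ (e = Sum.inr b ∧ a = (b.1, b.2 + 1)) := by
  rcases e with v | v
  · have h1 : (tlv (Sum.inl v) = v ∧ hdv (Sum.inl v) = (v.1 + 1, v.2)) ∨
        (hdv (Sum.inl v) = v ∧ tlv (Sum.inl v) = (v.1 + 1, v.2)) := by
      unfold tlv hdv
      simp only
      split_ifs <;> simp
    rcases h with ⟨rfl, rfl⟩ | ⟨rfl, rfl⟩ <;> rcases h1 with ⟨h1, h2⟩ | ⟨h1, h2⟩ <;> rw [h1, h2] <;>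
      simp
  · have h1 : (tlv (Sum.inr v) = v ∧ hdv (Sum.inr v) = (v.1, v.2 + 1)) ∨
        (hdv (Sum.inr v) = v ∧ tlv (Sum.inr v) = (v.1, v.2 + 1)) := by
      unfold tlv hdv
      simp only
      split_ifs <;> simp
    rcases h with ⟨rfl, rfl⟩ | ⟨rfl, rfl⟩ <;> rcases h1 with ⟨h1, h2⟩ | ⟨h1, h2⟩ <;> rw [h1, h2] <;>
      simp

section side

variable {θ κ : ℝ} {J : Bool} {z : ℤ × ℤ} {r : Fin 4} {s e jp n : ℕ} {F T : ℕ → ℝ}

/-- **The face `kf` of a row with a negative jump** is the outer face. -/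
theorem srowJ_hf (hj : F (e - 1) < F s) {k : ℕ} (hk0 : 0 < k)
    (hk1 : k + 1 < (srowJ θ J z r s e jp F T).L) {e0 : Ed} {w : ℤ × ℤ}
    (h : (tlv e0 = (srowJ θ J z r s e jp F T).toRow.sq k ∧ hdv e0 = w) ∨
      (hdv e0 = (srowJ θ J z r s e jp F T).toRow.sq k ∧ tlv e0 = w))
    (hw : w ∉ (srowJ θ J z r s e jp F T).I)
    (hin : ∀ σ : ℕ, s ≤ σ → σ < e → w ≠ face (z + (σ : ℤ) • dir r) r) :
    e0 = H945.Q.face (srowJ θ J z r s e jp F T).toRow (srowJ θ J z r s e jp F T).kf k := by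
  have hL : (srowJ θ J z r s e jp F T).L = e - s := srowJ_L _ _ _ _ _ _ _ _ _
  rw [hL] at hk1
  obtain ⟨x, y⟩ := z
  have d1 : ¬ 0 < F (e - 1) - hJ θ J - (F s - hJ θ J) := by linarith
  have d2 : 0 < F s - hJ θ J - (F (e - 1) - hJ θ J) := by linarith
  have hm := fun v => (srowJ θ J (x, y) r s e jp F T).mem_I (v := v)
  rcases Enl.fin4_cases r with rfl | rfl | rfl | rfl
  · have e1 : (srowJ θ J (x, y) 0 s e jp F T).kf = false := by
      show (if 0 < F (e - 1) - hJ θ J - (F s - hJ θ J) then _ else !true) = false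
      rw [if_neg d1]
      rfl
    rw [e1]
    have hsq : (srowJ θ J (x, y) 0 s e jp F T).toRow.sq k = (x + s + k, y - 1) := rfl
    have hI : ∀ v : ℤ × ℤ, v ∈ (srowJ θ J (x, y) 0 s e jp F T).I ↔
        v.2 = y - 1 ∧ x + s ≤ v.1 ∧ v.1 < x + s + ((e - s : ℕ) : ℤ) := fun v => hm v
    rw [hI] at hw
    rw [hsq] at h
    show e0 = Sum.inr (x + s + k, y - 1 - 1)
    have hi := hin (s + k) (by omega) (by omega)
    have hf : face ((x, y) + ((s + k : ℕ) : ℤ) • dir 0) 0 = (x + s + k, y) := by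
      have : ((s + k : ℕ) : ℤ) • dir 0 = ((s + k : ℤ), 0) := by
        show ((s + k : ℕ) : ℤ) • ((1, 0) : ℤ × ℤ) = _
        simp
      rw [this]
      show ((x, y) + ((s + k : ℤ), 0) + (0, 0) : ℤ × ℤ) = _
      simp
      ring
    rw [hf] at hi
    obtain ⟨a, b⟩ := w
    rcases ed_sq h with ⟨g1, g2⟩ | ⟨g1, g2⟩ | ⟨g1, g2⟩ | ⟨g1, g2⟩
    · exfalso; apply hw; simp only [Prod.mk.injEq] at g2 ⊢; omega
    · exfalso; apply hw; simp only [Prod.mk.injEq] at g2 ⊢; omega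
    · exfalso; apply hi; simp only [Prod.mk.injEq] at g2 ⊢; omega
    · rw [g1]; simp only [Prod.mk.injEq, Sum.inr.injEq] at g2 ⊢; omega
  · have e1 : (srowJ θ J (x, y) 1 s e jp F T).kf = true := by
      show (if 0 < F (e - 1) - hJ θ J - (F s - hJ θ J) then _ else !false) = true
      rw [if_neg d1]
      rfl
    rw [e1]
    have hsq : (srowJ θ J (x, y) 1 s e jp F T).toRow.sq k = (x, y + s + k) := rfl
    have hI : ∀ v : ℤ × ℤ, v ∈ (srowJ θ J (x, y) 1 s e jp F T).I ↔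
        v.1 = x ∧ y + s ≤ v.2 ∧ v.2 < y + s + ((e - s : ℕ) : ℤ) := fun v => hm v
    rw [hI] at hw
    rw [hsq] at h
    show e0 = Sum.inl (x, y + s + k)
    have hi := hin (s + k) (by omega) (by omega)
    have hf : face ((x, y) + ((s + k : ℕ) : ℤ) • dir 1) 1 = (x - 1, y + s + k) := by
      have : ((s + k : ℕ) : ℤ) • dir 1 = (0, (s + k : ℤ)) := by
        show ((s + k : ℕ) : ℤ) • ((0, 1) : ℤ × ℤ) = _
        simp
      rw [this]
      show ((x, y) + (0, (s + k : ℤ)) + (-1, 0) : ℤ × ℤ) = _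
      simp only [Prod.mk_add_mk, Prod.mk.injEq]
      omega
    rw [hf] at hi
    obtain ⟨a, b⟩ := w
    rcases ed_sq h with ⟨g1, g2⟩ | ⟨g1, g2⟩ | ⟨g1, g2⟩ | ⟨g1, g2⟩
    · rw [g1]
    · exfalso; apply hi; simp only [Prod.mk.injEq] at g2 ⊢; omega
    · exfalso; apply hw; simp only [Prod.mk.injEq] at g2 ⊢; omega
    · exfalso; apply hw; simp only [Prod.mk.injEq] at g2 ⊢; omega
  · have e1 : (srowJ θ J (x, y) 2 s e jp F T).kf = true := by
      show (if 0 < F s - hJ θ J - (F (e - 1) - hJ θ J) then true else _) = true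
      rw [if_pos d2]
    rw [e1]
    have hsq : (srowJ θ J (x, y) 2 s e jp F T).toRow.sq k = (x - e + k, y) := rfl
    have hI : ∀ v : ℤ × ℤ, v ∈ (srowJ θ J (x, y) 2 s e jp F T).I ↔
        v.2 = y ∧ x - e ≤ v.1 ∧ v.1 < x - e + ((e - s : ℕ) : ℤ) := fun v => hm v
    rw [hI] at hw
    rw [hsq] at h
    show e0 = Sum.inr (x - e + k, y)
    have hi := hin (e - 1 - k) (by omega) (by omega)
    have hf : face ((x, y) + ((e - 1 - k : ℕ) : ℤ) • dir 2) 2 = (x - e + k, y - 1) := by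
      have : ((e - 1 - k : ℕ) : ℤ) • dir 2 = (-((e - 1 - k : ℕ) : ℤ), 0) := by
        show ((e - 1 - k : ℕ) : ℤ) • ((-1, 0) : ℤ × ℤ) = _
        simp
      rw [this]
      show ((x, y) + (-((e - 1 - k : ℕ) : ℤ), 0) + (-1, -1) : ℤ × ℤ) = _
      simp only [Prod.mk_add_mk, Prod.mk.injEq]
      omega
    rw [hf] at hi
    obtain ⟨a, b⟩ := w
    rcases ed_sq h with ⟨g1, g2⟩ | ⟨g1, g2⟩ | ⟨g1, g2⟩ | ⟨g1, g2⟩
    · exfalso; apply hw; simp only [Prod.mk.injEq] at g2 ⊢; omega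
    · exfalso; apply hw; simp only [Prod.mk.injEq] at g2 ⊢; omega
    · rw [g1]
    · exfalso; apply hi; simp only [Prod.mk.injEq] at g2 ⊢; omega
  · have e1 : (srowJ θ J (x, y) 3 s e jp F T).kf = false := by
      show (if 0 < F s - hJ θ J - (F (e - 1) - hJ θ J) then false else _) = false
      rw [if_pos d2]
    rw [e1]
    have hsq : (srowJ θ J (x, y) 3 s e jp F T).toRow.sq k = (x - 1, y - e + k) := rfl
    have hI : ∀ v : ℤ × ℤ, v ∈ (srowJ θ J (x, y) 3 s e jp F T).I ↔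
        v.1 = x - 1 ∧ y - e ≤ v.2 ∧ v.2 < y - e + ((e - s : ℕ) : ℤ) := fun v => hm v
    rw [hI] at hw
    rw [hsq] at h
    show e0 = Sum.inl (x - 1 - 1, y - e + k)
    have hi := hin (e - 1 - k) (by omega) (by omega)
    have hf : face ((x, y) + ((e - 1 - k : ℕ) : ℤ) • dir 3) 3 = (x, y - e + k) := by
      have : ((e - 1 - k : ℕ) : ℤ) • dir 3 = (0, -((e - 1 - k : ℕ) : ℤ)) := by
        show ((e - 1 - k : ℕ) : ℤ) • ((0, -1) : ℤ × ℤ) = _
        simp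
      rw [this]
      show ((x, y) + (0, -((e - 1 - k : ℕ) : ℤ)) + (0, -1) : ℤ × ℤ) = _
      simp only [Prod.mk_add_mk, Prod.mk.injEq]
      omega
    rw [hf] at hi
    obtain ⟨a, b⟩ := w
    rcases ed_sq h with ⟨g1, g2⟩ | ⟨g1, g2⟩ | ⟨g1, g2⟩ | ⟨g1, g2⟩
    · exfalso; apply hi; simp only [Prod.mk.injEq] at g2 ⊢; omega
    · rw [g1]; simp only [Prod.mk.injEq, Sum.inl.injEq] at g2 ⊢; omega
    · exfalso; apply hw; simp only [Prod.mk.injEq] at g2 ⊢; omega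
    · exfalso; apply hw; simp only [Prod.mk.injEq] at g2 ⊢; omega

end side

/-- Squares of different colours of a row are on different sides of the special point. -/
theorem sq_col (r : H825.Q.Row) {k k' : ℕ} (h : r.fr (r.sq k) ≠ r.fr (r.sq k')) :
    (k < r.k0 ∧ r.k0 ≤ k') ∨ (k' < r.k0 ∧ r.k0 ≤ k) := by
  unfold H825.Q.Row.fr at h
  rw [r.τ_sq, r.τ_sq] at h
  by_cases h1 : r.k0 ≤ k <;> by_cases h2 : r.k0 ≤ k'
  · rw [if_pos h1, if_pos h2] at h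
    exact absurd rfl h
  · exact Or.inr ⟨by omega, h1⟩
  · exact Or.inl ⟨by omega, h2⟩
  · rw [if_neg h1, if_neg h2] at h
    exact absurd rfl h

/-! ### the row of the base -/

section base

variable {l : ℕ} {θ β C c : ℝ} {p : ZMod l → ℤ × ℤ} {S₀ : Finset (ℤ × ℤ)} {Q : Marks} {n t d : ℕ}
  {ia : ℕ} {ta : ℝ} {J : ℕ → Bool} {j : ℕ}

/-- The phases and colours at the ends of the row of the base. -/
theorem base_ends (hp : IsPolygon p) (hD : Encloses p S₀) (hl : 0 < l) (ht : t < n) {s e : ℕ}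
    (he : e - 1 < n) (r5 : s < t) (r6 : t < e) (k1 : 0 < ia) (k2 : ia < l) (k3 : 0 < ta)
    (k4 : ta < 1) :
    (C + stΦ θ β (uN p n t) ((Bc.dob ia ta).ka l n t) (kOf l n t 0 (e - 1))) -
      (C + stΦ θ β (uN p n t) ((Bc.dob ia ta).ka l n t) (kOf l n t 0 s)) = -(β + θ) ∧
    stτ ((Bc.dob ia ta).ka l n t) (kOf l n t 0 s) = -1 ∧
    stτ ((Bc.dob ia ta).ka l n t) (kOf l n t 0 (e - 1)) = 1 := by
  have hs : s < n := by omega
  have u1 : uN p n t (kOf l n t 0 s) = (((pdir p 0).val : ℕ) : ℤ) + 4 := by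
    have := Enl.uN_kOf (p := p) hl ht hs
    rw [if_neg (by omega), add_zero, Enl.ptau_l hp hD] at this
    exact this
  have u2 : uN p n t (kOf l n t 0 (e - 1)) = (((pdir p 0).val : ℕ) : ℤ) := by
    have := Enl.uN_kOf (p := p) hl ht he
    rw [if_pos (by omega)] at this
    rw [this]
    show _ + ptau p 0 = _
    have : ptau p 0 = 0 := rfl
    rw [this, add_zero]
  have h6 := Enl.dob_lt (n := n) k3 k4 (by omega)
  have h7 : 1 * n ≤ ia * n := Nat.mul_le_mul_right n k1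
  have b1 : ¬ kOf l n t 0 s < kOf l n t ia ⌊ta * n⌋₊ := by
    rw [Enl.kOf_lt_kOf hl ht hs k1 k2 h6]
    omega
  have b2 : kOf l n t 0 (e - 1) < kOf l n t ia ⌊ta * n⌋₊ := by
    rw [Enl.kOf_lt_kOf hl ht he k1 k2 h6]
    omega
  have a1 := Enl.stΦ_eq' (θ := θ) (β := β) (u := uN p n t) b1
  have a2 := Enl.stΦ_eq (θ := θ) (β := β) (u := uN p n t) b2
  refine ⟨?_, a1.2, a2.2⟩
  show (C + stΦ θ β (uN p n t) (kOf l n t ia ⌊ta * n⌋₊) (kOf l n t 0 (e - 1))) -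
    (C + stΦ θ β (uN p n t) (kOf l n t ia ⌊ta * n⌋₊) (kOf l n t 0 s)) = _
  rw [a1.1, a2.1, u1, u2]
  push_cast
  ring

/-- **The row of the base is a power junction**, the face `kf` is the outer face. -/
theorem base_K2 (hp : IsPolygon p) (hD : Encloses p S₀) (hl : 0 < l) (ht : t < n)
    (he : eW p n Q d 0 j - 1 < n) (r5 : sW p n Q d 0 j < t) (r6 : t < eW p n Q d 0 j) (k1 : 0 < ia)
    (k2 : ia < l) (k3 : 0 < ta) (k4 : ta < 1) (hθ' : θ < Real.pi / 2)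
    (hθ3 : Real.pi < 3 * θ) (hβ : β = (θ - Real.pi) / 2) :
    (frowJ θ β p Q n d t (.dob ia ta) J C 1 0 j).K2 θ ∧
    ¬ (frowJ θ β p Q n d t (.dob ia ta) J C 1 0 j).Plain ∧
    ∀ {k : ℕ}, 0 < k → k + 1 < (frowJ θ β p Q n d t (.dob ia ta) J C 1 0 j).L →
      ∀ {e0 : Ed} {w : ℤ × ℤ},
      (tlv e0 = (frowJ θ β p Q n d t (.dob ia ta) J C 1 0 j).toRow.sq k ∧ hdv e0 = w) ∨
      (hdv e0 = (frowJ θ β p Q n d t (.dob ia ta) J C 1 0 j).toRow.sq k ∧ tlv e0 = w) →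
      w ∉ (frowJ θ β p Q n d t (.dob ia ta) J C 1 0 j).I → w ∉ enl S₀ n →
      e0 = H945.Q.face (frowJ θ β p Q n d t (.dob ia ta) J C 1 0 j).toRow
        (frowJ θ β p Q n d t (.dob ia ta) J C 1 0 j).kf k := by
  obtain ⟨h1, h2, h3⟩ := base_ends (θ := θ) (β := β) (C := C) hp hD hl ht he r5 r6 k1 k2 k3 k4
  have hη : (frowJ θ β p Q n d t (.dob ia ta) J C 1 0 j).η = -1 := by
    have e1 : (frowJ θ β p Q n d t (.dob ia ta) J C 1 0 j).η =
        (1 * stτ ((Bc.dob ia ta).ka l n t) (kOf l n t 0 (sW p n Q d 0 j))) *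
        (1 * stτ ((Bc.dob ia ta).ka l n t) (kOf l n t 0 (eW p n Q d 0 j - 1))) := by
      unfold frowJ srowJ
      rcases Enl.fin4_cases (pdir p 0) with hr | hr | hr | hr <;> rw [hr] <;> rfl
    rw [e1, h2, h3]
    norm_num
  have hj : (frowJ θ β p Q n d t (.dob ia ta) J C 1 0 j).j = -(β + θ) ∨
      (frowJ θ β p Q n d t (.dob ia ta) J C 1 0 j).j = β + θ := by
    have e2 : (frowJ θ β p Q n d t (.dob ia ta) J C 1 0 j).j =
        (C + stΦ θ β (uN p n t) ((Bc.dob ia ta).ka l n t) (kOf l n t 0 (eW p n Q d 0 j - 1))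
          - hJ θ (J 0)) -
        (C + stΦ θ β (uN p n t) ((Bc.dob ia ta).ka l n t) (kOf l n t 0 (sW p n Q d 0 j))
          - hJ θ (J 0)) ∨
        (frowJ θ β p Q n d t (.dob ia ta) J C 1 0 j).j =
        (C + stΦ θ β (uN p n t) ((Bc.dob ia ta).ka l n t) (kOf l n t 0 (sW p n Q d 0 j))
          - hJ θ (J 0)) -
        (C + stΦ θ β (uN p n t) ((Bc.dob ia ta).ka l n t) (kOf l n t 0 (eW p n Q d 0 j - 1))
          - hJ θ (J 0)) := by
      unfold frowJ srowJ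
      rcases Enl.fin4_cases (pdir p 0) with hr | hr | hr | hr <;> rw [hr]
      · exact Or.inl rfl
      · exact Or.inl rfl
      · exact Or.inr rfl
      · exact Or.inr rfl
    rcases e2 with h | h
    · left; rw [h]; linarith
    · right; rw [h]; linarith
  have hpi := Real.pi_pos
  have habs : |(frowJ θ β p Q n d t (.dob ia ta) J C 1 0 j).j| = (3 * θ - Real.pi) / 2 := by
    rcases hj with h | h
    · rw [h, abs_neg, abs_of_nonneg (by rw [hβ]; linarith), hβ]; ring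
    · rw [h, abs_of_nonneg (by rw [hβ]; linarith), hβ]; ring
  refine ⟨⟨hη, ?_⟩, ?_, ?_⟩
  · rw [habs]
    intro h
    linarith
  · rintro ⟨-, h⟩
    rw [hη] at h
    norm_num at h
  · intro k q0 q1 e0 w hw q2 q3
    refine srowJ_hf ?_ q0 q1 hw q2 ?_
    · have := h1
      rw [hβ] at this ⊢
      linarith
    · intro σ s1 s2 hq
      refine q3 ?_
      rw [hq]
      exact Enl.ip_in hp hD hl (by omega)

end base

/-! ### the exits over the base -/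

section frame

variable {l : ℕ} [NeZero l] {θ β : ℝ} {p : ZMod l → ℤ × ℤ} {S₀ : Finset (ℤ × ℤ)} {b : Box}
  {tp g δ : ℝ} {n : ℕ} {ia : ℕ} {ta : ℝ}

omit [NeZero l] in
/-- The rows are separate. -/
theorem rD_dis (H : DobN p S₀ b tp g δ n) {x y : IxD l} {v : ℤ × ℤ}
    (hx : v ∈ (rD θ β p b tp ia ta n ⌊δ * n⌋₊ x).I)
    (hy : v ∈ (rD θ β p b tp ia ta n ⌊δ * n⌋₊ y).I) : x = y := by
  by_contra hne
  have h1 := H.geoS.sepr x y hne v (by rw [← rD_I (θ := θ) (β := β) (ia := ia) (ta := ta)]; exact hx)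
    v (by rw [← rD_I (θ := θ) (β := β) (ia := ia) (ta := ta)]; exact hy)
  have h2 := H.hn
  have h3 : nm (v - v) = 0 := by rw [sub_self]; simp [nm]
  rw [h3] at h1
  push_cast at h1
  linarith

/-- A configuration with the frozen values. -/
theorem exists_frzD (H : DobN p S₀ b tp g δ n) :
    ∃ ω : Cfg, (frD θ β p S₀ b tp ia ta).Frz (rowS θ) δ n ω := by
  classical
  refine ⟨fun v => if h : ∃ x : IxD l, v ∈ (rD θ β p b tp ia ta n ⌊δ * n⌋₊ x).I then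
    (rD θ β p b tp ia ta n ⌊δ * n⌋₊ h.choose).toRow.fr v else false, fun x v hv => ?_⟩
  have hex : ∃ x : IxD l, v ∈ (rD θ β p b tp ia ta n ⌊δ * n⌋₊ x).I := ⟨x, hv⟩
  show (if h : ∃ x : IxD l, v ∈ (rD θ β p b tp ia ta n ⌊δ * n⌋₊ x).I then
    (rD θ β p b tp ia ta n ⌊δ * n⌋₊ h.choose).toRow.fr v else false) =
      (rD θ β p b tp ia ta n ⌊δ * n⌋₊ x).toRow.fr v
  rw [dif_pos hex, rD_dis H hex.choose_spec hv]

/-- Two squares of different colours in different rows are far from each other. -/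
theorem col_far (H : DobN p S₀ b tp g δ n) (hδ : 128 * δ ≤ g)
    (hbg : BGap l (mks p b tp) g (.dob ia ta)) {x y : IxD l} {u v : ℤ × ℤ}
    (hx : u ∈ (rD θ β p b tp ia ta n ⌊δ * n⌋₊ x).I)
    (hy : v ∈ (rD θ β p b tp ia ta n ⌊δ * n⌋₊ y).I)
    (hd : (nm (u - v) : ℝ) < g / 64 * n)
    (hc : (rD θ β p b tp ia ta n ⌊δ * n⌋₊ x).toRow.fr u ≠
      (rD θ β p b tp ia ta n ⌊δ * n⌋₊ y).toRow.fr v) : x = y := by
  by_contra hne
  obtain ⟨b1, b3, b5, b6, b7⟩ := H.basic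
  have hn0 : (0 : ℝ) ≤ n := Nat.cast_nonneg n
  have hgn : 0 < g * n := by linarith
  have hI : ∀ x : IxD l, (rD θ β p b tp ia ta n ⌊δ * n⌋₊ x).I =
      (shD p b tp n ⌊δ * n⌋₊ x).I := fun x => rD_I x _
  obtain ⟨z, w, w1, w2, w3, w4, w5⟩ := H.geoS.hull x y hne u (hI x ▸ hx) v (hI y ▸ hy)
    (by linarith)
  have hδn : 2 * δ * n ≤ g / 64 * n := mul_le_mul_of_nonneg_right (by linarith) hn0
  have key : ∀ a : ℤ × ℤ, nm (a - w) ≤ nm (u - v) →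
      (nm (a - hoD p b tp n z) : ℝ) < g / 16 * n := by
    intro a ha
    have h1 := nm_tri a w (hoD p b tp n z)
    have h2 : (nm (a - hoD p b tp n z) : ℝ) ≤ nm (u - v) + nm (w - hoD p b tp n z) := by
      exact_mod_cast h1.trans (by omega)
    linarith
  have hu : nm (u - w) ≤ nm (u - v) := by
    unfold nm
    simp only [Prod.fst_sub, Prod.snd_sub]
    refine max_le_max ?_ ?_
    · rw [abs_le]
      rcases abs_cases (u.1 - v.1) with ⟨h, h'⟩ | ⟨h, h'⟩ <;> rw [h] <;> omega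
    · rw [abs_le]
      rcases abs_cases (u.2 - v.2) with ⟨h, h'⟩ | ⟨h, h'⟩ <;> rw [h] <;> omega
  have hv : nm (v - w) ≤ nm (u - v) := by
    unfold nm
    simp only [Prod.fst_sub, Prod.snd_sub]
    refine max_le_max ?_ ?_
    · rw [abs_le]
      rcases abs_cases (u.1 - v.1) with ⟨h, h'⟩ | ⟨h, h'⟩ <;> rw [h] <;> omega
    · rw [abs_le]
      rcases abs_cases (u.2 - v.2) with ⟨h, h'⟩ | ⟨h, h'⟩ <;> rw [h] <;> omega
  have c1 := colD (θ := θ) (β := β) H hbg z x u hx (key u hu)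
  have c2 := colD (θ := θ) (β := β) H hbg z y v hy (key v hv)
  exact hc (c1.trans c2.symm)

/-- **The exits over the base** of a Dobrushin frame. -/
theorem dobK_of (H : DobN p S₀ b tp g δ n) (hδ : 128 * δ ≤ g)
    (hbg : BGap l (mks p b tp) g (.dob ia ta)) (hl : 0 < l)
    (hθ' : θ < Real.pi / 2) (hθ3 : Real.pi < 3 * θ) (hβ : β = (θ - Real.pi) / 2)
    {B : Set (ℤ × ℤ)} {R : Finset (ℤ × ℤ)} {cR : CD}
    (hB : (hB p (mks p b tp) n (⌊δ * n⌋₊ + 4) : Set (ℤ × ℤ)) ⊆ B)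
    (hRK : ∀ v ∈ (frD θ β p S₀ b tp ia ta).U (rowS θ) δ n, v ∉ R) (hRD : ∀ v ∈ enl S₀ n, v ∉ R)
    (hcl : ∀ ω : Cfg, (frD θ β p S₀ b tp ia ta).Frz (rowS θ) δ n ω →
      cR.Clr ((frD θ β p S₀ b tp ia ta).U (rowS θ) δ n) B ω)
    (hzo : cR.zo < cR.n)
    (hT : clT p ia → ∀ j, cR.k₀ ≤ j → j < cR.zo →
      oq cR.P cR.u j ∈ (frD θ β p S₀ b tp ia ta).U (rowS θ) δ n → oq cR.P cR.u j ∉ B →
      ∃ y, oq cR.P cR.u j ∈ (rD θ β p b tp ia ta n ⌊δ * n⌋₊ (.inl (⟨0, hl⟩, y))).I)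
    (hT' : ¬ clT p ia → ∀ i, cR.zc ≤ i → i < cR.k₀ →
      oq cR.P cR.u i ∈ (frD θ β p S₀ b tp ia ta).U (rowS θ) δ n → oq cR.P cR.u i ∉ B →
      ∃ y, oq cR.P cR.u i ∈ (rD θ β p b tp ia ta n ⌊δ * n⌋₊ (.inl (⟨0, hl⟩, y))).I)
    {jb : Fin 3} (j1 : sW p n (mks p b tp) ⌊δ * n⌋₊ 0 jb + 2 ≤ ⌊tp * n⌋₊)
    (j2 : ⌊tp * n⌋₊ + 2 ≤ eW p n (mks p b tp) ⌊δ * n⌋₊ 0 jb) :
    DobK θ ((frD θ β p S₀ b tp ia ta).U (rowS θ) δ n) B R cR
      ((frD θ β p S₀ b tp ia ta).r δ n (.inl (⟨0, hl⟩, jb))) (g / 64 * n) := by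
  obtain ⟨b1, b3, b5, b6, b7⟩ := H.basic
  obtain ⟨k1, k2, k3, k4, k5⟩ := hbg
  have ht : ⌊tp * n⌋₊ < n := tP_lt (bc := .dob ia ta) H.hQ H.hg H.hδg H.hn
  have hd1 : 1 ≤ ⌊δ * n⌋₊ := Nat.le_floor (by push_cast; linarith [H.hn])
  have hQm : ∀ jj : Fin 3, (jj : ℕ) ≤ (mks p b tp).m := fun jj => by
    show (jj : ℕ) ≤ 2
    omega
  have he : eW p n (mks p b tp) ⌊δ * n⌋₊ 0 jb - 1 < n :=
    Enl.lt_n (p := p) (i := 0) (σ := eW p n (mks p b tp) ⌊δ * n⌋₊ 0 jb - 1) H.hQ hd1 (hQm jb)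
      (by omega) (by omega)
  have hsn : sW p n (mks p b tp) ⌊δ * n⌋₊ 0 jb < n := by omega
  obtain ⟨q1, q2, q3⟩ := base_K2 (θ := θ) (β := β) (C := 0) (J := JD p ia) (Q := mks p b tp)
    (d := ⌊δ * n⌋₊) (j := jb) (ta := ta) H.hp H.hD hl ht he (by omega) (by omega) k1 k2 k3 k4 hθ' hθ3
    hβ
  have hrow : (frD θ β p S₀ b tp ia ta).r δ n (.inl (⟨0, hl⟩, jb)) =
      frowJ θ β p (mks p b tp) n ⌊δ * n⌋₊ ⌊tp * n⌋₊ (.dob ia ta) (JD p ia) 0 1 0 jb := rfl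
  have hUI : ∀ v, v ∈ (frD θ β p S₀ b tp ia ta).U (rowS θ) δ n ↔
      ∃ x : IxD l, v ∈ (rD θ β p b tp ia ta n ⌊δ * n⌋₊ x).I := fun v => mem_uI
  have hL : (frowJ θ β p (mks p b tp) n ⌊δ * n⌋₊ ⌊tp * n⌋₊ (.dob ia ta) (JD p ia) 0 1 0 jb).L =
      eW p n (mks p b tp) ⌊δ * n⌋₊ 0 jb - sW p n (mks p b tp) ⌊δ * n⌋₊ 0 jb := frowJ_L
  refine ⟨?_, ?_, ?_, ?_⟩
  · rw [hrow]; exact q1
  · rw [hrow]; exact q2
  · rw [hrow]
    intro k hkL e0 hkB hw
    -- the ends of the row are in the box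
    have hRB := rb_frame H.hp H.hD H.hQ H.hg H.hδ H.hδg H.hn hB
    have hln : 0 < (mks p b tp).m + 1 := Nat.succ_pos _
    have htip := hRB.tip jb (by
      have h1 : (jb : ℕ) < (mks p b tp).m + 1 := by have := hQm jb; omega
      exact lt_of_lt_of_le h1 (Nat.le_mul_of_pos_left _ hl))
    have hdiv : (jb : ℕ) / ((mks p b tp).m + 1) = 0 := Nat.div_eq_of_lt (by have := hQm jb; omega)
    have hmod : (jb : ℕ) % ((mks p b tp).m + 1) = jb := Nat.mod_eq_of_lt (by have := hQm jb; omega)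
    have hsR : sR p n (mks p b tp) ⌊δ * n⌋₊ jb = 0 * n + sW p n (mks p b tp) ⌊δ * n⌋₊ 0 jb := by
      unfold sR
      rw [hdiv, hmod]
    have heR : eR p n (mks p b tp) ⌊δ * n⌋₊ jb - 1 =
        0 * n + (eW p n (mks p b tp) ⌊δ * n⌋₊ 0 jb - 1) := by
      unfold eR
      rw [hdiv, hmod]
      omega
    have htB := tB_lt (n := n) H.hQ b5
    rw [heR, hsR] at htip
    have hu : uW p n (tB n (mks p b tp)) (0 * n + sW p n (mks p b tp) ⌊δ * n⌋₊ 0 jb) =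
        uW p n (tB n (mks p b tp)) (0 * n + (eW p n (mks p b tp) ⌊δ * n⌋₊ 0 jb - 1)) :=
      uW_same b5 htB hl hsn he
    have hs1 := sqL_op H.hp H.hD b5 htB (i := 0) hsn
    have hs2 := sqL_op H.hp H.hD b5 htB (i := 0) he
    rw [hs1, hu, hs2] at htip
    have hsq : ∀ {σ : ℕ}, sW p n (mks p b tp) ⌊δ * n⌋₊ 0 jb ≤ σ →
        σ < eW p n (mks p b tp) ⌊δ * n⌋₊ 0 jb →
        (frowJ θ β p (mks p b tp) n ⌊δ * n⌋₊ ⌊tp * n⌋₊ (.dob ia ta) (JD p ia) 0 1 0 jb).toRow.sq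
          (Enl.idx (pdir p 0) (sW p n (mks p b tp) ⌊δ * n⌋₊ 0 jb)
            (eW p n (mks p b tp) ⌊δ * n⌋₊ 0 jb) σ) = Enl.op p n 0 σ := fun h1 h2 =>
      srow_sq _ _ _ _ h1 h2
    have key : 0 < k ∧ k + 1 < (frowJ θ β p (mks p b tp) n ⌊δ * n⌋₊ ⌊tp * n⌋₊ (.dob ia ta)
        (JD p ia) 0 1 0 jb).L := by
      by_contra hno
      apply hkB
      have hk' : k = 0 ∨ k = eW p n (mks p b tp) ⌊δ * n⌋₊ 0 jb -
          sW p n (mks p b tp) ⌊δ * n⌋₊ 0 jb - 1 := by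
        rw [hL] at hno hkL
        omega
      have a1 := hsq (σ := sW p n (mks p b tp) ⌊δ * n⌋₊ 0 jb) le_rfl (by omega)
      have a2 := hsq (σ := eW p n (mks p b tp) ⌊δ * n⌋₊ 0 jb - 1) (by omega) (by omega)
      rcases Enl.idx_first (pdir p 0) (s := sW p n (mks p b tp) ⌊δ * n⌋₊ 0 jb)
        (e := eW p n (mks p b tp) ⌊δ * n⌋₊ 0 jb) (by omega) with ⟨c1, c2⟩ | ⟨c1, c2⟩
      · rw [c1] at a1
        rw [c2] at a2
        rcases hk' with h | h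
        · rw [h, a1]; exact htip.1
        · rw [h, a2]; exact htip.2
      · rw [c2] at a1
        rw [c1] at a2
        rcases hk' with h | h
        · rw [h, a2]; exact htip.2
        · rw [h, a1]; exact htip.1
    rcases hw with ⟨w1, w2⟩ | ⟨w1, w2⟩
    · exact q3 key.1 key.2 (Or.inl ⟨w1, rfl⟩)
        (fun h => hRK _ ((hUI _).2 ⟨.inl (⟨0, hl⟩, jb), h⟩) w2) fun h => hRD _ h w2
    · exact q3 key.1 key.2 (Or.inr ⟨w1, rfl⟩)
        (fun h => hRK _ ((hUI _).2 ⟨.inl (⟨0, hl⟩, jb), h⟩) w2) fun h => hRD _ h w2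
  · intro i j i1 i2 j1' j2' hi hiB hj hjB hd
    obtain ⟨ω, hω⟩ := exists_frzD (θ := θ) (β := β) (ia := ia) (ta := ta) H
    have c1 := hcl ω hω i (by omega) hi hiB
    have c2 := hcl ω hω j (by omega) hj hjB
    rw [decide_eq_false (not_not.2 i1)] at c1
    rw [decide_eq_true j1'] at c2
    obtain ⟨x, hx⟩ := (hUI _).1 hi
    obtain ⟨y, hy⟩ := (hUI _).1 hj
    have f1 := hω x _ hx
    have f2 := hω y _ hy
    change ω (oq cR.P cR.u i) = (rD θ β p b tp ia ta n ⌊δ * n⌋₊ x).toRow.fr _ at f1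
    change ω (oq cR.P cR.u j) = (rD θ β p b tp ia ta n ⌊δ * n⌋₊ y).toRow.fr _ at f2
    have hc : (rD θ β p b tp ia ta n ⌊δ * n⌋₊ x).toRow.fr (oq cR.P cR.u i) ≠
        (rD θ β p b tp ia ta n ⌊δ * n⌋₊ y).toRow.fr (oq cR.P cR.u j) := by
      rw [← f1, ← f2, c1, c2]
      exact Bool.false_ne_true
    obtain rfl := col_far (θ := θ) (β := β) H hδ ⟨k1, k2, k3, k4, k5⟩ hx hy hd hc
    -- the row is on the side of the base
    obtain ⟨jj, rfl⟩ : ∃ jj : Fin 3, x = .inl (⟨0, hl⟩, jj) := by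
      by_cases h : clT p ia
      · obtain ⟨jj, h3⟩ := hT h j (by omega) j2' hj hjB
        exact ⟨jj, rD_dis H hy h3⟩
      · obtain ⟨jj, h3⟩ := hT' h i i2 i1 hi hiB
        exact ⟨jj, rD_dis H hx h3⟩
    -- both colours
    have hx' : oq cR.P cR.u i ∈ (frowJ θ β p (mks p b tp) n ⌊δ * n⌋₊ ⌊tp * n⌋₊ (.dob ia ta)
        (JD p ia) 0 1 0 jj).I := hx
    have hy' : oq cR.P cR.u j ∈ (frowJ θ β p (mks p b tp) n ⌊δ * n⌋₊ ⌊tp * n⌋₊ (.dob ia ta)
        (JD p ia) 0 1 0 jj).I := hy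
    obtain ⟨σ1, s1, s2, s3⟩ := mem_frowJ.1 hx'
    obtain ⟨σ2, s4, s5, s6⟩ := mem_frowJ.1 hy'
    have hbo : (Bc.dob ia ta).Ok l (mks p b tp) := bc_ok b6 ⟨k1, k2, k3, k4, k5⟩
    have g1 := frowJ_fr (θ := θ) (β := β) (J := JD p ia) (C := 0) H.hp H.hD H.hQ hbo hd1 ht hl
      (hQm jj) s1 s2
    have g2 := frowJ_fr (θ := θ) (β := β) (J := JD p ia) (C := 0) H.hp H.hD H.hQ hbo hd1 ht hl
      (hQm jj) s4 s5
    rw [← s3] at g1
    rw [← s6] at g2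
    have g3 : kOf l n ⌊tp * n⌋₊ 0 σ1 < (Bc.dob ia ta).ka l n ⌊tp * n⌋₊ := by
      have h := f1.symm.trans c1
      have h2 : decide (¬ kOf l n ⌊tp * n⌋₊ 0 σ1 < (Bc.dob ia ta).ka l n ⌊tp * n⌋₊) = false :=
        g1.symm.trans h
      rw [decide_eq_false_iff_not, not_not] at h2
      exact h2
    have g4 : ¬ kOf l n ⌊tp * n⌋₊ 0 σ2 < (Bc.dob ia ta).ka l n ⌊tp * n⌋₊ := by
      have h := f2.symm.trans c2
      have h2 : decide (¬ kOf l n ⌊tp * n⌋₊ 0 σ2 < (Bc.dob ia ta).ka l n ⌊tp * n⌋₊) = true :=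
        g2.symm.trans h
      exact of_decide_eq_true h2
    have m1 : σ1 < n := Enl.lt_n H.hQ hd1 (hQm jj) s1 s2
    have m2 : σ2 < n := Enl.lt_n H.hQ hd1 (hQm jj) s4 s5
    have h6 := Enl.dob_lt (n := n) k3 k4 b5
    have h7 : 1 * n ≤ ia * n := Nat.mul_le_mul_right n k1
    change kOf l n ⌊tp * n⌋₊ 0 σ1 < kOf l n ⌊tp * n⌋₊ ia ⌊ta * n⌋₊ at g3
    change ¬ kOf l n ⌊tp * n⌋₊ 0 σ2 < kOf l n ⌊tp * n⌋₊ ia ⌊ta * n⌋₊ at g4
    rw [Enl.kOf_lt_kOf hl ht m1 k1 k2 h6] at g3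
    rw [Enl.kOf_lt_kOf hl ht m2 k1 k2 h6] at g4
    have g5 : ⌊tp * n⌋₊ ≤ σ1 := by omega
    have g6 : σ2 < ⌊tp * n⌋₊ := by omega
    have hop : ∀ jj : Fin 3, sW p n (mks p b tp) ⌊δ * n⌋₊ 0 jj ≤ ⌊tp * n⌋₊ →
        ⌊tp * n⌋₊ < eW p n (mks p b tp) ⌊δ * n⌋₊ 0 jj →
        Enl.op p n 0 (⌊tp * n⌋₊ : ℕ) ∈ (rD θ β p b tp ia ta n ⌊δ * n⌋₊
          (.inl (⟨0, hl⟩, jj))).I := fun jj a1 a2 =>
      mem_frowJ.2 ⟨⌊tp * n⌋₊, a1, a2, rfl⟩
    have hjj : jj = jb := by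
      have h8 := rD_dis H (hop jj (by omega) (by omega)) (hop jb (by omega) (by omega))
      simpa using h8
    subst hjj
    -- the positions
    have hI : ∀ v, v ∈ (rD θ β p b tp ia ta n ⌊δ * n⌋₊ (.inl (⟨0, hl⟩, jj))).I → ∃ k <
        (rD θ β p b tp ia ta n ⌊δ * n⌋₊ (.inl (⟨0, hl⟩, jj))).L,
        (rD θ β p b tp ia ta n ⌊δ * n⌋₊ (.inl (⟨0, hl⟩, jj))).toRow.sq k = v := by
      intro v hv
      obtain ⟨k, h8, h9⟩ := mem_image.1 hv
      exact ⟨k, mem_range.1 h8, h9⟩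
    obtain ⟨k, e1, e2⟩ := hI _ hx
    obtain ⟨k', e3, e4⟩ := hI _ hy
    rw [← e2, ← e4] at hc
    exact ⟨k, k', e1, e3, e2.symm, e4.symm, sq_col _ hc⟩

end frame

end Vale.Agent.P167.N.ID
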