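import Vale.Agent.P167.N.ID.FrLD

/-!
# P167, `q < 1`, START: the cells of the Dobrushin frames

* `farD`: the squares at the steps far from the marks.
* `dob3_of`: `FrS.Dob3` from the three cells.
-/

set_option autoImplicit false

namespace Vale.Agent.P167.N.ID

open Finset Filter Topology
open Vale.Agent.P167.Top
open Vale.Agent.P167.H871
open Vale.Agent.P167.H871.Q
open Vale.Agent.P167.H199 (Gap ah at' mks mks_ok exists_Gap)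
open Vale.Agent.P167.H825.Q (Bc)
open Vale.Agent.P167.H680.T (mem_uI)
open Vale.Agent.P167.H398.Q (hB)
open Vale.Agent.P167.H662 (hsite)
open Vale.Agent.P167.E6 (IsPolygon Encloses dir face)
open Vale.Agent.P167.H825 (pdir enl ptau Marks Box)
open Vale.Agent.P167.Enl (sW eW tB tB_lt kOf kOf_lt uN qN vp gn_big BGap exists_BGap pA vp_pA op_near
  nm_tri nm_sub_comm face_near theta_nonneg theta_le_one)

variable {l : ℕ} [NeZero l] {θ β : ℝ} {p : ZMod l → ℤ × ℤ} {S₀ : Finset (ℤ × ℤ)} {b : Box}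
  {tp g δ : ℝ} {n : ℕ} {ia : ℕ} {ta : ℝ}

omit [NeZero l] in
/-- The square outside of a step is far from the holes of the box. -/
theorem op_box (H : DobN p S₀ b tp g δ n) {i σ : ℕ} (hi : i < l) (hσ : σ < n)
    (x : (Fin 4 × Fin 3) ⊕ Unit) :
    g * n ≤ (nm (Enl.op p n i σ - hoD p b tp n (.inr x)) : ℝ) := by
  obtain ⟨b1, b3, b5, b6, b7⟩ := H.basic
  have hn0 : (0 : ℝ) ≤ n := Nat.cast_nonneg n
  obtain ⟨⟨⟨x1, x2⟩, x3, x4⟩, h1⟩ := H.hoQ x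
  have h2 := H.enl_in (Enl.ip_in H.hp H.hD hi hσ)
  obtain ⟨⟨⟨y1, y2⟩, y3, y4⟩, -⟩ := h2
  have h3 := op_near (p := p) (n := n) i (σ : ℤ)
  have h4 : nm (face (vp p n i (σ : ℤ)) (pdir p i) - vp p n i (σ : ℤ)) ≤ 1 := face_near _ _
  have h5 := nm_tri (face (vp p n i (σ : ℤ)) (pdir p i)) (vp p n i (σ : ℤ)) (Enl.op p n i (σ : ℤ))
  rw [nm_sub_comm (vp p n i (σ : ℤ)) (Enl.op p n i (σ : ℤ))] at h5
  have h6 := nm_tri (face (vp p n i (σ : ℤ)) (pdir p i)) (Enl.op p n i (σ : ℤ))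
    (hoD p b tp n (.inr x))
  have h7 : 2 * (n : ℤ) ≤ nm (face (vp p n i (σ : ℤ)) (pdir p i) - hoD p b tp n (.inr x)) := by
    generalize face (vp p n i (σ : ℤ)) (pdir p i) = v at y1 y2 y3 y4
    generalize hoD p b tp n (.inr x) = w at x1 x2 x3 x4 h1
    unfold nm
    simp only [Prod.fst_sub, Prod.snd_sub]
    rcases h1 with h | h | h | h
    · refine le_max_of_le_left (le_trans ?_ (le_abs_self _)); omega
    · refine le_max_of_le_left (le_trans ?_ (neg_le_abs _)); omega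
    · refine le_max_of_le_right (le_trans ?_ (neg_le_abs _)); omega
    · refine le_max_of_le_right (le_trans ?_ (le_abs_self _)); omega
  have h8 : 2 * (n : ℤ) - 2 ≤ nm (Enl.op p n i (σ : ℤ) - hoD p b tp n (.inr x)) := by omega
  have h9 : 2 * (n : ℝ) - 2 ≤ nm (Enl.op p n i (σ : ℤ) - hoD p b tp n (.inr x)) := by
    exact_mod_cast h8
  have h10 : g * n ≤ 1 * n := mul_le_mul_of_nonneg_right b3 hn0
  linarith

/-- The square outside of a step which is far from the marks. -/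
theorem farD (H : DobN p S₀ b tp g δ n) {i σ : ℕ} (hi : i < l) (hσn : σ < n) {τ : ℝ} (h0 : 0 ≤ τ)
    (h1 : τ ≤ 1) (hτ : ∀ j ≤ (mks p b tp).m + 1, g ≤ |(mks p b tp).θ i j - τ|)
    (hσ : |(σ : ℝ) - τ * n| ≤ 2) :
    (frD θ β p S₀ b tp ia ta).Far (g / 64) δ n (Enl.op p n i σ) := by
  obtain ⟨b1, b3, b5, b6, b7⟩ := H.basic
  intro x
  rcases x with x | x
  · have h2 := op_farM H.hp H.hQ hi h0 h1 hτ (σ := (σ : ℤ)) (by push_cast; exact hσ) (by linarith) x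
    change g / 64 * n ≤ (nm (Enl.op p n i σ - hsite p (mks p b tp) n x) : ℝ)
    linarith
  · have h2 := op_box H hi hσn x
    change g / 64 * n ≤ (nm (Enl.op p n i σ - hoD p b tp n (.inr x)) : ℝ)
    linarith

/-- **The cells of a Dobrushin frame.** -/
theorem dob3_of (H : DobN p S₀ b tp g δ n) (hδ : 128 * δ ≤ g)
    (hbg : BGap l (mks p b tp) g (.dob ia ta)) (hl : 0 < l)
    (hθ' : θ < Real.pi / 2) (hθ3 : Real.pi < 3 * θ) (hβ : β = (θ - Real.pi) / 2)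
    {R : Finset (ℤ × ℤ)} {Y : Set (ℤ × ℤ)} {cR cX : CD}
    (hF : ∀ B : Set (ℤ × ℤ),
      ((frD θ β p S₀ b tp ia ta).hB δ n ((⌊δ * n⌋₊ : ℤ) + 4) : Set (ℤ × ℤ)) ⊆ B →
      DobF θ β ((frD θ β p S₀ b tp ia ta).U (rowS θ) δ n) B
        ((frD θ β p S₀ b tp ia ta).ph (rowS θ) δ n 0) (enl S₀ n) R Y
        (cDf p n ⌊tp * n⌋₊ ((Bc.dob ia ta).ka l n ⌊tp * n⌋₊) 0) cR cX)
    (hC : ∀ η : Cfg, (frD θ β p S₀ b tp ia ta).Frz (rowS θ) δ n η → ∀ B : Set (ℤ × ℤ),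
      ((frD θ β p S₀ b tp ia ta).hB δ n ((⌊δ * n⌋₊ : ℤ) + 4) : Set (ℤ × ℤ)) ⊆ B →
      (cDf p n ⌊tp * n⌋₊ ((Bc.dob ia ta).ka l n ⌊tp * n⌋₊) 0).Clr
        ((frD θ β p S₀ b tp ia ta).U (rowS θ) δ n) B η ∧
      cR.Clr ((frD θ β p S₀ b tp ia ta).U (rowS θ) δ n) B η ∧
      cX.Clr ((frD θ β p S₀ b tp ia ta).U (rowS θ) δ n) B η)
    (hT : clT p ia → ∀ j, cR.k₀ ≤ j → j < cR.zo →
      oq cR.P cR.u j ∈ (frD θ β p S₀ b tp ia ta).U (rowS θ) δ n →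
      oq cR.P cR.u j ∉ (frD θ β p S₀ b tp ia ta).hB δ n ((⌊δ * n⌋₊ : ℤ) + 4) →
      ∃ y, oq cR.P cR.u j ∈ (rD θ β p b tp ia ta n ⌊δ * n⌋₊ (.inl (⟨0, hl⟩, y))).I)
    (hT' : ¬ clT p ia → ∀ i, cR.zc ≤ i → i < cR.k₀ →
      oq cR.P cR.u i ∈ (frD θ β p S₀ b tp ia ta).U (rowS θ) δ n →
      oq cR.P cR.u i ∉ (frD θ β p S₀ b tp ia ta).hB δ n ((⌊δ * n⌋₊ : ℤ) + 4) →
      ∃ y, oq cR.P cR.u i ∈ (rD θ β p b tp ia ta n ⌊δ * n⌋₊ (.inl (⟨0, hl⟩, y))).I) :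
    (frD θ β p S₀ b tp ia ta).Dob3 θ β S₀ (g / 64) δ n := by
  obtain ⟨b1, b3, b5, b6, b7⟩ := H.basic
  have hbg' := hbg
  obtain ⟨k1, k2, k3, k4, k5⟩ := hbg
  have hn0 : (0 : ℝ) ≤ n := Nat.cast_nonneg n
  have ht : ⌊tp * n⌋₊ < n := tP_lt (bc := .dob ia ta) H.hQ H.hg H.hδg H.hn
  have hsub : ∀ R₃ : ℤ, (⌊δ * (n : ℝ)⌋₊ : ℤ) + 4 ≤ R₃ →
      ((frD θ β p S₀ b tp ia ta).hB δ n ((⌊δ * n⌋₊ : ℤ) + 4) : Set (ℤ × ℤ)) ⊆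
        ((frD θ β p S₀ b tp ia ta).hB δ n R₃ : Set (ℤ × ℤ)) := fun R₃ hR₃ v hv =>
    mem_coe.2 (FrS.hB_mono2 hR₃ (mem_coe.1 hv))
  have hsub' : (hB p (mks p b tp) n (⌊δ * n⌋₊ + 4) : Set (ℤ × ℤ)) ⊆
      ((frD θ β p S₀ b tp ia ta).hB δ n ((⌊δ * n⌋₊ : ℤ) + 4) : Set (ℤ × ℤ)) := by
    intro v hv
    obtain ⟨x, hx⟩ := Enl.mem_hB.1 (mem_coe.1 hv)
    exact mem_coe.2 (mem_biUnion.2 ⟨.inl x, mem_univ _, hx⟩)
  have ha := Enl.dob_lt (n := n) k3 k4 b5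
  have fa1 : (⌊ta * n⌋₊ : ℝ) ≤ ta * n := Nat.floor_le (mul_nonneg k3.le hn0)
  have fa2 : ta * n < ⌊ta * n⌋₊ + 1 := Nat.lt_floor_add_one _
  have hapos : 1 ≤ ⌊ta * n⌋₊ := by
    have e0 := k5 0 (by omega)
    rw [H.hQ.zero, zero_sub, abs_neg, abs_of_pos k3] at e0
    have m0 : g * n ≤ ta * n := mul_le_mul_of_nonneg_right e0 hn0
    have : (1 : ℝ) ≤ ⌊ta * n⌋₊ := by linarith
    exact_mod_cast this
  have hn1 : 1 * n ≤ ia * n := Nat.mul_le_mul_right n k1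
  refine ⟨R, Y, cDf p n ⌊tp * n⌋₊ ((Bc.dob ia ta).ka l n ⌊tp * n⌋₊) 0, cR, cX,
    ⟨fun R₃ hR₃ => ⟨hF _ (hsub R₃ hR₃), fun ω hω => hC ω hω _ (hsub R₃ hR₃)⟩, ?_, ?_⟩, ?_⟩
  · have e2 := oq_base H.hp H.hD b5 ht (i := ia) (σ := ⌊ta * n⌋₊) ha
    show (frD θ β p S₀ b tp ia ta).Far (g / 64) δ n
      (oq (fun k => qN p n ⌊tp * n⌋₊ (k : ZMod (l * n))) (uN p n ⌊tp * n⌋₊)
        (kOf l n ⌊tp * n⌋₊ ia ⌊ta * n⌋₊))
    rw [e2]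
    refine farD H k2 ha k3.le k4.le k5 ?_
    rw [abs_le]
    constructor <;> linarith
  · have e1 : kOf l n ⌊tp * n⌋₊ ia ⌊ta * n⌋₊ - 1 = kOf l n ⌊tp * n⌋₊ ia (⌊ta * n⌋₊ - 1) := by
      unfold kOf
      rw [if_pos (by omega), if_pos (by omega)]
      omega
    have e2 := oq_base H.hp H.hD b5 ht (i := ia) (σ := ⌊ta * n⌋₊ - 1) (by omega)
    show (frD θ β p S₀ b tp ia ta).Far (g / 64) δ n
      (oq (fun k => qN p n ⌊tp * n⌋₊ (k : ZMod (l * n))) (uN p n ⌊tp * n⌋₊)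
        (kOf l n ⌊tp * n⌋₊ ia ⌊ta * n⌋₊ - 1))
    rw [e1, e2]
    refine farD H k2 (by omega) k3.le k4.le k5 ?_
    have e3 : ((⌊ta * n⌋₊ - 1 : ℕ) : ℝ) = ⌊ta * n⌋₊ - 1 := by
      rw [Nat.cast_sub hapos, Nat.cast_one]
    rw [e3, abs_le]
    constructor <;> linarith
  · have t1 : tB n (mks p b tp) ≤ ⌊tp * n⌋₊ := le_rfl
    obtain ⟨j, j1, j2, j3⟩ := mid_row (p := p) H.hQ H.hg H.hδ H.hδg H.hn hl H.hQ.tp0.le
      H.hQ.tp1.le H.hg.2 t1 (Nat.le_succ _)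
    have j1' : j < 3 := by change j ≤ 2 at j1; omega
    refine ⟨.inl (⟨0, hl⟩, ⟨j, j1'⟩), fun R₃ hR₃ => ?_⟩
    have F := hF _ (hsub R₃ hR₃)
    refine dobK_of H hδ hbg' hl hθ' hθ3 hβ (hsub'.trans (hsub R₃ hR₃)) F.oR.cell.dis F.DR
      (fun ω hω => (hC ω hω _ (hsub R₃ hR₃)).2.1) F.oR.zo
      (fun h j h1 h2 h3 h4 => hT h j h1 h2 h3 fun h5 => h4 (hsub R₃ hR₃ (mem_coe.2 h5)))
      (fun h i h1 h2 h3 h4 => hT' h i h1 h2 h3 fun h5 => h4 (hsub R₃ hR₃ (mem_coe.2 h5)))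
      (jb := ⟨j, j1'⟩) j2 j3

/-- The cells of a Dobrushin frame, hypotheses of `dob3_of`. -/
def CellsD (θ β : ℝ) (p : ZMod l → ℤ × ℤ) (S₀ : Finset (ℤ × ℤ)) (b : Box) (tp : ℝ) (ia : ℕ)
    (ta : ℝ) (hl : 0 < l) (δ : ℝ) (n : ℕ) : Prop :=
  ∃ (R : Finset (ℤ × ℤ)) (Y : Set (ℤ × ℤ)) (cR cX : CD),
    (∀ B : Set (ℤ × ℤ),
      ((frD θ β p S₀ b tp ia ta).hB δ n ((⌊δ * n⌋₊ : ℤ) + 4) : Set (ℤ × ℤ)) ⊆ B →
      DobF θ β ((frD θ β p S₀ b tp ia ta).U (rowS θ) δ n) B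
        ((frD θ β p S₀ b tp ia ta).ph (rowS θ) δ n 0) (enl S₀ n) R Y
        (cDf p n ⌊tp * n⌋₊ ((Bc.dob ia ta).ka l n ⌊tp * n⌋₊) 0) cR cX) ∧
    (∀ η : Cfg, (frD θ β p S₀ b tp ia ta).Frz (rowS θ) δ n η → ∀ B : Set (ℤ × ℤ),
      ((frD θ β p S₀ b tp ia ta).hB δ n ((⌊δ * n⌋₊ : ℤ) + 4) : Set (ℤ × ℤ)) ⊆ B →
      (cDf p n ⌊tp * n⌋₊ ((Bc.dob ia ta).ka l n ⌊tp * n⌋₊) 0).Clr
        ((frD θ β p S₀ b tp ia ta).U (rowS θ) δ n) B η ∧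
      cR.Clr ((frD θ β p S₀ b tp ia ta).U (rowS θ) δ n) B η ∧
      cX.Clr ((frD θ β p S₀ b tp ia ta).U (rowS θ) δ n) B η) ∧
    (clT p ia → ∀ j, cR.k₀ ≤ j → j < cR.zo →
      oq cR.P cR.u j ∈ (frD θ β p S₀ b tp ia ta).U (rowS θ) δ n →
      oq cR.P cR.u j ∉ (frD θ β p S₀ b tp ia ta).hB δ n ((⌊δ * n⌋₊ : ℤ) + 4) →
      ∃ y, oq cR.P cR.u j ∈ (rD θ β p b tp ia ta n ⌊δ * n⌋₊ (.inl (⟨0, hl⟩, y))).I) ∧
    (¬ clT p ia → ∀ i, cR.zc ≤ i → i < cR.k₀ →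
      oq cR.P cR.u i ∈ (frD θ β p S₀ b tp ia ta).U (rowS θ) δ n →
      oq cR.P cR.u i ∉ (frD θ β p S₀ b tp ia ta).hB δ n ((⌊δ * n⌋₊ : ℤ) + 4) →
      ∃ y, oq cR.P cR.u i ∈ (rD θ β p b tp ia ta n ⌊δ * n⌋₊ (.inl (⟨0, hl⟩, y))).I)

/-- **The Dobrushin frames have three cells**, from the cells at one scale. -/
theorem dobG_of (hp : IsPolygon p) (hD : Encloses p S₀) (hN : Nrm p) (hb : b.Ok S₀)
    (h0 : 0 < tp) (h1 : tp < 1)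
    (ht : ∀ i : ℤ, ∀ y ∈ ({b.xl, b.xr, b.yb, b.yt} : Set ℝ), y ≠ i + tp ∧ y ≠ i - tp)
    (hbc : (Bc.dob ia ta).Ok l (mks p b tp)) (hθ' : θ < Real.pi / 2) (hθ3 : Real.pi < 3 * θ)
    (hβ : β = (θ - Real.pi) / 2) (hl : 0 < l)
    (hC : ∀ (g δ : ℝ) (n : ℕ), DobN p S₀ b tp g δ n → BGap l (mks p b tp) g (.dob ia ta) →
      CellsD θ β p S₀ b tp ia ta hl δ n) :
    (frD θ β p S₀ b tp ia ta).DobG θ β S₀ := by
  obtain ⟨g1, hg1, hG, -, hH⟩ := exists_dobN hp hD hN hb h0 h1 ht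
  obtain ⟨g2, hg2, hB⟩ := exists_BGap hbc
  set g := min g1 g2 with hgdef
  have hg0 : 0 < g := lt_min hg1 hg2
  have hgg : g ≤ g1 := min_le_left _ _
  have hB' : BGap l (mks p b tp) g (.dob ia ta) := hB.mono (min_le_right _ _)
  refine ⟨g / 64, by positivity, g / 128, by positivity, fun δ hδ hδ' => ?_⟩
  filter_upwards [hH g hg0 hgg δ hδ (by linarith)] with n hn
  obtain ⟨R, Y, cR, cX, c1, c2, c3, c4⟩ := hC g δ n hn hB'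
  exact dob3_of hn (by linarith) hB' hl hθ' hθ3 hβ c1 c2 c3 c4

end Vale.Agent.P167.N.ID
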