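import Vale.Agent.P167.N.ID.FrmJ
import Vale.Agent.P167.H592.T.FamB

/-!
# P167, block ID: the rows of the frames are admissible

`frowJ_ok`: the rows of a polygon are of the kinds of `Row.Ok`; `rP_ok`, `rD_ok`: the rows of the
frames.
-/

set_option autoImplicit false

namespace Vale.Agent.P167.N.ID

open Finset Filter Topology
open Vale.Agent.P167.E6 (IsPolygon Encloses dir face region)
open Vale.Agent.P167.H825 (pdir ptau enl domP Box dirOf Marks FlowIn epos rnd bsite)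
open Vale.Agent.P167.H825.Q (srow Bc mem_srow stΦ stτ stτ_or jpos osq srow_L Cst)
open Vale.Agent.P167.H199 (mks Gap)
open Vale.Agent.P167.Enl (sW eW tB kOf uN lt_n BGap RB rb_of ka_same knd_same dob_lt kOf_lt_kOf
  stΦ_eq stΦ_eq' kOf_lt ptau_l uN_kOf fin4_cases)
open Vale.Agent.P167.H680.T (par)

variable {θ κ : ℝ} {n : ℕ}

theorem par_step (v : ℤ × ℤ) (r : Fin 4) : par (v + dir r) = -par v := by
  rw [H680.T.par_add]
  have h : par (dir r) = -1 := by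
    unfold par
    rw [if_neg]
    fin_cases r <;> decide
  rw [h]
  ring

/-- The parity of the site of the special point on the killed face. -/
theorem st_par {J : Bool} {z : ℤ × ℤ} {r : Fin 4} {s e jp : ℕ} {F T : ℕ → ℝ} (hθ : 0 < θ)
    (hs : s ≤ jp) (he : jp ≤ e) (hF : F (e - 1) = F s - θ) :
    par ((srowJ θ J z r s e jp F T).st (srowJ θ J z r s e jp F T).kf
      (srowJ θ J z r s e jp F T).k0) = -par (z + (jp : ℤ) • dir r) := by
  have key : (srowJ θ J z r s e jp F T).st (srowJ θ J z r s e jp F T).kf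
      (srowJ θ J z r s e jp F T).k0 = z + (jp : ℤ) • dir r + dir (r - 1) := by
    obtain ⟨x, y⟩ := z
    obtain ⟨s0, s1, s2, s3⟩ := sdv_eq x y false jp
    simp only [Bool.false_eq_true, if_false] at s0 s1 s2 s3
    have d1 : ¬ 0 < F (e - 1) - hJ θ J - (F s - hJ θ J) := by rw [hF]; linarith
    have d2 : 0 < F s - hJ θ J - (F (e - 1) - hJ θ J) := by rw [hF]; linarith
    rcases fin4_cases r with rfl | rfl | rfl | rfl
    · have e1 : (srowJ θ J (x, y) 0 s e jp F T).kf = false := by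
        show (if 0 < F (e - 1) - hJ θ J - (F s - hJ θ J) then _ else !true) = false
        rw [if_neg d1]
        rfl
      rw [e1]
      refine Eq.trans ?_ s0.symm
      show ((x + (s : ℤ) + ((jp - s : ℕ) : ℤ), y - 1 + 0) : ℤ × ℤ) = _
      rw [Prod.mk.injEq]
      omega
    · have e1 : (srowJ θ J (x, y) 1 s e jp F T).kf = true := by
        show (if 0 < F (e - 1) - hJ θ J - (F s - hJ θ J) then _ else !false) = true
        rw [if_neg d1]
        rfl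
      rw [e1]
      refine Eq.trans ?_ s1.symm
      show ((x + 1, y + (s : ℤ) + ((jp - s : ℕ) : ℤ)) : ℤ × ℤ) = _
      rw [Prod.mk.injEq]
      omega
    · have e1 : (srowJ θ J (x, y) 2 s e jp F T).kf = true := by
        show (if 0 < F s - hJ θ J - (F (e - 1) - hJ θ J) then true else _) = true
        rw [if_pos d2]
      rw [e1]
      refine Eq.trans ?_ s2.symm
      show ((x - (e : ℤ) + ((e - jp : ℕ) : ℤ), y + 1) : ℤ × ℤ) = _
      rw [Prod.mk.injEq]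
      omega
    · have e1 : (srowJ θ J (x, y) 3 s e jp F T).kf = false := by
        show (if 0 < F s - hJ θ J - (F (e - 1) - hJ θ J) then false else _) = false
        rw [if_pos d2]
      rw [e1]
      refine Eq.trans ?_ s3.symm
      show ((x - 1 + 0, y - (e : ℤ) + ((e - jp : ℕ) : ℤ)) : ℤ × ℤ) = _
      rw [Prod.mk.injEq]
      omega
  rw [key, par_step]

/-- **The kinds of the rows along a side.** -/
theorem srowJ_ok {J : Bool} {z : ℤ × ℤ} {r : Fin 4} {s e jp : ℕ} {F T : ℕ → ℝ} (hθ : 0 < θ)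
    (hn : κ * n ≤ (e : ℝ) - s) (hse : s ≤ e) (hT : ∀ σ, T σ = 1 ∨ T σ = -1)
    (hk : (F s = F (e - 1) ∧ T s = T (e - 1)) ∨
      ((((|F (e - 1) - F s| = (Real.pi - θ) / 2 ∨ |F (e - 1) - F s| = |Real.pi - 3 * θ| / 2) ∧
        T s = - T (e - 1)) ∨ (F (e - 1) = F s - θ ∧ T s = T (e - 1) ∧
          par (z + (jp : ℤ) • dir r) * T s = 1)) ∧
        s + κ * n ≤ jp ∧ jp + κ * n ≤ e ∧ s ≤ jp ∧ jp ≤ e)) :
    (srowJ θ J z r s e jp F T).Ok θ κ n := by
  have hL : ((e - s : ℕ) : ℝ) = e - s := by rw [Nat.cast_sub hse]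
  have sq : ∀ σ, T σ * T σ = 1 := fun σ => by rcases hT σ with h | h <;> rw [h] <;> norm_num
  have kind : ∀ {j η : ℝ} {k0 : ℕ}, (|j| = |F (e - 1) - F s|) → η = T s * T (e - 1) →
      ((k0 : ℝ) = jp - s ∨ (k0 : ℝ) = e - jp ∨ ¬ (s ≤ jp ∧ jp ≤ e)) →
      ((j = 0 ∧ η = 1) ∨ ((((|j| = (Real.pi - θ) / 2 ∨ |j| = |Real.pi - 3 * θ| / 2) ∧ η = -1) ∨
      (|j| = θ ∧ η = 1)) ∧ κ * n ≤ k0 ∧ k0 + κ * n ≤ ((e - s : ℕ) : ℝ))) := by
    intro j η k0 hj hη hk0
    rcases hk with ⟨h1, h2⟩ | ⟨h1, h2, h3, h4, h5⟩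
    · left
      rw [h1, sub_self, abs_zero, abs_eq_zero] at hj
      exact ⟨hj, by rw [hη, h2, sq]⟩
    · right
      rw [hL]
      refine ⟨?_, ?_, ?_⟩
      · rw [hj]
        rcases h1 with ⟨h6, h7⟩ | ⟨h6, h7, -⟩
        · exact Or.inl ⟨h6, by rw [hη, h7, neg_mul, sq]⟩
        · refine Or.inr ⟨?_, by rw [hη, h7, sq]⟩
          rw [h6, sub_sub_cancel_left, abs_neg, abs_of_pos hθ]
      · rcases hk0 with h | h | h
        · rw [h]; linarith
        · rw [h]; linarith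
        · exact absurd ⟨h4, h5⟩ h
      · rcases hk0 with h | h | h
        · rw [h]; linarith
        · rw [h]; linarith
        · exact absurd ⟨h4, h5⟩ h
  have c1 : ((jp - s : ℕ) : ℝ) = jp - s ∨ ((jp - s : ℕ) : ℝ) = e - jp ∨ ¬ (s ≤ jp ∧ jp ≤ e) := by
    by_cases h : s ≤ jp
    · exact Or.inl (Nat.cast_sub h)
    · exact Or.inr (Or.inr fun h' => h h'.1)
  have c2 : ((e - jp : ℕ) : ℝ) = jp - s ∨ ((e - jp : ℕ) : ℝ) = e - jp ∨ ¬ (s ≤ jp ∧ jp ≤ e) := by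
    by_cases h : jp ≤ e
    · exact Or.inr (Or.inl (Nat.cast_sub h))
    · exact Or.inr (Or.inr fun h' => h h'.2)
  have a1 : |F (e - 1) - hJ θ J - (F s - hJ θ J)| = |F (e - 1) - F s| := by congr 1; ring
  have a2 : |F s - hJ θ J - (F (e - 1) - hJ θ J)| = |F (e - 1) - F s| := by
    rw [abs_sub_comm, a1]
  -- the parity of the killed site of a base
  have gd : ∀ {S : ℝ}, S = T s ∨ S = T (e - 1) →
      (srowJ θ J z r s e jp F T).η = 1 → (srowJ θ J z r s e jp F T).j ≠ 0 →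
      par ((srowJ θ J z r s e jp F T).st (srowJ θ J z r s e jp F T).kf
      (srowJ θ J z r s e jp F T).k0) * S = -1 := by
    intro S hS h1 h2
    have e1 : (srowJ θ J z r s e jp F T).η = T s * T (e - 1) := by
      rcases fin4_cases r with rfl | rfl | rfl | rfl <;> rfl
    have e2 : (srowJ θ J z r s e jp F T).j = F (e - 1) - hJ θ J - (F s - hJ θ J) ∨
        (srowJ θ J z r s e jp F T).j = F s - hJ θ J - (F (e - 1) - hJ θ J) := by
      rcases fin4_cases r with rfl | rfl | rfl | rfl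
      · exact Or.inl rfl
      · exact Or.inl rfl
      · exact Or.inr rfl
      · exact Or.inr rfl
    rcases hk with ⟨h3, h4⟩ | ⟨(⟨-, h3⟩ | ⟨h3, h4, h5⟩), -, -, h8, h9⟩
    · exfalso
      apply h2
      rcases e2 with h | h
      · rw [h, h3]; ring
      · rw [h, h3]; ring
    · exfalso
      rw [e1, h3, neg_mul, sq] at h1
      norm_num at h1
    · rw [st_par hθ h8 h9 h3]
      rcases hS with rfl | rfl
      · linear_combination -h5
      · rw [← h4]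
        linear_combination -h5
  rcases fin4_cases r with rfl | rfl | rfl | rfl
  · exact ⟨by show κ * n ≤ ((e - s : ℕ) : ℝ); rw [hL]; exact hn, hT s, kind a1 rfl c1,
      gd (Or.inl rfl)⟩
  · exact ⟨by show κ * n ≤ ((e - s : ℕ) : ℝ); rw [hL]; exact hn, hT s, kind a1 rfl c1,
      gd (Or.inl rfl)⟩
  · exact ⟨by show κ * n ≤ ((e - s : ℕ) : ℝ); rw [hL]; exact hn, hT (e - 1),
      kind a2 rfl c2, gd (Or.inr rfl)⟩
  · exact ⟨by show κ * n ≤ ((e - s : ℕ) : ℝ); rw [hL]; exact hn, hT (e - 1),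
      kind a2 rfl c2, gd (Or.inr rfl)⟩

/-! ### the rows of a polygon -/

variable {l : ℕ} {β : ℝ} {p : ZMod l → ℤ × ℤ} {S₀ : Finset (ℤ × ℤ)} {Q : Marks} {bc : Bc} {t : ℕ}
  {C c : ℝ} {g δ : ℝ} {J : ℕ → Bool}

/-- The parity of the base site is good for the colour. -/
def GdB (p : ZMod l → ℤ × ℤ) (n t : ℕ) (c : ℝ) : Bc → Prop
  | .free => par ((n : ℤ) • p (0 : ℕ) + (t : ℤ) • dir (pdir p 0)) * c = 1
  | .wired => par ((n : ℤ) • p (0 : ℕ) + (t : ℤ) • dir (pdir p 0)) * c = -1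
  | .dob _ _ => True

/-- The data of a row in terms of the phases. -/
def KndJ (θ : ℝ) (z : ℤ × ℤ) (r : Fin 4) (F T : ℕ → ℝ) (n s e jp : ℕ) (κ : ℝ) : Prop :=
  (F s = F (e - 1) ∧ T s = T (e - 1)) ∨
    ((((|F (e - 1) - F s| = (Real.pi - θ) / 2 ∨ |F (e - 1) - F s| = |Real.pi - 3 * θ| / 2) ∧
      T s = - T (e - 1)) ∨ (F (e - 1) = F s - θ ∧ T s = T (e - 1) ∧
        par (z + (jp : ℤ) • dir r) * T s = 1)) ∧
      s + κ * n ≤ jp ∧ jp + κ * n ≤ e ∧ s ≤ jp ∧ jp ≤ e)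

/-- The phase at a step. -/
noncomputable def fJ (θ β C : ℝ) (p : ZMod l → ℤ × ℤ) (n t ka i σ : ℕ) : ℝ :=
  C + stΦ θ β (uN p n t) ka (kOf l n t i σ)

/-- The colour of a step. -/
noncomputable def tJ (c : ℝ) (l n t ka i σ : ℕ) : ℝ := c * stτ ka (kOf l n t i σ)

theorem kndJ_same {z : ℤ × ℤ} {r : Fin 4} {ka i s e jp : ℕ} (hi : i < l) (ht : t < n) (hs : s < n)
    (he : e - 1 < n) (h1 : t ≤ i * n + s ↔ t ≤ i * n + (e - 1))
    (h2 : kOf l n t i s < ka ↔ kOf l n t i (e - 1) < ka) :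
    KndJ θ z r (fJ θ β C p n t ka i) (tJ c l n t ka i) n s e jp κ := by
  left
  have h3 : uN p n t (kOf l n t i s) = uN p n t (kOf l n t i (e - 1)) := by
    rw [uN_kOf hi ht hs, uN_kOf hi ht he]
    by_cases h : t ≤ i * n + s
    · rw [if_pos h, if_pos (h1.1 h)]
    · rw [if_neg h, if_neg fun h' => h (h1.2 h')]
  unfold fJ tJ
  by_cases h : kOf l n t i s < ka
  · have a1 := stΦ_eq (θ := θ) (β := β) (u := uN p n t) h
    have a2 := stΦ_eq (θ := θ) (β := β) (u := uN p n t) (h2.1 h)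
    rw [a1.1, a1.2, a2.1, a2.2, h3]
    exact ⟨rfl, rfl⟩
  · have h' : ¬ kOf l n t i (e - 1) < ka := fun h' => h (h2.2 h')
    have a1 := stΦ_eq' (θ := θ) (β := β) (u := uN p n t) h
    have a2 := stΦ_eq' (θ := θ) (β := β) (u := uN p n t) h'
    rw [a1.1, a1.2, a2.1, a2.2, h3]
    exact ⟨rfl, rfl⟩

/-- The row of the base point. -/
theorem kndJ_base (hp : IsPolygon p) (hD : Encloses p S₀)
    (hβ : β = (θ - Real.pi) / 2 ∨ β = (Real.pi - 3 * θ) / 2) {s e : ℕ}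
    (hl : 0 < l) (ht : t < n) (hs : s < n) (he : e - 1 < n) (r5 : s < t) (r6 : t < e)
    (r1 : (s : ℝ) + κ * n ≤ t) (r2 : (t : ℝ) + κ * n ≤ e) (hpar : GdB p n t c bc)
    (hd : ∀ ia ta, bc = Bc.dob ia ta → 0 < ia ∧ ia < l ∧ 0 < ta ∧ ta < 1) (hθ : 0 < θ)
    (hθ' : θ < Real.pi / 2) :
    KndJ θ ((n : ℤ) • p (0 : ℕ)) (pdir p 0) (fJ θ β C p n t (bc.ka l n t) 0)
      (tJ c l n t (bc.ka l n t) 0) n s e t κ := by
  right
  refine ⟨?_, r1, r2, r5.le, r6.le⟩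
  have u1 : uN p n t (kOf l n t 0 s) = (((pdir p 0).val : ℕ) : ℤ) + 4 := by
    have := uN_kOf (p := p) hl ht hs
    rw [if_neg (by omega), add_zero, ptau_l hp hD] at this
    exact this
  have u2 : uN p n t (kOf l n t 0 (e - 1)) = (((pdir p 0).val : ℕ) : ℤ) := by
    have := uN_kOf (p := p) hl ht he
    rw [if_pos (by omega)] at this
    rw [this]
    show _ + ptau p 0 = _
    have : ptau p 0 = 0 := rfl
    rw [this, add_zero]
  unfold fJ tJ
  rcases bc with _ | _ | ⟨ia, ta⟩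
  · right
    have a1 := stΦ_eq (θ := θ) (β := β) (u := uN p n t) (kOf_lt hl hs ht)
    have a2 := stΦ_eq (θ := θ) (β := β) (u := uN p n t) (kOf_lt hl he ht)
    show C + stΦ θ β (uN p n t) (l * n) _ = C + stΦ θ β (uN p n t) (l * n) _ - θ ∧
      c * stτ (l * n) _ = c * stτ (l * n) _ ∧ par _ * (c * stτ (l * n) _) = 1
    rw [a1.1, a1.2, a2.1, a2.2, u1, u2]
    refine ⟨?_, rfl, by rw [mul_one]; exact hpar⟩
    push_cast
    ring
  · right
    have a1 := stΦ_eq' (θ := θ) (β := β) (u := uN p n t) (Nat.not_lt_zero (kOf l n t 0 s))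
    have a2 := stΦ_eq' (θ := θ) (β := β) (u := uN p n t) (Nat.not_lt_zero (kOf l n t 0 (e - 1)))
    show C + stΦ θ β (uN p n t) 0 _ = C + stΦ θ β (uN p n t) 0 _ - θ ∧
      c * stτ 0 _ = c * stτ 0 _ ∧ par _ * (c * stτ 0 _) = 1
    rw [a1.1, a1.2, a2.1, a2.2, u1, u2]
    have hpar' : par ((n : ℤ) • p (0 : ℕ) + (t : ℤ) • dir (pdir p 0)) * c = -1 := hpar
    refine ⟨?_, rfl, by linear_combination -hpar'⟩
    push_cast
    ring
  · left
    obtain ⟨k1, k2, k3, k4⟩ := hd ia ta rfl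
    have h6 := dob_lt (n := n) k3 k4 (by omega)
    have h7 : 1 * n ≤ ia * n := Nat.mul_le_mul_right n k1
    have b1 : ¬ kOf l n t 0 s < kOf l n t ia ⌊ta * n⌋₊ := by
      rw [kOf_lt_kOf hl ht hs k1 k2 h6]
      omega
    have b2 : kOf l n t 0 (e - 1) < kOf l n t ia ⌊ta * n⌋₊ := by
      rw [kOf_lt_kOf hl ht he k1 k2 h6]
      omega
    have a1 := stΦ_eq' (θ := θ) (β := β) (u := uN p n t) b1
    have a2 := stΦ_eq (θ := θ) (β := β) (u := uN p n t) b2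
    show (|C + stΦ θ β (uN p n t) (kOf l n t ia ⌊ta * n⌋₊) _ -
        (C + stΦ θ β (uN p n t) (kOf l n t ia ⌊ta * n⌋₊) _)| = _ ∨
      |C + stΦ θ β (uN p n t) (kOf l n t ia ⌊ta * n⌋₊) _ -
        (C + stΦ θ β (uN p n t) (kOf l n t ia ⌊ta * n⌋₊) _)| = _) ∧
      c * stτ (kOf l n t ia ⌊ta * n⌋₊) _ = - (c * stτ (kOf l n t ia ⌊ta * n⌋₊) _)
    rw [a1.1, a1.2, a2.1, a2.2, u1, u2]
    refine ⟨?_, by ring⟩
    push_cast
    rw [show C + θ / 4 * ((pdir p 0 : ℕ) : ℝ) - (C + (θ / 4 * (((pdir p 0 : ℕ) : ℝ) + 4) + β)) =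
      -(β + θ) by ring, abs_neg]
    rcases hβ with h | h
    · right
      rw [h, show (θ - Real.pi) / 2 + θ = -((Real.pi - 3 * θ) / 2) by ring, abs_neg, abs_div,
        abs_of_pos (by norm_num : (0 : ℝ) < 2)]
    · left
      rw [h, abs_of_nonneg (by linarith)]
      ring

/-- The row of the junction. -/
theorem kndJ_jun (hβ : β = (θ - Real.pi) / 2 ∨ β = (Real.pi - 3 * θ) / 2) {z : ℤ × ℤ} {r : Fin 4}
    {i s e a : ℕ} (hi : i < l) (hi0 : 0 < i) (ht : t < n) (hs : s < n) (he : e - 1 < n)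
    (r5 : s < a) (r6 : a < e) (ha : a < n) (r1 : (s : ℝ) + κ * n ≤ a) (r2 : (a : ℝ) + κ * n ≤ e)
    (hθ : 0 < θ) (hθ' : θ < Real.pi / 2) :
    KndJ θ z r (fJ θ β C p n t (kOf l n t i a) i) (tJ c l n t (kOf l n t i a) i) n s e a κ := by
  right
  refine ⟨Or.inl ?_, r1, r2, r5.le, r6.le⟩
  have h8 : 1 * n ≤ i * n := Nat.mul_le_mul_right n hi0
  have b1 : kOf l n t i s < kOf l n t i a := by rw [kOf_lt_kOf hi ht hs hi0 hi ha]; omega
  have b2 : ¬ kOf l n t i (e - 1) < kOf l n t i a := by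
    rw [kOf_lt_kOf hi ht he hi0 hi ha]; omega
  have a1 := stΦ_eq (θ := θ) (β := β) (u := uN p n t) b1
  have a2 := stΦ_eq' (θ := θ) (β := β) (u := uN p n t) b2
  have u1 := uN_kOf (p := p) hi ht hs
  have u2 := uN_kOf (p := p) hi ht he
  rw [if_pos (by omega)] at u1 u2
  unfold fJ tJ
  rw [a1.1, a1.2, a2.1, a2.2, u1, u2,
    show ∀ x : ℝ, C + (x + β) - (C + x) = β from fun x => by ring]
  refine ⟨?_, by ring⟩
  rcases hβ with h | h
  · left
    rw [h, abs_of_nonpos (by linarith)]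
    ring
  · right
    rw [h, abs_div, abs_of_pos (by norm_num : (0 : ℝ) < 2)]

/-- The side of the base point. -/
theorem kndJ_zero (hp : IsPolygon p) (hD : Encloses p S₀) (hQ : Q.Ok) (hθ : 0 < θ)
    (hθ' : θ < Real.pi / 2) (hβ : β = (θ - Real.pi) / 2 ∨ β = (Real.pi - 3 * θ) / 2)
    (hg : Gap Q l g) (hbg : BGap l Q g bc) (hκ : 4 * κ ≤ g) (t1 : tB n Q ≤ t)
    (t2 : t ≤ tB n Q + 1) (hpar : GdB p n t c bc) {j s e : ℕ} (h : RB l n Q g δ 0 j s e) :
    t < n ∧ KndJ θ ((n : ℤ) • p (0 : ℕ)) (pdir p 0) (fJ θ β C p n t (bc.ka l n t) 0)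
      (tJ c l n t (bc.ka l n t) 0) n s e t κ := by
  have hn0 : (0 : ℝ) ≤ n := Nat.cast_nonneg n
  have hd : ∀ ia ta, bc = Bc.dob ia ta → 0 < ia ∧ ia < l ∧ 0 < ta ∧ ta < 1 := by
    rintro ia ta rfl
    exact ⟨hbg.1, hbg.2.1, hbg.2.2.1, hbg.2.2.2.1⟩
  have htp := hQ.tp0
  have tpn : (tB n Q : ℝ) ≤ Q.tp * n ∧ Q.tp * n < tB n Q + 1 :=
    ⟨Nat.floor_le (by positivity), Nat.lt_floor_add_one _⟩
  have t1' : (tB n Q : ℝ) ≤ t := by exact_mod_cast t1
  have t2' : (t : ℝ) ≤ tB n Q + 1 := by exact_mod_cast t2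
  have s3 := h.s3
  have e3 := h.e3
  have hse := h.se
  have hsn := h.sn
  have hen := h.en
  have hgn := h.gn
  have hn := h.hn
  have hκn : 4 * κ * n ≤ g * n := mul_le_mul_of_nonneg_right hκ hn0
  -- `t < n`
  have htn : t < n := by
    have g1 := hg.2 (Q.m + 1) le_rfl
    rw [hQ.one 0, abs_of_nonneg (by linarith [hQ.tp1])] at g1
    have : (g + Q.tp) * n ≤ 1 * n := mul_le_mul_of_nonneg_right (by linarith) hn0
    have h2 : (t : ℝ) < n := by linarith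
    exact_mod_cast h2
  refine ⟨htn, ?_⟩
  have same : (t ≤ s ↔ t ≤ e - 1) →
      KndJ θ ((n : ℤ) • p (0 : ℕ)) (pdir p 0) (fJ θ β C p n t (bc.ka l n t) 0)
      (tJ c l n t (bc.ka l n t) 0) n s e t κ := by
    intro h1
    have h1' : t ≤ 0 * n + s ↔ t ≤ 0 * n + (e - 1) := by omega
    refine kndJ_same h.il htn hsn hen h1' (ka_same h.il htn hsn hen fun ia ta hb => ?_)
    obtain ⟨k1, k2, k3, k4⟩ := hd ia ta hb
    have h7 : 1 * n ≤ ia * n := Nat.mul_le_mul_right n k1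
    refine ⟨k1, k2, k3, k4, ?_⟩
    omega
  rcases lt_or_ge Q.tp (Q.θ 0 j) with hc | hc
  · have g1 := hg.2 j (by have := h.jm; omega)
    rw [abs_of_nonneg (by linarith)] at g1
    have h2 : (g + Q.tp) * n ≤ Q.θ 0 j * n := mul_le_mul_of_nonneg_right (by linarith) hn0
    have h1 : t ≤ ⌊Q.θ 0 j * n⌋₊ := Nat.le_floor (by linarith)
    exact same (by omega)
  · rcases lt_or_ge Q.tp (Q.θ 0 (j + 1)) with hc' | hc'
    · have hc2 : Q.θ 0 j < Q.tp := lt_of_le_of_ne hc (hQ.tpne j)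
      obtain ⟨q1, q2⟩ := hg.tp h.jm hc2 hc'
      have q1n : Q.θ 0 j * n + g * n ≤ Q.tp * n := by nlinarith
      have q2n : Q.tp * n + g * n ≤ Q.θ 0 (j + 1) * n := by nlinarith
      have s2 := h.s2
      have e1 := h.e1
      have r1 : (s : ℝ) + κ * n ≤ t := by linarith
      have r2 : (t : ℝ) + κ * n ≤ e := by linarith
      have r3 : (s : ℝ) < t := by linarith
      have r4 : (t : ℝ) < e := by linarith
      exact kndJ_base hp hD hβ h.il htn hsn hen (by exact_mod_cast r3)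
        (by exact_mod_cast r4) r1 r2 hpar hd hθ hθ'
    · have h1 : ⌊Q.θ 0 (j + 1) * n⌋₊ ≤ tB n Q :=
        Nat.floor_le_floor (mul_le_mul_of_nonneg_right hc' hn0)
      exact same (by omega)

/-- The other sides. -/
theorem kndJ_pos (hθ : 0 < θ) (hθ' : θ < Real.pi / 2)
    (hβ : β = (θ - Real.pi) / 2 ∨ β = (Real.pi - 3 * θ) / 2) (hbg : BGap l Q g bc)
    (hκ : 4 * κ ≤ g) (htn : t < n) {z : ℤ × ℤ} {r : Fin 4} {i j s e : ℕ} (hi0 : 0 < i) (h : RB l n Q g δ i j s e) :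
    KndJ θ z r (fJ θ β C p n t (bc.ka l n t) i) (tJ c l n t (bc.ka l n t) i) n s e (bc.tn n) κ := by
  have hn0 : (0 : ℝ) ≤ n := Nat.cast_nonneg n
  have s3 := h.s3
  have e3 := h.e3
  have hse := h.se
  have hsn := h.sn
  have hen := h.en
  have h8 : 1 * n ≤ i * n := Nat.mul_le_mul_right n hi0
  have both : t ≤ i * n + s ↔ t ≤ i * n + (e - 1) := by omega
  by_cases hcase : ∃ ta, bc = Bc.dob i ta ∧ Q.θ i j ≤ ta ∧ ta < Q.θ i (j + 1)
  · obtain ⟨ta, rfl, hc, hc'⟩ := hcase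
    obtain ⟨k1, k2, k3, k4, k5⟩ := hbg
    have d1 := k5 j (by have := h.jm; omega)
    have d2 := k5 (j + 1) (by have := h.jm; omega)
    rw [abs_of_nonpos (by linarith)] at d1
    rw [abs_of_nonneg (by linarith)] at d2
    have tan : (⌊ta * n⌋₊ : ℝ) ≤ ta * n ∧ ta * n < ⌊ta * n⌋₊ + 1 :=
      ⟨Nat.floor_le (by positivity), Nat.lt_floor_add_one _⟩
    have q1n : Q.θ i j * n + g * n ≤ ta * n := by nlinarith
    have q2n : ta * n + g * n ≤ Q.θ i (j + 1) * n := by nlinarith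
    have s2 := h.s2
    have e1 := h.e1
    have hgn := h.gn
    have hn := h.hn
    have hκn : 4 * κ * n ≤ g * n := mul_le_mul_of_nonneg_right hκ hn0
    have r1 : (s : ℝ) + κ * n ≤ ⌊ta * n⌋₊ := by linarith
    have r2 : (⌊ta * n⌋₊ : ℝ) + κ * n ≤ e := by linarith
    have r3 : (s : ℝ) < ⌊ta * n⌋₊ := by linarith
    have r4 : (⌊ta * n⌋₊ : ℝ) < e := by linarith
    exact kndJ_jun hβ h.il hi0 htn hsn hen (by exact_mod_cast r3) (by exact_mod_cast r4)
      (dob_lt k3 k4 h.n0) r1 r2 hθ hθ'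
  · refine kndJ_same h.il htn hsn hen both (ka_same h.il htn hsn hen fun ia ta hb => ?_)
    subst hb
    obtain ⟨k1, k2, k3, k4, k5⟩ := hbg
    refine ⟨k1, k2, k3, k4, ?_⟩
    rcases lt_trichotomy i ia with hlt | rfl | hgt
    · have h9 : (i + 1) * n ≤ ia * n := Nat.mul_le_mul_right n hlt
      rw [add_mul, one_mul] at h9
      omega
    · rcases lt_or_ge ta (Q.θ i j) with hc | hc
      · have h1 : ⌊ta * n⌋₊ ≤ ⌊Q.θ i j * n⌋₊ :=
          Nat.floor_le_floor (mul_le_mul_of_nonneg_right hc.le hn0)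
        omega
      · rcases lt_or_ge ta (Q.θ i (j + 1)) with hc' | hc'
        · exact absurd ⟨ta, rfl, hc, hc'⟩ hcase
        · have h1 : ⌊Q.θ i (j + 1) * n⌋₊ ≤ ⌊ta * n⌋₊ :=
            Nat.floor_le_floor (mul_le_mul_of_nonneg_right hc' hn0)
          omega
    · have h9 : (ia + 1) * n ≤ i * n := Nat.mul_le_mul_right n hgt
      rw [add_mul, one_mul] at h9
      have h10 := dob_lt k3 k4 h.n0
      omega

/-- The base site is a step of its side. -/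
theorem t_lt (hQ : Q.Ok) (hg : Gap Q l g) (hδg : 4 * δ ≤ g)
    (hn : 16 ≤ δ * n) (t2 : t ≤ tB n Q + 1) : t < n := by
  have hn0 : (0 : ℝ) ≤ n := Nat.cast_nonneg n
  have htp := hQ.tp0
  have tpn : (tB n Q : ℝ) ≤ Q.tp * n := Nat.floor_le (by positivity)
  have t2' : (t : ℝ) ≤ tB n Q + 1 := by exact_mod_cast t2
  have g1 := hg.2 (Q.m + 1) le_rfl
  rw [hQ.one 0, abs_of_nonneg (by linarith [hQ.tp1])] at g1
  have h1 : (g + Q.tp) * n ≤ 1 * n := mul_le_mul_of_nonneg_right (by linarith) hn0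
  have h3 : 4 * δ * n ≤ g * n := mul_le_mul_of_nonneg_right hδg hn0
  have h2 : (t : ℝ) < n := by linarith
  exact_mod_cast h2

/-- **The kinds of the rows of a polygon.** -/
theorem frowJ_ok (hp : IsPolygon p) (hD : Encloses p S₀) (hQ : Q.Ok) (hθ : 0 < θ)
    (hθ' : θ < Real.pi / 2) (hβ : β = (θ - Real.pi) / 2 ∨ β = (Real.pi - 3 * θ) / 2)
    (hg : Gap Q l g) (hbg : BGap l Q g bc) (hδ : 0 < δ) (hδg : 4 * δ ≤ g) (hκ : 4 * κ ≤ g)
    (hn : 16 ≤ δ * n) (t1 : tB n Q ≤ t) (t2 : t ≤ tB n Q + 1) (hc : c = 1 ∨ c = -1)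
    (hpar : GdB p n t c bc) {i j : ℕ} (hi : i < l) (hj : j ≤ Q.m) :
    (frowJ θ β p Q n ⌊δ * n⌋₊ t bc J C c i j).Ok θ κ n := by
  have h := rb_of (p := p) hQ hg hδ hδg hn hi hj
  have hn0 : (0 : ℝ) ≤ n := Nat.cast_nonneg n
  have hlen : κ * n ≤ (eW p n Q ⌊δ * n⌋₊ i j : ℝ) - sW p n Q ⌊δ * n⌋₊ i j := by
    have h1 := h.s2
    have h2 := h.e1
    have h3 := h.gn
    have h4 : 4 * κ * n ≤ g * n := mul_le_mul_of_nonneg_right hκ hn0
    have h5 : (Q.θ i j + g) * n ≤ Q.θ i (j + 1) * n :=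
      mul_le_mul_of_nonneg_right (hg.1 i hi j hj) hn0
    linarith
  refine srowJ_ok hθ hlen h.se.le (fun σ => ?_) ?_
  · rcases hc with rfl | rfl <;> rcases stτ_or (bc.ka l n t) (kOf l n t i σ) with h | h <;>
      rw [h] <;> norm_num
  rcases Nat.eq_zero_or_pos i with rfl | hi0
  · have e1 : jpos n t bc 0 = t := if_pos rfl
    rw [e1]
    exact (kndJ_zero hp hD hQ hθ hθ' hβ hg hbg hκ t1 t2 hpar h).2
  · have e1 : jpos n t bc i = bc.tn n := if_neg hi0.ne'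
    rw [e1]
    exact kndJ_pos hθ hθ' hβ hbg hκ (t_lt hQ hg hδg hn t2) hi0 h

/-! ### the position of the base site -/

theorem even_step (z : ℤ × ℤ) (r : Fin 4) (t : ℕ) :
    Even ((z + (t : ℤ) • dir r).1 + (z + (t : ℤ) • dir r).2) ↔ Even (z.1 + z.2 + t) := by
  obtain ⟨x, y⟩ := z
  rcases fin4_cases r with rfl | rfl | rfl | rfl
  · show Even (x + (t : ℤ) * 1 + (y + (t : ℤ) * 0)) ↔ Even (x + y + (t : ℤ))
    rw [show x + (t : ℤ) * 1 + (y + (t : ℤ) * 0) = x + y + t by ring]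
  · show Even (x + (t : ℤ) * 0 + (y + (t : ℤ) * 1)) ↔ Even (x + y + (t : ℤ))
    rw [show x + (t : ℤ) * 0 + (y + (t : ℤ) * 1) = x + y + t by ring]
  · show Even (x + (t : ℤ) * (-1) + (y + (t : ℤ) * 0)) ↔ Even (x + y + (t : ℤ))
    rw [show x + (t : ℤ) * (-1) + (y + (t : ℤ) * 0) = x + y - t by ring,
      Int.even_sub, ← Int.even_add]
  · show Even (x + (t : ℤ) * 0 + (y + (t : ℤ) * (-1))) ↔ Even (x + y + (t : ℤ))
    rw [show x + (t : ℤ) * 0 + (y + (t : ℤ) * (-1)) = x + y - t by ring,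
      Int.even_sub, ← Int.even_add]

theorem tG_le (p : ZMod l → ℤ × ℤ) (n : ℕ) (tp s : ℝ) :
    ⌊tp * n⌋₊ ≤ tG p n tp s ∧ tG p n tp s ≤ ⌊tp * n⌋₊ + 1 := Enl.le_rnd _ _ _

/-- **The parity of the base site.** -/
theorem par_tG (p : ZMod l → ℤ × ℤ) (n : ℕ) (tp : ℝ) {s : ℝ} (hs : s = 1 ∨ s = -1) :
    par ((n : ℤ) • p (0 : ℕ) + (tG p n tp s : ℤ) • dir (pdir p 0)) = s := by
  unfold par
  simp only [even_step]
  unfold tG rnd
  generalize (n : ℤ) • p (0 : ℕ) = z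
  generalize ⌊tp * n⌋₊ = t
  rcases hs with rfl | rfl
  · rw [if_pos rfl, if_pos]
    rw [Int.even_iff]
    omega
  · have h1 : ¬ ((-1 : ℝ) = 1) := by norm_num
    rw [if_neg h1, if_neg]
    rw [Int.even_iff]
    omega

theorem tP_le (p : ZMod l → ℤ × ℤ) (n : ℕ) (tp : ℝ) (bc : Bc) :
    ⌊tp * n⌋₊ ≤ tP p n tp bc ∧ tP p n tp bc ≤ ⌊tp * n⌋₊ + 1 := by
  cases bc with
  | free => exact tG_le _ _ _ _
  | wired => exact tG_le _ _ _ _
  | dob ia ta => exact ⟨le_rfl, Nat.le_succ _⟩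

theorem gdB_tP (p : ZMod l → ℤ × ℤ) (n : ℕ) (tp : ℝ) (bc : Bc) :
    GdB p n (tP p n tp bc) 1 bc := by
  cases bc with
  | free =>
    show par _ * 1 = 1
    rw [mul_one]
    exact par_tG p n tp (Or.inl rfl)
  | wired =>
    show par _ * 1 = -1
    rw [mul_one]
    exact par_tG p n tp (Or.inr rfl)
  | dob ia ta => trivial

theorem gdB_tG (p : ZMod l → ℤ × ℤ) (n : ℕ) (tp : ℝ) {s : ℝ} (hs : s = 1 ∨ s = -1) :
    GdB p n (tG p n tp s) s .free := by
  show par _ * s = 1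
  rw [par_tG p n tp hs]
  rcases hs with rfl | rfl <;> norm_num

/-! ### the rows of the frames -/

theorem Row.Ok.cast {r : Row} {κ' : ℝ} {n' : ℕ} (h : κ' * n' ≤ κ * n) (hr : r.Ok θ κ n) :
    r.Ok θ κ' n' where
  len := h.trans hr.len
  s := hr.s
  kind := by
    rcases hr.kind with h1 | ⟨h1, h2, h3⟩
    · exact Or.inl h1
    · exact Or.inr ⟨h1, by linarith, by linarith⟩
  gd := hr.gd

variable {b : Box} {tp : ℝ} {ia : ℕ} {ta : ℝ}

/-- **The rows of the free and wired frames are admissible.** -/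
theorem rP_ok (hp : IsPolygon p) (hD : Encloses p S₀) (hQ : (mks p b tp).Ok) (hθ : 0 < θ)
    (hθ' : θ < Real.pi / 2) (hβ : β = (θ - Real.pi) / 2 ∨ β = (Real.pi - 3 * θ) / 2)
    (hg : Gap (mks p b tp) l g) (hbg : BGap l (mks p b tp) g bc) (hδ : 0 < δ) (hδg : 4 * δ ≤ g)
    (hκ : 4 * κ ≤ g) (hn : 16 ≤ δ * n) (x : Fin l × Fin 3) :
    (rP θ β p b tp bc n ⌊δ * n⌋₊ x).Ok θ κ n :=
  frowJ_ok hp hD hQ hθ hθ' hβ hg hbg hδ hδg hκ hn (tP_le p n tp bc).1 (tP_le p n tp bc).2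
    (Or.inl rfl) (gdB_tP p n tp bc) x.1.2 (Nat.lt_succ_iff.1 x.2.2)

theorem cT_or (p : ZMod l → ℤ × ℤ) (ia : ℕ) : cT p ia = 1 ∨ cT p ia = -1 := by
  unfold cT
  split_ifs
  · exact Or.inl rfl
  · exact Or.inr rfl

/-- **The rows of the Dobrushin frames are admissible.** -/
theorem rD_ok (hp : IsPolygon p) (hD : Encloses p S₀) (hN : Nrm p) (hQ : (mks p b tp).Ok)
    (hQB : (mksQ p b).Ok) (hθ : 0 < θ) (hθ' : θ < Real.pi / 2)
    (hβ : β = (θ - Real.pi) / 2 ∨ β = (Real.pi - 3 * θ) / 2) (hg : Gap (mks p b tp) l g)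
    (hgQ : Gap (mksQ p b) 4 g) (hbg : BGap l (mks p b tp) g (.dob ia ta)) (hδ : 0 < δ)
    (hδg : 4 * δ ≤ g) (hκ : 4 * κ ≤ g) (hn : 16 ≤ δ * n) (x : IxD l) :
    (rD θ β p b tp ia ta n ⌊δ * n⌋₊ x).Ok θ κ n := by
  have hl : 0 < l := by have := hp.1; omega
  have hM : 0 < bM p := by unfold bM; omega
  have hM' : (1 : ℝ) ≤ bM p := by exact_mod_cast hM
  have hn0 : (0 : ℝ) ≤ n := Nat.cast_nonneg n
  have hg1 : g ≤ 1 := by
    have a1 := hg.1 0 hl 0 (Nat.zero_le _)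
    have a2 := Enl.theta_nonneg hQ 0 (j := 0) (by omega)
    have a3 := Enl.theta_le_one hQ 0 (j := 0 + 1) (by omega)
    linarith
  rcases x with x | x | x
  · exact frowJ_ok hp hD hQ hθ hθ' hβ hg hbg hδ hδg hκ hn le_rfl (Nat.le_succ _) (Or.inl rfl)
      trivial x.1.2 (Nat.lt_succ_iff.1 x.2.2)
  · have hfl : ⌊δ / bM p * ((bM p * n : ℕ) : ℝ)⌋₊ = ⌊δ * n⌋₊ := by
      congr 1
      push_cast
      field_simp
    have e1 : δ / bM p * ((bM p * n : ℕ) : ℝ) = δ * n := by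
      push_cast
      field_simp
    have e2 : κ / bM p * ((bM p * n : ℕ) : ℝ) = κ * n := by
      push_cast
      field_simp
    have h1 := frowJ_ok (θ := θ) (β := β) (κ := κ / bM p) (n := bM p * n) (δ := δ / bM p)
      (t := tG pQ (bM p * n) (tqB (bQ b (bM p))) (cT p ia)) (bc := .free) (C := CQ θ β p ia)
      (c := cT p ia) (J := fun _ => true) (g := g)
      pQ_poly pQ_encl hQB hθ hθ' hβ hgQ trivial (by positivity)
      (by
        have : δ / bM p ≤ δ := div_le_self hδ.le hM'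
        linarith)
      (by
        rcases le_or_gt κ 0 with h | h
        · have : κ / bM p ≤ 0 := div_nonpos_of_nonpos_of_nonneg h (by linarith)
          have h3 : 0 < g := by linarith
          linarith
        · have : κ / bM p ≤ κ := div_le_self h.le hM'
          linarith)
      (by rw [e1]; exact hn) (tG_le _ _ _ _).1 (tG_le _ _ _ _).2 (cT_or p ia)
      (gdB_tG _ _ _ (cT_or p ia)) x.1.2 (Nat.lt_succ_iff.1 x.2.2)
    rw [hfl] at h1
    exact h1.cast (le_of_eq e2.symm)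
  · refine ⟨?_, cT_or p ia, Or.inl ⟨rfl, rfl⟩, fun _ h => absurd rfl h⟩
    show κ * n ≤ (((n * (p (iT p)).2).toNat - 2 * ⌊δ * n⌋₊ : ℕ) : ℝ)
    have c1 := (hN (iT p)).2
    have h1 : 2 * (n : ℤ) ≤ n * (p (iT p)).2 := by
      have : (0 : ℤ) ≤ n := by positivity
      nlinarith
    have h2 : 2 * n ≤ (n * (p (iT p)).2).toNat := by omega
    have h3 : (⌊δ * n⌋₊ : ℝ) ≤ δ * n := Nat.floor_le (by linarith)
    have h4 : 4 * δ * n ≤ 1 * n := mul_le_mul_of_nonneg_right (hδg.trans hg1) hn0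
    have h5 : 4 * κ * n ≤ 1 * n := mul_le_mul_of_nonneg_right (hκ.trans hg1) hn0
    have h6 : 2 * ⌊δ * n⌋₊ ≤ (n * (p (iT p)).2).toNat := by
      have : ((2 * ⌊δ * n⌋₊ : ℕ) : ℝ) ≤ ((2 * n : ℕ) : ℝ) := by push_cast; linarith
      have h7 : 2 * ⌊δ * n⌋₊ ≤ 2 * n := by exact_mod_cast this
      omega
    rw [Nat.cast_sub h6]
    have h8 : ((2 * n : ℕ) : ℝ) ≤ ((n * (p (iT p)).2).toNat : ℝ) := by exact_mod_cast h2
    push_cast at h8 ⊢
    linarith

end Vale.Agent.P167.N.ID
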