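import Vale.Agent.P167.N.ID.GeoP
import Vale.Agent.P167.H398.Q.CDefs

/-!
# P167, block ID, geometry of the frames: rows, holes and closing squares

`GeoS`: the geometry of a frame which does not depend on the phases. `geoS_poly`: the frame of one
polygon.
-/

set_option autoImplicit false

namespace Vale.Agent.P167.N.ID

open Finset Filter Topology
open Vale.Agent.P167.E6 (IsPolygon Encloses dir face region)
open Vale.Agent.P167.H825 (pdir enl domP Box dirOf Marks FlowIn epos rnd bsite)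
open Vale.Agent.P167.H825.Q (Row Bc)
open Vale.Agent.P167.H662 (hsite)
open Vale.Agent.P167.FK (Bq)
open Vale.Agent.P167.H199 (Gap)
open Vale.Agent.P167.XDL (bS mem_bS)
open Vale.Agent.P167.BR (sites mem_sites)
open Vale.Agent.P167.H680.T (uI mem_uI)
open Vale.Agent.P167.H398.Q (Tch hB)
open Vale.Agent.P167.Enl (sW eW tB rowP mem_rowP frm vp oz vz vz_eq oz_eq fin4_cases frmQ mem_frmQ
  iB jB pA pB gA gB iB_lt jB_le vp_pA vp_pB pB_zero pB_pos pA_zero row_pos rows_long frm_box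
  mem_Bq' Bq_of op_near nm_tri nm_sub_comm pA_lt pB_le enl_side op_same lt_n
  rows_marks near_hole fl fl_zero fl_one theta_mono theta_nonneg theta_le_one hsite_far mark_far
  frow_I hole_near frmQ_disj clH clH_sub clH_disj cl_cov hsite_out gn_big)

/-- **The geometry of a frame**: rows of the shapes `s`, holes with the centres `h`, closing squares
`Hc`; scale `n`, holes of size `δ n`. -/
structure GeoS {ι H : Type} [Fintype ι] [Fintype H] (S₀ : Finset (ℤ × ℤ)) (s : ι → Row)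
    (h : H → ℤ × ℤ) (Hc : Finset (ℤ × ℤ)) (Rb g δ : ℝ) (n : ℕ) : Prop where
  /-- the rows are separate -/
  sepr : ∀ i j, i ≠ j → ∀ u ∈ (s i).I, ∀ v ∈ (s j).I, δ * n / 2 ≤ (nm (u - v) : ℝ)
  /-- two rows are far from each other, except at a common hole -/
  hull : ∀ i j, i ≠ j → ∀ u ∈ (s i).I, ∀ v ∈ (s j).I, (nm (u - v) : ℝ) < g * n →
    ∃ x, ∃ w : ℤ × ℤ, min u.1 v.1 ≤ w.1 ∧ w.1 ≤ max u.1 v.1 ∧ min u.2 v.2 ≤ w.2 ∧
      w.2 ≤ max u.2 v.2 ∧ (nm (w - h x) : ℝ) ≤ 2 * δ * n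
  /-- the rows are in the picture -/
  rbox : ∀ i, ∀ u ∈ (s i).I, (nm u : ℝ) ≤ Rb * n
  /-- the holes are in the picture -/
  hbox : ∀ x, (nm (h x) : ℝ) ≤ Rb * n
  /-- the holes are separate -/
  seph : ∀ x y, x ≠ y → g * n ≤ (nm (h x - h y) : ℝ)
  /-- the shape of the frozen squares at the holes -/
  shp : ∀ x (r R : ℤ), (⌊δ * n⌋₊ : ℤ) + 4 ≤ r → (R : ℝ) ≤ g * n →
    Shp (uI s : Set (ℤ × ℤ)) (h x) r R
  /-- the shape of the domain at the holes -/
  shD : ∀ x (r R : ℤ), (⌊δ * n⌋₊ : ℤ) + 4 ≤ r → (R : ℝ) ≤ g * n → H635.Shp (enl S₀ n) (h x) r R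
  /-- the holes are next to a square outside of the domain -/
  out : ∀ x, ∃ v ∉ enl S₀ n, nm (h x - v) ≤ 1
  /-- the rows are outside of the domain -/
  dom : Disjoint (uI s) (enl S₀ n)
  /-- the sides of the domain which are not sides of the rows are at the holes -/
  hole : ∀ e ∈ bS (enl S₀ n), e ∉ bS (uI s) →
    hdv e ∈ univ.biUnion fun x => Bq (h x) ((⌊δ * n⌋₊ : ℤ) + 4)
  /-- the closing squares are at the holes -/
  cls : Hc ⊆ univ.biUnion fun x => Bq (h x) ((⌊δ * n⌋₊ : ℤ) + 4)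
  /-- the closing squares are outside of the domain -/
  clsD : Disjoint Hc (enl S₀ n)
  /-- the squares which touch the domain are frozen or closing squares -/
  tch : ∀ v ∉ enl S₀ n, ∀ w ∈ enl S₀ n, Tch v w → v ∈ uI s ∪ Hc

theorem GeoS.mono {ι H : Type} [Fintype ι] [Fintype H] {S₀ : Finset (ℤ × ℤ)} {s : ι → Row}
    {h : H → ℤ × ℤ} {Hc : Finset (ℤ × ℤ)} {Rb g g' δ : ℝ} {n : ℕ}
    (H : GeoS S₀ s h Hc Rb g δ n) (hg : g' ≤ g) : GeoS S₀ s h Hc Rb g' δ n := by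
  have h1 : g' * n ≤ g * n := mul_le_mul_of_nonneg_right hg (Nat.cast_nonneg n)
  exact ⟨H.sepr, fun i j hij u hu v hv h => H.hull i j hij u hu v hv (h.trans_le h1), H.rbox,
    H.hbox, fun x y hxy => h1.trans (H.seph x y hxy),
    fun x r R hr hR => H.shp x r R hr (hR.trans h1), fun x r R hr hR => H.shD x r R hr (hR.trans h1),
    H.out, H.dom, H.hole, H.cls, H.clsD, H.tch⟩

/-- Squares which touch have a corner in common. -/
theorem touch {D : Finset (ℤ × ℤ)} {v w : ℤ × ℤ} (hw : w ∈ D) (h : Tch v w) :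
    ∃ s ∈ sites D, ∃ r, face s r = v := by
  obtain ⟨h1, h2⟩ := h
  rw [abs_le] at h1 h2
  obtain ⟨v1, v2⟩ := v
  obtain ⟨w1, w2⟩ := w
  simp only at h1 h2
  have f0 : ∀ a b : ℤ, face (a, b) 0 = (a + 0, b + 0) := fun _ _ => rfl
  have f1 : ∀ a b : ℤ, face (a, b) 1 = (a + -1, b + 0) := fun _ _ => rfl
  have f2 : ∀ a b : ℤ, face (a, b) 2 = (a + -1, b + -1) := fun _ _ => rfl
  have f3 : ∀ a b : ℤ, face (a, b) 3 = (a + 0, b + -1) := fun _ _ => rfl
  rcases le_or_gt w1 v1 with ha | ha <;> rcases le_or_gt w2 v2 with hb | hb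
  · refine ⟨(v1, v2), mem_sites.2 ⟨_, hw, ?_, ?_⟩, 0, ?_⟩
    · simp only; omega
    · simp only; omega
    · rw [f0]; simp
  · refine ⟨(v1, v2 + 1), mem_sites.2 ⟨_, hw, ?_, ?_⟩, 3, ?_⟩
    · simp only; omega
    · simp only; omega
    · rw [f3]; simp
  · refine ⟨(v1 + 1, v2), mem_sites.2 ⟨_, hw, ?_, ?_⟩, 1, ?_⟩
    · simp only; omega
    · simp only; omega
    · rw [f1]; simp
  · refine ⟨(v1 + 1, v2 + 1), mem_sites.2 ⟨_, hw, ?_, ?_⟩, 2, ?_⟩
    · simp only; omega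
    · simp only; omega
    · rw [f2]; simp

variable {l : ℕ} {p : ZMod l → ℤ × ℤ} {n : ℕ} {S₀ : Finset (ℤ × ℤ)} {Q : Marks}

theorem mem_hB' {v : ℤ × ℤ} {R : ℤ} : v ∈ hB p Q n R ↔ ∃ x, v ∈ Bq (hsite p Q n x) R := by
  unfold hB
  rw [mem_biUnion]
  exact ⟨fun ⟨x, _, h⟩ => ⟨x, h⟩, fun ⟨x, h⟩ => ⟨x, mem_univ _, h⟩⟩

/-- The squares of the rows of a polygon. -/
theorem uI_shp (d : ℕ) : uI (fun x : Fin l × Fin (Q.m + 1) => shp p Q n d x.1 x.2) =
    frmQ p Q n d := by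
  unfold uI frmQ frm
  refine biUnion_congr rfl fun x _ => ?_
  rw [shp_I]

/-- The squares of the rows of a normalised polygon. -/
theorem row_mem (hp : IsPolygon p) (hN : Nrm p) {i s e : ℕ} (he : e ≤ n) {u : ℤ × ℤ}
    (hu : u ∈ rowP p n i s e) :
    (2 * n - 1 ≤ u.1 ∧ u.1 + 2 * n ≤ bM p * n + 1) ∧ 2 * n - 1 ≤ u.2 ∧
      u.2 + 2 * n ≤ bM p * n + 1 := by
  obtain ⟨σ, h1, h2, rfl⟩ := mem_rowP.1 hu
  have h3 := vp_mem (n := n) hp hN (i := i) (σ := σ) (by omega)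
  have h4 := op_near (p := p) (n := n) i σ
  rw [nm_le_iff] at h4
  simp only [Prod.fst_sub, Prod.snd_sub] at h4
  omega

section poly

variable (hp : IsPolygon p) (hD : Encloses p S₀) (hQ : Q.Ok) {g δ : ℝ} (hg : Gap Q l g)
  (hδ : 0 < δ) (hδg : 4 * δ ≤ g) (hn : 16 ≤ δ * n)

include hQ hg hδ hδg hn in
theorem rows_le (x : Fin l × Fin (Q.m + 1)) : eW p n Q ⌊δ * n⌋₊ x.1 x.2 ≤ n := by
  have hR := rows_marks (p := p) hQ hg hδ hδg hn
  have := hR.hi x
  omega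

include hn in
theorem dfl : 16 ≤ ⌊δ * n⌋₊ ∧ δ * n - 1 ≤ (⌊δ * n⌋₊ : ℝ) ∧ (⌊δ * n⌋₊ : ℝ) ≤ δ * n := by
  refine ⟨Nat.le_floor (by push_cast; linarith), ?_, Nat.floor_le (by linarith)⟩
  have := Nat.lt_floor_add_one (δ * n)
  linarith

include hp hD hQ hg hδ hδg hn in
/-- **The geometry of the frame of a polygon.** -/
theorem geoS_poly (hN : Nrm p) :
    GeoS S₀ (fun x : Fin l × Fin (Q.m + 1) => shp p Q n ⌊δ * n⌋₊ x.1 x.2) (hsite p Q n)
      (clH p Q n ⌊δ * n⌋₊ S₀) (bM p + 1) (g / 16) δ n := by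
  have hl : 0 < l := by have := hp.1; omega
  obtain ⟨b1, b2, b3, b4, b5⟩ := gn_big hQ hg hδg hn hl
  obtain ⟨d1, d2, d3⟩ := dfl hn
  have hn0 : (0 : ℝ) ≤ n := Nat.cast_nonneg n
  have hn1 : (1 : ℤ) ≤ n := by exact_mod_cast b5
  have e16 : g / 16 * n = g * n / 16 := by ring
  have hin : ∀ {u : ℤ × ℤ}, 2 * (n : ℤ) - 1 ≤ u.1 → u.1 + 2 * n ≤ bM p * n + 1 →
      2 * (n : ℤ) - 1 ≤ u.2 → u.2 + 2 * n ≤ bM p * n + 1 → (nm u : ℝ) ≤ (bM p + 1) * n := by
    intro u h1 h2 h3 h4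
    have h5 : nm u ≤ bM p * n + n := by
      rw [nm_le_iff]
      have : (0 : ℤ) ≤ bM p * n := by positivity
      omega
    have h6 : (nm u : ℝ) ≤ bM p * n + n := by exact_mod_cast h5
    linarith
  refine ⟨?_, ?_, ?_, ?_, ?_, ?_, ?_, ?_, ?_, ?_, ?_, ?_, ?_⟩
  · intro i j hij u hu v hv
    rw [shp_I] at hu hv
    have h1 := sepr_poly hp hQ hg hδ hδg hn hij hu hv
    have h2 : (⌊δ * n⌋₊ : ℝ) - 3 ≤ nm (u - v) := by exact_mod_cast h1
    linarith
  · intro i j hij u hu v hv h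
    rw [shp_I] at hu hv
    rw [e16] at h
    obtain ⟨z, w, h1, h2⟩ := hull_poly hp hD hQ hg hδ hδg hn hij hu hv le_rfl (by linarith)
    refine ⟨z, w, h1.1, h1.2.1, h1.2.2.1, h1.2.2.2, ?_⟩
    have : (nm (w - hsite p Q n z) : ℝ) ≤ 1 := by exact_mod_cast h2
    linarith
  · intro i u hu
    rw [shp_I] at hu
    obtain ⟨⟨h1, h2⟩, h3, h4⟩ := row_mem hp hN (rows_le hQ hg hδ hδg hn i) hu
    exact hin h1 h2 h3 h4
  · intro x
    have h := vp_mem (n := n) hp hN (i := x.1) (σ := pA n Q x) (pA_lt hQ b5 x).le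
    rw [vp_pA] at h
    exact hin (by omega) (by omega) (by omega) (by omega)
  · intro x y hxy
    have hκ : ∀ i < l, ∀ j ≤ Q.m, g ≤ Q.θ i (j + 1) - Q.θ i j :=
      fun i hi j hj => by linarith [hg.1 i hi j hj]
    have := hsite_far (n := n) hQ hκ hp b3 hxy
    linarith
  · intro x r R hr hR
    rw [e16] at hR
    refine shp_rays (aH (hsite p Q n x) (pdir p (iB l x)) (pdir p x.1)) (by omega)
      (fun k t h => by have := aH_cen h; omega) fun v hv => ?_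
    rw [uI_shp, mem_coe]
    exact frm_rays hp hD hQ hg hδ hδg hn (R := R) (by linarith) (r := r) (by omega) hv
  · intro x r R hr hR
    exact shp_enl hp hD hQ hg hδg hn x (by linarith)
  · intro x
    obtain ⟨v, h1, h2⟩ := hsite_out hp hD hQ b5 x
    exact ⟨v, h1, by rw [nm_sub_comm]; exact h2⟩
  · rw [uI_shp]
    exact (frmQ_disj hp hD hQ hg hδ hδg hn).symm
  · intro e he he'
    rw [uI_shp] at he'
    obtain ⟨x, hx⟩ := hole_near hp hD hQ hg hδ hδg hn he he'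
    exact mem_biUnion.2 ⟨x, mem_univ _, Bq_of (by omega)⟩
  · intro v hv
    obtain ⟨x, hx⟩ := mem_hB'.1 (clH_sub hv)
    exact mem_biUnion.2 ⟨x, mem_univ _, hx⟩
  · exact clH_disj
  · intro v hv w hw hvw
    obtain ⟨z, hz, r, hr⟩ := touch hw hvw
    rw [uI_shp]
    exact cl_cov hp hD hQ hg hδg hn hv hz hr

end poly

end Vale.Agent.P167.N.ID
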