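import Vale.Agent.P167.N.ID.PhX
import Vale.Agent.P167.N.ID.CellM
import Vale.Agent.P167.N.ID.FrmS
import Vale.Agent.P167.N.ID.FrmO
import Vale.Agent.P167.N.ID.GeoS
import Vale.Agent.P167.N.ID.RowF

/-!
# P167, `q < 1`, START: the cells of the frames of the free and wired boundary conditions

* `oneF_frP`: the frame `frP` is a `OneF` of `CellM`.
-/

set_option autoImplicit false

namespace Vale.Agent.P167.N.ID

open Finset
open Vale.Agent.P167.Top
open Vale.Agent.P167.H871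
open Vale.Agent.P167.H871.Q
open Vale.Agent.P167.A (plane)
open Vale.Agent.P167.FK (Bq)
open Vale.Agent.P167.H199 (Gap ah at' mks)
open Vale.Agent.P167.H662 (hsite)
open Vale.Agent.P167.H825.Q (Bc stΦ stτ)
open Vale.Agent.P167.H680.T (WallG WCG sgb sq par mem_uI)
open Vale.Agent.P167.H398.Q (hB)
open Vale.Agent.P167.E6 (IsPolygon Encloses dir face)
open Vale.Agent.P167.H825 (pdir enl ptau Marks Box)
open Vale.Agent.P167.XDL (bS mem_bS)
open Vale.Agent.P167.Enl (sW eW tB tB_lt kOf uN qN PN bd_qN qN_nat pW uW pW_eq uW_eq pW_vp uW_same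
  uW_mod vec_pred vp frmQ mem_frmQ sR eR row_dat row_num sR_num row_bds gn_big sqL_op frmQ_disj
  mem_hB)

variable {l : ℕ} {θ β : ℝ} {p : ZMod l → ℤ × ℤ} {S₀ : Finset (ℤ × ℤ)} {Q : Marks} {n t d : ℕ}
  {bc : Bc} {J : ℕ → Bool} {C c : ℝ} {g δ : ℝ} {b : Box} {tp : ℝ}

/-- The squares of the rows of a polygon. -/
theorem mem_frmJ {v : ℤ × ℤ} : v ∈ frmQ p Q n d ↔ ∃ x : Fin l × Fin (Q.m + 1),
    v ∈ (frowJ θ β p Q n d t bc J C c x.1 x.2).I := by
  rw [← uI_shp, mem_uI]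
  exact exists_congr fun x => by rw [frowJ_I]

/-- The colour of free and wired boundary conditions. -/
noncomputable def sB : Bc → ℝ
  | .wired => -1
  | _ => 1

theorem oneCol_P (hbc : bc = .free ∨ bc = .wired) : OneCol l n t bc β 0 1 0 (sB bc) := by
  rcases hbc with rfl | rfl
  · refine ⟨Or.inl rfl, fun k hk => ?_, fun k hk => ?_⟩
    · show (0 : ℝ) + (if k < l * n then 0 else β) = 0 + if (1 : ℝ) = 1 then 0 else β
      rw [if_pos hk, if_pos rfl]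
    · show (1 : ℝ) * (if k < l * n then 1 else -1) = 1
      rw [if_pos hk, one_mul]
  · refine ⟨Or.inr rfl, fun k hk => ?_, fun k hk => ?_⟩
    · show (0 : ℝ) + (if k < 0 then 0 else β) = 0 + if (-1 : ℝ) = 1 then 0 else β
      rw [if_neg (Nat.not_lt_zero k), if_neg (by norm_num)]
    · show (1 : ℝ) * (if k < 0 then 1 else -1) = -1
      rw [if_neg (Nat.not_lt_zero k), one_mul]

theorem tP_even (hbc : bc = .free ∨ bc = .wired) (p : ZMod l → ℤ × ℤ) (n : ℕ) (tp : ℝ) :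
    Even ((vp p n 0 (tP p n tp bc : ℤ)).1 + (vp p n 0 (tP p n tp bc : ℤ)).2) ↔ sB bc = 1 := by
  have key : ∀ s : ℝ, s = 1 ∨ s = -1 → (Even ((vp p n 0 (tG p n tp s : ℤ)).1 +
      (vp p n 0 (tG p n tp s : ℤ)).2) ↔ s = 1) := by
    intro s hs
    have h := par_tG p n tp hs
    have e : (n : ℤ) • p ((0 : ℕ) : ZMod l) + (tG p n tp s : ℤ) • dir (pdir p 0) =
      vp p n 0 (tG p n tp s : ℤ) := rfl
    change par ((n : ℤ) • p ((0 : ℕ) : ZMod l) + (tG p n tp s : ℤ) • dir (pdir p 0)) = s at h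
    rw [e] at h
    unfold par at h
    by_cases hc : Even ((vp p n 0 (tG p n tp s : ℤ)).1 + (vp p n 0 (tG p n tp s : ℤ)).2)
    · rw [if_pos hc] at h
      exact ⟨fun _ => h.symm, fun _ => hc⟩
    · rw [if_neg hc] at h
      constructor
      · exact fun h' => absurd h' hc
      · intro h'
        rw [h'] at h
        norm_num at h
  rcases hbc with rfl | rfl
  · exact key 1 (Or.inl rfl)
  · exact key (-1) (Or.inr rfl)

/-- **The cells of the frames of the free and wired boundary conditions**, for every set `B` which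
contains the boxes of the holes. -/
theorem oneF_frP' [NeZero l] (hp : IsPolygon p) (hD : Encloses p S₀) (hN : Nrm p)
    (hQ : (mks p b tp).Ok) (hg : Gap (mks p b tp) l g) (hδ : 0 < δ) (hδg : 4 * δ ≤ g)
    (hn : 16 ≤ δ * n) (hbc : bc = .free ∨ bc = .wired) :
    ∃ (cD cX : CD) (X : Set (ℤ × ℤ)), (∀ B : Set (ℤ × ℤ),
      ((frP θ β p S₀ b tp bc).hB δ n ((⌊δ * n⌋₊ : ℤ) + 4) : Set (ℤ × ℤ)) ⊆ B →
      OneF θ β ((frP θ β p S₀ b tp bc).U (rowS θ) δ n) B ((frP θ β p S₀ b tp bc).ph (rowS θ) δ n 0)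
        (enl S₀ n) X cD cX) ∧
      (∀ η : Cfg, (frP θ β p S₀ b tp bc).Frz (rowS θ) δ n η → ∀ B : Set (ℤ × ℤ),
        cD.Clr ((frP θ β p S₀ b tp bc).U (rowS θ) δ n) B η ∧
        cX.Clr ((frP θ β p S₀ b tp bc).U (rowS θ) δ n) B η) ∧
      cD = ⟨l * n, fun k => qN p n (tP p n tp bc) (k : ZMod (l * n)), uN p n (tP p n tp bc),
        bc.ka l n (tP p n tp bc), 0, 0, 0⟩ ∧
      X = ((enl S₀ n : Set (ℤ × ℤ)) ∪ (frmQ p (mks p b tp) n ⌊δ * n⌋₊ : Set (ℤ × ℤ)))ᶜ ∧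
      cX.Out (enl S₀ n ∪ frmQ p (mks p b tp) n ⌊δ * n⌋₊)
        (vp p n 0 (tP p n tp bc) + dir (pdir p 0 - 1)) := by
  have hl : 0 < l := by have := hp.1; omega
  obtain ⟨-, -, -, c4, b5⟩ := gn_big hQ hg hδg hn hl
  set t := tP p n tp bc with ht0
  have t1 : tB n (mks p b tp) ≤ t := (tP_le p n tp bc).1
  have t2 : t ≤ tB n (mks p b tp) + 1 := (tP_le p n tp bc).2
  have ht : t < n := t_lt hQ hg hδg hn t2
  have hln : n ≤ l * n := Nat.le_mul_of_pos_left n hl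
  have hb : bc.Ok l (mks p b tp) := by rcases hbc with rfl | rfl <;> trivial
  -- the frozen squares
  have hKe : (frP θ β p S₀ b tp bc).U (rowS θ) δ n = frmQ p (mks p b tp) n ⌊δ * n⌋₊ := by
    ext v
    rw [mem_frmJ (θ := θ) (β := β) (t := t) (bc := bc) (J := fun _ => true) (C := 0) (c := 1)]
    exact mem_uI
  have hKi : ∀ v, v ∈ frmQ p (mks p b tp) n ⌊δ * n⌋₊ ↔
      ∃ i, v ∈ (rP θ β p b tp bc n ⌊δ * n⌋₊ i).I := fun v =>
    mem_frmJ (θ := θ) (β := β) (t := t) (bc := bc) (J := fun _ => true) (C := 0) (c := 1)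
  have hgeo := geoS_poly hp hD hQ hg hδ hδg hn hN
  have hsep : ∀ i j, i ≠ j → ∀ u ∈ (rP θ β p b tp bc n ⌊δ * n⌋₊ i).I,
      ∀ v ∈ (rP θ β p b tp bc n ⌊δ * n⌋₊ j).I, 1 < nm (u - v) := by
    intro i j hij u hu v hv
    have h1 := hgeo.sepr i j hij u (by rw [← frowJ_I (θ := θ) (β := β) (t := t) (bc := bc)
      (J := fun _ => true) (C := 0) (c := 1)]; exact hu) v
      (by rw [← frowJ_I (θ := θ) (β := β) (t := t) (bc := bc)
      (J := fun _ => true) (C := 0) (c := 1)]; exact hv)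
    have h2 : (8 : ℝ) ≤ nm (u - v) := by linarith
    have h3 : (8 : ℤ) ≤ nm (u - v) := by exact_mod_cast h2
    omega
  have hS : Sys θ (rP θ β p b tp bc n ⌊δ * n⌋₊) (frmQ p (mks p b tp) n ⌊δ * n⌋₊)
      ((frP θ β p S₀ b tp bc).ph (rowS θ) δ n 0) :=
    sys_of (z := fun _ => 0) hKi hsep
  have hr : ∀ i j, i < l → j ≤ (mks p b tp).m → ∃ y, rP θ β p b tp bc n ⌊δ * n⌋₊ y =
      frowJ θ β p (mks p b tp) n ⌊δ * n⌋₊ t bc (fun _ => true) 0 1 i j := fun i j hi hj =>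
    ⟨(⟨i, hi⟩, ⟨j, by change j ≤ 2 at hj; omega⟩), rfl⟩
  have hKD : ∀ v ∈ frmQ p (mks p b tp) n ⌊δ * n⌋₊, v ∉ enl S₀ n := fun v hv h =>
    Finset.disjoint_left.1 (frmQ_disj hp hD hQ hg hδ hδg hn) h hv
  -- the exterior
  obtain ⟨n', P', u', ι, hP⟩ := exists_BPf hp hD hQ hg hδ hδg hn
  have hn' := n'_pos hP hp b5
  have hO := oneCol_P (l := l) (n := n) (t := t) (β := β) hbc
  obtain ⟨j, j1, j2, j3⟩ := mid_row (p := p) hQ hg hδ hδg hn hl hQ.tp0.le hQ.tp1.le hg.2 t1 t2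
  have hin : InR (l * ((mks p b tp).m + 1)) (sR p n (mks p b tp) ⌊δ * n⌋₊)
      (eR p n (mks p b tp) ⌊δ * n⌋₊) t := mid_inR hl j1 j2 j3 (by omega) (by omega)
  refine ⟨⟨l * n, fun k => qN p n t (k : ZMod (l * n)), uN p n t, bc.ka l n t, 0, 0, 0⟩,
    ⟨n', revP n' (sP P' (ι t)), revU n' (sU u' (ι t) 4), k1 n' (sB bc), 0, 0, 0⟩,
    ((enl S₀ n : Set (ℤ × ℤ)) ∪ (frmQ p (mks p b tp) n ⌊δ * n⌋₊ : Set (ℤ × ℤ)))ᶜ, ?_, ?_, rfl, rfl,
    outX hp hD hQ hg hδ hδg hn hP ht hin _ _⟩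
  · intro B hB0
    rw [hKe]
    have hB' : (hB p (mks p b tp) n (⌊δ * n⌋₊ + 4) : Set (ℤ × ℤ)) ⊆ B := by
      intro v hv
      refine hB0 ?_
      obtain ⟨x, hx⟩ := mem_hB.1 (mem_coe.1 hv)
      exact mem_coe.2 (mem_biUnion.2 ⟨x, mem_univ _, hx⟩)
    have hX := cellX_lit hp hD hQ hg hδ hδg hn hP hB' (j₀ := t) (by omega) (κ := 4)
      (by norm_num)
    refine ⟨⟨cellD_lit hp hD hQ hg hδ hδg hn hB' t, ?_, by show 0 < l * n; omega,
      by show 0 < l * n; omega, phsD hp hD hQ hg hδ hδg hn hS hb ht hr hKD fun k h => h,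
      fun h => absurd h (by norm_num)⟩,
      ⟨hX, ?_, by show 0 < n'; omega, by show 0 < n'; omega,
      phsX hp hD hQ hg hδ hδg hn hP hS hb ht hB' (Or.inl rfl) hr (fun _ => rfl) hO hX.bd hX.dis
        fun k h => h,
      fun _ => gdX hp hQ hg hδg hn hP ht hin (tP_even hbc p n tp)⟩, ?_, ?_, ?_, ?_⟩
    · show bc.ka l n t ≤ l * n
      rcases hbc with rfl | rfl
      · exact le_rfl
      · exact Nat.zero_le _
    · show k1 n' (sB bc) ≤ n'
      unfold k1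
      split_ifs <;> omega
    · show bc.ka l n t = 0 ∨ bc.ka l n t = l * n
      rcases hbc with rfl | rfl
      · exact Or.inr rfl
      · exact Or.inl rfl
    · show k1 n' (sB bc) = 0 ∨ k1 n' (sB bc) = n'
      unfold k1
      split_ifs
      · exact Or.inr rfl
      · exact Or.inl rfl
    · intro v hv _
      by_cases h : v ∈ enl S₀ n
      · exact Or.inl h
      · right
        rintro (h' | h')
        · exact h h'
        · exact hv h'
    · intro v hv h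
      exact h (Or.inl hv)
  · intro η hη B
    rw [hKe]
    have hcol : ColP p (mks p b tp) n ⌊δ * n⌋₊ t (bc.ka l n t) η := by
      intro y τ h1 h2
      have hm : Enl.op p n y.1 τ ∈ (frowJ θ β p (mks p b tp) n ⌊δ * n⌋₊ t bc (fun _ => true) 0 1
          (y.1 : ℕ) (y.2 : ℕ)).I := mem_frowJ.2 ⟨τ, h1, h2, rfl⟩
      have h3 : η (Enl.op p n y.1 τ) = (frowJ θ β p (mks p b tp) n ⌊δ * n⌋₊ t bc
          (fun _ => true) 0 1 (y.1 : ℕ) (y.2 : ℕ)).toRow.fr (Enl.op p n y.1 τ) := hη y _ hm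
      rw [h3]
      exact frowJ_fr hp hD hQ hb (by omega) ht y.1.2 (Nat.lt_succ_iff.1 y.2.2) h1 h2
    refine ⟨clrD hp hD hQ hg hδ hδg hn hcol ht fun k h => h, ?_⟩
    have hcX : ∀ v ∈ frmQ p (mks p b tp) n ⌊δ * n⌋₊, η v = decide (sB bc ≠ 1) := ?_
    · exact clrX (p := p) (Q := mks p b tp) (n := n) (t := t) (δ := δ) (n' := n') (P' := P')
        (u' := u') (ι := ι) (s := sB bc) hcX fun k h => h
    intro v hv
    obtain ⟨y, τ, h1, h2, rfl⟩ := mem_frmQ.1 hv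
    rw [hcol y τ h1 h2]
    have hτ : τ < n := by
      have := (Enl.rows_marks (p := p) hQ hg hδ hδg hn).hi y
      omega
    have h5 := Enl.kOf_lt y.1.2 hτ ht
    rcases hbc with hbc | hbc
    · rw [hbc]
      show decide (¬ kOf l n t y.1 τ < l * n) = decide ((1 : ℝ) ≠ 1)
      rw [decide_eq_false (not_not.2 h5), decide_eq_false (by norm_num)]
    · rw [hbc]
      show decide (¬ kOf l n t y.1 τ < 0) = decide ((-1 : ℝ) ≠ 1)
      rw [decide_eq_true (Nat.not_lt_zero _), decide_eq_true (by norm_num)]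

/-- The cells of the frames of the free and wired boundary conditions. -/
theorem oneF_frP [NeZero l] (hp : IsPolygon p) (hD : Encloses p S₀) (hN : Nrm p)
    (hQ : (mks p b tp).Ok) (hg : Gap (mks p b tp) l g) (hδ : 0 < δ) (hδg : 4 * δ ≤ g)
    (hn : 16 ≤ δ * n) (hbc : bc = .free ∨ bc = .wired) :
    ∃ (cD cX : CD) (X : Set (ℤ × ℤ)), (∀ B : Set (ℤ × ℤ),
      ((frP θ β p S₀ b tp bc).hB δ n ((⌊δ * n⌋₊ : ℤ) + 4) : Set (ℤ × ℤ)) ⊆ B →
      OneF θ β ((frP θ β p S₀ b tp bc).U (rowS θ) δ n) B ((frP θ β p S₀ b tp bc).ph (rowS θ) δ n 0)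
        (enl S₀ n) X cD cX) ∧
      ∀ η : Cfg, (frP θ β p S₀ b tp bc).Frz (rowS θ) δ n η → ∀ B : Set (ℤ × ℤ),
        cD.Clr ((frP θ β p S₀ b tp bc).U (rowS θ) δ n) B η ∧
        cX.Clr ((frP θ β p S₀ b tp bc).U (rowS θ) δ n) B η := by
  obtain ⟨cD, cX, X, h1, h2, -⟩ := oneF_frP' (θ := θ) (β := β) hp hD hN hQ hg hδ hδg hn hbc
  exact ⟨cD, cX, X, h1, h2⟩

end Vale.Agent.P167.N.ID
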