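import Vale.Agent.P167.N.ID.FrLA
import Vale.Agent.P167.N.ID.PhP
import Vale.Agent.P167.N.ID.FrmG

/-!
# P167, `q < 1`, START: the cells of the free and wired frames

`oneG_frP`: the free and wired frames have two cells of one colour.
-/

set_option autoImplicit false

namespace Vale.Agent.P167.N.ID

open Finset Filter Topology
open Vale.Agent.P167.Top
open Vale.Agent.P167.H871
open Vale.Agent.P167.H871.Q
open Vale.Agent.P167.A (plane)
open Vale.Agent.P167.H199 (Gap ah at' mks mks_ok exists_Gap)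
open Vale.Agent.P167.H825.Q (Bc stΦ stτ)
open Vale.Agent.P167.H680.T (WallG WCG sgb sq par uI mem_uI)
open Vale.Agent.P167.H398.Q (hB)
open Vale.Agent.P167.H662 (hsite)
open Vale.Agent.P167.E6 (IsPolygon Encloses dir face)
open Vale.Agent.P167.H825 (pdir enl ptau Marks Box)
open Vale.Agent.P167.XDL (bS mem_bS)
open Vale.Agent.P167.Enl (sW eW tB tB_lt kOf kOf_lt uN qN PN bd_qN qN_nat pW uW pW_eq uW_eq pW_vp
  uW_same uW_mod vec_pred vp frmQ mem_frmQ mem_rowP sR eR row_dat row_num sR_num row_bds gn_big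
  sqL_op BGap exists_BGap vp_far vp_same pA vp_pA op_near nm_tri theta_nonneg theta_le_one)

variable {l : ℕ} {θ β : ℝ} {p : ZMod l → ℤ × ℤ} {S₀ : Finset (ℤ × ℤ)} {Q : Marks} {n t d : ℕ}
  {bc : Bc} {g δ : ℝ} {b : Box} {tp : ℝ}

/-! ### points of a side far from the marks -/

/-- A point of a side which is far from the marks of the side is far from all marks. -/
theorem vp_farM (hp : IsPolygon p) (hQ : Q.Ok) {i : ℕ} (hi : i < l) {τ : ℝ} (h0 : 0 ≤ τ)
    (h1 : τ ≤ 1) (hτ : ∀ j ≤ Q.m + 1, g ≤ |Q.θ i j - τ|) {σ : ℤ} (hσ : |(σ : ℝ) - τ * n| ≤ 2)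
    (y : Fin l × Fin (Q.m + 1)) : g * n - 3 ≤ (nm (vp p n i σ - hsite p Q n y) : ℝ) := by
  have hn0 : (0 : ℝ) ≤ n := Nat.cast_nonneg n
  obtain ⟨s1, s2⟩ := abs_le.1 hσ
  rw [← vp_pA]
  have q0 := theta_nonneg hQ y.1 (j := (y.2 : ℕ)) (by omega)
  have q1 := theta_le_one hQ y.1 (j := (y.2 : ℕ)) (by omega)
  have f1 : (⌊Q.θ y.1 y.2 * n⌋₊ : ℝ) ≤ Q.θ y.1 y.2 * n := Nat.floor_le (mul_nonneg q0 hn0)
  have f2 : Q.θ y.1 y.2 * n < ⌊Q.θ y.1 y.2 * n⌋₊ + 1 := Nat.lt_floor_add_one _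
  by_cases hyi : (y.1 : ℕ) = i
  · rw [hyi, vp_same]
    unfold pA
    rw [hyi] at f1 f2 ⊢
    have h3 := hτ y.2 (by omega)
    push_cast
    rcases le_total (Q.θ i y.2) τ with h | h
    · rw [abs_of_nonpos (by linarith)] at h3
      have h4 : (Q.θ i y.2 + g) * n ≤ τ * n := mul_le_mul_of_nonneg_right (by linarith) hn0
      refine le_trans ?_ (le_abs_self _)
      linarith
    · rw [abs_of_nonneg (by linarith)] at h3
      have h4 : (τ + g) * n ≤ Q.θ i y.2 * n := mul_le_mul_of_nonneg_right (by linarith) hn0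
      refine le_trans ?_ (neg_le_abs _)
      linarith
  · have e0 := hτ 0 (by omega)
    rw [hQ.zero, zero_sub, abs_neg, abs_of_nonneg h0] at e0
    have e1 := hτ (Q.m + 1) le_rfl
    rw [hQ.one, abs_of_nonneg (by linarith)] at e1
    have m0 : g * n ≤ τ * n := mul_le_mul_of_nonneg_right e0 hn0
    have m1 : g * n ≤ (1 - τ) * n := mul_le_mul_of_nonneg_right e1 hn0
    have h4 : ⌈g * n - 2⌉ ≤ (σ : ℤ) := Int.ceil_le.2 (by linarith)
    have h5 : ⌈g * n - 2⌉ ≤ (n : ℤ) - σ := Int.ceil_le.2 (by push_cast; linarith)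
    have hpn : (pA n Q y : ℝ) ≤ n := by
      unfold pA
      have : Q.θ y.1 y.2 * n ≤ 1 * n := mul_le_mul_of_nonneg_right q1 hn0
      linarith
    have hpn' : (pA n Q y : ℤ) ≤ n := by exact_mod_cast hpn
    have h6 := vp_far hp hi y.1.2 (fun h' => hyi h'.symm) (σ := σ)
      (σ' := (pA n Q y : ℕ)) (m := ⌈g * n - 2⌉) (n := n) (by omega) hpn' h4 h5
      (Int.ceil_le.2 (by push_cast; linarith))
    have h7 := (Int.le_ceil (g * n - 2)).trans (Int.cast_le (R := ℝ).2 h6)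
    linarith

/-- The square outside of such a point. -/
theorem op_farM (hp : IsPolygon p) (hQ : Q.Ok) {i : ℕ} (hi : i < l) {τ : ℝ} (h0 : 0 ≤ τ)
    (h1 : τ ≤ 1) (hτ : ∀ j ≤ Q.m + 1, g ≤ |Q.θ i j - τ|) {σ : ℤ} (hσ : |(σ : ℝ) - τ * n| ≤ 2)
    (hgn : 8 ≤ g * n) (y : Fin l × Fin (Q.m + 1)) :
    g / 2 * n ≤ (nm (Enl.op p n i σ - hsite p Q n y) : ℝ) := by
  have h2 := vp_farM hp hQ hi h0 h1 hτ hσ y
  have h3 := op_near (p := p) (n := n) i σ
  have h4 := nm_tri (vp p n i σ) (Enl.op p n i σ) (hsite p Q n y)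
  rw [Enl.nm_sub_comm (vp p n i σ) (Enl.op p n i σ)] at h4
  have h5 : (nm (vp p n i σ - hsite p Q n y) : ℝ) ≤ 1 + nm (Enl.op p n i σ - hsite p Q n y) := by
    exact_mod_cast h4.trans (by omega)
  linarith

/-- The square outside of a step, base numbering. -/
theorem oq_base (hp : IsPolygon p) (hD : Encloses p S₀) (hn : 0 < n) (ht : t < n) {i σ : ℕ}
    (hσ : σ < n) :
    oq (fun k => qN p n t (k : ZMod (l * n))) (uN p n t) (kOf l n t i σ) =
      Enl.op p n i (σ : ℤ) := by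
  have hl : 0 < l := by have := hp.1; omega
  have hln : n ≤ l * n := Nat.le_mul_of_pos_left n hl
  obtain ⟨e1, e2⟩ := base_W (t := t) hp hD hn hn
  have key : ∀ m, oq (fun k => qN p n t (k : ZMod (l * n))) (uN p n t) m =
      oq (pW p n 0) (uW p n 0) (m + t) := by
    intro m
    rw [e1, e2]
    exact sqL_congr (show (uW p n 0 (m + t) - 4 - 1) % 4 = (uW p n 0 (m + t) - 1) % 4 by omega)
  have hbd : Bd (enl S₀ n : Set (ℤ × ℤ)) (l * n) (pW p n 0) (uW p n 0) 1 :=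
    bd_shift (bd_qN hn hp hD hn) (l * n - 0)
  have h6 := sqL_op hp hD hn hn (i := i) (σ := σ) hσ
  rw [key]
  have h7 : oq (pW p n 0) (uW p n 0) (i * n + σ) = Enl.op p n i (σ : ℤ) := h6
  unfold kOf
  split_ifs with h8
  · rw [Nat.sub_add_cancel h8, h7]
  · rw [show l * n + (i * n + σ) - t + t = i * n + σ + l * n by omega]
    have := oq_per hbd (i * n + σ) 1
    rw [mul_one] at this
    rw [this, h7]

/-! ### the free and wired frames -/

section frame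

variable [NeZero l]

/-- The square outside of a step of the base side or of the junction side is far from the holes. -/
theorem farP (hp : IsPolygon p) (hQ : (mks p b tp).Ok) {i : ℕ} (hi : i < l) {τ : ℝ} (h0 : 0 ≤ τ)
    (h1 : τ ≤ 1) (hτ : ∀ j ≤ (mks p b tp).m + 1, g ≤ |(mks p b tp).θ i j - τ|) {σ : ℤ}
    (hσ : |(σ : ℝ) - τ * n| ≤ 2) (hgn : 8 ≤ g * n) :
    (frP θ β p S₀ b tp bc).Far (g / 16) δ n (Enl.op p n i σ) := by
  intro y
  have h2 := op_farM hp hQ hi h0 h1 hτ hσ hgn y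
  change g / 16 * n ≤ (nm (Enl.op p n i σ - hsite p (mks p b tp) n y) : ℝ)
  linarith

/-- The data of the domain. -/
noncomputable def cDf (p : ZMod l → ℤ × ℤ) (n t k : ℕ) (C0 : ℝ) : CD :=
  ⟨l * n, fun k => qN p n t (k : ZMod (l * n)), uN p n t, k, 0, 0, C0⟩

/-- **The free and wired frames have two cells**, one scale. -/
theorem oneN_frP (hp : IsPolygon p) (hD : Encloses p S₀) (hN : Nrm p)
    (hQ : (mks p b tp).Ok) (hg : Gap (mks p b tp) l g) (hδ : 0 < δ) (hδg : 4 * δ ≤ g)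
    (hn : 16 ≤ δ * n) (hbc : bc = .free ∨ bc = .wired) :
    (frP θ β p S₀ b tp bc).OneN (rowS θ) θ β S₀ (g / 16) δ n := by
  have hl : 0 < l := by have := hp.1; omega
  obtain ⟨b1, -, -, c4, b5⟩ := gn_big hQ hg hδg hn hl
  obtain ⟨cD', cX, X, hF, hC⟩ := oneF_frP (θ := θ) (β := β) hp hD hN hQ hg hδ hδg hn hbc
  set t := tP p n tp bc with ht0
  have t1 : tB n (mks p b tp) ≤ t := (tP_le p n tp bc).1
  have t2 : t ≤ tB n (mks p b tp) + 1 := (tP_le p n tp bc).2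
  have ht : t < n := t_lt hQ hg hδg hn t2
  have hln : n ≤ l * n := Nat.le_mul_of_pos_left n hl
  have hb : bc.Ok l (mks p b tp) := by rcases hbc with rfl | rfl <;> trivial
  -- the frozen squares
  have hKe : (frP θ β p S₀ b tp bc).U (rowS θ) δ n = frmQ p (mks p b tp) n ⌊δ * n⌋₊ := by
    ext v
    rw [mem_frmJ (θ := θ) (β := β) (t := t) (bc := bc) (J := fun _ => true) (C := 0) (c := 1)]
    exact mem_uI
  have hKi : ∀ v, v ∈ frmQ p (mks p b tp) n ⌊δ * n⌋₊ ↔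
      ∃ i, v ∈ (rP θ β p b tp bc n ⌊δ * n⌋₊ i).I := fun v =>
    mem_frmJ (θ := θ) (β := β) (t := t) (bc := bc) (J := fun _ => true) (C := 0) (c := 1)
  have hgeo := geoS_poly hp hD hQ hg hδ hδg hn hN
  have hsep : ∀ i j, i ≠ j → ∀ u ∈ (rP θ β p b tp bc n ⌊δ * n⌋₊ i).I,
      ∀ v ∈ (rP θ β p b tp bc n ⌊δ * n⌋₊ j).I, 1 < nm (u - v) := by
    intro i j hij u hu v hv
    have h1 := hgeo.sepr i j hij u (by rw [← frowJ_I (θ := θ) (β := β) (t := t) (bc := bc)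
      (J := fun _ => true) (C := 0) (c := 1)]; exact hu) v
      (by rw [← frowJ_I (θ := θ) (β := β) (t := t) (bc := bc)
      (J := fun _ => true) (C := 0) (c := 1)]; exact hv)
    have h2 : (8 : ℝ) ≤ nm (u - v) := by linarith
    have h3 : (8 : ℤ) ≤ nm (u - v) := by exact_mod_cast h2
    omega
  have hS : Sys θ (rP θ β p b tp bc n ⌊δ * n⌋₊) (frmQ p (mks p b tp) n ⌊δ * n⌋₊)
      ((frP θ β p S₀ b tp bc).ph (rowS θ) δ n 0) :=
    sys_of (z := fun _ => 0) hKi hsep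
  have hr : ∀ i j, i < l → j ≤ (mks p b tp).m → ∃ y, rP θ β p b tp bc n ⌊δ * n⌋₊ y =
      frowJ θ β p (mks p b tp) n ⌊δ * n⌋₊ t bc (fun _ => true) 0 1 i j := fun i j hi hj =>
    ⟨(⟨i, hi⟩, ⟨j, by change j ≤ 2 at hj; omega⟩), rfl⟩
  have hKD : ∀ v ∈ frmQ p (mks p b tp) n ⌊δ * n⌋₊, v ∉ enl S₀ n := fun v hv h =>
    Finset.disjoint_left.1 (Enl.frmQ_disj hp hD hQ hg hδ hδg hn) h hv
  have hka : bc.ka l n t = 0 ∨ bc.ka l n t = l * n := by
    rcases hbc with rfl | rfl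
    · exact Or.inr rfl
    · exact Or.inl rfl
  have htp0 := hQ.tp0
  have htp1 := hQ.tp1
  have hn0 : (0 : ℝ) ≤ n := Nat.cast_nonneg n
  have hfl1 : ((tB n (mks p b tp) : ℕ) : ℝ) ≤ (mks p b tp).tp * n :=
    Nat.floor_le (mul_nonneg htp0.le hn0)
  have hfl2 : (mks p b tp).tp * n < (tB n (mks p b tp) : ℕ) + 1 := Nat.lt_floor_add_one _
  have t1' : ((tB n (mks p b tp) : ℕ) : ℝ) ≤ t := by exact_mod_cast t1
  have t2' : (t : ℝ) ≤ (tB n (mks p b tp) : ℕ) + 1 := by exact_mod_cast t2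
  have hfar : ∀ σ : ℤ, (t : ℤ) - 1 ≤ σ → σ ≤ t →
      (frP θ β p S₀ b tp bc).Far (g / 16) δ n (Enl.op p n 0 σ) := by
    intro σ s1 s2
    refine farP hp hQ hl htp0.le htp1.le hg.2 ?_ (by linarith)
    have s1' : (t : ℝ) - 1 ≤ σ := by exact_mod_cast s1
    have s2' : (σ : ℝ) ≤ t := by exact_mod_cast s2
    rw [abs_le]
    constructor <;> linarith
  have htpos : 1 ≤ t := by
    have e0 := hg.2 0 (by omega)
    rw [hQ.zero, zero_sub, abs_neg, abs_of_pos htp0] at e0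
    have m0 : g * n ≤ (mks p b tp).tp * n := mul_le_mul_of_nonneg_right e0 hn0
    have : (1 : ℝ) ≤ t := by linarith
    exact_mod_cast this
  refine ⟨X, cDf p n t (bc.ka l n t) 0, cX, fun R₃ hR₃ => ⟨?_, fun ω hω => ⟨?_, ?_⟩⟩, ?_, ?_⟩
  · have hsub : ((frP θ β p S₀ b tp bc).hB δ n ((⌊δ * n⌋₊ : ℤ) + 4) : Set (ℤ × ℤ)) ⊆
        ((frP θ β p S₀ b tp bc).hB δ n R₃ : Set (ℤ × ℤ)) := fun v hv =>
      mem_coe.2 (FrS.hB_mono2 hR₃ (mem_coe.1 hv))
    have F := hF _ hsub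
    refine ⟨⟨?_, ?_, by show 0 < l * n; omega, by show 0 < l * n; omega, ?_,
      fun h => absurd h (by norm_num)⟩, F.oX, hka, F.kX, F.cov, F.DX⟩
    · rw [hKe]
      refine cellD_lit hp hD hQ hg hδ hδg hn ?_ t
      intro v hv
      refine hsub ?_
      obtain ⟨x, hx⟩ := Enl.mem_hB.1 (mem_coe.1 hv)
      exact mem_coe.2 (mem_biUnion.2 ⟨x, mem_univ _, hx⟩)
    · show bc.ka l n t ≤ l * n
      rcases hbc with rfl | rfl
      · exact le_rfl
      · exact Nat.zero_le _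
    · rw [hKe]
      exact phsD hp hD hQ hg hδ hδg hn hS hb ht hr hKD fun k h => h
  · have hcol : ColP p (mks p b tp) n ⌊δ * n⌋₊ t (bc.ka l n t) ω := by
      intro y τ h1 h2
      have hm : Enl.op p n y.1 τ ∈ (frowJ θ β p (mks p b tp) n ⌊δ * n⌋₊ t bc (fun _ => true) 0 1
          (y.1 : ℕ) (y.2 : ℕ)).I := mem_frowJ.2 ⟨τ, h1, h2, rfl⟩
      have h3 : ω (Enl.op p n y.1 τ) = (frowJ θ β p (mks p b tp) n ⌊δ * n⌋₊ t bc
          (fun _ => true) 0 1 (y.1 : ℕ) (y.2 : ℕ)).toRow.fr (Enl.op p n y.1 τ) := hω y _ hm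
      rw [h3]
      exact frowJ_fr hp hD hQ hb (by omega) ht y.1.2 (Nat.lt_succ_iff.1 y.2.2) h1 h2
    rw [hKe]
    exact clrD hp hD hQ hg hδ hδg hn hcol ht fun k h => h
  · exact (hC ω hω _).2
  · intro _
    have e1 : (0 + l * n - 1) % (l * n) = kOf l n t 0 (t - 1) := by
      rw [Nat.zero_add, Nat.mod_eq_of_lt (by omega)]
      unfold kOf
      rw [if_neg (by omega)]
      omega
    show (frP θ β p S₀ b tp bc).Far (g / 16) δ n
      (oq (fun k => qN p n t (k : ZMod (l * n))) (uN p n t) ((0 + l * n - 1) % (l * n)))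
    rw [e1, oq_base hp hD b5 ht (i := 0) (σ := t - 1) (by omega)]
    exact hfar _ (by omega) (by omega)
  · intro _
    have e1 : 0 = kOf l n t 0 t := by
      unfold kOf
      rw [if_pos (by omega)]
      omega
    show (frP θ β p S₀ b tp bc).Far (g / 16) δ n
      (oq (fun k => qN p n t (k : ZMod (l * n))) (uN p n t) 0)
    have e2 := oq_base hp hD b5 ht (i := 0) (σ := t) ht
    rw [← e1] at e2
    rw [e2]
    exact hfar _ (by omega) le_rfl

/-- **The free and wired frames have two cells.** -/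
theorem oneG_frP (hp : IsPolygon p) (hD : Encloses p S₀) (hN : Nrm p) (hb : b.Ok S₀)
    (h0 : 0 < tp) (h1 : tp < 1)
    (ht : ∀ i : ℤ, ∀ y ∈ ({b.xl, b.xr, b.yb, b.yt} : Set ℝ), y ≠ i + tp ∧ y ≠ i - tp)
    (hbc : bc = .free ∨ bc = .wired) : (frP θ β p S₀ b tp bc).OneG (rowS θ) θ β S₀ := by
  have hgen : H199.Gen b := ⟨hb.gx, hb.gy⟩
  have hQ := mks_ok p hgen h0 h1 ht
  obtain ⟨g, hg, hG⟩ := exists_Gap hQ l
  refine ⟨g / 16, by positivity, g / 4, by positivity, fun δ hδ hδ' => ?_⟩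
  filter_upwards [(tendsto_natCast_atTop_atTop.const_mul_atTop hδ).eventually_ge_atTop (16 : ℝ)]
    with n hn
  exact oneN_frP hp hD hN hQ hG hδ (by linarith) hn hbc

end frame

end Vale.Agent.P167.N.ID
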