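import Vale.Agent.P167.N.ID.FrmJ
import Vale.Agent.P167.H592.S.Close

/-!
# P167, block ID: the colours of the frames and the boundary conditions of the domain

* `dob_cols`: Dobrushin boundary conditions from the colours of the squares at the boundary sites, for
  an arbitrary position `t` of the base site.
* `WCol`: one colour near every mark; `wcol_of` (free, wired: every `t`), `wcol_dob`.
* `clSJ`: the colours of the closing squares; `dobJ`: the closed frame has the boundary conditions.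
-/

set_option autoImplicit false

namespace Vale.Agent.P167.N.ID

open Finset Filter Topology
open Vale.Agent.P167.Top
open Vale.Agent.P167.BR (sites)
open Vale.Agent.P167.FK (Bq Good)
open Vale.Agent.P167.A (plane plane_sg)
open Vale.Agent.P167.E6 (IsPolygon Encloses dir face region)
open Vale.Agent.P167.H718 (Dob exists_bd fin4_cyc)
open Vale.Agent.P167.H825 (pdir ptau enl domP Box dirOf Marks FlowIn epos rnd bsite)
open Vale.Agent.P167.H825.Q (srow Bc mem_srow stΦ stτ stτ_or jpos osq srow_L srow_τ Cst cst_of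
  same_side chordless_qN)
open Vale.Agent.P167.XDL (bS mem_bS)
open Vale.Agent.P167.H199 (mks Gap)
open Vale.Agent.P167.Enl
open Vale.Agent.P167.H662 (hsite)
open Vale.Agent.P167.H398.Q (hB)

variable {l : ℕ} {p : ZMod l → ℤ × ℤ} {n t ka : ℕ} {S₀ : Finset (ℤ × ℤ)} {Q : Marks} {bc : Bc}
  {d : ℕ} {θ β : ℝ}

/-! ### boundary conditions from colours -/

/-- The boundary sites are sites of the domain. -/
theorem vp_site (hp : IsPolygon p) (hD : Encloses p S₀) {i σ : ℕ} (hi : i < l) (hσ : σ < n) :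
    vp p n i σ ∈ sites (enl S₀ n) := by
  have h1 := ip_in hp hD hi hσ
  rw [BR.mem_sites]
  refine ⟨_, h1, ?_, ?_⟩
  · obtain ⟨a, b⟩ := vp p n i σ
    have f0 : face (a, b) 0 = (a + 0, b + 0) := rfl
    have f1 : face (a, b) 1 = (a + -1, b + 0) := rfl
    have f2 : face (a, b) 2 = (a + -1, b + -1) := rfl
    have f3 : face (a, b) 3 = (a + 0, b + -1) := rfl
    rcases Enl.fin4_cases (pdir p i) with hr | hr | hr | hr <;> rw [hr] <;>
      simp only [f0, f1, f2, f3] <;> omega
  · obtain ⟨a, b⟩ := vp p n i σ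
    have f0 : face (a, b) 0 = (a + 0, b + 0) := rfl
    have f1 : face (a, b) 1 = (a + -1, b + 0) := rfl
    have f2 : face (a, b) 2 = (a + -1, b + -1) := rfl
    have f3 : face (a, b) 3 = (a + 0, b + -1) := rfl
    rcases Enl.fin4_cases (pdir p i) with hr | hr | hr | hr <;> rw [hr] <;>
      simp only [f0, f1, f2, f3] <;> omega

/-- **Boundary conditions from the colours of the squares at the boundary sites.** -/
theorem dob_cols (hp : IsPolygon p) (hD : Encloses p S₀) (hn : 2 ≤ n) (ht : t < n)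
    {η : Cfg} (hη : Good η)
    (hv : ∀ i < l, ∀ r, face (vp p n i 0) r ∉ enl S₀ n →
      η (face (vp p n i 0) r) = decide (¬ kOf l n t i 0 < ka))
    (hs : ∀ i < l, ∀ τ < n, Enl.op p n i τ ∉ enl S₀ n →
      (∃ w ∈ sites (enl S₀ n), ∃ r, face w r = Enl.op p n i τ) →
      η (Enl.op p n i τ) = decide (¬ kOf l n t i τ < ka)) :
    Dob η (enl S₀ n) (qN p n t) ka := by
  have hl : 0 < l := by have := hp.1; omega
  have hn0 : 0 < n := by omega
  have hstep : ∀ {i τ : ℕ}, i < l → τ < n → ∀ {w : ℤ × ℤ} {r : Fin 4},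
      w ∈ sites (enl S₀ n) → face w r = Enl.op p n i τ →
      η (Enl.op p n i τ) = decide (¬ kOf l n t i τ < ka) := by
    intro i τ hi hτ w r hw hr
    exact hs i hi τ hτ (op_out hp hD hi hτ) ⟨w, hw, r, hr⟩
  have hvert : ∀ {i : ℕ}, i < l → ∀ {r : Fin 4}, face (vp p n i ((0 : ℕ) : ℤ)) r ∉ enl S₀ n →
      η (face (vp p n i ((0 : ℕ) : ℤ)) r) = decide (¬ kOf l n t i 0 < ka) := by
    intro i hi r hr
    have e2 : vp p n i ((0 : ℕ) : ℤ) = vp p n i 0 := rfl
    rw [e2] at hr ⊢
    exact hv i hi r hr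
  refine dob_of_local (isPolygon_qN hn0 hp _) (encloses_qN hn0 hp hD _)
    (chordless_qN hp hn _) hη ?_ ?_
  · intro j hj hj' r hr
    obtain ⟨i, σ, hi, hσ, rfl⟩ := exists_kOf ht hj'
    rw [qN_kOf hi ht hσ] at hr ⊢
    rcases Nat.eq_zero_or_pos σ with h0 | h0
    · subst h0
      rw [hvert hi hr]
      simp only [decide_eq_true_eq]
      omega
    · rcases face_out hp hD hi h0 hσ hr with h1 | h1
      · rw [h1, hstep hi hσ (vp_site hp hD hi hσ) h1]
        simp only [decide_eq_true_eq]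
        omega
      · rw [h1, hstep hi (by omega) (vp_site hp hD hi hσ) h1]
        simp only [decide_eq_true_eq]
        have h2 : kOf l n t i (σ - 1) + 1 = kOf l n t i σ := by
          unfold kOf at hj ⊢
          split_ifs at hj ⊢ <;> omega
        omega
  · intro s hs r hr hrt
    obtain ⟨i, σ, hi, hσ, rfl⟩ := site_bd hp hD ht hs hr
    have hk := kOf_lt hi hσ ht
    rcases Nat.eq_zero_or_pos σ with h0 | h0
    · subst h0
      rw [hvert hi hr] at hrt
      simp only [decide_eq_true_eq] at hrt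
      exact ⟨kOf l n t i 0, by omega, hk.le, qN_kOf hi ht hσ⟩
    · rcases face_out hp hD hi h0 hσ hr with h1 | h1
      · rw [h1, hstep hi hσ hs h1] at hrt
        simp only [decide_eq_true_eq] at hrt
        exact ⟨kOf l n t i σ, by omega, hk.le, qN_kOf hi ht hσ⟩
      · rw [h1, hstep hi (by omega) hs h1] at hrt
        simp only [decide_eq_true_eq] at hrt
        by_cases hw : i * n + σ = t
        · refine ⟨l * n, ?_, le_rfl, ?_⟩
          · have := kOf_lt hi (show σ - 1 < n by omega) ht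
            omega
          · rw [← qN_kOf hi ht hσ]
            congr 1
            rw [ZMod.natCast_self]
            unfold kOf
            rw [if_pos hw.ge, hw, Nat.sub_self, Nat.cast_zero]
        · have h2 : kOf l n t i (σ - 1) + 1 = kOf l n t i σ := by
            have h3 : n ≤ l * n := Nat.le_mul_of_pos_left n hl
            unfold kOf
            split_ifs <;> omega
          exact ⟨kOf l n t i σ, by omega, hk.le, qN_kOf hi ht hσ⟩

/-! ### one colour near every mark -/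

/-- **One colour near every mark.** -/
def WCol (p : ZMod l → ℤ × ℤ) (Q : Marks) (n t ka : ℕ) (g : ℝ) : Prop :=
  ∀ (m : ℤ), (2 * m : ℝ) + 2 < g * n → ∀ (x : Fin l × Fin (Q.m + 1)) (i σ : ℕ), i < l → σ < n →
    nm (vp p n i σ - hsite p Q n x) ≤ m →
    (kOf l n t i σ < ka ↔ kOf l n t x.1 (pA n Q x) < ka)

theorem pA_lt (hQ : Q.Ok) (hn : 0 < n) (x : Fin l × Fin (Q.m + 1)) : pA n Q x < n := by
  have h1 : Q.θ x.1 x.2 < 1 := by
    have h2 := hQ.lt x.1 x.2 (by have := x.2.2; omega)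
    have h3 := theta_le_one hQ x.1 (j := (x.2 : ℕ) + 1) (by have := x.2.2; omega)
    linarith
  have h0 := theta_nonneg hQ x.1 (j := (x.2 : ℕ)) (by have := x.2.2; omega)
  have hn' : (0 : ℝ) < n := by exact_mod_cast hn
  have h4 : (⌊Q.θ x.1 x.2 * n⌋₊ : ℝ) < n := by
    refine lt_of_le_of_lt (Nat.floor_le (by positivity)) ?_
    nlinarith
  have : ⌊Q.θ x.1 x.2 * n⌋₊ < n := by exact_mod_cast h4
  exact this

/-- Free and wired boundary conditions. -/
theorem wcol_of (hQ : Q.Ok) (ht : t < n) {g : ℝ} (hb : bc = .free ∨ bc = .wired) :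
    WCol p Q n t (bc.ka l n t) g := by
  intro m _ x i σ hi hσ _
  rcases hb with rfl | rfl
  · have h1 := kOf_lt hi hσ ht
    have h2 := kOf_lt x.1.2 (pA_lt hQ (by omega) x) ht
    exact ⟨fun _ => h2, fun _ => h1⟩
  · exact ⟨fun h => absurd h (Nat.not_lt_zero _), fun h => absurd h (Nat.not_lt_zero _)⟩

/-- Dobrushin boundary conditions. -/
theorem wcol_dob (hp : IsPolygon p) (hQ : Q.Ok) {g : ℝ} (hg : Gap Q l g) (hbg : BGap l Q g bc) :
    WCol p Q n (tB n Q) (bc.ka l n (tB n Q)) g :=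
  fun _ hm _ _ _ hi hσ h => window_col hp hQ hg hbg hm hi hσ h

theorem WCol.mono {g g' : ℝ} (h : WCol p Q n t ka g) (hg : g' ≤ g) : WCol p Q n t ka g' :=
  fun m hm x i σ hi hσ hh => h m (lt_of_lt_of_le hm
    (mul_le_mul_of_nonneg_right hg (Nat.cast_nonneg n))) x i σ hi hσ hh

/-- The colour of a mark. -/
noncomputable def wcJ (l n : ℕ) (Q : Marks) (t ka : ℕ) (x : Fin l × Fin (Q.m + 1)) : Bool :=
  decide (¬ kOf l n t x.1 (pA n Q x) < ka)

open Classical in
/-- **The colours of the closing squares.** -/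
noncomputable def clSJ (p : ZMod l → ℤ × ℤ) (Q : Marks) (n d t ka : ℕ) : Cfg :=
  fun v => decide (∃ x : Fin l × Fin (Q.m + 1), v ∈ Bq (hsite p Q n x) (d + 4) ∧
    wcJ l n Q t ka x = true)

/-- The frozen squares of the polygon have the colours of the steps. -/
def ColP (p : ZMod l → ℤ × ℤ) (Q : Marks) (n d t ka : ℕ) (η : Cfg) : Prop :=
  ∀ (y : Fin l × Fin (Q.m + 1)) (τ : ℕ), sW p n Q d y.1 y.2 ≤ τ → τ < eW p n Q d y.1 y.2 →
    η (Enl.op p n y.1 τ) = decide (¬ kOf l n t y.1 τ < ka)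

section close

variable (hp : IsPolygon p) (hD : Encloses p S₀) (hQ : Q.Ok) {g δ : ℝ} (hg : Gap Q l g)
  (hδ : 0 < δ) (hδg : 4 * δ ≤ g) (hn : 16 ≤ δ * n)

include hp hQ hg hδ hδg hn in
/-- The colours of the closing squares in the box of a mark. -/
theorem clSJ_box {x : Fin l × Fin (Q.m + 1)} {v : ℤ × ℤ}
    (hx : v ∈ Bq (hsite p Q n x) (⌊δ * n⌋₊ + 4)) :
    clSJ p Q n ⌊δ * n⌋₊ t ka v = wcJ l n Q t ka x := by
  classical
  unfold clSJ
  by_cases h : wcJ l n Q t ka x = true
  · rw [h, decide_eq_true_iff]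
    exact ⟨x, hx, h⟩
  · have h' : wcJ l n Q t ka x = false := by simpa using h
    rw [h', decide_eq_false_iff_not]
    rintro ⟨y, hy, hw⟩
    rw [← box_mark hp hQ hg hδ hδg hn hx hy] at hw
    exact h hw

include hp hD hQ hg hδ hδg hn in
/-- **The closed frame has the boundary conditions.** -/
theorem dobJ (ht : t < n) (hW : WCol p Q n t ka g) {η : Cfg} (hη : Good η)
    (hc : ColP p Q n ⌊δ * n⌋₊ t ka η)
    (hcl : ∀ v ∈ clH p Q n ⌊δ * n⌋₊ S₀, η v = clSJ p Q n ⌊δ * n⌋₊ t ka v) :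
    Dob η (enl S₀ n) (qN p n t) ka := by
  have hl : 0 < l := by have := hp.1; omega
  obtain ⟨b1, b2, b3, b4, b5⟩ := gn_big hQ hg hδg hn hl
  have hδ1 : δ ≤ 1 := by linarith
  have hn0 : (0 : ℝ) ≤ n := Nat.cast_nonneg n
  have hn2 : 2 ≤ n := by
    have : (2 : ℝ) ≤ n := by nlinarith
    exact_mod_cast this
  refine dob_cols hp hD hn2 ht hη ?_ ?_
  · intro i hi r hr
    have hnear : nm (face (vp p n i 0) r - vp p n i 0) ≤ 1 := face_near _ _
    have hf : face (vp p n i 0) r ∉ frmQ p Q n ⌊δ * n⌋₊ := fun hf => by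
      have := frm_vert hp hQ hn hi hf hg hδ hδg
      omega
    have hcov := cl_cov hp hD hQ hg hδg hn hr (vp_site hp hD hi (σ := 0) (by omega)) rfl
    rw [mem_union] at hcov
    rw [hcl _ (hcov.resolve_left hf)]
    have e : hsite p Q n ((⟨i, hi⟩, 0) : Fin l × Fin (Q.m + 1)) = vp p n i (0 : ℤ) := by
      show vp p n i (⌊Q.θ i 0 * n⌋₊ : ℤ) = _
      rw [fl_zero hQ]
      rfl
    have hx : face (vp p n i 0) r ∈
        Bq (hsite p Q n ((⟨i, hi⟩, 0) : Fin l × Fin (Q.m + 1))) (⌊δ * n⌋₊ + 4) := by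
      rw [e]
      exact Bq_of (by omega)
    rw [clSJ_box hp hQ hg hδ hδg hn hx]
    unfold wcJ
    rw [pA_zero hQ rfl]
  · rintro i hi τ hτ hout ⟨w, hw, r, hr⟩
    have hcov := cl_cov hp hD hQ hg hδg hn hout hw hr
    rw [mem_union] at hcov
    by_cases hf : Enl.op p n i τ ∈ frmQ p Q n ⌊δ * n⌋₊
    · obtain ⟨y, τ', h1, h2, h3⟩ := mem_frmQ.1 hf
      have hrow := rows_marks (p := p) hQ hg hδ hδg hn
      have a1 := hrow.lo y
      have a2 := hrow.hi y
      obtain ⟨k1, k2⟩ := op_inj hp y.1.2 hi (σ' := τ) (by omega) (by omega) (by omega) (by omega)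
        h3.symm
      have k2' : τ' = τ := by omega
      subst k2'
      rw [h3, hc y τ' h1 h2, k1]
    · have hH := hcov.resolve_left hf
      obtain ⟨x, hx⟩ := mem_hB.1 (mem_clH.1 hH).1
      have h1 : nm (vp p n i τ - hsite p Q n x) ≤ (⌊δ * n⌋₊ : ℤ) + 5 := by
        have a1 := op_near (p := p) (n := n) i τ
        have a2 := nm_tri (vp p n i τ) (Enl.op p n i τ) (hsite p Q n x)
        have a3 := mem_Bq' hx
        rw [nm_sub_comm (vp p n i τ) (Enl.op p n i τ)] at a2
        omega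
      have h2 := hW ((⌊δ * n⌋₊ : ℤ) + 5) (by push_cast; linarith) x i τ hi hτ h1
      rw [hcl _ hH, clSJ_box hp hQ hg hδ hδg hn hx]
      unfold wcJ
      rw [decide_eq_decide, h2]

end close

/-! ### the colours of the rows -/

/-- **The colours of the squares of the rows of a polygon.** -/
theorem frowJ_τ {J : ℕ → Bool} {C c : ℝ} {i j σ : ℕ} (hp : IsPolygon p) (hD : Encloses p S₀)
    (hQ : Q.Ok) (hb : bc.Ok l Q) (hd : 1 ≤ d) (ht : t < n) (hc : c = 1 ∨ c = -1) (hi : i < l)
    (hj : j ≤ Q.m) (h1 : sW p n Q d i j ≤ σ) (h2 : σ < eW p n Q d i j) :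
    (frowJ θ β p Q n d t bc J C c i j).τ (Enl.op p n i σ) =
      c * stτ (bc.ka l n t) (kOf l n t i σ) := by
  refine srow_τ _ _ (cst_of (m := n) (fun σ h1 h2 => lt_n hQ hd hj h1 h2) ?_) (fun k => ?_) h1 h2
  · intro σ σ' hσ hσ' h
    obtain ⟨h3, h4⟩ := same_side hp hD hb ht hi hσ hσ' h
    show c * (if _ then (1 : ℝ) else -1) = c * (if _ then 1 else -1)
    simp only [h4]
  · rcases hc with rfl | rfl <;> rcases stτ_or (bc.ka l n t) (kOf l n t i k) with h | h <;>
      rw [h] <;> norm_num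

/-- The frozen colours of the rows of a polygon. -/
theorem frowJ_fr {J : ℕ → Bool} {C : ℝ} {i j σ : ℕ} (hp : IsPolygon p) (hD : Encloses p S₀)
    (hQ : Q.Ok) (hb : bc.Ok l Q) (hd : 1 ≤ d) (ht : t < n) (hi : i < l)
    (hj : j ≤ Q.m) (h1 : sW p n Q d i j ≤ σ) (h2 : σ < eW p n Q d i j) :
    (frowJ θ β p Q n d t bc J C 1 i j).toRow.fr (Enl.op p n i σ) =
      decide (¬ kOf l n t i σ < bc.ka l n t) := by
  show decide ((frowJ θ β p Q n d t bc J C 1 i j).τ (Enl.op p n i σ) = -1) = _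
  rw [frowJ_τ hp hD hQ hb hd ht (Or.inl rfl) hi hj h1 h2, one_mul]
  unfold stτ
  by_cases hk : kOf l n t i σ < bc.ka l n t
  · rw [if_pos hk]
    simp only [hk, not_true, decide_false, decide_eq_false_iff_not]
    norm_num
  · rw [if_neg hk]
    simp [hk]

end Vale.Agent.P167.N.ID
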