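import Vale.Agent.P167.N.ID.GeoSF

/-!
# P167, block ID, geometry of the frames: the Dobrushin frame

`geoS_dob`: `GeoS` for the frame with Dobrushin boundary conditions.
-/

set_option autoImplicit false

namespace Vale.Agent.P167.N.ID

open Finset Filter Topology
open Vale.Agent.P167.E6 (IsPolygon Encloses dir face region)
open Vale.Agent.P167.H825 (pdir enl domP Box dirOf Marks FlowIn epos rnd bsite)
open Vale.Agent.P167.H825.Q (Row Bc)
open Vale.Agent.P167.H662 (hsite)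
open Vale.Agent.P167.FK (Bq)
open Vale.Agent.P167.H199 (Gap mks mth c0 c0_pos int_far mks_ok Gen exists_Gap)
open Vale.Agent.P167.XDL (bS mem_bS)
open Vale.Agent.P167.H680.T (uI mem_uI)
open Vale.Agent.P167.H398.Q (Tch hB)
open Vale.Agent.P167.Enl (sW eW tB rowP mem_rowP frm vp oz vz vz_eq oz_eq fin4_cases frmQ mem_frmQ
  iB jB pA pB gA gB iB_lt jB_le vp_pA vp_pB pB_zero pB_pos pA_zero row_pos rows_long frm_box
  mem_Bq' Bq_of op_near nm_tri nm_sub_comm pA_lt pB_le enl_side op_same lt_n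
  rows_marks near_hole fl fl_zero fl_one theta_mono theta_nonneg theta_le_one hsite_far mark_far
  frow_I hole_near frmQ_disj clH clH_sub clH_disj cl_cov hsite_out gn_big mem_bS_two gap_step
  pdir_step dir0 dir1 dir2 dir3)

variable {l : ℕ} {p : ZMod l → ℤ × ℤ} {S₀ : Finset (ℤ × ℤ)} {b : Box} {n d : ℕ} {tp : ℝ}
  {g δ : ℝ}

namespace DobN

/-- The squares of the domain. -/
theorem enl_in (H : DobN p S₀ b tp g δ n) {v : ℤ × ℤ} (hv : v ∈ enl S₀ n) :
    ((2 * n ≤ v.1 ∧ v.1 + 2 * n < bM p * n) ∧ 2 * n ≤ v.2 ∧ v.2 + 2 * n < bM p * n) ∧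
      n * (p (iT p)).2 ≤ v.2 := by
  obtain ⟨-, -, b5, -⟩ := H.basic
  exact ⟨enl_mem H.hp H.hD H.hN b5 hv, ((lowV_iT H.hp).enl H.hD b5 hv).1⟩

/-- The frame is outside of the domain. -/
theorem dom (H : DobN p S₀ b tp g δ n) : Disjoint (uI (shD p b tp n ⌊δ * n⌋₊)) (enl S₀ n) := by
  rw [Finset.disjoint_left]
  intro v hv hv'
  have h1 := H.enl_in hv'
  obtain ⟨b1, b3, b5, b6, b7⟩ := H.basic
  rcases mem_shD.1 hv with h | h | h
  · exact Finset.disjoint_left.1 (frmQ_disj H.hp H.hD H.hQ H.hg H.hδ H.hδg H.hn) hv' h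
  · obtain ⟨y, hy⟩ := frmQ_row (tp := tp) h
    have h2 := H.rowQ_mem' hy
    omega
  · have h2 := H.spk_mem' (x := ()) h
    omega

/-- The holes of the box and the foot are on the boundary of the box. -/
theorem hoQ (H : DobN p S₀ b tp g δ n) (x : (Fin 4 × Fin 3) ⊕ Unit) :
    ((0 ≤ (hoD p b tp n (.inr x)).1 ∧ (hoD p b tp n (.inr x)).1 ≤ bM p * n) ∧
      0 ≤ (hoD p b tp n (.inr x)).2 ∧ (hoD p b tp n (.inr x)).2 ≤ bM p * n) ∧
    ((hoD p b tp n (.inr x)).1 = 0 ∨ (hoD p b tp n (.inr x)).1 = bM p * n ∨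
      (hoD p b tp n (.inr x)).2 = bM p * n ∨ (hoD p b tp n (.inr x)).2 = 0) := by
  obtain ⟨-, -, b5, -, -⟩ := H.basic
  rcases x with x | x
  · exact H.hsQ' x
  · obtain ⟨z2, z1, z3, z4⟩ := ft_mem (n := n) H.hp H.hN
    change ((0 ≤ (ftD p n).1 ∧ (ftD p n).1 ≤ bM p * n) ∧ 0 ≤ (ftD p n).2 ∧
      (ftD p n).2 ≤ bM p * n) ∧ ((ftD p n).1 = 0 ∨ (ftD p n).1 = bM p * n ∨
      (ftD p n).2 = bM p * n ∨ (ftD p n).2 = 0)
    omega

theorem seph (H : DobN p S₀ b tp g δ n) : ∀ x y, x ≠ y →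
    g / 16 * n ≤ (nm (hoD p b tp n x - hoD p b tp n y) : ℝ) := by
  obtain ⟨b1, b3, b5, b6, b7⟩ := H.basic
  obtain ⟨a1, a2, a3, a4⟩ := H.hδn
  have hn0 : (0 : ℝ) ≤ n := Nat.cast_nonneg n
  have e16 : g / 16 * n = g * n / 16 := by ring
  have h1 : g * n ≤ 1 * n := mul_le_mul_of_nonneg_right b3 hn0
  have kPX : ∀ (x : Fin l × Fin 3) (y : (Fin 4 × Fin 3) ⊕ Unit),
      g / 16 * n ≤ (nm (hoD p b tp n (.inl x) - hoD p b tp n (.inr y)) : ℝ) := by
    intro x y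
    have h2 := H.hsP x
    have h3 := H.hoQ y
    have h4 : 2 * (n : ℤ) ≤ nm (hoD p b tp n (.inl x) - hoD p b tp n (.inr y)) := by
      change 2 * (n : ℤ) ≤ nm (hsite p (mks p b tp) n x - hoD p b tp n (.inr y))
      rw [le_nm_iff]
      simp only [Prod.fst_sub, Prod.snd_sub]
      omega
    have h5 : 2 * (n : ℝ) ≤ nm (hoD p b tp n (.inl x) - hoD p b tp n (.inr y)) := by
      exact_mod_cast h4
    linarith
  have kQF : ∀ (x : Fin 4 × Fin 3) (y : Unit), g / 16 * n ≤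
      (nm (hoD p b tp n (.inr (.inl x)) - hoD p b tp n (.inr (.inr y))) : ℝ) := by
    intro x y
    rw [nm_sub_comm]
    have h3 := foot_far H.hp H.hD H.hN H.hb H.hQ' b5 x
    have h6 : g * n ≤ c0 b * n := mul_le_mul_of_nonneg_right H.hc hn0
    change _ ≤ (nm (ftD p n - hsite pQ (mksQ p b) (bM p * n) x) : ℝ)
    linarith
  rintro (x | x | x) (y | y | y) hxy
  · have hκ : ∀ i < l, ∀ j ≤ (mks p b tp).m,
        g ≤ (mks p b tp).θ i (j + 1) - (mks p b tp).θ i j :=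
      fun i hi j hj => by linarith [H.hg.1 i hi j hj]
    have := hsite_far (n := n) (Q := mks p b tp) (x := x) (y := y) H.hQ hκ H.hp b3
      (fun h => hxy (by rw [h]))
    change _ ≤ (nm (hsite p (mks p b tp) n x - hsite p (mks p b tp) n y) : ℝ)
    linarith
  · exact kPX x (.inl y)
  · exact kPX x (.inr y)
  · rw [nm_sub_comm]
    exact kPX y (.inl x)
  · have hκ : ∀ i < 4, ∀ j ≤ (mksQ p b).m,
        g ≤ (mksQ p b).θ i (j + 1) - (mksQ p b).θ i j :=
      fun i hi j hj => by linarith [H.hg'.1 i hi j hj]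
    have h2 := hsite_far (n := bM p * n) (Q := mksQ p b) (x := x) (y := y) H.hQ' hκ pQ_poly b3
      (fun h => hxy (by rw [h]))
    have hgN : g * n ≤ g * ((bM p * n : ℕ) : ℝ) := by
      refine mul_le_mul_of_nonneg_left ?_ b6.le
      exact_mod_cast Nat.le_mul_of_pos_left n (hM (p := p))
    change _ ≤ (nm (hsite pQ (mksQ p b) (bM p * n) x - hsite pQ (mksQ p b) (bM p * n) y) : ℝ)
    linarith
  · exact kQF x y
  · rw [nm_sub_comm]
    exact kPX y (.inr x)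
  · rw [nm_sub_comm]
    exact kQF y x
  · exact absurd rfl hxy

/-- **The geometry of the frame with Dobrushin boundary conditions** at one scale. -/
theorem geoS (H : DobN p S₀ b tp g δ n) :
    GeoS S₀ (shD p b tp n ⌊δ * n⌋₊) (hoD p b tp n) (clH p (mks p b tp) n ⌊δ * n⌋₊ S₀)
      (bM p + 1) (g / 16) δ n := by
  obtain ⟨b1, b3, b5, b6, b7⟩ := H.basic
  obtain ⟨a1, a2, a3, a4⟩ := H.hδn
  obtain ⟨d1, d2, d3⟩ := dfl H.hn
  have hn0 : (0 : ℝ) ≤ n := Nat.cast_nonneg n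
  have hin : ∀ {u : ℤ × ℤ}, -1 ≤ u.1 → u.1 ≤ bM p * n → -1 ≤ u.2 → u.2 ≤ bM p * n →
      (nm u : ℝ) ≤ (bM p + 1) * n := by
    intro u h1 h2 h3 h4
    have h5 : nm u ≤ bM p * n + n := by
      rw [nm_le_iff]
      have : (0 : ℤ) ≤ bM p * n := by positivity
      omega
    have h6 : (nm u : ℝ) ≤ bM p * n + n := by exact_mod_cast h5
    linarith
  have hcu : ∀ {R : ℤ}, hB p (mks p b tp) n R ⊆ univ.biUnion fun x => Bq (hoD p b tp n x) R := by
    intro R v hv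
    obtain ⟨x, hx⟩ := mem_hB'.1 hv
    exact mem_biUnion.2 ⟨.inl x, mem_univ _, hx⟩
  refine ⟨H.sepr, ?_, ?_, ?_, H.seph, ?_, ?_, ?_, H.dom, ?_, ?_, clH_disj, ?_⟩
  · intro i j hij u hu v hv h
    obtain ⟨x, w, h1, h2⟩ := H.hull i j hij u hu v hv h
    exact ⟨x, w, h1.1, h1.2.1, h1.2.2.1, h1.2.2.2, h2⟩
  · rintro (i | i | i) u hu
    · have h := H.rowP_mem hu
      exact hin (by omega) (by omega) (by omega) (by omega)
    · have h := H.rowQ_mem' hu
      exact hin (by omega) (by omega) (by omega) (by omega)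
    · have h := H.spk_mem' hu
      exact hin (by omega) (by omega) (by omega) (by omega)
  · rintro (x | x)
    · have h := H.hsP x
      exact hin (u := hsite p (mks p b tp) n x) (by omega) (by omega) (by omega) (by omega)
    · have h := H.hoQ x
      exact hin (by omega) (by omega) (by omega) (by omega)
  · rintro (x | x | x) r R hr hR
    · by_cases hx : x = xT H.hp (mks p b tp)
      · rw [hx]
        exact H.shpT hr hR
      · exact H.shpP hx hr hR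
    · exact H.shpQ x hr hR
    · exact H.shpF hr hR
  · intro x r R hr hR
    obtain ⟨k1, k2, k3⟩ := H.hR hR
    rcases x with x | x
    · exact shp_enl (Q := mks p b tp) H.hp H.hD H.hQ H.hg H.hδg H.hn x k3
    · refine H635.shp_none fun v hv hv' => ?_
      have h1 := H.enl_in hv'
      have h2 := H.hoQ x
      have h3 := mem_bq'.1 (H635.mem_Ann.1 hv).1
      omega
  · rintro (x | x)
    · obtain ⟨v, h1, h2⟩ := hsite_out H.hp H.hD H.hQ b5 x
      refine ⟨v, h1, ?_⟩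
      rw [nm_sub_comm]
      exact h2
    · refine ⟨hoD p b tp n (.inr x), fun h => ?_, ?_⟩
      · have h1 := H.enl_in h
        have h2 := H.hoQ x
        omega
      · rw [sub_self]
        simp [nm]
  · intro e he he'
    have he2 : e ∉ bS (frmQ p (mks p b tp) n ⌊δ * n⌋₊) := by
      intro h
      obtain ⟨v, w, k1, k2, k3⟩ := mem_bS_two.1 h
      obtain ⟨v', w', m1, m2, m3⟩ := mem_bS_two.1 he
      have hvD : v ∉ enl S₀ n := fun h' =>
        Finset.disjoint_left.1 (frmQ_disj H.hp H.hD H.hQ H.hg H.hδ H.hδg H.hn) h' k2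
      have hwv : w = v' := by
        rcases k1 with ⟨k4, k5⟩ | ⟨k4, k5⟩ <;> rcases m1 with ⟨m4, m5⟩ | ⟨m4, m5⟩
        · exact absurd (k4 ▸ m4 ▸ m2) hvD
        · exact k5.symm.trans m5
        · exact k4.symm.trans m4
        · exact absurd (k5 ▸ m5 ▸ m2) hvD
      refine he' (mem_bS_two.2 ⟨v, w, k1, mem_shD.2 (Or.inl k2), fun h' => ?_⟩)
      rw [hwv] at h'
      exact Finset.disjoint_left.1 H.dom h' m2
    obtain ⟨x, hx⟩ := hole_near H.hp H.hD H.hQ H.hg H.hδ H.hδg H.hn he he2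
    exact mem_biUnion.2 ⟨.inl x, mem_univ _, Bq_of (by
      change nm (hdv e - hsite p (mks p b tp) n x) < _
      omega)⟩
  · exact clH_sub.trans hcu
  · intro v hv w hw hvw
    obtain ⟨z, hz, r, hr⟩ := touch hw hvw
    have h := cl_cov (Q := mks p b tp) H.hp H.hD H.hQ H.hg H.hδg H.hn hv hz hr
    rw [mem_union] at h ⊢
    exact h.imp (fun h => mem_shD.2 (Or.inl h)) id

end DobN

/-- **The parameters**: there is a constant `g`. -/
theorem exists_dobN (hp : IsPolygon p) (hD : Encloses p S₀) (hN : Nrm p) (hb : b.Ok S₀)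
    (h0 : 0 < tp) (h1 : tp < 1)
    (ht : ∀ i : ℤ, ∀ y ∈ ({b.xl, b.xr, b.yb, b.yt} : Set ℝ), y ≠ i + tp ∧ y ≠ i - tp) :
    ∃ g : ℝ, 0 < g ∧ Gap (mks p b tp) l g ∧ Gap (mksQ p b) 4 g ∧
      ∀ g' : ℝ, 0 < g' → g' ≤ g → ∀ δ : ℝ, 0 < δ → 4 * δ ≤ g' → ∀ᶠ n : ℕ in atTop,
        DobN p S₀ b tp g' δ n := by
  obtain ⟨hgen, hbQ⟩ := gen_bQ hp hD hN hb
  have hgen' : Gen b := ⟨hb.gx, hb.gy⟩
  obtain ⟨q0, q1, qt⟩ := tqB_spec (bQ b (bM p))
  obtain ⟨g, hg, hG, hG'⟩ := exists_gapD hp hD hN hb h0 h1 ht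
  refine ⟨min g (c0 b), lt_min hg (c0_pos hgen'), hG.mono (min_le_left _ _),
    hG'.mono (min_le_left _ _), fun g' hg'0 hg' δ hδ hδg => ?_⟩
  have ev : ∀ᶠ n : ℕ in atTop, 16 ≤ δ * n :=
    (tendsto_natCast_atTop_atTop.const_mul_atTop hδ).eventually_ge_atTop 16
  filter_upwards [ev] with n hn
  exact ⟨hp, hD, hN, hb, mks_ok p hgen' h0 h1 ht, mks_ok pQ hgen q0 q1 qt,
    hG.mono (hg'.trans (min_le_left _ _)), hG'.mono (hg'.trans (min_le_left _ _)), hδ, hδg, hn,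
    hg'.trans (min_le_right _ _)⟩

end Vale.Agent.P167.N.ID
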