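import Vale.Agent.P167.N.ID.FrmS
import Vale.Agent.P167.N.ID.FrmO
import Vale.Agent.P167.N.ID.GeoSG
import Vale.Agent.P167.N.ID.RowF

/-!
# P167, block ID: the fields `col`, `clc`, `dob` of `FrS.GeoN` for the two families of frames

* `col_poly`, `clc_poly`, `dob_poly`: the rows of a polygon.
* `colP`, `clcP`, `dobP`: the frames `frP`; `colD`, `clcD`, `dobD`: the frames `frD`.
-/

set_option autoImplicit false

namespace Vale.Agent.P167.N.ID

open Finset Filter Topology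
open Vale.Agent.P167.Top
open Vale.Agent.P167.BR (sites)
open Vale.Agent.P167.FK (Bq Good)
open Vale.Agent.P167.E6 (IsPolygon Encloses dir face region)
open Vale.Agent.P167.H718 (Dob)
open Vale.Agent.P167.H825 (pdir ptau enl domP Box dirOf Marks FlowIn epos rnd bsite)
open Vale.Agent.P167.H825.Q (srow Bc mem_srow stτ stτ_or)
open Vale.Agent.P167.XDL (bS mem_bS)
open Vale.Agent.P167.H199 (mks Gap)
open Vale.Agent.P167.H662 (hsite)
open Vale.Agent.P167.H398.Q (hB)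
open Vale.Agent.P167.Enl (sW eW tB rowP mem_rowP frm vp frmQ mem_frmQ kOf kOf_lt BGap qN lt_n
  iB jB pA pB pA_zero row_pos mem_Bq' Bq_of op_near nm_tri nm_sub_comm rows_marks clH mem_clH
  mem_hB gn_big box_disj box_mark BGap exists_BGap fl_zero)

variable {l : ℕ} {p : ZMod l → ℤ × ℤ} {n t ka : ℕ} {S₀ : Finset (ℤ × ℤ)} {Q : Marks} {bc : Bc}
  {θ β : ℝ}

/-- `Bc.Ok` from the gaps. -/
theorem bc_ok {b : Box} {tp g : ℝ} (hg0 : 0 < g) (h : BGap l (mks p b tp) g bc) : bc.Ok l (mks p b tp) := by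
  rcases bc with _ | _ | ⟨ia, ta⟩
  · trivial
  · trivial
  · obtain ⟨h1, h2, h3, h4, h5⟩ := h
    refine ⟨h1, h2, h3, h4, fun j hj => ?_⟩
    by_cases h6 : j ≤ (mks p b tp).m + 1
    · have := h5 j h6
      rw [hj, sub_self, abs_zero] at this
      linarith
    · have h7 : (mks p b tp).θ ia j = 1 := by
        change ¬ j ≤ 2 + 1 at h6
        show H199.mth b (pdir p ia) j = 1
        unfold H199.mth
        rw [if_neg (by omega), if_neg (by omega), if_neg (by omega)]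
      rw [h7] at hj
      linarith

section poly

variable (hp : IsPolygon p) (hD : Encloses p S₀) (hQ : Q.Ok) {g δ : ℝ} (hg : Gap Q l g)
  (hδ : 0 < δ) (hδg : 4 * δ ≤ g) (hn : 16 ≤ δ * n)

include hp hD hQ hg hδ hδg hn in
/-- **The colour of the rows near a mark.** -/
theorem col_poly (hb : bc.Ok l Q) (ht : t < n) (hW : WCol p Q n t (bc.ka l n t) g)
    {J : ℕ → Bool} {C : ℝ} {x y : Fin l × Fin (Q.m + 1)} {v : ℤ × ℤ}
    (hv : v ∈ (frowJ θ β p Q n ⌊δ * n⌋₊ t bc J C 1 y.1 y.2).I)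
    (h : (nm (v - hsite p Q n x) : ℝ) < g / 4 * n) :
    (frowJ θ β p Q n ⌊δ * n⌋₊ t bc J C 1 y.1 y.2).toRow.fr v =
      wcJ l n Q t (bc.ka l n t) x := by
  have hl : 0 < l := by have := hp.1; omega
  obtain ⟨b1, b2, b3, b4, b5⟩ := gn_big hQ hg hδg hn hl
  rw [frowJ_I, shp_I] at hv
  obtain ⟨σ, h1, h2, rfl⟩ := mem_rowP.1 hv
  have hσ := lt_n hQ (by omega : 1 ≤ ⌊δ * n⌋₊) (Nat.lt_succ_iff.1 y.2.isLt) h1 h2
  rw [frowJ_fr hp hD hQ hb (by omega) ht y.1.2 (Nat.lt_succ_iff.1 y.2.isLt) h1 h2]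
  have h3 : (nm (vp p n y.1 σ - hsite p Q n x) : ℝ) ≤ g / 4 * n + 1 := by
    have a1 := op_near (p := p) (n := n) y.1 σ
    have a2 := nm_tri (vp p n y.1 σ) (Enl.op p n y.1 σ) (hsite p Q n x)
    rw [nm_sub_comm (vp p n y.1 σ) (Enl.op p n y.1 σ)] at a2
    have a3 : (nm (vp p n y.1 σ - hsite p Q n x) : ℝ) ≤
        1 + nm (Enl.op p n y.1 σ - hsite p Q n x) := by
      exact_mod_cast a2.trans (by linarith)
    linarith
  obtain ⟨m, hm⟩ : ∃ m : ℤ, m = ⌊g / 4 * n + 1⌋ := ⟨_, rfl⟩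
  have hm1 : (m : ℝ) ≤ g / 4 * n + 1 := by rw [hm]; exact Int.floor_le _
  have h4 : nm (vp p n y.1 σ - hsite p Q n x) ≤ m := by
    rw [hm]
    exact Int.le_floor.2 h3
  have h5 := hW m (by linarith) x y.1 σ y.1.2 hσ h4
  unfold wcJ
  rw [decide_eq_decide, h5]

include hp hQ hg hδ hδg hn in
/-- **The colour of the closing squares near a mark.** -/
theorem clc_poly {x : Fin l × Fin (Q.m + 1)} {v : ℤ × ℤ} (hv : v ∈ clH p Q n ⌊δ * n⌋₊ S₀)
    (h : (nm (v - hsite p Q n x) : ℝ) < g / 4 * n) :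
    clSJ p Q n ⌊δ * n⌋₊ t ka v = wcJ l n Q t ka x := by
  have hl : 0 < l := by have := hp.1; omega
  obtain ⟨b1, b2, b3, b4, b5⟩ := gn_big hQ hg hδg hn hl
  obtain ⟨y, hy⟩ := mem_hB.1 (mem_clH.1 hv).1
  obtain rfl : x = y := by
    by_contra hne
    obtain ⟨m, hm⟩ : ∃ m : ℤ, m = ⌊g / 4 * n⌋ := ⟨_, rfl⟩
    have hm1 : (m : ℝ) ≤ g / 4 * n := by rw [hm]; exact Int.floor_le _
    have hd : (⌊δ * n⌋₊ : ℤ) ≤ m := by
      rw [hm]
      refine Int.le_floor.2 ?_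
      push_cast
      linarith
    have hx : v ∈ Bq (hsite p Q n x) (m + 4) := by
      refine Bq_of ?_
      have h5 : nm (v - hsite p Q n x) ≤ m := by
        rw [hm]
        exact Int.le_floor.2 h.le
      omega
    have hy' : v ∈ Bq (hsite p Q n y) (m + 4) := by
      unfold Bq at hy ⊢
      rw [mem_product, mem_Ico, mem_Ico] at hy ⊢
      omega
    have h6 := box_disj (R := m + 4) hp hQ hg (n := n) (by push_cast; linarith) hne
    exact (Finset.disjoint_left.1 h6) hx hy'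
  exact clSJ_box hp hQ hg hδ hδg hn hy

include hp hD hQ hg hδ hδg hn in
/-- **The boundary conditions of the domain.** -/
theorem dob_poly (hb : bc.Ok l Q) (ht : t < n) (hW : WCol p Q n t (bc.ka l n t) g)
    {J : ℕ → Bool} {C : ℝ} {η : Cfg} (hη : Good η)
    (hf : ∀ y : Fin l × Fin (Q.m + 1), ∀ v ∈ (frowJ θ β p Q n ⌊δ * n⌋₊ t bc J C 1 y.1 y.2).I,
      η v = (frowJ θ β p Q n ⌊δ * n⌋₊ t bc J C 1 y.1 y.2).toRow.fr v)
    (hcl : ∀ v ∈ clH p Q n ⌊δ * n⌋₊ S₀, η v = clSJ p Q n ⌊δ * n⌋₊ t (bc.ka l n t) v) :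
    Dob η (enl S₀ n) (qN p n t) (bc.ka l n t) := by
  have hl : 0 < l := by have := hp.1; omega
  obtain ⟨b1, b2, b3, b4, b5⟩ := gn_big hQ hg hδg hn hl
  refine dobJ hp hD hQ hg hδ hδg hn ht hW hη (fun y τ h1 h2 => ?_) hcl
  rw [← frowJ_fr (θ := θ) (β := β) (J := J) (C := C) hp hD hQ hb (by omega : 1 ≤ ⌊δ * n⌋₊) ht
    y.1.2 (Nat.lt_succ_iff.1 y.2.isLt) h1 h2]
  refine hf y _ ?_
  rw [frowJ_I, shp_I]
  exact mem_rowP.2 ⟨τ, h1, h2, rfl⟩

end poly

section frames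

variable {b : Box} {tp g δ : ℝ}

/-- One colour near every mark of the polygon. -/
theorem wcol_tP (hp : IsPolygon p) (hQ : (mks p b tp).Ok) (hg : Gap (mks p b tp) l g)
    (hbg : BGap l (mks p b tp) g bc) (ht : tP p n tp bc < n) :
    WCol p (mks p b tp) n (tP p n tp bc) (bc.ka l n (tP p n tp bc)) g := by
  rcases bc with _ | _ | ⟨ia, ta⟩
  · exact wcol_of hQ ht (Or.inl rfl)
  · exact wcol_of hQ ht (Or.inr rfl)
  · exact wcol_dob hp hQ hg hbg

theorem tP_lt (hQ : (mks p b tp).Ok) (hg : Gap (mks p b tp) l g) (hδg : 4 * δ ≤ g)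
    (hn : 16 ≤ δ * n) : tP p n tp bc < n :=
  t_lt hQ hg hδg hn (tP_le p n tp bc).2

theorem g16 {x : ℝ} (hδ : 0 < δ) (hδg : 4 * δ ≤ g) (h : x < g / 16 * n) : x < g / 4 * n := by
  have hn0 : (0 : ℝ) ≤ n := Nat.cast_nonneg n
  have : 0 ≤ g * n := mul_nonneg (by linarith) hn0
  linarith

/-! ### free and wired boundary conditions -/

section P

variable [NeZero l] (hp : IsPolygon p) (hD : Encloses p S₀) (hQ : (mks p b tp).Ok)
  (hg : Gap (mks p b tp) l g) (hbg : BGap l (mks p b tp) g bc) (hδ : 0 < δ) (hδg : 4 * δ ≤ g)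
  (hn : 16 ≤ δ * n)

include hp hD hQ hg hbg hδ hδg hn in
/-- **The field `col` of the free and wired frames.** -/
theorem colP : ∀ (x : (frP θ β p S₀ b tp bc).H) (i : (frP θ β p S₀ b tp bc).ι),
    ∀ v ∈ (rowS θ).I ((frP θ β p S₀ b tp bc).r δ n i),
    (nm (v - (frP θ β p S₀ b tp bc).h δ n x) : ℝ) < g / 16 * n →
    (rowS θ).fr ((frP θ β p S₀ b tp bc).r δ n i) v = (frP θ β p S₀ b tp bc).b δ n x := by
  intro x i v hv h
  have ht : tP p n tp bc < n := tP_lt hQ hg hδg hn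
  exact col_poly hp hD hQ hg hδ hδg hn (bc_ok (by linarith) hbg) ht
    (wcol_tP hp hQ hg hbg ht) hv (g16 hδ hδg h)

include hp hQ hg hδ hδg hn in
/-- **The field `clc` of the free and wired frames.** -/
theorem clcP : ∀ (x : (frP θ β p S₀ b tp bc).H), ∀ v ∈ (frP θ β p S₀ b tp bc).Hc δ n,
    (nm (v - (frP θ β p S₀ b tp bc).h δ n x) : ℝ) < g / 16 * n →
    (frP θ β p S₀ b tp bc).sc δ n v = (frP θ β p S₀ b tp bc).b δ n x := by
  intro x v hv h
  exact clc_poly hp hQ hg hδ hδg hn hv (g16 hδ hδg h)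

include hp hD hQ hg hbg hδ hδg hn in
/-- **The field `dob` of the free and wired frames.** -/
theorem dobP : ∀ η : Cfg, Good η → (frP θ β p S₀ b tp bc).Frz (rowS θ) δ n η →
    (∀ v ∈ (frP θ β p S₀ b tp bc).Hc δ n, v ∉ (frP θ β p S₀ b tp bc).U (rowS θ) δ n →
      η v = (frP θ β p S₀ b tp bc).sc δ n v) →
    Dob η (enl S₀ n) (qN p n ((frP θ β p S₀ b tp bc).t n)) ((frP θ β p S₀ b tp bc).k n) := by
  intro η hη hf hcl
  have ht : tP p n tp bc < n := tP_lt hQ hg hδg hn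
  refine dob_poly (θ := θ) (β := β) (J := fun _ => true) (C := 0) hp hD hQ hg hδ hδg hn
    (bc_ok (by linarith) hbg) ht (wcol_tP hp hQ hg hbg ht) hη (fun y v hv => hf y v hv)
    fun v hv => hcl v hv ?_
  intro hU
  obtain ⟨i, hi⟩ := H680.T.mem_uI.1 hU
  have hi' : v ∈ (frowJ θ β p (mks p b tp) n ⌊δ * n⌋₊ (tP p n tp bc) bc (fun _ => true) 0 1
    i.1 i.2).I := hi
  rw [frowJ_I, shp_I] at hi'
  obtain ⟨σ, h1, h2, rfl⟩ := mem_rowP.1 hi'
  exact (mem_clH.1 hv).2.2.1 (mem_frmQ.2 ⟨i, σ, h1, h2, rfl⟩)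

end P

/-! ### Dobrushin boundary conditions -/

section D

variable {ia : ℕ} {ta : ℝ}

/-- The shapes of the rows. -/
theorem rD_I (x : IxD l) (d : ℕ) :
    (rD θ β p b tp ia ta n d x).I = (shD p b tp n d x).I := by
  rcases x with x | x | x
  · exact frowJ_I
  · exact frowJ_I
  · rfl

/-- The closing squares are near the domain. -/
theorem clH_near {v : ℤ × ℤ} (H : DobN p S₀ b tp g δ n)
    (hv : v ∈ clH p (mks p b tp) n ⌊δ * n⌋₊ S₀) :
    ((2 * n - 1 ≤ v.1 ∧ v.1 + 2 * n ≤ bM p * n + 1) ∧ 2 * n - 1 ≤ v.2 ∧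
      v.2 + 2 * n ≤ bM p * n + 1) ∧ n * (p (iT p)).2 - 1 ≤ v.2 := by
  obtain ⟨w, hw, r, rfl⟩ := (mem_clH.1 hv).2.2.2
  obtain ⟨u, hu, h1, h2⟩ := BR.mem_sites.1 hw
  have h3 := H.enl_in hu
  obtain ⟨a, b⟩ := w
  have f0 : face (a, b) 0 = (a + 0, b + 0) := rfl
  have f1 : face (a, b) 1 = (a + -1, b + 0) := rfl
  have f2 : face (a, b) 2 = (a + -1, b + -1) := rfl
  have f3 : face (a, b) 3 = (a + 0, b + -1) := rfl
  simp only at h1 h2
  rcases Enl.fin4_cases r with hr | hr | hr | hr <;> rw [hr] <;>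
    simp only [f0, f1, f2, f3] <;> omega

/-- **The colour of the mark at the spoke.** -/
theorem wcJ_T (H : DobN p S₀ b tp g δ n) (hbg : BGap l (mks p b tp) g (.dob ia ta)) :
    wcJ l n (mks p b tp) ⌊tp * n⌋₊ ((Bc.dob ia ta).ka l n ⌊tp * n⌋₊) (xT H.hp (mks p b tp)) =
      decide (cT p ia = -1) := by
  obtain ⟨b1, b3, b5, b6, -⟩ := H.basic
  have hn0 : (0 : ℝ) ≤ n := Nat.cast_nonneg n
  have ht : ⌊tp * n⌋₊ < n := tP_lt (bc := .dob ia ta) H.hQ H.hg H.hδg H.hn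
  have ht0 : 0 < ⌊tp * n⌋₊ := by
    have a := H.hg.2 0 (by omega)
    rw [H.hQ.zero, zero_sub, abs_neg] at a
    change g ≤ |tp| at a
    have b := H.hQ.tp0
    change 0 < tp at b
    rw [abs_of_pos b] at a
    refine Nat.le_floor ?_
    have := mul_le_mul_of_nonneg_right a hn0
    push_cast
    linarith
  obtain ⟨k1, k2, k3, k4, k5⟩ := hbg
  have hta0 : 0 < ⌊ta * n⌋₊ := by
    have a := k5 0 (by omega)
    rw [H.hQ.zero, zero_sub, abs_neg, abs_of_pos k3] at a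
    refine Nat.le_floor ?_
    have := mul_le_mul_of_nonneg_right a hn0
    push_cast
    linarith
  have hta1 : ⌊ta * n⌋₊ < n := by
    have h1 : (⌊ta * n⌋₊ : ℝ) ≤ ta * n := Nat.floor_le (by positivity)
    have h2 : ta * n < 1 * n := mul_lt_mul_of_pos_right k4 (by exact_mod_cast b5)
    have h3 : (⌊ta * n⌋₊ : ℝ) < n := by linarith
    exact_mod_cast h3
  have hiT := (lowV_iT H.hp).lt
  have e0 : pA n (mks p b tp) (xT H.hp (mks p b tp)) = 0 := pA_zero H.hQ rfl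
  have e1 : ((xT H.hp (mks p b tp)).1 : ℕ) = iT p := rfl
  have key : kOf l n ⌊tp * n⌋₊ (iT p) 0 < kOf l n ⌊tp * n⌋₊ ia ⌊ta * n⌋₊ ↔ clT p ia := by
    unfold clT kOf
    have h1 : 1 * n ≤ ia * n := Nat.mul_le_mul_right n k1
    have h2 : (ia + 1) * n ≤ l * n := Nat.mul_le_mul_right n k2
    have h3 : (iT p + 1) * n ≤ l * n := Nat.mul_le_mul_right n hiT
    rw [add_mul, one_mul] at h2 h3
    rw [one_mul] at h1
    rw [if_pos (show ⌊tp * n⌋₊ ≤ ia * n + ⌊ta * n⌋₊ by omega)]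
    rcases Nat.eq_zero_or_pos (iT p) with h0 | h0
    · rw [h0, zero_mul, if_neg (by omega)]
      constructor <;> intro h <;> omega
    · have h4 : 1 * n ≤ iT p * n := Nat.mul_le_mul_right n h0
      rw [one_mul] at h4
      rw [if_pos (show ⌊tp * n⌋₊ ≤ iT p * n + 0 by omega)]
      constructor
      · intro h
        refine ⟨h0, ?_⟩
        by_contra hlt
        have h5 : (ia + 1) * n ≤ iT p * n := Nat.mul_le_mul_right n (by omega)
        rw [add_mul, one_mul] at h5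
        omega
      · rintro ⟨-, h⟩
        have h5 : iT p * n ≤ ia * n := Nat.mul_le_mul_right n h
        omega
  unfold wcJ
  rw [e0, e1, decide_eq_decide]
  change ¬ kOf l n ⌊tp * n⌋₊ (iT p) 0 < kOf l n ⌊tp * n⌋₊ ia ⌊ta * n⌋₊ ↔ _
  rw [key]
  unfold cT
  by_cases h : clT p ia
  · rw [if_pos h]
    simp only [h, not_true, false_iff]
    norm_num
  · rw [if_neg h]
    simp [h]

/-- The frozen colours of the box. -/
theorem rD_frQ (H : DobN p S₀ b tp g δ n) {x : Fin 4 × Fin 3} {v : ℤ × ℤ}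
    (hv : v ∈ (rD θ β p b tp ia ta n ⌊δ * n⌋₊ (.inr (.inl x))).I) :
    (rD θ β p b tp ia ta n ⌊δ * n⌋₊ (.inr (.inl x))).toRow.fr v = decide (cT p ia = -1) := by
  obtain ⟨b1, b3, b5, b6, -⟩ := H.basic
  obtain ⟨c1, c2, c3, c4⟩ := H.box
  have hd : 1 ≤ ⌊δ * n⌋₊ := Nat.le_floor (by have := H.hn; push_cast; linarith)
  have ht : tG pQ (bM p * n) (tqB (bQ b (bM p))) (cT p ia) < bM p * n :=
    t_lt (Q := mksQ p b) (g := g) (δ := δ / bM p) H.hQ' H.hg' c2 c3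
      (tG_le pQ (bM p * n) (tqB (bQ b (bM p))) (cT p ia)).2
  change v ∈ (frowJ θ β pQ (mksQ p b) (bM p * n) ⌊δ * n⌋₊ _ .free (fun _ => true)
    (CQ θ β p ia) (cT p ia) x.1 x.2).I at hv
  rw [frowJ_I, shp_I] at hv
  obtain ⟨σ, h1, h2, rfl⟩ := mem_rowP.1 hv
  have hσ := lt_n H.hQ' hd (Nat.lt_succ_iff.1 x.2.isLt) h1 h2
  show decide ((frowJ θ β pQ (mksQ p b) (bM p * n) ⌊δ * n⌋₊ _ .free (fun _ => true)
    (CQ θ β p ia) (cT p ia) x.1 x.2).τ (Enl.op pQ (bM p * n) x.1 σ) = -1) = _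
  rw [frowJ_τ pQ_poly pQ_encl H.hQ' (show (Bc.free).Ok 4 (mksQ p b) from trivial) hd ht (cT_or p ia) x.1.2
    (Nat.lt_succ_iff.1 x.2.isLt) h1 h2]
  have h3 : stτ ((Bc.free).ka 4 (bM p * n) (tG pQ (bM p * n) (tqB (bQ b (bM p))) (cT p ia)))
      (kOf 4 (bM p * n) (tG pQ (bM p * n) (tqB (bQ b (bM p))) (cT p ia)) x.1 σ) = 1 :=
    if_pos (kOf_lt x.1.2 hσ ht)
  rw [h3, mul_one]

/-- The frozen colours of the spoke. -/
theorem rD_frS {d : ℕ} {x : Unit} {v : ℤ × ℤ} :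
    (rD θ β p b tp ia ta n d (.inr (.inr x))).toRow.fr v = decide (cT p ia = -1) := by
  show decide (cT p ia * (if _ then (1 : ℝ) else 1) = -1) = _
  split_ifs <;> rw [mul_one]

variable [NeZero l]

/-- **The field `col` of the Dobrushin frames.** -/
theorem colD (H : DobN p S₀ b tp g δ n) (hbg : BGap l (mks p b tp) g (.dob ia ta)) :
    ∀ (x : (frD θ β p S₀ b tp ia ta).H) (i : (frD θ β p S₀ b tp ia ta).ι),
    ∀ v ∈ (rowS θ).I ((frD θ β p S₀ b tp ia ta).r δ n i),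
    (nm (v - (frD θ β p S₀ b tp ia ta).h δ n x) : ℝ) < g / 16 * n →
    (rowS θ).fr ((frD θ β p S₀ b tp ia ta).r δ n i) v = (frD θ β p S₀ b tp ia ta).b δ n x := by
  obtain ⟨b1, b3, b5, b6, -⟩ := H.basic
  have hn0 : (0 : ℝ) ≤ n := Nat.cast_nonneg n
  have hn1 : (1 : ℝ) ≤ n := by exact_mod_cast b5
  have hgn : g / 16 * n ≤ 1 / 16 * n := mul_le_mul_of_nonneg_right (by linarith) hn0
  have far : ∀ {u w : ℤ × ℤ}, (2 * (n : ℤ) - 1 ≤ nm (u - w)) → ¬ (nm (u - w) : ℝ) < g / 16 * n := by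
    intro u w h1 h2
    have h3 : (2 * (n : ℝ) - 1) ≤ nm (u - w) := by exact_mod_cast h1
    linarith
  intro x i v hv h
  change v ∈ (rD θ β p b tp ia ta n ⌊δ * n⌋₊ i).I at hv
  change (nm (v - hoD p b tp n x) : ℝ) < g / 16 * n at h
  change (rD θ β p b tp ia ta n ⌊δ * n⌋₊ i).toRow.fr v = bD p b tp ia ta n x
  have hv' : v ∈ (shD p b tp n ⌊δ * n⌋₊ i).I := by
    have e := rD_I (θ := θ) (β := β) (p := p) (b := b) (tp := tp) (ia := ia) (ta := ta) (n := n) i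
      ⌊δ * n⌋₊
    rw [← e]
    exact hv
  rcases i with y | y | y
  · rcases x with x | x
    · exact col_poly H.hp H.hD H.hQ H.hg H.hδ H.hδg H.hn (bc_ok b6 hbg)
        (tP_lt (bc := .dob ia ta) H.hQ H.hg H.hδg H.hn)
        (wcol_tP (bc := .dob ia ta) H.hp H.hQ H.hg hbg (tP_lt H.hQ H.hg H.hδg H.hn)) hv
        (g16 H.hδ H.hδg h)
    · exfalso
      refine far ?_ h
      have h1 := H.rowP_mem hv'
      have h2 := H.hoQ x
      rw [le_nm_iff]
      simp only [Prod.fst_sub, Prod.snd_sub]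
      omega
  · rcases x with x | x
    · exfalso
      refine far ?_ h
      have h1 := H.rowQ_mem' hv'
      have h2 := H.hsP x
      change 2 * (n : ℤ) - 1 ≤ nm (v - hsite p (mks p b tp) n x)
      rw [le_nm_iff]
      simp only [Prod.fst_sub, Prod.snd_sub]
      omega
    · rw [rD_frQ H hv]
      rcases x with x | x <;> rfl
  · rw [rD_frS]
    rcases x with x | x | x
    · have hx : x = xT H.hp (mks p b tp) := by
        by_contra hne
        have h1 := H.seph (.inl x) (.inl (xT H.hp (mks p b tp))) (fun h => hne (Sum.inl.inj h))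
        have h2 := H.spk_mem' hv'
        have h3 := H.hsP x
        have h4 : nm (hoD p b tp n (.inl x) - hoD p b tp n (.inl (xT H.hp (mks p b tp)))) ≤
            nm (v - hoD p b tp n (.inl x)) := by
          have e := hsT (n := n) H.hp (Q := mks p b tp) H.hQ
          change nm (hsite p (mks p b tp) n x - hsite p (mks p b tp) n (xT H.hp (mks p b tp))) ≤
            nm (v - hsite p (mks p b tp) n x)
          rw [e, H945.Q.nm_comm v]
          generalize hz : nm (hsite p (mks p b tp) n x - v) = z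
          have hz' : nm (hsite p (mks p b tp) n x - v) ≤ z := hz.le
          rw [nm_le_iff] at hz' ⊢
          simp only [Prod.fst_sub, Prod.snd_sub] at hz' ⊢
          omega
        have h5 : (nm (hoD p b tp n (.inl x) - hoD p b tp n (.inl (xT H.hp (mks p b tp)))) : ℝ) ≤
            nm (v - hoD p b tp n (.inl x)) := by exact_mod_cast h4
        linarith
      subst hx
      exact (wcJ_T H hbg).symm
    · rfl
    · rfl

/-- **The field `clc` of the Dobrushin frames.** -/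
theorem clcD (H : DobN p S₀ b tp g δ n) :
    ∀ (x : (frD θ β p S₀ b tp ia ta).H), ∀ v ∈ (frD θ β p S₀ b tp ia ta).Hc δ n,
    (nm (v - (frD θ β p S₀ b tp ia ta).h δ n x) : ℝ) < g / 16 * n →
    (frD θ β p S₀ b tp ia ta).sc δ n v = (frD θ β p S₀ b tp ia ta).b δ n x := by
  obtain ⟨b1, b3, b5, b6, -⟩ := H.basic
  have hn0 : (0 : ℝ) ≤ n := Nat.cast_nonneg n
  have hn1 : (1 : ℝ) ≤ n := by exact_mod_cast b5
  have hgn : g / 16 * n ≤ 1 / 16 * n := mul_le_mul_of_nonneg_right (by linarith) hn0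
  intro x v hv h
  rcases x with x | x
  · exact clc_poly H.hp H.hQ H.hg H.hδ H.hδg H.hn hv (g16 H.hδ H.hδg h)
  · exfalso
    change (nm (v - hoD p b tp n (.inr x)) : ℝ) < g / 16 * n at h
    have h1 := clH_near H hv
    have h2 := H.hoQ x
    have h3 : 2 * (n : ℤ) - 1 ≤ nm (v - hoD p b tp n (.inr x)) := by
      rw [le_nm_iff]
      simp only [Prod.fst_sub, Prod.snd_sub]
      omega
    have h4 : (2 * (n : ℝ) - 1) ≤ nm (v - hoD p b tp n (.inr x)) := by exact_mod_cast h3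
    linarith

/-- **The field `dob` of the Dobrushin frames.** -/
theorem dobD (H : DobN p S₀ b tp g δ n) (hbg : BGap l (mks p b tp) g (.dob ia ta)) :
    ∀ η : Cfg, Good η → (frD θ β p S₀ b tp ia ta).Frz (rowS θ) δ n η →
    (∀ v ∈ (frD θ β p S₀ b tp ia ta).Hc δ n, v ∉ (frD θ β p S₀ b tp ia ta).U (rowS θ) δ n →
      η v = (frD θ β p S₀ b tp ia ta).sc δ n v) →
    Dob η (enl S₀ n) (qN p n ((frD θ β p S₀ b tp ia ta).t n))
      ((frD θ β p S₀ b tp ia ta).k n) := by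
  obtain ⟨b1, b3, b5, b6, -⟩ := H.basic
  intro η hη hf hcl
  have ht : tP p n tp (.dob ia ta) < n := tP_lt H.hQ H.hg H.hδg H.hn
  refine dob_poly (θ := θ) (β := β) (J := JD p ia) (C := 0) H.hp H.hD H.hQ H.hg H.hδ H.hδg H.hn
    (bc_ok b6 hbg) ht (wcol_tP (bc := .dob ia ta) H.hp H.hQ H.hg hbg ht) hη
    (fun y v hv => hf (.inl y) v hv) fun v hv => hcl v hv ?_
  intro hU
  have h1 := clH_near H hv
  obtain ⟨i, hi⟩ := H680.T.mem_uI.1 hU
  have hi' : v ∈ (shD p b tp n ⌊δ * n⌋₊ i).I := by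
    have e := rD_I (θ := θ) (β := β) (p := p) (b := b) (tp := tp) (ia := ia) (ta := ta) (n := n) i
      ⌊δ * n⌋₊
    rw [← e]
    exact hi
  rcases i with i | i | i
  · change v ∈ (shp p (mks p b tp) n ⌊δ * n⌋₊ i.1 i.2).I at hi'
    rw [shp_I] at hi'
    obtain ⟨σ, k1, k2, rfl⟩ := mem_rowP.1 hi'
    exact (mem_clH.1 hv).2.2.1 (mem_frmQ.2 ⟨i, σ, k1, k2, rfl⟩)
  · have h2 := H.rowQ_mem' hi'
    omega
  · have h2 := H.spk_mem' hi'
    have h3 : 16 ≤ ⌊δ * n⌋₊ := (dfl H.hn).1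
    omega

end D

end frames

end Vale.Agent.P167.N.ID
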