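import Vale.Agent.P167.N.ID.Row
import Vale.Agent.P167.H945.Q.TLoc
import Vale.Agent.P167.H871.Q.RowP

/-!
# P167, `0 < q < 1`, block 2A: the rows along their contour

* `rqr_st`, `rqr_st'`: the sites `Row.st b k` as points of the contour `rqr r b`.
* `zt_eq`, `zb_eq`: the killed sites as points of the contour.
* `Row.es`: the end sides; `be_es`, `be_es'`.
* `Φ_face`, `σ_face`, `Φ_es`, `σ_es`: the phases and staggers of the sides; `mem_bS_iff`.
-/

set_option autoImplicit false

namespace Vale.Agent.P167.N.ID

open Finset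
open Vale.Agent.P167
open Vale.Agent.P167.Top
open Vale.Agent.P167.FK
open Vale.Agent.P167.XDL (bS mem_bS)
open Vale.Agent.P167.BR (be)
open Vale.Agent.P167.H680.T (par par_mul par_cases)
open Vale.Agent.P167.H945.Q (face faces)
open Vale.Agent.P167.H871.Q (rqr fz0 fd rqr_nat P0 P1_eq P4_rqr U0 U1_eq Ls rqr_polygon rqr_encloses)
open Vale.Agent.P167.H871

variable {θ : ℝ} {r : Row} {b : Bool} {k : ℕ}

/-! ### sites -/

theorem rqr_st (hL : 1 ≤ r.L) (hk : k ≤ r.L) :
    rqr r.toRow b (k : ZMod (2 * r.L + 2)) = r.st b (if r.o = b then r.L - k else k) := by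
  rw [rqr_nat hL, P1_eq (by omega)]
  have e1 : P0 r.L k = ((k : ℤ), 0) := by unfold P0; rw [if_pos hk]
  rw [e1]
  unfold Ls fz0 fd Row.st
  cases hb : b <;> cases ho : r.o <;> simp [dx, dy] <;> omega

theorem rqr_st' (hL : 1 ≤ r.L) (hk : k ≤ r.L) :
    rqr r.toRow b ((r.L + 1 + k : ℕ) : ZMod (2 * r.L + 2)) =
      r.st (!b) (if r.o = !b then r.L - k else k) := by
  rw [rqr_nat hL, P1_eq (by omega)]
  have e1 : P0 r.L (r.L + 1 + k) = ((r.L : ℤ) - k, 1) := by
    unfold P0
    rw [if_neg (by omega), if_pos (by omega)]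
    ext
    · simp only
      push_cast
      ring
    · rfl
  rw [e1]
  unfold Ls fz0 fd Row.st
  cases hb : b <;> cases ho : r.o <;> simp [dx, dy] <;> omega

/-- The killed site of a base and the site of a junction on the contour. -/
theorem zb_eq (hL : 1 ≤ r.L) (hk : r.k0 ≤ r.L) : r.zb =
    rqr r.toRow r.kf ((if r.o = r.kf then r.L - r.k0 else r.k0 : ℕ) : ZMod (2 * r.L + 2)) := by
  rw [rqr_st hL (by split_ifs <;> omega)]
  unfold Row.zb
  congr 1
  split_ifs <;> omega

/-- The corner of the killed end on the face `g`. -/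
theorem st_p (hL : 1 ≤ r.L) : r.st r.g (r.ke r.p) =
    rqr r.toRow r.g (r.L : ZMod (2 * r.L + 2)) := by
  rw [rqr_st hL le_rfl]
  congr 1
  unfold Row.ke Row.p
  cases r.o <;> cases r.g <;> simp

/-- The corner of the killed end on the other face. -/
theorem st_p' (hL : 1 ≤ r.L) : r.st (!r.g) (r.ke r.p) =
    rqr r.toRow r.g ((r.L + 1 : ℕ) : ZMod (2 * r.L + 2)) := by
  have h := rqr_st' (r := r) (b := r.g) (k := 0) hL (Nat.zero_le _)
  rw [add_zero] at h
  rw [h]
  congr 1
  unfold Row.ke Row.p
  cases r.o <;> cases r.g <;> simp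

/-- **The killed site of the tip on the contour.** -/
theorem zt_eq (hL : 1 ≤ r.L) :
    (par (rqr r.toRow r.g (r.L : ZMod (2 * r.L + 2))) * r.se r.p = -1 ∧
      r.zt = rqr r.toRow r.g (r.L : ZMod (2 * r.L + 2))) ∨
    (par (rqr r.toRow r.g (r.L : ZMod (2 * r.L + 2))) * r.se r.p ≠ -1 ∧
      r.zt = rqr r.toRow r.g ((r.L + 1 : ℕ) : ZMod (2 * r.L + 2))) ∨
    (r.se r.p ≠ 1 ∧ r.se r.p ≠ -1) := by
  by_cases hs : r.se r.p = 1 ∨ r.se r.p = -1
  · rw [← st_p hL, ← st_p' hL]
    unfold Row.zt Row.gc
    have h2 := Row.par_not r true (r.ke r.p)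
    rw [Bool.not_true] at h2
    have h3 := par_cases (r.st true (r.ke r.p))
    cases r.g
    · rw [h2]
      by_cases h1 : par (r.st true (r.ke r.p)) * r.se r.p = -1
      · rw [decide_eq_true h1]
        refine Or.inr (Or.inl ⟨?_, rfl⟩)
        rw [neg_mul, h1]
        norm_num
      · rw [decide_eq_false h1]
        refine Or.inl ⟨?_, rfl⟩
        rcases h3 with h3 | h3 <;> rcases hs with h4 | h4
        · rw [h3, h4]
          norm_num
        · exact absurd (by rw [h3, h4]; norm_num) h1
        · exact absurd (by rw [h3, h4]; norm_num) h1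
        · rw [h3, h4]
          norm_num
    · by_cases h1 : par (r.st true (r.ke r.p)) * r.se r.p = -1
      · rw [decide_eq_true h1]
        exact Or.inl ⟨h1, rfl⟩
      · rw [decide_eq_false h1]
        exact Or.inr (Or.inl ⟨h1, rfl⟩)
  · right
    right
    push Not at hs
    exact hs

/-! ### sides -/

/-- The end sides (`false`: start, `true`: end). -/
def Row.es (r : Row) (e : Bool) : Ed :=
  if r.o then Sum.inl (if e then r.x.1 + r.L - 1 else r.x.1 - 1, r.x.2)
  else Sum.inr (r.x.1, if e then r.x.2 + r.L - 1 else r.x.2 - 1)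

/-- The side `L` of the contour: the end behind the face `b`. -/
theorem be_es (hL : 1 ≤ r.L) :
    be (rqr r.toRow b) (r.L : ZMod (2 * r.L + 2)) = r.es (xor r.o b) := by
  apply P4_inj
  rw [P4_rqr hL, P1_eq (by omega), U1_eq (by omega), M4_eq]
  have e1 : P0 r.L r.L = ((r.L : ℤ), 0) := by unfold P0; rw [if_pos le_rfl]
  have e2 : U0 r.L r.L = 1 := by unfold U0; rw [if_neg (lt_irrefl _), if_pos rfl]
  rw [e1, e2]
  unfold Row.es Ls fz0 fd
  cases hb : b <;> cases ho : r.o <;>
    simp [dx, dy, P4, me] <;> (try constructor) <;> omega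

/-- The side `2 L + 1` of the contour: the end before the face `b`. -/
theorem be_es' (hL : 1 ≤ r.L) :
    be (rqr r.toRow b) ((2 * r.L + 1 : ℕ) : ZMod (2 * r.L + 2)) = r.es (!(xor r.o b)) := by
  apply P4_inj
  rw [P4_rqr hL, P1_eq (by omega), U1_eq (by omega), M4_eq]
  have e1 : P0 r.L (2 * r.L + 1) = (0, 1) := by
    unfold P0
    rw [if_neg (by omega), if_pos le_rfl]
    ext <;> simp
  have e2 : U0 r.L (2 * r.L + 1) = 3 := by
    unfold U0
    rw [if_neg (by omega), if_neg (by omega), if_neg (by omega), if_pos rfl]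
  rw [e1, e2]
  unfold Row.es Ls fz0 fd
  cases hb : b <;> cases ho : r.o <;>
    simp [dx, dy, P4, me] <;> (try constructor) <;> omega

theorem face_eq (b : Bool) (k : ℕ) : face r.toRow b k =
    if r.o then Sum.inr (r.x.1 + k, if b then r.x.2 else r.x.2 - 1)
    else Sum.inl (if b then r.x.1 else r.x.1 - 1, r.x.2 + k) := by
  unfold face H825.Q.Row.sq
  cases r.o <;> cases b <;> rfl

/-- **The phases of the faces.** -/
theorem Φ_face (θ : ℝ) (r : Row) (b : Bool) (k : ℕ) : r.Φ θ (face r.toRow b k) =
    r.cf θ b + if r.k0 ≤ k then r.j else 0 := by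
  rw [face_eq]
  cases ho : r.o
  · simp only [Bool.false_eq_true, if_false]
    show (if r.o then _ else r.cf θ (decide (r.x.1 ≤ if b then r.x.1 else r.x.1 - 1)) +
      if (r.k0 : ℤ) ≤ r.x.2 + k - r.x.2 then r.j else 0) = _
    rw [ho]
    have e1 : decide (r.x.1 ≤ if b then r.x.1 else r.x.1 - 1) = b := by
      cases b <;> simp
    have e2 : r.x.2 + (k : ℤ) - r.x.2 = k := by ring
    simp only [Bool.false_eq_true, if_false]
    rw [e1, e2]
    simp only [Nat.cast_le]
  · simp only [if_true]
    show (if r.o then r.cf θ (decide (r.x.2 ≤ if b then r.x.2 else r.x.2 - 1)) +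
      (if (r.k0 : ℤ) ≤ r.x.1 + k - r.x.1 then r.j else 0) else _) = _
    rw [ho]
    have e1 : decide (r.x.2 ≤ if b then r.x.2 else r.x.2 - 1) = b := by
      cases b <;> simp
    have e2 : r.x.1 + (k : ℤ) - r.x.1 = k := by ring
    simp only [if_true]
    rw [e1, e2]
    simp only [Nat.cast_le]

/-- **The staggers of the faces.** -/
theorem σ_face (θ : ℝ) (r : Row) (b : Bool) (k : ℕ) : r.σ θ (face r.toRow b k) =
    r.τ (r.sq k) * ((3 * θ - Real.pi) / 4) := by
  rw [H825.Q.Row.τ_sq, face_eq]
  cases ho : r.o
  · simp only [Bool.false_eq_true, if_false]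
    show (if r.o then _ else r.s * (if (r.k0 : ℤ) ≤ r.x.2 + k - r.x.2 then r.η else 1) *
      ((3 * θ - Real.pi) / 4)) = _
    rw [ho]
    have e2 : r.x.2 + (k : ℤ) - r.x.2 = k := by ring
    simp only [Bool.false_eq_true, if_false]
    rw [e2]
    simp only [Nat.cast_le]
  · simp only [if_true]
    show (if r.o then r.s * (if (r.k0 : ℤ) ≤ r.x.1 + k - r.x.1 then r.η else 1) *
      ((3 * θ - Real.pi) / 4) else _) = _
    rw [ho]
    have e2 : r.x.1 + (k : ℤ) - r.x.1 = k := by ring
    simp only [if_true]
    rw [e2]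
    simp only [Nat.cast_le]

/-- **The phases of the end sides.** -/
theorem Φ_es (θ : ℝ) (hL : 1 ≤ r.L) (e : Bool) : r.Φ θ (r.es e) = r.me e := by
  unfold Row.es
  cases ho : r.o
  · simp only [Bool.false_eq_true, if_false]
    show (if r.o then _ else r.me (decide (r.x.2 ≤ if e then r.x.2 + r.L - 1 else r.x.2 - 1))) = _
    rw [ho]
    simp only [Bool.false_eq_true, if_false]
    congr 1
    cases e
    · simp
    · simp only [if_true, decide_eq_true_eq]
      omega
  · simp only [if_true]
    show (if r.o then r.me (decide (r.x.1 ≤ if e then r.x.1 + r.L - 1 else r.x.1 - 1)) else _) = _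
    rw [ho]
    simp only [if_true]
    congr 1
    cases e
    · simp
    · simp only [if_true, decide_eq_true_eq]
      omega

/-- **The staggers of the end sides.** -/
theorem σ_es (θ : ℝ) (hL : 1 ≤ r.L) (e : Bool) :
    r.σ θ (r.es e) = r.se e * ((θ - Real.pi) / 4) := by
  unfold Row.es
  cases ho : r.o
  · simp only [Bool.false_eq_true, if_false]
    show (if r.o then _ else r.se (decide (r.x.2 ≤ if e then r.x.2 + r.L - 1 else r.x.2 - 1)) *
      ((θ - Real.pi) / 4)) = _
    rw [ho]
    simp only [Bool.false_eq_true, if_false]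
    congr 2
    cases e
    · simp
    · simp only [if_true, decide_eq_true_eq]
      omega
  · simp only [if_true]
    show (if r.o then r.se (decide (r.x.1 ≤ if e then r.x.1 + r.L - 1 else r.x.1 - 1)) *
      ((θ - Real.pi) / 4) else _) = _
    rw [ho]
    simp only [if_true]
    congr 2
    cases e
    · simp
    · simp only [if_true, decide_eq_true_eq]
      omega

/-- **The sides of a row**: faces and end sides. -/
theorem mem_bS_iff (hL : 1 ≤ r.L) {e : Ed} : e ∈ bS r.I ↔
    (∃ b, ∃ k < r.L, e = face r.toRow b k) ∨ ∃ i, e = r.es i := by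
  rw [r.mem_bS]
  constructor
  · intro h
    rcases e with v | v
    · cases ho : r.o
      · simp only [ho, Bool.false_eq_true, if_false] at h
        refine Or.inl ⟨decide (v.1 = r.x.1), (v.2 - r.x.2).toNat, by omega, ?_⟩
        rw [face_eq, ho]
        simp only [Bool.false_eq_true, if_false]
        congr 1
        refine Prod.ext ?_ ?_
        · by_cases h1 : v.1 = r.x.1
          · simp [h1]
          · simp only [h1, decide_false, Bool.false_eq_true, if_false]
            omega
        · show v.2 = r.x.2 + ((v.2 - r.x.2).toNat : ℤ)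
          omega
      · simp only [ho, if_true] at h
        refine Or.inr ⟨decide (r.x.1 ≤ v.1), ?_⟩
        unfold Row.es
        rw [ho]
        simp only [if_true]
        congr 1
        refine Prod.ext ?_ h.1
        by_cases h1 : r.x.1 ≤ v.1
        · simp only [h1, decide_true, if_true]
          omega
        · simp only [h1, decide_false, Bool.false_eq_true, if_false]
          omega
    · cases ho : r.o
      · simp only [ho, Bool.false_eq_true, if_false] at h
        refine Or.inr ⟨decide (r.x.2 ≤ v.2), ?_⟩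
        unfold Row.es
        rw [ho]
        simp only [Bool.false_eq_true, if_false]
        congr 1
        refine Prod.ext h.1 ?_
        by_cases h1 : r.x.2 ≤ v.2
        · simp only [h1, decide_true, if_true]
          omega
        · simp only [h1, decide_false, Bool.false_eq_true, if_false]
          omega
      · simp only [ho, if_true] at h
        refine Or.inl ⟨decide (v.2 = r.x.2), (v.1 - r.x.1).toNat, by omega, ?_⟩
        rw [face_eq, ho]
        simp only [if_true]
        congr 1
        refine Prod.ext ?_ ?_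
        · show v.1 = r.x.1 + ((v.1 - r.x.1).toNat : ℤ)
          omega
        · by_cases h1 : v.2 = r.x.2
          · simp [h1]
          · simp only [h1, decide_false, Bool.false_eq_true, if_false]
            omega
  · rintro (⟨b, k, hk, rfl⟩ | ⟨i, rfl⟩)
    · rw [face_eq]
      cases ho : r.o
      · simp only [Bool.false_eq_true, if_false]
        cases b <;> simp <;> omega
      · simp only [if_true]
        cases b <;> simp <;> omega
    · unfold Row.es
      cases ho : r.o
      · simp only [Bool.false_eq_true, if_false]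
        cases i <;> simp <;> omega
      · simp only [if_true]
        cases i <;> simp <;> omega

end Vale.Agent.P167.N.ID
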