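import Vale.Agent.P167.N.ID.WinTab

/-!
# P167, `q < 1`, START: construction of windows

* `SdW`: the phases of the side between two squares.
* `Knd`: the three kinds of wall steps: face, regular end, zero end.
* `LWin`: a window in local coordinates; `LWin.ok`: the window `WinD.Ok` in a frame `(z, d)`.
-/

set_option autoImplicit false

namespace Vale.Agent.P167.N.ID

open Finset
open Vale.Agent.P167.BR
open Vale.Agent.P167.FK
open Vale.Agent.P167.Top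
open Vale.Agent.P167.H871
open Vale.Agent.P167.H871.Q
open Vale.Agent.P167.A (plane)
open Vale.Agent.P167.XDL (bS mem_bS)
open Vale.Agent.P167.H199 (strand ret Returns ah at')
open Vale.Agent.P167.H662.D2 (M4_two)

/-- **The phases of the side between the frozen square `q` and the square `q'`**: raw outward phase
`φ`, stagger `ς`; `b`: the side is in `EE`. -/
def SdW (a : Ed → Bool → ℝ) (EE : Set Ed) (q q' : ℤ × ℤ) (φ ς : ℝ) (b : Prop) : Prop :=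
  ∀ g : Ed, (tlv g = q → hdv g = q' → ah plane a g = φ + ς ∧ (g ∈ EE ↔ b)) ∧
    (hdv g = q → tlv g = q' → at' plane a g = -φ + ς ∧ (g ∈ EE ↔ b))

/-- The parity of a site, `1`: even, `-1`: odd. -/
def pz (z : ℤ × ℤ) : ℤ := if Even (z.1 + z.2) then 1 else -1

/-- The value of `s` at a zero end, for the mean value `m + 1 / 2`. -/
def zs (σ : ℤ) (m : ℤ) (z : ℤ × ℤ) : ℤ := if pz z = σ then m else m + 1

/-- **The kinds of wall steps**: side of a face, regular end side, zero end side. -/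
def Knd (θ : ℝ) (a : Ed → Bool → ℝ) (EE : Set Ed) (σ : ℤ) (c : ℝ) (P : ℤ × ℤ) (u s : ℤ)
    (E : Prop) : Prop :=
  SdW a EE (sqL P (u - 1)) (sqL P u) (c + θ / 4 * ((u + 4 * s : ℤ) : ℝ))
    (σ * ((3 * θ - Real.pi) / 4)) False ∨
  (E ∧ SdW a EE (sqL P (u - 1)) (sqL P u) (c + θ / 4 * ((u + 4 * s : ℤ) : ℝ))
    (σ * ((θ - Real.pi) / 4)) True) ∨
  ∃ m : ℤ, s = zs σ m P ∧ SdW a EE (sqL P (u - 1)) (sqL P u)
    (c + θ / 4 * ((u + 4 * m + 2 : ℤ) : ℝ)) (σ * ((θ - Real.pi) / 4)) False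

section knd

variable {θ : ℝ} {a : Ed → Bool → ℝ} {EE : Set Ed} {σ : ℤ} {c : ℝ} {P : ℤ × ℤ} {u s : ℤ}
  {E : Prop} {g : Ed}

/-- Exits across a wall step. -/
theorem Knd.out (h : Knd θ a EE σ c P u s E) (hσ : σ = 1 ∨ σ = -1) (h1 : tlv g = sqL P (u - 1))
    (h2 : hdv g = sqL P u) (h3 : Even (P.1 + P.2)) : (g ∈ EE → E) ∧
    ah plane a g = c + θ / 4 * ((u + 4 * s : ℤ) : ℝ) + σ * ((3 * θ - Real.pi) / 4 + eeA θ EE g) := by
  unfold eeA
  rcases h with h | ⟨hE, h⟩ | ⟨m, hm, h⟩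
  · obtain ⟨g1, g2⟩ := (h g).1 h1 h2
    refine ⟨fun h => (g2.1 h).elim, ?_⟩
    rw [if_neg fun h => g2.1 h, g1, add_zero]
  · obtain ⟨g1, g2⟩ := (h g).1 h1 h2
    refine ⟨fun _ => hE, ?_⟩
    rw [if_pos (g2.2 trivial), g1]
    ring
  · obtain ⟨g1, g2⟩ := (h g).1 h1 h2
    refine ⟨fun h => (g2.1 h).elim, ?_⟩
    have h4 : pz P = 1 := if_pos h3
    rw [if_neg fun h => g2.1 h, g1, add_zero, hm]
    unfold zs
    rw [h4]
    rcases hσ with rfl | rfl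
    · rw [if_pos rfl]
      push_cast
      ring
    · rw [if_neg (by norm_num)]
      push_cast
      ring

/-- Entries across a wall step. -/
theorem Knd.inn (h : Knd θ a EE σ c P u s E) (hσ : σ = 1 ∨ σ = -1) (h1 : hdv g = sqL P (u - 1))
    (h2 : tlv g = sqL P u) (h3 : ¬ Even (P.1 + P.2)) : (g ∈ EE → E) ∧
    at' plane a g =
      -(c + θ / 4 * ((u + 4 * s : ℤ) : ℝ)) + σ * ((3 * θ - Real.pi) / 4 + eeA θ EE g) := by
  unfold eeA
  rcases h with h | ⟨hE, h⟩ | ⟨m, hm, h⟩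
  · obtain ⟨g1, g2⟩ := (h g).2 h1 h2
    refine ⟨fun h => (g2.1 h).elim, ?_⟩
    rw [if_neg fun h => g2.1 h, g1, add_zero]
  · obtain ⟨g1, g2⟩ := (h g).2 h1 h2
    refine ⟨fun _ => hE, ?_⟩
    rw [if_pos (g2.2 trivial), g1]
    ring
  · obtain ⟨g1, g2⟩ := (h g).2 h1 h2
    refine ⟨fun h => (g2.1 h).elim, ?_⟩
    have h4 : pz P = -1 := if_neg h3
    rw [if_neg fun h => g2.1 h, g1, add_zero, hm]
    unfold zs
    rw [h4]
    rcases hσ with rfl | rfl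
    · rw [if_neg (by norm_num)]
      push_cast
      ring
    · rw [if_pos rfl]
      push_cast
      ring

end knd

/-- **A window in local coordinates**: window `D`, region `V`, frozen squares `Q`. -/
structure LWin (D V Q : Set (ℤ × ℤ)) (n : ℕ) (P : ℕ → ℤ × ℤ) (U : ℕ → ℤ) (W : ℕ → Prop) :
    Prop where
  bd : Bd D n P U 1
  kd : ∀ v ∈ Q, v ∉ D
  adj : ∀ s d, sqL s d ∈ D → sqL s (d - 1) ∈ V → sqL s (d - 1) ∉ D → sqL s (d - 1) ∈ Q
  cov : ∀ s d, sqL s d ∈ D → sqL s (d - 1) ∈ Q → sqL s (d - 1) ∈ V →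
    ∃ i, W i ∧ M4 s d = M4 (P i) (U i)
  lt : ∀ i, W i → 1 ≤ i ∧ i + 1 < n
  rt : ∀ j, sqL (P j) (U j - 1) ∈ V → sqL (P j) (U j - 1) ∈ Q
  cor : ∀ j, (W j ∨ W (j + 1)) → U (j + 1) ≤ U j ∨ sqL (P (j + 1)) (U j - 1) ∉ V

theorem Ls_M4 (z : ℤ × ℤ) (e : ℤ) {s s' : ℤ × ℤ} {d d' : ℤ} (h : M4 s d = M4 s' d') :
    M4 (Ls z e s) (d + e) = M4 (Ls z e s') (d' + e) := by
  rcases M4_two h with ⟨h1, h2⟩ | ⟨h1, h2⟩
  · rw [h1]
    exact M4_congr (by omega)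
  · rw [h1, Ls_vec, M4_congr (show (d + e) % 4 = (d' + e + 2) % 4 by omega), M4_rev]

/-- **The window in the frame `(z, e)`**, squares of the colour `σ` in `C₀`. -/
theorem LWin.ok {D V Q C₀ : Set (ℤ × ℤ)} {n : ℕ} {P : ℕ → ℤ × ℤ} {U : ℕ → ℤ} {W E Z : ℕ → Prop}
    (h : LWin D V Q n P U W) {θ : ℝ} {K : Finset (ℤ × ℤ)} {EE : Set Ed} {a : Ed → Bool → ℝ}
    {z : ℤ × ℤ} {e σ : ℤ} {c : ℝ} {s : ℕ → ℤ} (hσ : σ = 1 ∨ σ = -1)
    (hQK : ∀ v, Lq z e v ∈ V → Lq z e v ∈ Q → v ∈ K)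
    (hKQ : ∀ v ∈ K, Lq z e v ∈ V → (∃ s d, Lq z e v = sqL s (d - 1) ∧ sqL s d ∈ D) → Lq z e v ∈ Q)
    (hKD : ∀ v ∈ K, Lq z e v ∉ D)
    (hoff : ∀ g, g ∉ bS K → Lq z e (hdv g) ∈ D → a g false + a g true = 0)
    (hk : ∀ i, W i → sqL (P i) (U i - 1) ∈ C₀ →
      Knd θ a EE σ c (Ls z e (P i)) (U i + e) (s i) (E i))
    (sc : ∀ j, W j → W (j + 1) → sqL (P j) (U j - 1) ∈ C₀ →
      sqL (P (j + 1)) (U (j + 1) - 1) ∈ C₀ → s (j + 1) = s j ∨
      (σ = 1 ∧ ¬ Even ((Ls z e (P (j + 1))).1 + (Ls z e (P (j + 1))).2)) ∨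
      (σ = -1 ∧ Even ((Ls z e (P (j + 1))).1 + (Ls z e (P (j + 1))).2)) ∨
      (Z j ∧ s (j + 1) = s j - 1))
    (pr : ∀ i j, W i → W j → sqL (P i) (U i - 1) ∈ C₀ → sqL (P j) (U j - 1) ∈ C₀ → i < j → -1 ≤ s i - s j ∧ s i - s j ≤ 2 ∧
      ((E i ∨ E j) → 0 ≤ s i - s j ∧ s i - s j ≤ 1)) :
    WinD.Ok ⟨σ, c, {v | Lq z e v ∈ D}, {v | Lq z e v ∈ V}, {v | v ∈ K ∧ Lq z e v ∈ V ∧ Lq z e v ∈ C₀}, n,
      fun k => Ls z e (P k), fun k => U k + e, s, fun i => W i ∧ sqL (P i) (U i - 1) ∈ C₀, E, Z⟩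
      θ K EE a where
  sg := hσ
  bd := Bd.frame h.bd z e
  kd := hKD
  adj := by
    intro g h1 h2 h3
    obtain ⟨t, d, -, h5, h6⟩ := exists_side' g
    obtain ⟨t', rfl⟩ := Ls_surj z e t
    obtain ⟨d', rfl⟩ : ∃ d', d = d' + e := ⟨d - e, by ring⟩
    refine hQK _ h2 ?_
    simp only [Set.mem_ofPred_eq] at h1 h2 h3
    rw [h6, show d' + e - 1 = d' - 1 + e by ring, Lq_sqL] at h2 h3 ⊢
    rw [h5, Lq_sqL] at h1
    exact h.adj _ _ h1 h2 h3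
  out := by
    intro g hg h1 h2
    simp only [Set.mem_ofPred_eq] at h1 h2
    obtain ⟨t, d, h4, h5, h6⟩ := exists_side g
    obtain ⟨t', rfl⟩ := Ls_surj z e t
    obtain ⟨d', rfl⟩ : ∃ d', d = d' + e := ⟨d - e, by ring⟩
    have h8 := h1
    rw [h5, Lq_sqL] at h8
    have h7 := hKQ _ h2.1 h2.2.1 ⟨t', d', by
      rw [h6, show d' + e - 1 = d' - 1 + e by ring, Lq_sqL], h8⟩
    rw [h6, show d' + e - 1 = d' - 1 + e by ring, Lq_sqL] at h7
    have h9 := h2.2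
    rw [h6, show d' + e - 1 = d' - 1 + e by ring, Lq_sqL] at h9
    obtain ⟨i, hi, hM⟩ := h.cov _ _ h8 h7 h9.1
    have hP : P4 g = M4 (Ls z e (P i)) (U i + e) := h4.trans (Ls_M4 z e hM)
    obtain ⟨c1, -, -, c4, c5⟩ := cross_in (Bd.frame h.bd z e) hP h1
    have hC : sqL (P i) (U i - 1) ∈ C₀ := by
      have h10 := h2.2.2
      rw [c5, show U i + e - 1 = U i - 1 + e by ring, Lq_sqL] at h10
      exact h10
    obtain ⟨k1, k2⟩ := (hk i hi hC).out hσ c5 c4 (by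
      have := FK.even_ls g
      rwa [c1] at this)
    exact ⟨i, ⟨hi, hC⟩, k1, hP, k2⟩
  inn := by
    intro g hg h1 h2
    simp only [Set.mem_ofPred_eq] at h1 h2
    obtain ⟨t, d, h4, h5, h6⟩ := exists_side' g
    obtain ⟨t', rfl⟩ := Ls_surj z e t
    obtain ⟨d', rfl⟩ : ∃ d', d = d' + e := ⟨d - e, by ring⟩
    have h8 := h1
    rw [h5, Lq_sqL] at h8
    have h7 := hKQ _ h2.1 h2.2.1 ⟨t', d', by
      rw [h6, show d' + e - 1 = d' - 1 + e by ring, Lq_sqL], h8⟩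
    rw [h6, show d' + e - 1 = d' - 1 + e by ring, Lq_sqL] at h7
    have h9 := h2.2
    rw [h6, show d' + e - 1 = d' - 1 + e by ring, Lq_sqL] at h9
    obtain ⟨i, hi, hM⟩ := h.cov _ _ h8 h7 h9.1
    have hP : P4 g = M4 (Ls z e (P i)) (U i + e) := h4.trans (Ls_M4 z e hM)
    obtain ⟨-, c2, -, c4, c5⟩ := cross_out (Bd.frame h.bd z e) hP (hKD _ h2.1)
    have hC : sqL (P i) (U i - 1) ∈ C₀ := by
      have h10 := h2.2.2
      rw [c4, show U i + e - 1 = U i - 1 + e by ring, Lq_sqL] at h10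
      exact h10
    obtain ⟨k1, k2⟩ := (hk i hi hC).inn hσ c4 c5 (by
      have := FK.odd_rs g
      rw [c2] at this
      exact Int.not_even_iff_odd.2 this)
    exact ⟨i, ⟨hi, hC⟩, k1, hP, k2⟩
  off := hoff
  lt := fun i hi => h.lt i hi.1
  rt := by
    intro j hj
    have e1 : sqL (Ls z e (P j)) (U j + e - 1) = sqL (Ls z e (P j)) (U j - 1 + e) := by
      congr 1
      ring
    show sqL (Ls z e (P j)) (U j + e - 1) ∈ K
    change Lq z e (sqL (Ls z e (P j)) (U j + e - 1)) ∈ V at hj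
    refine hQK _ hj ?_
    rw [e1, Lq_sqL] at hj ⊢
    exact h.rt j hj
  cor := by
    intro j hj
    rcases h.cor j (hj.imp And.left And.left) with h1 | h1
    · left
      show U (j + 1) + e ≤ U j + e
      omega
    · right
      show ¬ Lq z e (sqL (Ls z e (P (j + 1))) (U j + e - 1)) ∈ V
      rw [show U j + e - 1 = U j - 1 + e by ring, Lq_sqL]
      exact h1
  sc := fun j h1 h2 => sc j h1.1 h2.1 h1.2 h2.2
  pr := fun i j h1 h2 => pr i j h1.1 h2.1 h1.2 h2.2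

end Vale.Agent.P167.N.ID
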