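import Vale.Agent.P167.N.ID.FrmP
import Vale.Agent.P167.N.ID.RowC
import Vale.Agent.P167.N.ID.WinBld

/-!
# P167, block ID: the phases of a system of rows at the sides of the rows

* `EEr`: the regular end sides of a system of rows.
* `sd_row`: the phases of the side between a square of a row and a square outside.
* `sd_face`, `sd_end`: faces and end sides of a row.
* `srowJ_es`: the regular end side of a row along a side; `sdJ_in`, `sdJ_out`, `sdJ_end`: the phases
  at the sides of the rows of a polygon.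
-/

set_option autoImplicit false

namespace Vale.Agent.P167.N.ID

open Finset
open Vale.Agent.P167.A (plane)
open Vale.Agent.P167.E6 (IsPolygon Encloses dir)
open Vale.Agent.P167.H825 (pdir Marks)
open Vale.Agent.P167.H825.Q (Bc osq stΦ stτ jpos)
open Vale.Agent.P167.XDL (bS mem_bS)
open Vale.Agent.P167.H199 (ah at')
open Vale.Agent.P167.BR (ce ce0 ce1 ce2 ce3)
open Vale.Agent.P167.Enl (sW eW kOf uN Two two_inj vz oz)
open Vale.Agent.P167.H680.T (WallG WCG nm_ht)
open Vale.Agent.P167.H945.Q (face nm_comm)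

section sys

variable {ι : Type} [Fintype ι] {θ : ℝ} {r : ι → Row} {z : ι → ℝ} {i : ι} {q q' : ℤ × ℤ} {g₀ : Ed}

/-- **The regular end sides** of a system of rows. -/
def EEr {ι : Type} (r : ι → Row) : Set Ed := {g | ∃ i, g = (r i).es (!(r i).p)}

/-- The rows are not adjacent. -/
def RSep {ι : Type} (r : ι → Row) : Prop :=
  ∀ i k, i ≠ k → ∀ u ∈ (r i).I, ∀ v ∈ (r k).I, 1 < nm (u - v)

omit [Fintype ι] in
theorem RSep.dis (h : RSep r) (i k : ι) (hik : i ≠ k) : Disjoint (r i).I (r k).I := by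
  rw [Finset.disjoint_left]
  intro u h1 h2
  have h3 := h i k hik u h1 u h2
  rw [sub_self] at h3
  have h4 : nm (0 : ℤ × ℤ) = 0 := by simp [nm]
  omega

omit [Fintype ι] in
/-- A neighbour of a square of a row is not in another row. -/
theorem RSep.nb (h : RSep r) (hi : q ∈ (r i).I) (hq : q' ∉ (r i).I) (hn : nm (q - q') ≤ 1)
    (k : ι) : q' ∉ (r k).I := by
  intro hk
  by_cases hik : i = k
  · subst hik
    exact hq hk
  · have := h i k hik q hi q' hk
    omega

theorem two_nm {g : Ed} (h : Two g q q') : nm (q - q') ≤ 1 := by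
  rcases h with ⟨h1, h2⟩ | ⟨h1, h2⟩
  · rw [← h1, ← h2]
    exact nm_ht g
  · rw [← h1, ← h2, ← H199.nm_neg, neg_sub]
    exact nm_ht g

omit [Fintype ι] in
/-- The regular end sides at a side of the row `i`. -/
theorem mem_EEr (hL : ∀ i, 1 ≤ (r i).L) (hs : RSep r) (hi : q ∈ (r i).I) (hq : q' ∉ (r i).I)
    (hg : Two g₀ q q') : g₀ ∈ EEr r ↔ g₀ = (r i).es (!(r i).p) := by
  constructor
  · rintro ⟨k, hk⟩
    have h1 : g₀ ∈ bS (r k).I := by
      rw [mem_bS_iff (hL k)]
      exact Or.inr ⟨_, hk⟩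
    have hn := hs.nb hi hq (two_nm hg)
    have h2 : q ∈ (r k).I := by
      rcases hg with ⟨g1, g2⟩ | ⟨g1, g2⟩ <;> rcases mem_bS.1 h1 with ⟨h3, h4⟩ | ⟨h3, h4⟩
      · rwa [g1] at h3
      · rw [g2] at h4
        exact absurd h4 (hn k)
      · rw [g1] at h3
        exact absurd h3 (hn k)
      · rwa [g2] at h4
    by_cases hik : i = k
    · subst hik
      exact hk
    · exact absurd h2 (Finset.disjoint_left.1 (hs.dis i k hik) hi)
  · intro h
    exact ⟨i, h⟩

/-- **The phases of the side between a square of a row and a square outside.** -/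
theorem sd_row (hL : ∀ i, 1 ≤ (r i).L) (hs : RSep r) (hi : q ∈ (r i).I) (hq : q' ∉ (r i).I)
    (hg : Two g₀ q q') : SdW (⟨fun i => (r i).wall θ (z i), 0⟩ : WCG ι).ph (EEr r) q q'
      ((r i).Φ θ g₀) ((r i).σ θ g₀) (g₀ = (r i).es (!(r i).p)) := by
  have hn := hs.nb hi hq (two_nm hg)
  have hE := mem_EEr hL hs hi hq hg
  intro g
  constructor
  · intro h1 h2
    have e : g = g₀ := two_inj (Or.inr ⟨h2, h1⟩) hg
    subst e
    refine ⟨ah_frm hs.dis (by rw [h1]; exact hi) (fun k => by rw [h2]; exact hn k), hE⟩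
  · intro h1 h2
    have e : g = g₀ := two_inj (Or.inl ⟨h1, h2⟩) hg
    subst e
    refine ⟨at_frm hs.dis (by rw [h1]; exact hi) (fun k => by rw [h2]; exact hn k), hE⟩

theorem SdW.cast' {a : Ed → Bool → ℝ} {EE : Set Ed} {q q' q₁ q₁' : ℤ × ℤ} {φ φ₁ ς ς₁ : ℝ}
    {b b₁ : Prop} (h : SdW a EE q q' φ ς b) (e1 : q = q₁) (e2 : q' = q₁') (e3 : φ = φ₁)
    (e4 : ς = ς₁) (e5 : b ↔ b₁) : SdW a EE q₁ q₁' φ₁ ς₁ b₁ := by
  subst e1 e2 e3 e4
  rw [← propext e5]
  exact h

end sys

section off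

variable {ι : Type} [Fintype ι] {θ : ℝ} {r : ι → Row} {z : ι → ℝ}

/-- **The phases vanish off the sides of the rows.** -/
theorem phr_off {K : Finset (ℤ × ℤ)} (hK : ∀ v, v ∈ K ↔ ∃ i, v ∈ (r i).I) (hs : RSep r) {g : Ed}
    (hg : g ∉ bS K) (b : Bool) :
    (⟨fun i => (r i).wall θ (z i), 0⟩ : WCG ι).ph g b = 0 := by
  show ∑ y, ((r y).wall θ (z y)).a g b + (0 : ℝ) / 2 = _
  rw [zero_div, add_zero]
  refine sum_eq_zero fun y _ => ?_
  have h1 : g ∉ ((r y).wall θ (z y)).S := by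
    intro h2
    change g ∈ bS (r y).I at h2
    apply hg
    have h5 := nm_ht g
    rcases mem_bS.1 h2 with ⟨h3, h4⟩ | ⟨h3, h4⟩
    · refine mem_bS.2 (Or.inl ⟨(hK _).2 ⟨y, h3⟩, fun h => ?_⟩)
      obtain ⟨k, hk⟩ := (hK _).1 h
      exact hs.nb h3 h4 h5 k hk
    · refine mem_bS.2 (Or.inr ⟨fun h => ?_, (hK _).2 ⟨y, h4⟩⟩)
      obtain ⟨k, hk⟩ := (hK _).1 h
      refine hs.nb h4 h3 ?_ k hk
      rw [← H199.nm_neg, neg_sub]
      exact h5
  rw [((r y).wall θ (z y)).off g h1]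
  rfl

end off

/-! ### the rows of a polygon -/

theorem ce_side_ne (v w : ℤ × ℤ) (r : Fin 4) : ce v r ≠ ce w (r - 1) := by
  rcases Enl.fin4_cases r with rfl | rfl | rfl | rfl
  · rw [show (0 : Fin 4) - 1 = 3 from rfl, ce0, ce3]; exact Sum.inr_ne_inl
  · rw [show (1 : Fin 4) - 1 = 0 from rfl, ce1, ce0]; exact Sum.inl_ne_inr
  · rw [show (2 : Fin 4) - 1 = 1 from rfl, ce2, ce1]; exact Sum.inr_ne_inl
  · rw [show (3 : Fin 4) - 1 = 2 from rfl, ce3, ce2]; exact Sum.inl_ne_inr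

theorem ce_inj {v w : ℤ × ℤ} {r : Fin 4} (h : ce v r = ce w r) : v = w := by
  obtain ⟨x, y⟩ := v
  obtain ⟨x', y'⟩ := w
  rcases Enl.fin4_cases r with rfl | rfl | rfl | rfl
  · rw [ce0, ce0, Sum.inr.injEq, Prod.mk.injEq] at h; ext <;> simp only <;> omega
  · rw [ce1, ce1, Sum.inl.injEq, Prod.mk.injEq] at h; ext <;> simp only <;> omega
  · rw [ce2, ce2, Sum.inr.injEq, Prod.mk.injEq] at h; ext <;> simp only <;> omega
  · rw [ce3, ce3, Sum.inl.injEq, Prod.mk.injEq] at h; ext <;> simp only <;> omega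

theorem face_ne_oz (z : ℤ × ℤ) (r : Fin 4) (σ τ : ℤ) : E6.face (vz z r σ) r ≠ oz z r τ := by
  obtain ⟨h0, h1, h2, h3⟩ := Enl.oz_eq z τ
  obtain ⟨k0, k1, k2, k3⟩ := Enl.vz_eq z σ
  intro h
  rcases Enl.fin4_cases r with rfl | rfl | rfl | rfl
  · rw [h0, k0, Enl.face0, Prod.ext_iff] at h; simp only at h; omega
  · rw [h1, k1, Enl.face1, Prod.ext_iff] at h; simp only at h; omega
  · rw [h2, k2, Enl.face2, Prod.ext_iff] at h; simp only at h; omega
  · rw [h3, k3, Enl.face3, Prod.ext_iff] at h; simp only at h; omega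

theorem out_ne_oz (z : ℤ × ℤ) (r : Fin 4) (σ τ : ℤ) : oz z r σ + dir (r - 1) ≠ oz z r τ := by
  obtain ⟨h0, h1, h2, h3⟩ := Enl.oz_eq z τ
  obtain ⟨k0, k1, k2, k3⟩ := Enl.oz_eq z σ
  intro h
  rcases Enl.fin4_cases r with rfl | rfl | rfl | rfl
  · rw [h0, k0, show (0 : Fin 4) - 1 = 3 from rfl, Prod.ext_iff] at h
    change _ ∧ z.2 - 1 + (-1) = z.2 - 1 at h
    omega
  · rw [h1, k1, show (1 : Fin 4) - 1 = 0 from rfl, Prod.ext_iff] at h
    change z.1 + 1 = z.1 ∧ _ at h
    omega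
  · rw [h2, k2, show (2 : Fin 4) - 1 = 1 from rfl, Prod.ext_iff] at h
    change _ ∧ z.2 + 1 = z.2 at h
    omega
  · rw [h3, k3, show (3 : Fin 4) - 1 = 2 from rfl, Prod.ext_iff] at h
    change z.1 - 1 + (-1) = z.1 - 1 ∧ _ at h
    omega

section srowJ

variable {θ : ℝ} {J : Bool} {z : ℤ × ℤ} {r : Fin 4} {s e jp : ℕ} {F T : ℕ → ℝ}

theorem srowJ_p : (srowJ θ J z r s e jp F T).p = if r = 0 ∨ r = 1 then !J else J := by
  rcases Enl.fin4_cases r with rfl | rfl | rfl | rfl <;> cases J <;> rfl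

/-- **The regular end side** of a row along a side: the last end for `J = true`, the first one for
`J = false`. -/
theorem srowJ_reg (hse : s < e) : (srowJ θ J z r s e jp F T).es (!(srowJ θ J z r s e jp F T).p) =
    ce (vz z r ((if J then e else s : ℕ) : ℤ)) (r - 1) := by
  rw [srowJ_p]
  obtain ⟨x, y⟩ := z
  have hL : ((e - s : ℕ) : ℤ) = e - s := by omega
  rcases Enl.fin4_cases r with rfl | rfl | rfl | rfl
  · rw [show (0 : Fin 4) - 1 = 3 from rfl, (Enl.vz_eq _ _).1, ce3]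
    show Sum.inl (if _ then x + (s : ℤ) + ((e - s : ℕ) : ℤ) - 1 else x + (s : ℤ) - 1, y - 1) = _
    rw [hL]
    cases J
    · simp
    · simp
  · rw [show (1 : Fin 4) - 1 = 0 from rfl, (Enl.vz_eq _ _).2.1, ce0]
    show Sum.inr (x, if _ then y + (s : ℤ) + ((e - s : ℕ) : ℤ) - 1 else y + (s : ℤ) - 1) = _
    rw [hL]
    cases J
    · simp
    · simp
  · rw [show (2 : Fin 4) - 1 = 1 from rfl, (Enl.vz_eq _ _).2.2.1, ce1]
    show Sum.inl (if _ then x - (e : ℤ) + ((e - s : ℕ) : ℤ) - 1 else x - (e : ℤ) - 1, y) = _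
    rw [hL]
    cases J
    · simp
    · simp
  · rw [show (3 : Fin 4) - 1 = 2 from rfl, (Enl.vz_eq _ _).2.2.2, ce2]
    show Sum.inr (x - 1, if _ then y - (e : ℤ) + ((e - s : ℕ) : ℤ) - 1 else y - (e : ℤ) - 1) = _
    rw [hL]
    cases J
    · simp
    · simp

end srowJ

section poly

variable {ι : Type} [Fintype ι] {l : ℕ} {θ β : ℝ} {p : ZMod l → ℤ × ℤ} {S₀ : Finset (ℤ × ℤ)}
  {Q : Marks} {n d t : ℕ} {bc : Bc} {J : ℕ → Bool} {C c : ℝ} {r : ι → Row} {z : ι → ℝ} {y : ι}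
  {i j σ : ℕ}

theorem oz_row {i j : ℕ} (h1 : sW p n Q d i j ≤ σ) (h2 : σ < eW p n Q d i j) :
    Enl.op p n i σ ∈ (frowJ θ β p Q n d t bc J C c i j).I := by
  rw [frowJ_I, shp_I, Enl.mem_rowP]
  exact ⟨σ, h1, h2, rfl⟩

theorem not_row {i j : ℕ} {v : ℤ × ℤ} (h : ∀ τ : ℤ, v = Enl.op p n i τ →
    ¬ ((sW p n Q d i j : ℤ) ≤ τ ∧ τ < eW p n Q d i j)) :
    v ∉ (frowJ θ β p Q n d t bc J C c i j).I := by
  rw [frowJ_I, shp_I, Enl.mem_rowP]
  rintro ⟨τ, h1, h2, h3⟩
  exact h τ h3 ⟨by omega, by omega⟩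

/-- **The phases of the sides of the faces**: inner (`b`) and outer face. -/
theorem sdJ_face (hp : IsPolygon p) (hD : Encloses p S₀) (hQ : Q.Ok) (hb : bc.Ok l Q) (hd : 1 ≤ d)
    (ht : t < n) (hc : c = 1 ∨ c = -1) (hL : ∀ i, 1 ≤ (r i).L) (hs : RSep r)
    (hy : r y = frowJ θ β p Q n d t bc J C c i j) (hi : i < l) (hj : j ≤ Q.m)
    (h1 : sW p n Q d i j ≤ σ) (h2 : σ < eW p n Q d i j) (b : Bool) :
    SdW (⟨fun i => (r i).wall θ (z i), 0⟩ : WCG ι).ph (EEr r) (Enl.op p n i σ)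
      (if b then E6.face (Enl.vp p n i σ) (pdir p i) else
        Enl.op p n i σ + dir (pdir p i - 1))
      (C + stΦ θ β (uN p n t) (bc.ka l n t) (kOf l n t i σ) - hJ θ (J i) +
        if b then hJ θ (J i) else -hJ θ (J i))
      (c * stτ (bc.ka l n t) (kOf l n t i σ) * ((3 * θ - Real.pi) / 4)) False := by
  have e1 : sdv ((n : ℤ) • p i) (pdir p i) b σ =
      if b then Enl.vp p n i σ else Enl.vp p n i σ + dir (pdir p i - 1) := by
    unfold sdv
    cases b
    · rfl
    · show _ + ((0, 0) : ℤ × ℤ) = _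
      rw [Prod.mk_zero_zero, add_zero]
      rfl
  have hg : Two (ce (sdv ((n : ℤ) • p i) (pdir p i) b σ) (pdir p i)) (Enl.op p n i σ)
      (if b then E6.face (Enl.vp p n i σ) (pdir p i) else
        Enl.op p n i σ + dir (pdir p i - 1)) := by
    rw [e1]
    cases b
    · exact Enl.two_far _ _ _
    · exact Enl.two_near _ _ _
  have hq : Enl.op p n i σ ∈ (r y).I := by
    rw [hy]
    exact oz_row h1 h2
  have hq' : (if b then E6.face (Enl.vp p n i σ) (pdir p i) else
      Enl.op p n i σ + dir (pdir p i - 1)) ∉ (r y).I := by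
    rw [hy]
    refine not_row fun τ hτ _ => ?_
    cases b
    · exact out_ne_oz _ _ _ _ hτ
    · exact face_ne_oz _ _ _ _ hτ
  refine (sd_row hL hs hq hq' hg).cast' rfl rfl ?_ ?_ ?_
  · rw [hy]
    exact frowJ_Φ hp hD hQ hb hd ht hi hj h1 h2 b
  · rw [hy]
    exact frowJ_σ hp hD hQ hb hd ht hc hi hj h1 h2 b
  · rw [hy]
    refine iff_false_intro fun h => ?_
    have h3 : (frowJ θ β p Q n d t bc J C c i j).es (!(frowJ θ β p Q n d t bc J C c i j).p) = _ :=
      srowJ_reg (by omega)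
    rw [h3] at h
    exact ce_side_ne _ _ _ h

/-- **The phases of the end sides**: `b`: the last end, otherwise the first one. -/
theorem sdJ_end (hc : c = 1 ∨ c = -1) (hL : ∀ i, 1 ≤ (r i).L) (hs : RSep r)
    (hy : r y = frowJ θ β p Q n d t bc J C c i j) (hse : sW p n Q d i j < eW p n Q d i j)
    (b : Bool) :
    SdW (⟨fun i => (r i).wall θ (z i), 0⟩ : WCG ι).ph (EEr r)
      (Enl.op p n i (if b then (eW p n Q d i j : ℤ) - 1 else sW p n Q d i j))
      (Enl.op p n i (if b then (eW p n Q d i j : ℤ) else (sW p n Q d i j : ℤ) - 1))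
      (C + stΦ θ β (uN p n t) (bc.ka l n t)
        (kOf l n t i (if b then eW p n Q d i j - 1 else sW p n Q d i j)) - hJ θ (J i))
      (c * stτ (bc.ka l n t) (kOf l n t i (if b then eW p n Q d i j - 1 else sW p n Q d i j)) *
        ((θ - Real.pi) / 4)) (b = J i) := by
  have hg : Two (ce (vz ((n : ℤ) • p i) (pdir p i)
      ((if b then eW p n Q d i j else sW p n Q d i j : ℕ) : ℤ)) (pdir p i - 1))
      (Enl.op p n i (if b then (eW p n Q d i j : ℤ) - 1 else sW p n Q d i j))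
      (Enl.op p n i (if b then (eW p n Q d i j : ℤ) else (sW p n Q d i j : ℤ) - 1)) := by
    cases b
    · exact Enl.two_side _ _ _
    · have h := Enl.two_side' ((n : ℤ) • p i) (pdir p i) ((eW p n Q d i j : ℤ) - 1)
      rw [sub_add_cancel] at h
      exact h
  have hq : Enl.op p n i (if b then (eW p n Q d i j : ℤ) - 1 else sW p n Q d i j) ∈ (r y).I := by
    rw [hy]
    cases b
    · exact oz_row le_rfl hse
    · have e : ((eW p n Q d i j : ℤ) - 1) = ((eW p n Q d i j - 1 : ℕ) : ℤ) := by omega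
      rw [if_pos rfl, e]
      exact oz_row (by omega) (by omega)
  have hq' : Enl.op p n i (if b then (eW p n Q d i j : ℤ) else (sW p n Q d i j : ℤ) - 1) ∉
      (r y).I := by
    rw [hy]
    refine not_row fun τ hτ h => ?_
    have := Enl.oz_inj (z := (n : ℤ) • p i) (r := pdir p i) hτ
    cases b
    · simp only [Bool.false_eq_true, if_false] at this
      omega
    · simp only [if_true] at this
      omega
  refine (sd_row hL hs hq hq' hg).cast' rfl rfl ?_ ?_ ?_
  · rw [hy]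
    exact frowJ_Φe hse b
  · rw [hy]
    exact frowJ_σe hc hse b
  · rw [hy]
    have h3 : (frowJ θ β p Q n d t bc J C c i j).es (!(frowJ θ β p Q n d t bc J C c i j).p) = _ :=
      srowJ_reg hse
    rw [h3]
    constructor
    · intro h
      have h4 := ce_inj h
      unfold vz at h4
      have h5 := add_left_cancel h4
      by_contra hne
      have h6 : Enl.oz ((n : ℤ) • p i) (pdir p i)
          ((if b then eW p n Q d i j else sW p n Q d i j : ℕ) : ℤ) = Enl.oz ((n : ℤ) • p i) (pdir p i)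
          ((if J i then eW p n Q d i j else sW p n Q d i j : ℕ) : ℤ) := by
        unfold oz vz
        rw [h5]
      have h7 := Enl.oz_inj h6
      cases b <;> cases hJi : J i <;> rw [hJi] at hne h7
      · exact hne rfl
      · simp only [Bool.false_eq_true, if_false, if_true] at h7
        omega
      · simp only [Bool.false_eq_true, if_false, if_true] at h7
        omega
      · exact hne rfl
    · intro h
      rw [h]

end poly

end Vale.Agent.P167.N.ID
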