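import Vale.Agent.P167.N.ID.StA
import Vale.Agent.P167.N.ID.RowF
import Vale.Agent.P167.N.ID.WinPh

/-!
# P167, `q < 1`, START: the hypotheses of the windows of a frame

* `FrS.Ends`: the ends of the rows are at the holes.
* `HolW`, `FrS.HolG`: the windows at the holes.
-/

set_option autoImplicit false

namespace Vale.Agent.P167.N.ID

open Finset Filter
open Vale.Agent.P167.FK
open Vale.Agent.P167.BR
open Vale.Agent.P167.Top
open Vale.Agent.P167.H871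
open Vale.Agent.P167.H871.Q

/-- The ends of the rows are at the holes. -/
def FrS.Ends (Φ : FrS Row) (δ : ℝ) (n : ℕ) : Prop :=
  ∀ i (e : Bool), ∃ x, (nm ((Φ.r δ n i).sq (if e then (Φ.r δ n i).L - 1 else 0) - Φ.h δ n x) : ℝ) ≤
    2 * δ * n

/-- **The windows at a hole `h`** of the colour `b`: every square next to `h` which is not frozen is
in a window without invisible base sites which contains the box. -/
def HolW (θ : ℝ) (K : Finset (ℤ × ℤ)) (EE : Set Ed) (a : Ed → Bool → ℝ) (h : ℤ × ℤ) (ρ : ℤ)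
    (b : Bool) : Prop :=
  ∀ v, v ∉ K → v ∈ Bq h ρ → ∃ w : WinD, w.Ok θ K EE a ∧ v ∈ w.D ∧ (∀ u ∈ Bq h ρ, u ∈ w.V) ∧
    (∀ u ∈ K, u ∈ Bq h ρ → u ∈ w.C) ∧ w.σ = (if b then -1 else 1) ∧ ∀ j, ¬ w.Z j

/-- The ends of the rows are at the holes, for small `δ`. -/
def FrS.EndG (Φ : FrS Row) : Prop :=
  ∃ δ₀ : ℝ, 0 < δ₀ ∧ ∀ δ : ℝ, 0 < δ → δ < δ₀ → ∀ᶠ n : ℕ in atTop, Φ.Ends δ n

/-- **The windows at the holes of a frame.** -/
def FrS.HolG (Φ : FrS Row) (θ : ℝ) : Prop :=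
  ∃ κ₁ δ₀ : ℝ, 0 < κ₁ ∧ 0 < δ₀ ∧ ∀ δ : ℝ, 0 < δ → δ < δ₀ → ∀ᶠ n : ℕ in atTop, ∀ x,
    HolW θ (Φ.U (rowS θ) δ n) (EEr (Φ.r δ n)) (Φ.ph (rowS θ) δ n 0) (Φ.h δ n x) ⌊κ₁ * n⌋
      (Φ.b δ n x)

end Vale.Agent.P167.N.ID
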