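import Vale.Agent.P167.N.ID.FrmG
import Vale.Agent.P167.N.ID.WinHd

/-!
# P167, block ID: the ends of the rows of the frames are at the holes

`frP_ends`, `frD_ends`: both ends of every row are at distance at most `2 δ n` from a hole.
-/

set_option autoImplicit false

namespace Vale.Agent.P167.N.ID

open Finset Filter Topology
open Vale.Agent.P167.E6 (IsPolygon Encloses)
open Vale.Agent.P167.H825 (enl Box Marks pdir)
open Vale.Agent.P167.H825.Q (Bc osq)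
open Vale.Agent.P167.H662 (hsite)
open Vale.Agent.P167.H199 (mks mks_ok Gap exists_Gap)
open Vale.Agent.P167.Enl (sW eW tB rb_of nm_tri nm_sub_comm ctr_tips ctr_tip)

/-! ### the ends of a row along a side -/

section side

variable {θ : ℝ} {J : Bool} {z : ℤ × ℤ} {r : Fin 4} {s e jp : ℕ} {F T : ℕ → ℝ}

/-- The ends are the squares of the first or of the last step. -/
theorem srowJ_sqe (h : s < e) (b : Bool) :
    (srowJ θ J z r s e jp F T).sq (if b then (srowJ θ J z r s e jp F T).L - 1 else 0) =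
      osq z r s ∨
    (srowJ θ J z r s e jp F T).sq (if b then (srowJ θ J z r s e jp F T).L - 1 else 0) =
      osq z r (e - 1) := by
  have key : ∀ σ, s ≤ σ → σ < e → (srowJ θ J z r s e jp F T).sq (Enl.idx r s e σ) = osq z r σ :=
    fun σ h1 h2 => H825.Q.srow_sq z r _ _ h1 h2
  have k1 := key s le_rfl h
  have k2 := key (e - 1) (by omega) (by omega)
  have hL := srowJ_L θ J z r s e jp F T
  cases b
  · simp only [Bool.false_eq_true, if_false]
    rcases Enl.idx_first r h with ⟨h1, h2⟩ | ⟨h1, h2⟩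
    · left
      rw [h1] at k1
      exact k1
    · right
      rw [h1] at k2
      exact k2
  · simp only [if_true]
    rw [show (srowJ θ J z r s e jp F T).L - 1 = e - s - 1 by omega]
    rcases Enl.idx_first r h with ⟨h1, h2⟩ | ⟨h1, h2⟩
    · right
      rw [h2] at k2
      exact k2
    · left
      rw [h2] at k1
      exact k1

end side

/-! ### the rows of a polygon -/

/-- **The ends of the rows along the sides are next to the marks.** -/
theorem frowJ_end {l : ℕ} {p : ZMod l → ℤ × ℤ} {Q : Marks} {bc : Bc} {t n : ℕ}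
    {θ β C c g δ : ℝ} {J : ℕ → Bool} (hp : IsPolygon p) (hQ : Q.Ok) (hg : Gap Q l g) (hδ : 0 < δ)
    (hδg : 4 * δ ≤ g) (hn : 16 ≤ δ * n) (x : Fin l × Fin (Q.m + 1)) (b : Bool) :
    ∃ y : Fin l × Fin (Q.m + 1), (nm ((frowJ θ β p Q n ⌊δ * n⌋₊ t bc J C c x.1 x.2).sq
      (if b then (frowJ θ β p Q n ⌊δ * n⌋₊ t bc J C c x.1 x.2).L - 1 else 0) -
        hsite p Q n y) : ℝ) ≤ 2 * δ * n := by
  have hse := (rb_of (p := p) hQ hg hδ hδg hn x.1.2 (j := x.2) (by omega)).se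
  have h0 := ctr_tip (θ := θ) (β := β) (bc := bc) hp hQ hg hδ hδg hn x
    (show (0 : Fin 3) ≠ 2 by decide)
  have h1 := ctr_tip (θ := θ) (β := β) (bc := bc) hp hQ hg hδ hδg hn x
    (show (1 : Fin 3) ≠ 2 by decide)
  have fin : ∀ {v w : ℤ × ℤ}, v = w →
      (∃ y : Fin l × Fin (Q.m + 1), nm (w - hsite p Q n y) ≤ (⌊δ * n⌋₊ : ℤ) + 2) →
      ∃ y : Fin l × Fin (Q.m + 1), (nm (v - hsite p Q n y) : ℝ) ≤ 2 * δ * n := by
    rintro v w rfl ⟨y, hy⟩
    refine ⟨y, ?_⟩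
    have h5 : (nm (v - hsite p Q n y) : ℝ) ≤ (⌊δ * n⌋₊ : ℝ) + 2 := by exact_mod_cast hy
    have h6 : (⌊δ * n⌋₊ : ℝ) ≤ δ * n := Nat.floor_le (by linarith)
    linarith
  have h2 : (frowJ θ β p Q n ⌊δ * n⌋₊ t bc J C c x.1 x.2).sq
      (if b then (frowJ θ β p Q n ⌊δ * n⌋₊ t bc J C c x.1 x.2).L - 1 else 0) =
        Enl.op p n x.1 (sW p n Q ⌊δ * n⌋₊ x.1 x.2 : ℕ) ∨
      (frowJ θ β p Q n ⌊δ * n⌋₊ t bc J C c x.1 x.2).sq
      (if b then (frowJ θ β p Q n ⌊δ * n⌋₊ t bc J C c x.1 x.2).L - 1 else 0) =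
        Enl.op p n x.1 ((eW p n Q ⌊δ * n⌋₊ x.1 x.2 - 1 : ℕ) : ℤ) :=
    srowJ_sqe hse b
  rcases ctr_tips (θ := θ) (β := β) (bc := bc) hse with ⟨h3, h4⟩ | ⟨h3, h4⟩
  · rcases h2 with h2 | h2
    · rw [← h3] at h2
      exact fin h2 h0
    · rw [← h4] at h2
      exact fin h2 h1
  · rcases h2 with h2 | h2
    · rw [← h4] at h2
      exact fin h2 h1
    · rw [← h3] at h2
      exact fin h2 h0

/-! ### the frames -/

section frames

variable {l : ℕ} {θ β : ℝ} {p : ZMod l → ℤ × ℤ} {S₀ : Finset (ℤ × ℤ)} {b : Box} {tp : ℝ} {bc : Bc}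
  {n : ℕ} {g δ : ℝ} {ia : ℕ} {ta : ℝ}

/-- **The ends of the rows of the free and wired frames.** -/
theorem rP_end (hp : IsPolygon p) (hQ : (mks p b tp).Ok) (hg : Gap (mks p b tp) l g)
    (hδ : 0 < δ) (hδg : 4 * δ ≤ g) (hn : 16 ≤ δ * n) (x : Fin l × Fin 3) (e : Bool) :
    ∃ y : Fin l × Fin 3, (nm ((rP θ β p b tp bc n ⌊δ * n⌋₊ x).sq
      (if e then (rP θ β p b tp bc n ⌊δ * n⌋₊ x).L - 1 else 0) -
      hsite p (mks p b tp) n y) : ℝ) ≤ 2 * δ * n :=
  frowJ_end hp hQ hg hδ hδg hn x _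

/-- **The ends of the rows of the Dobrushin frames.** -/
theorem rD_end (H : DobN p S₀ b tp g δ n) (x : IxD l) (e : Bool) :
    ∃ y : HxD l, (nm ((rD θ β p b tp ia ta n ⌊δ * n⌋₊ x).sq
      (if e then (rD θ β p b tp ia ta n ⌊δ * n⌋₊ x).L - 1 else 0) - hoD p b tp n y) : ℝ) ≤
      2 * δ * n := by
  obtain ⟨c1, c2, c3, c4⟩ := H.box
  obtain ⟨d1, d2, d3⟩ := dfl H.hn
  have hn := H.hn
  rcases x with x | x | x
  · obtain ⟨y, hy⟩ := frowJ_end (θ := θ) (β := β) (bc := .dob ia ta) (t := ⌊tp * n⌋₊)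
      (J := JD p ia) (C := 0) (c := 1) H.hp H.hQ H.hg H.hδ H.hδg hn x e
    exact ⟨.inl y, hy⟩
  · obtain ⟨y, hy⟩ := frowJ_end (θ := θ) (β := β) (bc := .free)
      (t := tG pQ (bM p * n) (tqB (bQ b (bM p))) (cT p ia))
      (J := fun _ => true) (C := CQ θ β p ia) (c := cT p ia) pQ_poly H.hQ' H.hg' c1 c2 c3 x e
    rw [c4] at hy
    have e1 : 2 * (δ / bM p) * ((bM p * n : ℕ) : ℝ) = 2 * δ * n := by
      have hM : (1 : ℝ) ≤ bM p := by exact_mod_cast DobN.hM (p := p)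
      push_cast
      field_simp
    rw [e1] at hy
    exact ⟨.inr (.inl y), hy⟩
  · -- the spoke
    have fin : ∀ {y : HxD l} {v : ℤ × ℤ}, nm (v - hoD p b tp n y) ≤ (⌊δ * n⌋₊ : ℤ) + 3 →
        (nm (v - hoD p b tp n y) : ℝ) ≤ 2 * δ * n := by
      intro y v h
      have h5 : (nm (v - hoD p b tp n y) : ℝ) ≤ (⌊δ * n⌋₊ : ℝ) + 3 := by exact_mod_cast h
      have h6 : (⌊δ * n⌋₊ : ℝ) ≤ δ * n := Nat.floor_le (by linarith)
      linarith
    obtain ⟨b1, b3, b5, b6, b7⟩ := H.basic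
    have c2' := H.hN (iT p)
    have hn0 : (0 : ℤ) ≤ n := by positivity
    have h1 : 2 * (n : ℤ) ≤ n * (p (iT p)).2 := by nlinarith
    have hdn : ⌊δ * n⌋₊ ≤ n := by
      have := H.hδn.2.2.2
      exact_mod_cast this
    have hd0 : 16 ≤ (⌊δ * n⌋₊ : ℤ) := by exact_mod_cast Nat.le_floor (by exact_mod_cast hn)
    have hsq : ∀ (k : ℕ), (rD θ β p b tp ia ta n ⌊δ * n⌋₊ (.inr (.inr x))).sq k =
        ((n : ℤ) * (p (iT p)).1, (⌊δ * n⌋₊ : ℤ) + k) := fun k => rfl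
    have hL : (rD θ β p b tp ia ta n ⌊δ * n⌋₊ (.inr (.inr x))).L =
      (n * (p (iT p)).2).toNat - 2 * ⌊δ * n⌋₊ := rfl
    cases e
    · refine ⟨.inr (.inr ()), fin ?_⟩
      simp only [Bool.false_eq_true, if_false]
      rw [hsq]
      change nm (_ - ftD p n) ≤ _
      unfold ftD
      rw [nm_le_iff]
      simp only [Prod.mk_sub_mk]
      omega
    · refine ⟨.inl (xT H.hp (mks p b tp)), fin ?_⟩
      simp only [if_true]
      rw [hsq, hL]
      change nm (_ - hsite p (mks p b tp) n (xT H.hp (mks p b tp))) ≤ _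
      rw [hsT H.hp H.hQ, nm_le_iff]
      simp only [Prod.mk_sub_mk]
      omega

/-- **The ends of the rows are at the holes**: free and wired frames. -/
theorem frP_ends [NeZero l] (hp : IsPolygon p) (hb : b.Ok S₀) (h0 : 0 < tp) (h1 : tp < 1)
    (ht : ∀ i : ℤ, ∀ y ∈ ({b.xl, b.xr, b.yb, b.yt} : Set ℝ), y ≠ i + tp ∧ y ≠ i - tp) :
    (frP θ β p S₀ b tp bc).EndG := by
  have hgen : H199.Gen b := ⟨hb.gx, hb.gy⟩
  have hQ := mks_ok p hgen h0 h1 ht
  obtain ⟨g, hg, hG⟩ := exists_Gap hQ l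
  refine ⟨g / 4, by positivity, fun δ hδ hδ' => ?_⟩
  filter_upwards [(tendsto_natCast_atTop_atTop.const_mul_atTop hδ).eventually_ge_atTop (16 : ℝ)]
    with n hn
  exact fun i e => rP_end hp hQ hG hδ (by linarith) hn i e

/-- **The ends of the rows are at the holes**: Dobrushin frames. -/
theorem frD_ends [NeZero l] (hp : IsPolygon p)
    (hD : Encloses p S₀) (hN : Nrm p) (hb : b.Ok S₀) (h0 : 0 < tp) (h1 : tp < 1)
    (ht : ∀ i : ℤ, ∀ y ∈ ({b.xl, b.xr, b.yb, b.yt} : Set ℝ), y ≠ i + tp ∧ y ≠ i - tp) :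
    (frD θ β p S₀ b tp ia ta).EndG := by
  obtain ⟨g, hg, -, -, hH⟩ := exists_dobN hp hD hN hb h0 h1 ht
  refine ⟨g / 4, by positivity, fun δ hδ hδ' => ?_⟩
  filter_upwards [hH g hg le_rfl δ hδ (by linarith)] with n hn
  exact fun i e => rD_end hn i e

end frames

end Vale.Agent.P167.N.ID
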