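import Vale.Agent.P167.N.ID.FrmS
import Vale.Agent.P167.N.ID.FrmO
import Vale.Agent.P167.N.ID.RowF

/-!
# P167, block ID: the walls of the frames are families of the class of the thick walls

`fam_frP`, `fam_frD`: the hypothesis `Fam` of START for the frames `frP`, `frD`, any labels.
-/

set_option autoImplicit false

namespace Vale.Agent.P167.N.ID

open Finset Filter Topology
open Vale.Agent.P167.E6 (IsPolygon Encloses)
open Vale.Agent.P167.H825 (Box)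
open Vale.Agent.P167.H825.Q (Bc)
open Vale.Agent.P167.XDL (bS)
open Vale.Agent.P167.H199 (mks mks_ok Gap exists_Gap)
open Vale.Agent.P167.H680.T (Fam Cls)
open Vale.Agent.P167.Enl (BGap exists_BGap)

variable {l : ℕ} {θ β : ℝ} {p : ZMod l → ℤ × ℤ} {S₀ : Finset (ℤ × ℤ)} {b : Box} {tp : ℝ}

theorem rP_I {bc : Bc} {n d : ℕ} (x : Fin l × Fin 3) :
    (rP θ β p b tp bc n d x).I = (shp p (mks p b tp) n d x.1 x.2).I := frowJ_I

theorem rD_I' {ia : ℕ} {ta : ℝ} {n d : ℕ} (x : IxD l) :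
    (rD θ β p b tp ia ta n d x).I = (shD p b tp n d x).I := by
  rcases x with x | x | x
  · exact frowJ_I
  · exact frowJ_I
  · rfl

/-- The walls of admissible rows are in the class. -/
theorem clR_of {Zr : ℕ → Row → ℝ} {κ : ℝ} {n : ℕ} {r : Row} (h : r.Ok θ κ n) :
    (clR θ Zr).P κ n (r.wall θ (Zr n r)) := ⟨_, ⟨r, h, rfl⟩, H680.T.Orb.refl⟩

/-- **The frames of the free and wired boundary conditions.** -/
theorem fam_frP [NeZero l] {Zr : ℕ → Row → ℝ} (hCl : (clR θ Zr).Ok) (hp : IsPolygon p)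
    (hD : Encloses p S₀) (h0 : 0 < tp) (h1 : tp < 1) {bc : Bc} (hbc : bc.In l) (hb : b.Ok S₀)
    (ht : ∀ i : ℤ, ∀ y ∈ ({b.xl, b.xr, b.yb, b.yt} : Set ℝ), y ≠ i + tp ∧ y ≠ i - tp)
    (hg : bc.Gp b) (hθ : 0 < θ) (hθ' : θ < Real.pi / 2)
    (hβ : β = (θ - Real.pi) / 2 ∨ β = (Real.pi - 3 * θ) / 2) :
    ∃ δ₀ : ℝ, 0 < δ₀ ∧ ∀ δ : ℝ, 0 < δ → δ < δ₀ →
      ∃ reg : (frP θ β p S₀ b tp bc).ι → Fin 5, Fam (clR θ Zr) S₀ b reg
        fun n i => (rowS θ).wall ((frP θ β p S₀ b tp bc).r δ n i)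
          (Zr n ((frP θ β p S₀ b tp bc).r δ n i)) := by
  have hgen : H199.Gen b := ⟨hb.gx, hb.gy⟩
  have hQ := mks_ok p hgen h0 h1 ht
  obtain ⟨g1, hg1, hG⟩ := exists_Gap hQ l
  obtain ⟨g2, hg2, hB⟩ := exists_BGap (hbc.ok (p := p) (tp := tp) hg)
  set g := min g1 g2 with hgdef
  have hg0 : 0 < g := lt_min hg1 hg2
  have hG' : Gap (mks p b tp) l g := hG.mono (min_le_left _ _)
  have hB' : BGap l (mks p b tp) g bc := hB.mono (min_le_right _ _)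
  refine ⟨g / 4, by positivity, fun δ hδ hδ' => ⟨fun x => H199.reg p b x.1 x.2, ?_⟩⟩
  have hδg : 4 * δ ≤ g := by linarith
  refine (famGeo_poly hp hD hgen hb.sub h0 h1 ht hG' hδ hδg).fam hCl (fun n x => ?_)
    ⟨g / 4, by positivity, ?_⟩
  · exact congrArg bS (rP_I (θ := θ) (β := β) (bc := bc) (x : Fin l × Fin 3))
  · filter_upwards [(tendsto_natCast_atTop_atTop.const_mul_atTop hδ).eventually_ge_atTop (16 : ℝ)]
      with n hn x
    exact clR_of (rP_ok hp hD hQ hθ hθ' hβ hG' hB' hδ hδg (by linarith) hn x)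

/-- **The frames of the Dobrushin boundary conditions.** -/
theorem fam_frD [NeZero l] {Zr : ℕ → Row → ℝ} (hCl : (clR θ Zr).Ok) (hp : IsPolygon p)
    (hD : Encloses p S₀) (hN : Nrm p) (h0 : 0 < tp) (h1 : tp < 1) {ia : ℕ} {ta : ℝ}
    (hbc : (Bc.dob ia ta).In l) (hb : b.Ok S₀)
    (ht : ∀ i : ℤ, ∀ y ∈ ({b.xl, b.xr, b.yb, b.yt} : Set ℝ), y ≠ i + tp ∧ y ≠ i - tp)
    (hg : (Bc.dob ia ta).Gp b) (hθ : 0 < θ) (hθ' : θ < Real.pi / 2)
    (hβ : β = (θ - Real.pi) / 2 ∨ β = (Real.pi - 3 * θ) / 2) :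
    ∃ δ₀ : ℝ, 0 < δ₀ ∧ ∀ δ : ℝ, 0 < δ → δ < δ₀ →
      ∃ reg : (frD θ β p S₀ b tp ia ta).ι → Fin 5, Fam (clR θ Zr) S₀ b reg
        fun n i => (rowS θ).wall ((frD θ β p S₀ b tp ia ta).r δ n i)
          (Zr n ((frD θ β p S₀ b tp ia ta).r δ n i)) := by
  have hgen : H199.Gen b := ⟨hb.gx, hb.gy⟩
  have hQ := mks_ok p hgen h0 h1 ht
  obtain ⟨hgen', hbQ⟩ := gen_bQ hp hD hN hb
  obtain ⟨q0, q1, qt⟩ := tqB_spec (bQ b (bM p))
  have hQB : (mksQ p b).Ok := mks_ok pQ hgen' q0 q1 qt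
  obtain ⟨g1, hg1, hG, hGQ⟩ := exists_gapD hp hD hN hb h0 h1 ht
  obtain ⟨g2, hg2, hB⟩ := exists_BGap (hbc.ok (p := p) (tp := tp) hg)
  set g := min g1 g2 with hgdef
  have hg0 : 0 < g := lt_min hg1 hg2
  have hG' : Gap (mks p b tp) l g := hG.mono (min_le_left _ _)
  have hGQ' : Gap (mksQ p b) 4 g := hGQ.mono (min_le_left _ _)
  have hB' : BGap l (mks p b tp) g (.dob ia ta) := hB.mono (min_le_right _ _)
  refine ⟨g / 4, by positivity, fun δ hδ hδ' => ⟨regD p b, ?_⟩⟩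
  have hδg : 4 * δ ≤ g := by linarith
  refine (famGeo_dob hp hD hN hb h0 h1 ht hG' hGQ' hδ hδg).fam hCl (fun n x => ?_)
    ⟨g / 4, by positivity, ?_⟩
  · exact congrArg bS (rD_I' x)
  · filter_upwards [(tendsto_natCast_atTop_atTop.const_mul_atTop hδ).eventually_ge_atTop (16 : ℝ)]
      with n hn x
    exact clR_of (rD_ok hp hD hN hQ hQB hθ hθ' hβ hG' hGQ' hB' hδ hδg (by linarith) hn x)

end Vale.Agent.P167.N.ID
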