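import Vale.Agent.P167.N.ID.Row
import Vale.Agent.P167.N.ID.GeoDob
import Vale.Agent.P167.H825.Q.FrmH

/-!
# P167, block ID: the rows of the frames, with their phases

* `srowJ`: the row outside of a side with the raw outward phases `F` on the inner face and
  `F - 2 hJ θ J` on the outer face, `hJ θ J = ± θ / 4`; `srowJ_Φ`, `srowJ_σ`: phases and staggers of
  the faces, edges `ce (sdv z r b σ) r` (`b`: inner face); `srowJ_Φe`, `srowJ_σe`: end sides.
* `frowJ`: the rows of a polygon, base site at the step `t` of the side `0`; `frowJ_Φ`, `frowJ_σ`.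
* `tG`, `tP`: the position of the base site of good parity.
* `rP`: the rows of the free and wired frames; `rD`: the rows of the Dobrushin frame (polygon, box,
  spoke).
* `ph_row`, `ah_row`, `at_row`: the phases of a system of walls.
-/

set_option autoImplicit false

namespace Vale.Agent.P167.N.ID

open Finset Filter Topology
open Vale.Agent.P167.A (plane plane_sg)
open Vale.Agent.P167.E6 (IsPolygon Encloses dir face region)
open Vale.Agent.P167.H825 (pdir ptau enl domP Box dirOf Marks FlowIn epos rnd bsite)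
open Vale.Agent.P167.H825.Q (srow Bc mem_srow stΦ stτ stτ_or jpos osq srow_L Cst cst_of same_side
  sq_hb sgb_hb sg_sg)
open Vale.Agent.P167.XDL (bS mem_bS)
open Vale.Agent.P167.H199 (mks ah at' hb)
open Vale.Agent.P167.Enl (sW eW tB kOf uN lt_n)
open Vale.Agent.P167.BR (ce)
open Vale.Agent.P167.H680.T (WallG WCG sgb sq)

/-! ### a row along a side -/

/-- Half of the difference of the phases of the faces: `θ / 4` (`true`) or `-θ / 4` (`false`). -/
noncomputable def hJ (θ : ℝ) (J : Bool) : ℝ := if J then θ / 4 else -(θ / 4)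

/-- The inner face (on the left of the side) of a row outside of a side in the direction `r`:
`true`: upper/right. -/
def inF (r : Fin 4) : Bool := r == 0 || r == 3

/-- The row outside of the side which starts at the site `z` in the direction `r` (the domain is on
the left of the side), steps `s ≤ σ < e`: the raw outward phase of the inner side of the step `σ` is
`F σ`, that of the outer side `F σ - 2 hJ θ J`; the colour is `T σ`; `F`, `T` are constant before and
after the step `jp`. -/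
noncomputable def srowJ (θ : ℝ) (J : Bool) (z : ℤ × ℤ) (r : Fin 4) (s e jp : ℕ) (F T : ℕ → ℝ) :
    Row :=
  ⟨srow z r s e jp (fun σ => F σ - hJ θ J) T, if J then inF r else !inF r⟩

theorem srowJ_L (θ : ℝ) (J : Bool) (z : ℤ × ℤ) (r : Fin 4) (s e jp : ℕ) (F T : ℕ → ℝ) :
    (srowJ θ J z r s e jp F T).L = e - s := srow_L _ _ _ _ _ _ _

theorem mem_srowJ {θ : ℝ} {J : Bool} {z : ℤ × ℤ} {r : Fin 4} {s e jp : ℕ} {F T : ℕ → ℝ}
    {v : ℤ × ℤ} : v ∈ (srowJ θ J z r s e jp F T).I ↔ ∃ σ, s ≤ σ ∧ σ < e ∧ v = osq z r σ :=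
  mem_srow

section faces

variable {θ : ℝ} {J : Bool} {z : ℤ × ℤ} {r : Fin 4} {s e jp σ : ℕ} {F T : ℕ → ℝ}

theorem hJ_cf (θ : ℝ) (J b i : Bool) :
    (if (if b then i else !i) = (if J then i else !i) then θ / 4 else -(θ / 4)) =
      if b then hJ θ J else -hJ θ J := by
  unfold hJ
  cases J <;> cases b <;> cases i <;> simp

/-- The site of the edge on the inner (`b`) or the outer side of a step. -/
def sdv (z : ℤ × ℤ) (r : Fin 4) (b : Bool) (σ : ℕ) : ℤ × ℤ :=
  z + (σ : ℤ) • dir r + if b then (0, 0) else dir (r - 1)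

theorem sdv_eq (x y : ℤ) (b : Bool) (σ : ℕ) :
    sdv (x, y) 0 b σ = (x + σ, if b then y else y - 1) ∧
    sdv (x, y) 1 b σ = (if b then x else x + 1, y + σ) ∧
    sdv (x, y) 2 b σ = (x - σ, if b then y else y + 1) ∧
    sdv (x, y) 3 b σ = (if b then x else x - 1, y - σ) := by
  have k0 : (x, y) + (σ : ℤ) • dir 0 = (x + σ, y) := by
    show (x, y) + (σ : ℤ) • ((1, 0) : ℤ × ℤ) = _
    simp
  have k1 : (x, y) + (σ : ℤ) • dir 1 = (x, y + σ) := by
    show (x, y) + (σ : ℤ) • ((0, 1) : ℤ × ℤ) = _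
    simp
  have k2 : (x, y) + (σ : ℤ) • dir 2 = (x - σ, y) := by
    show (x, y) + (σ : ℤ) • ((-1, 0) : ℤ × ℤ) = _
    simp; ring
  have k3 : (x, y) + (σ : ℤ) • dir 3 = (x, y - σ) := by
    show (x, y) + (σ : ℤ) • ((0, -1) : ℤ × ℤ) = _
    simp; ring
  unfold sdv
  rw [k0, k1, k2, k3]
  refine ⟨?_, ?_, ?_, ?_⟩
  · show (x + (σ : ℤ), y) + (if b then ((0, 0) : ℤ × ℤ) else (0, -1)) = _
    cases b
    · simp; ring
    · simp
  · show (x, y + (σ : ℤ)) + (if b then ((0, 0) : ℤ × ℤ) else (1, 0)) = _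
    cases b <;> simp
  · show (x - (σ : ℤ), y) + (if b then ((0, 0) : ℤ × ℤ) else (0, 1)) = _
    cases b <;> simp
  · show (x, y - (σ : ℤ)) + (if b then ((0, 0) : ℤ × ℤ) else (-1, 0)) = _
    cases b
    · simp; ring
    · simp

/-- The jump before the step. -/
theorem cst_lo (hF : Cst s e jp F) (h1 : s ≤ σ) (h2 : σ < e) {a : ℝ} {c : Prop} [Decidable c]
    (hc : c ↔ jp - s ≤ σ - s) :
    F s - a + (if c then F (e - 1) - a - (F s - a) else 0) = F σ - a := by
  rw [hF σ h1 h2]
  have hse : F s = F (e - 1) ∨ s < jp := by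
    by_cases h : s < jp
    · exact Or.inr h
    · have := hF s le_rfl (by omega)
      rw [if_neg h] at this
      exact Or.inl this
  have hee : F s = F (e - 1) ∨ jp < e := by
    by_cases h : jp < e
    · exact Or.inr h
    · have := hF (e - 1) (by omega) (by omega)
      rw [if_pos (by omega)] at this
      exact Or.inl this.symm
  by_cases h : σ < jp
  · rw [if_pos h, if_neg (fun h' => by have := hc.1 h'; omega), add_zero]
  · rw [if_neg h, if_pos (hc.2 (by omega))]; ring

/-- The jump behind the step. -/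
theorem cst_hi (hF : Cst s e jp F) (h1 : s ≤ σ) (h2 : σ < e) {a : ℝ} {c : Prop} [Decidable c]
    (hc : c ↔ e - jp ≤ e - 1 - σ) :
    F (e - 1) - a + (if c then F s - a - (F (e - 1) - a) else 0) = F σ - a := by
  rw [hF σ h1 h2]
  by_cases h : σ < jp
  · rw [if_pos h, if_pos (hc.2 (by omega))]; ring
  · rw [if_neg h, if_neg (fun h' => by have := hc.1 h'; omega), add_zero]

/-- **The phases of the faces** of a row along a side: inner (`b`) and outer face. -/
theorem srowJ_Φ (hF : Cst s e jp F) (h1 : s ≤ σ) (h2 : σ < e) (b : Bool) :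
    (srowJ θ J z r s e jp F T).Φ θ (ce (sdv z r b σ) r) =
      F σ - hJ θ J + if b then hJ θ J else -hJ θ J := by
  obtain ⟨x, y⟩ := z
  obtain ⟨s0, s1, s2, s3⟩ := sdv_eq x y b σ
  rcases Enl.fin4_cases r with rfl | rfl | rfl | rfl
  · rw [s0, ← hJ_cf θ J b (inF 0)]
    have e1 : decide ((y - 1 : ℤ) ≤ (if b then y else y - 1) - 1) =
        if b then inF 0 else !inF 0 := by
      cases b <;> simp [inF]
    have e3 := cst_lo (a := hJ θ J) hF h1 h2
      (c := ((jp - s : ℕ) : ℤ) ≤ x + σ - (x + s)) (by omega)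
    rw [← e1, ← e3]
    show (F s - hJ θ J + if decide ((y - 1 : ℤ) ≤ (if b then y else y - 1) - 1) =
        (if J then inF 0 else !inF 0) then θ / 4 else -(θ / 4)) +
      (if ((jp - s : ℕ) : ℤ) ≤ x + σ - (x + s)
        then F (e - 1) - hJ θ J - (F s - hJ θ J) else 0) = _
    ring
  · rw [s1, ← hJ_cf θ J b (inF 1)]
    have e1 : decide ((x : ℤ) ≤ (if b then x else x + 1) - 1) =
        if b then inF 1 else !inF 1 := by
      cases b <;> simp [inF]
    have e3 := cst_lo (a := hJ θ J) hF h1 h2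
      (c := ((jp - s : ℕ) : ℤ) ≤ y + σ - (y + s)) (by omega)
    rw [← e1, ← e3]
    show (F s - hJ θ J + if decide ((x : ℤ) ≤ (if b then x else x + 1) - 1) =
        (if J then inF 1 else !inF 1) then θ / 4 else -(θ / 4)) +
      (if ((jp - s : ℕ) : ℤ) ≤ y + σ - (y + s)
        then F (e - 1) - hJ θ J - (F s - hJ θ J) else 0) = _
    ring
  · rw [s2, ← hJ_cf θ J b (inF 2)]
    have e1 : decide ((y : ℤ) ≤ (if b then y else y + 1) - 1) =
        if b then inF 2 else !inF 2 := by
      cases b <;> simp [inF]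
    have e3 := cst_hi (a := hJ θ J) hF h1 h2
      (c := ((e - jp : ℕ) : ℤ) ≤ x - σ - 1 - (x - e)) (by omega)
    rw [← e1, ← e3]
    show (F (e - 1) - hJ θ J + if decide ((y : ℤ) ≤ (if b then y else y + 1) - 1) =
        (if J then inF 2 else !inF 2) then θ / 4 else -(θ / 4)) +
      (if ((e - jp : ℕ) : ℤ) ≤ x - σ - 1 - (x - e)
        then F s - hJ θ J - (F (e - 1) - hJ θ J) else 0) = _
    ring
  · rw [s3, ← hJ_cf θ J b (inF 3)]
    have e1 : decide ((x - 1 : ℤ) ≤ (if b then x else x - 1) - 1) =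
        if b then inF 3 else !inF 3 := by
      cases b <;> simp [inF]
    have e3 := cst_hi (a := hJ θ J) hF h1 h2
      (c := ((e - jp : ℕ) : ℤ) ≤ y - σ - 1 - (y - e)) (by omega)
    rw [← e1, ← e3]
    show (F (e - 1) - hJ θ J + if decide ((x - 1 : ℤ) ≤ (if b then x else x - 1) - 1) =
        (if J then inF 3 else !inF 3) then θ / 4 else -(θ / 4)) +
      (if ((e - jp : ℕ) : ℤ) ≤ y - σ - 1 - (y - e)
        then F s - hJ θ J - (F (e - 1) - hJ θ J) else 0) = _
    ring

/-- The colour before the jump. -/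
theorem cst_lo' (hT : Cst s e jp T) (hT1 : ∀ k, T k = 1 ∨ T k = -1) (h1 : s ≤ σ) (h2 : σ < e)
    {c : Prop} [Decidable c] (hc : c ↔ jp - s ≤ σ - s) :
    T s * (if c then T s * T (e - 1) else 1) = T σ := by
  rw [hT σ h1 h2]
  have hs : T s * T s = 1 := by rcases hT1 s with h | h <;> rw [h] <;> norm_num
  have hse : T s = T (e - 1) ∨ s < jp := by
    by_cases h : s < jp
    · exact Or.inr h
    · have := hT s le_rfl (by omega)
      rw [if_neg h] at this
      exact Or.inl this
  by_cases h : σ < jp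
  · rw [if_pos h, if_neg (fun h' => by have := hc.1 h'; omega), mul_one]
  · rw [if_neg h, if_pos (hc.2 (by omega)), ← mul_assoc, hs, one_mul]

theorem cst_hi' (hT : Cst s e jp T) (hT1 : ∀ k, T k = 1 ∨ T k = -1) (h1 : s ≤ σ) (h2 : σ < e)
    {c : Prop} [Decidable c] (hc : c ↔ e - jp ≤ e - 1 - σ) :
    T (e - 1) * (if c then T s * T (e - 1) else 1) = T σ := by
  rw [hT σ h1 h2]
  have he : T (e - 1) * T (e - 1) = 1 := by rcases hT1 (e - 1) with h | h <;> rw [h] <;> norm_num
  by_cases h : σ < jp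
  · rw [if_pos h, if_pos (hc.2 (by omega))]
    linear_combination T s * he
  · rw [if_neg h, if_neg (fun h' => by have := hc.1 h'; omega), mul_one]

/-- **The staggers of the faces** of a row along a side. -/
theorem srowJ_σ (hT : Cst s e jp T) (hT1 : ∀ k, T k = 1 ∨ T k = -1) (h1 : s ≤ σ) (h2 : σ < e)
    (b : Bool) : (srowJ θ J z r s e jp F T).σ θ (ce (sdv z r b σ) r) =
      T σ * ((3 * θ - Real.pi) / 4) := by
  obtain ⟨x, y⟩ := z
  obtain ⟨s0, s1, s2, s3⟩ := sdv_eq x y b σ
  rcases Enl.fin4_cases r with rfl | rfl | rfl | rfl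
  · rw [s0]
    show T s * (if ((jp - s : ℕ) : ℤ) ≤ x + σ - (x + s) then T s * T (e - 1) else 1) *
      ((3 * θ - Real.pi) / 4) = _
    rw [cst_lo' hT hT1 h1 h2 (by omega)]
  · rw [s1]
    show T s * (if ((jp - s : ℕ) : ℤ) ≤ y + σ - (y + s) then T s * T (e - 1) else 1) *
      ((3 * θ - Real.pi) / 4) = _
    rw [cst_lo' hT hT1 h1 h2 (by omega)]
  · rw [s2]
    show T (e - 1) * (if ((e - jp : ℕ) : ℤ) ≤ x - σ - 1 - (x - e) then T s * T (e - 1) else 1) *
      ((3 * θ - Real.pi) / 4) = _
    rw [cst_hi' hT hT1 h1 h2 (by omega)]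
  · rw [s3]
    show T (e - 1) * (if ((e - jp : ℕ) : ℤ) ≤ y - σ - 1 - (y - e) then T s * T (e - 1) else 1) *
      ((3 * θ - Real.pi) / 4) = _
    rw [cst_hi' hT hT1 h1 h2 (by omega)]

/-- **The phases of the end sides**: `b`: the last end, otherwise the first end. -/
theorem srowJ_Φe (hse : s < e) (b : Bool) :
    (srowJ θ J z r s e jp F T).Φ θ
      (ce (z + ((if b then e else s : ℕ) : ℤ) • dir r) (r - 1)) =
      F (if b then e - 1 else s) - hJ θ J := by
  obtain ⟨x, y⟩ := z
  obtain ⟨s0, s1, s2, s3⟩ := sdv_eq x y true (if b then e else s)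
  unfold sdv at s0 s1 s2 s3
  simp only [if_true, Prod.mk_zero_zero, add_zero] at s0 s1 s2 s3
  have m0 : (0 : Fin 4) - 1 = 3 := rfl
  have m1 : (1 : Fin 4) - 1 = 0 := rfl
  have m2 : (2 : Fin 4) - 1 = 1 := rfl
  have m3 : (3 : Fin 4) - 1 = 2 := rfl
  rcases Enl.fin4_cases r with rfl | rfl | rfl | rfl
  · rw [s0, m0]
    have e1 : decide ((x + s : ℤ) ≤ x + ((if b then e else s : ℕ) : ℤ) - 1) = b := by
      cases b <;> simp; omega
    show (if decide ((x + s : ℤ) ≤ x + ((if b then e else s : ℕ) : ℤ) - 1) then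
      F s - hJ θ J + (F (e - 1) - hJ θ J - (F s - hJ θ J)) else F s - hJ θ J) = _
    rw [e1]
    cases b
    · rfl
    · simp only [if_true]; ring
  · rw [s1, m1]
    have e1 : decide ((y + s : ℤ) ≤ y + ((if b then e else s : ℕ) : ℤ) - 1) = b := by
      cases b <;> simp; omega
    show (if decide ((y + s : ℤ) ≤ y + ((if b then e else s : ℕ) : ℤ) - 1) then
      F s - hJ θ J + (F (e - 1) - hJ θ J - (F s - hJ θ J)) else F s - hJ θ J) = _
    rw [e1]
    cases b
    · rfl
    · simp only [if_true]; ring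
  · rw [s2, m2]
    have e1 : decide ((x - e : ℤ) ≤ x - ((if b then e else s : ℕ) : ℤ) - 1) = !b := by
      cases b <;> simp; omega
    show (if decide ((x - e : ℤ) ≤ x - ((if b then e else s : ℕ) : ℤ) - 1) then
      F (e - 1) - hJ θ J + (F s - hJ θ J - (F (e - 1) - hJ θ J)) else F (e - 1) - hJ θ J) = _
    rw [e1]
    cases b
    · simp only [Bool.not_false, if_true, Bool.false_eq_true, if_false]; ring
    · rfl
  · rw [s3, m3]
    have e1 : decide ((y - e : ℤ) ≤ y - ((if b then e else s : ℕ) : ℤ) - 1) = !b := by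
      cases b <;> simp; omega
    show (if decide ((y - e : ℤ) ≤ y - ((if b then e else s : ℕ) : ℤ) - 1) then
      F (e - 1) - hJ θ J + (F s - hJ θ J - (F (e - 1) - hJ θ J)) else F (e - 1) - hJ θ J) = _
    rw [e1]
    cases b
    · simp only [Bool.not_false, if_true, Bool.false_eq_true, if_false]; ring
    · rfl

/-- **The staggers of the end sides.** -/
theorem srowJ_σe (hT1 : ∀ k, T k = 1 ∨ T k = -1) (hse : s < e) (b : Bool) :
    (srowJ θ J z r s e jp F T).σ θ
      (ce (z + ((if b then e else s : ℕ) : ℤ) • dir r) (r - 1)) =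
      T (if b then e - 1 else s) * ((θ - Real.pi) / 4) := by
  have hs : T s * T s = 1 := by rcases hT1 s with h | h <;> rw [h] <;> norm_num
  have he : T (e - 1) * T (e - 1) = 1 := by rcases hT1 (e - 1) with h | h <;> rw [h] <;> norm_num
  obtain ⟨x, y⟩ := z
  obtain ⟨s0, s1, s2, s3⟩ := sdv_eq x y true (if b then e else s)
  unfold sdv at s0 s1 s2 s3
  simp only [if_true, Prod.mk_zero_zero, add_zero] at s0 s1 s2 s3
  have m0 : (0 : Fin 4) - 1 = 3 := rfl
  have m1 : (1 : Fin 4) - 1 = 0 := rfl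
  have m2 : (2 : Fin 4) - 1 = 1 := rfl
  have m3 : (3 : Fin 4) - 1 = 2 := rfl
  rcases Enl.fin4_cases r with rfl | rfl | rfl | rfl
  · rw [s0, m0]
    have e1 : decide ((x + s : ℤ) ≤ x + ((if b then e else s : ℕ) : ℤ) - 1) = b := by
      cases b <;> simp; omega
    show (if decide ((x + s : ℤ) ≤ x + ((if b then e else s : ℕ) : ℤ) - 1) then
      T s * (T s * T (e - 1)) else T s) * ((θ - Real.pi) / 4) = _
    rw [e1]
    cases b
    · rfl
    · simp only [if_true]; linear_combination (T (e - 1) * ((θ - Real.pi) / 4)) * hs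
  · rw [s1, m1]
    have e1 : decide ((y + s : ℤ) ≤ y + ((if b then e else s : ℕ) : ℤ) - 1) = b := by
      cases b <;> simp; omega
    show (if decide ((y + s : ℤ) ≤ y + ((if b then e else s : ℕ) : ℤ) - 1) then
      T s * (T s * T (e - 1)) else T s) * ((θ - Real.pi) / 4) = _
    rw [e1]
    cases b
    · rfl
    · simp only [if_true]; linear_combination (T (e - 1) * ((θ - Real.pi) / 4)) * hs
  · rw [s2, m2]
    have e1 : decide ((x - e : ℤ) ≤ x - ((if b then e else s : ℕ) : ℤ) - 1) = !b := by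
      cases b <;> simp; omega
    show (if decide ((x - e : ℤ) ≤ x - ((if b then e else s : ℕ) : ℤ) - 1) then
      T (e - 1) * (T s * T (e - 1)) else T (e - 1)) * ((θ - Real.pi) / 4) = _
    rw [e1]
    cases b
    · simp only [Bool.not_false, if_true, Bool.false_eq_true, if_false]
      linear_combination (T s * ((θ - Real.pi) / 4)) * he
    · rfl
  · rw [s3, m3]
    have e1 : decide ((y - e : ℤ) ≤ y - ((if b then e else s : ℕ) : ℤ) - 1) = !b := by
      cases b <;> simp; omega
    show (if decide ((y - e : ℤ) ≤ y - ((if b then e else s : ℕ) : ℤ) - 1) then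
      T (e - 1) * (T s * T (e - 1)) else T (e - 1)) * ((θ - Real.pi) / 4) = _
    rw [e1]
    cases b
    · simp only [Bool.not_false, if_true, Bool.false_eq_true, if_false]
      linear_combination (T s * ((θ - Real.pi) / 4)) * he
    · rfl

end faces

/-! ### the rows of a polygon -/

section poly

variable {l : ℕ} (θ β : ℝ) (p : ZMod l → ℤ × ℤ) (Q : Marks) (n d t : ℕ) (bc : Bc) (J : ℕ → Bool)
  (C c : ℝ)

/-- **The `j`-th row of the `i`-th side**: the base site is at the step `t` of the side `0`; `J i` is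
the sign of the difference of the inner and the outer face of the rows of the side `i`; `C` is added
to the phases and the colours are multiplied with `c`. -/
noncomputable def frowJ (i j : ℕ) : Row :=
  srowJ θ (J i) ((n : ℤ) • p i) (pdir p i) (sW p n Q d i j) (eW p n Q d i j) (jpos n t bc i)
    (fun σ => C + stΦ θ β (uN p n t) (bc.ka l n t) (kOf l n t i σ))
    (fun σ => c * stτ (bc.ka l n t) (kOf l n t i σ))

/-- The position of the base site: `⌊tp n⌋` or `⌊tp n⌋ + 1`; the site is even for `s = 1` and odd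
for `s = -1`. -/
noncomputable def tG (tp s : ℝ) : ℕ :=
  rnd ((n : ℤ) • p (0 : ℕ)) (if s = 1 then (0, 0) else (1, 0)) ⌊tp * n⌋₊

end poly

/-- **The position of the base site**: good parity for the free and wired boundary conditions. -/
noncomputable def tP {l : ℕ} (p : ZMod l → ℤ × ℤ) (n : ℕ) (tp : ℝ) : Bc → ℕ
  | .free => tG p n tp 1
  | .wired => tG p n tp (-1)
  | .dob _ _ => ⌊tp * n⌋₊

/-! ### the frames for the free and wired boundary conditions -/

/-- **The rows of the frame of a polygon.** -/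
noncomputable def rP {l : ℕ} (θ β : ℝ) (p : ZMod l → ℤ × ℤ) (b : Box) (tp : ℝ) (bc : Bc)
    (n d : ℕ) (x : Fin l × Fin 3) : Row :=
  frowJ θ β p (mks p b tp) n d (tP p n tp bc) bc (fun _ => true) 0 1 x.1 x.2

/-! ### the frame for the Dobrushin boundary conditions -/

section dob

variable {l : ℕ} (θ β : ℝ) (p : ZMod l → ℤ × ℤ) (b : Box) (tp : ℝ) (ia : ℕ) (ta : ℝ)

/-- The vertex `T` is on the closed arc. -/
def clT : Prop := 1 ≤ iT p ∧ iT p ≤ ia

noncomputable instance : Decidable (clT p ia) := instDecidableAnd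

/-- The colour of the arc of `T`, of the spoke and of the box: `1`: closed, `-1`: open. -/
noncomputable def cT : ℝ := if clT p ia then 1 else -1

/-- The index of the vertex `T'` on the other arc. -/
noncomputable def jT' : ℕ := if clT p ia then 0 else 1

/-- The signs of the differences of the faces: `+` from `T` to `T'`. -/
noncomputable def JD (i : ℕ) : Bool :=
  if clT p ia then decide (iT p ≤ i) else if iT p = 0 then decide (i = 0)
  else decide (iT p ≤ i ∨ i = 0)

/-- The lifted direction of the side before `T`. -/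
noncomputable def uT : ℤ := (((pdir p 0).val : ℕ) : ℤ) + ptau p (if iT p = 0 then l - 1 else iT p - 1)

/-- The phase of the inner face of the side before `T`, at `T`: this is the phase of the east side
of the spoke. -/
noncomputable def ET : ℝ := θ / 4 * uT p + if clT p ia then 0 else β

/-- The constant of the box. -/
noncomputable def CQ : ℝ := ET θ β p ia - 3 * θ / 4

/-- **The rows of the frame**: the rows of the polygon, of the box and the spoke. The box has the base
point on the side `0` (top). -/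
noncomputable def rD (n d : ℕ) : IxD l → Row
  | .inl x => frowJ θ β p (mks p b tp) n d ⌊tp * n⌋₊ (.dob ia ta) (JD p ia) 0 1 x.1 x.2
  | .inr (.inl x) => frowJ θ β pQ (mksQ p b) (bM p * n) d
      (tG pQ (bM p * n) (tqB (bQ b (bM p))) (cT p ia)) .free (fun _ => true)
      (CQ θ β p ia) (cT p ia) x.1 x.2
  | .inr (.inr _) => ⟨{ spk p n d with c := ET θ β p ia + θ / 4, s := cT p ia, η := 1 }, false⟩

end dob

/-! ### the phases of the rows of a polygon -/

section polyΦ

variable {l : ℕ} {θ β : ℝ} {p : ZMod l → ℤ × ℤ} {S₀ : Finset (ℤ × ℤ)} {Q : Marks} {n d t : ℕ}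
  {bc : Bc} {J : ℕ → Bool} {C c : ℝ} {i j σ : ℕ}

theorem frowJ_L : (frowJ θ β p Q n d t bc J C c i j).L = eW p n Q d i j - sW p n Q d i j :=
  srowJ_L _ _ _ _ _ _ _ _ _

theorem frowJ_I : (frowJ θ β p Q n d t bc J C c i j).I = (shp p Q n d i j).I := by
  ext v
  unfold frowJ
  rw [mem_srowJ, shp_I, Enl.mem_rowP]
  rfl

/-- **The raw outward phases of the rows of a polygon** on the inner (`b`) and outer faces. -/
theorem frowJ_Φ (hp : IsPolygon p) (hD : Encloses p S₀) (hQ : Q.Ok) (hb : bc.Ok l Q) (hd : 1 ≤ d)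
    (ht : t < n) (hi : i < l) (hj : j ≤ Q.m) (h1 : sW p n Q d i j ≤ σ) (h2 : σ < eW p n Q d i j)
    (b : Bool) : (frowJ θ β p Q n d t bc J C c i j).Φ θ
      (ce (sdv ((n : ℤ) • p i) (pdir p i) b σ) (pdir p i)) =
      C + stΦ θ β (uN p n t) (bc.ka l n t) (kOf l n t i σ) - hJ θ (J i) +
        if b then hJ θ (J i) else -hJ θ (J i) := by
  refine srowJ_Φ (cst_of (m := n) (fun σ h1 h2 => lt_n hQ hd hj h1 h2) ?_) h1 h2 b
  intro σ σ' hσ hσ' h
  obtain ⟨h3, h4⟩ := same_side hp hD hb ht hi hσ hσ' h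
  show C + (θ / 4 * _ + (if _ then _ else _)) = C + (θ / 4 * _ + (if _ then _ else _))
  rw [h3]
  simp only [h4]

/-- **The staggers of the rows of a polygon.** -/
theorem frowJ_σ (hp : IsPolygon p) (hD : Encloses p S₀) (hQ : Q.Ok) (hb : bc.Ok l Q) (hd : 1 ≤ d)
    (ht : t < n) (hc : c = 1 ∨ c = -1) (hi : i < l) (hj : j ≤ Q.m) (h1 : sW p n Q d i j ≤ σ)
    (h2 : σ < eW p n Q d i j) (b : Bool) : (frowJ θ β p Q n d t bc J C c i j).σ θ
      (ce (sdv ((n : ℤ) • p i) (pdir p i) b σ) (pdir p i)) =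
      c * stτ (bc.ka l n t) (kOf l n t i σ) * ((3 * θ - Real.pi) / 4) := by
  refine srowJ_σ (cst_of (m := n) (fun σ h1 h2 => lt_n hQ hd hj h1 h2) ?_) (fun k => ?_) h1 h2 b
  · intro σ σ' hσ hσ' h
    obtain ⟨h3, h4⟩ := same_side hp hD hb ht hi hσ hσ' h
    show c * (if _ then (1 : ℝ) else -1) = c * (if _ then 1 else -1)
    simp only [h4]
  · rcases hc with rfl | rfl <;> rcases stτ_or (bc.ka l n t) (kOf l n t i k) with h | h <;>
      rw [h] <;> norm_num

/-- **The phases of the end sides of the rows of a polygon**: `b`: the last end. -/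
theorem frowJ_Φe (hse : sW p n Q d i j < eW p n Q d i j) (b : Bool) :
    (frowJ θ β p Q n d t bc J C c i j).Φ θ (ce ((n : ℤ) • p i +
      ((if b then eW p n Q d i j else sW p n Q d i j : ℕ) : ℤ) • dir (pdir p i))
        (pdir p i - 1)) =
      C + stΦ θ β (uN p n t) (bc.ka l n t)
        (kOf l n t i (if b then eW p n Q d i j - 1 else sW p n Q d i j)) - hJ θ (J i) :=
  srowJ_Φe hse b

/-- **The staggers of the end sides of the rows of a polygon.** -/
theorem frowJ_σe (hc : c = 1 ∨ c = -1) (hse : sW p n Q d i j < eW p n Q d i j) (b : Bool) :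
    (frowJ θ β p Q n d t bc J C c i j).σ θ (ce ((n : ℤ) • p i +
      ((if b then eW p n Q d i j else sW p n Q d i j : ℕ) : ℤ) • dir (pdir p i))
        (pdir p i - 1)) =
      c * stτ (bc.ka l n t) (kOf l n t i (if b then eW p n Q d i j - 1 else sW p n Q d i j)) *
        ((θ - Real.pi) / 4) := by
  refine srowJ_σe (fun k => ?_) hse b
  rcases hc with rfl | rfl <;> rcases stτ_or (bc.ka l n t) (kOf l n t i k) with h | h <;>
      rw [h] <;> norm_num

end polyΦ

/-! ### the phases of a system of rows -/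

section ph

variable {ι : Type} [Fintype ι] {θ : ℝ} {r : ι → Row} {z : ι → ℝ} {i : ι} {g : Ed}

/-- The phases at a side of one row. -/
theorem ph_row (hi : g ∈ bS (r i).I) (h : ∀ k, k ≠ i → g ∉ bS (r k).I) (b : Bool) :
    (⟨fun i => (r i).wall θ (z i), 0⟩ : WCG ι).ph g b = if sq g b ∈ (r i).I then 0 else
      sgb b * (r i).Φ θ g + (sg g : ℝ) * (r i).σ θ g := by
  show ∑ y, ((r y).wall θ (z y)).a g b + (0 : ℝ) / 2 = _
  rw [zero_div, add_zero, sum_eq_single_of_mem i (mem_univ _)]
  · show (if g ∈ bS (r i).I then _ else _) = _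
    rw [if_pos hi]
  · intro y _ hy
    have h3 : g ∉ ((r y).wall θ (z y)).S := h y hy
    rw [((r y).wall θ (z y)).off g h3]
    rfl

/-- The phase behind the side. -/
theorem ah_row (hi : g ∈ bS (r i).I) (h : ∀ k, k ≠ i → g ∉ bS (r k).I) (hd : hdv g ∉ (r i).I) :
    ah plane (⟨fun i => (r i).wall θ (z i), 0⟩ : WCG ι).ph g = (r i).Φ θ g + (r i).σ θ g := by
  have e1 := (sgb_hb g).1
  have e2 := sg_sg g
  unfold ah
  rw [ph_row hi h, if_neg (by rw [(sq_hb g).1]; exact hd)]
  linear_combination ((r i).Φ θ g) * e1 + ((r i).σ θ g) * e2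

/-- The phase before the side. -/
theorem at_row (hi : g ∈ bS (r i).I) (h : ∀ k, k ≠ i → g ∉ bS (r k).I) (hd : tlv g ∉ (r i).I) :
    at' plane (⟨fun i => (r i).wall θ (z i), 0⟩ : WCG ι).ph g = -(r i).Φ θ g + (r i).σ θ g := by
  have e1 := (sgb_hb g).2
  have e2 := sg_sg g
  unfold at'
  rw [ph_row hi h, if_neg (by rw [(sq_hb g).2]; exact hd)]
  linear_combination ((r i).Φ θ g) * e1 + ((r i).σ θ g) * e2

end ph

end Vale.Agent.P167.N.ID
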