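import Vale.Agent.P167.N.ID.FrmO
import Vale.Agent.P167.N.ID.RowF
import Vale.Agent.P167.H592.T.Row2

/-!
# P167, block ID: the phases of the frames inside of the domain

* `ah_frm`, `at_frm`: the phases of a system of rows at an exit/entry of the rows.
* `phs_of`: the field `phs` of `FrS.GeoN` for a system of rows which contains the rows of a polygon
  and whose other rows do not touch the domain.
-/

set_option autoImplicit false

namespace Vale.Agent.P167.N.ID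

open Finset Filter Topology
open Vale.Agent.P167.A (plane plane_sg)
open Vale.Agent.P167.E6 (IsPolygon Encloses dir face region)
open Vale.Agent.P167.H825 (pdir ptau enl domP Box dirOf Marks FlowIn epos rnd bsite)
open Vale.Agent.P167.H825.Q (srow Bc mem_srow stΦ stτ stτ_or jpos osq srow_L Cst cst_of same_side
  sq_hb sgb_hb sg_sg)
open Vale.Agent.P167.XDL (bS mem_bS)
open Vale.Agent.P167.H199 (mks ah at' hb)
open Vale.Agent.P167.BR (be be_even be_odd ce)
open Vale.Agent.P167.Enl (sW eW tB kOf uN lt_n qN Rows exists_kOf be_vp ip_in op_out op_inj Two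
  two_ce vp isPolygon_qN encloses_qN)
open Vale.Agent.P167.H680.T (WallG WCG sgb sq)
open Vale.Agent.P167.QX (stag)

section frm

variable {ι : Type} [Fintype ι] {θ : ℝ} {r : ι → Row} {z : ι → ℝ} {i : ι} {g : Ed}

/-- The phase behind an exit of the rows. -/
theorem ah_frm (hdis : ∀ i k, i ≠ k → Disjoint (r i).I (r k).I) (hi : tlv g ∈ (r i).I)
    (hn : ∀ k, hdv g ∉ (r k).I) :
    ah plane (⟨fun i => (r i).wall θ (z i), 0⟩ : WCG ι).ph g = (r i).Φ θ g + (r i).σ θ g := by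
  refine ah_row (mem_bS.2 (Or.inr ⟨hn i, hi⟩)) (fun k hk h => ?_) (hn i)
  rcases mem_bS.1 h with ⟨h1, -⟩ | ⟨-, h1⟩
  · exact hn k h1
  · exact Finset.disjoint_left.1 (hdis i k (Ne.symm hk)) hi h1

/-- The phase before an entry into the rows. -/
theorem at_frm (hdis : ∀ i k, i ≠ k → Disjoint (r i).I (r k).I) (hi : hdv g ∈ (r i).I)
    (hn : ∀ k, tlv g ∉ (r k).I) :
    at' plane (⟨fun i => (r i).wall θ (z i), 0⟩ : WCG ι).ph g = -(r i).Φ θ g + (r i).σ θ g := by
  refine at_row (mem_bS.2 (Or.inl ⟨hi, hn i⟩)) (fun k hk h => ?_) (hn i)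
  rcases mem_bS.1 h with ⟨h1, -⟩ | ⟨-, h1⟩
  · exact Finset.disjoint_left.1 (hdis i k (Ne.symm hk)) hi h1
  · exact hn k h1

end frm

section phs

variable {ι : Type} [Fintype ι] {l : ℕ} {θ β : ℝ} {p : ZMod l → ℤ × ℤ} {S₀ : Finset (ℤ × ℤ)}
  {Q : Marks} {n d t : ℕ} {bc : Bc} {J : ℕ → Bool} {r : ι → Row} {z : ι → ℝ}
  {f : Fin l × Fin (Q.m + 1) → ι}

/-- **The phases of a frame inside of the domain** (field `phs` of `FrS.GeoN`, `K = 0`). -/
theorem phs_of (hp : IsPolygon p) (hD : Encloses p S₀) (hQ : Q.Ok) (hb : bc.Ok l Q) (hd : 1 ≤ d)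
    (ht : t < n) (hR : Rows l n 3 (fun x : Fin l × Fin (Q.m + 1) => (x.1 : ℕ))
      (fun x => sW p n Q d x.1 x.2) (fun x => eW p n Q d x.1 x.2))
    (hr : ∀ x, r (f x) = frowJ θ β p Q n d t bc J 0 1 x.1 x.2)
    (hdis : ∀ i k, i ≠ k → Disjoint (r i).I (r k).I)
    (hdom : ∀ i, Disjoint (r i).I (enl S₀ n))
    (hoth : ∀ i, (∀ x, f x ≠ i) → ∀ g : Ed, (hdv g ∈ (r i).I → tlv g ∉ enl S₀ n) ∧
      (tlv g ∈ (r i).I → hdv g ∉ enl S₀ n)) {k : ℕ} (hk : k < l * n) :
    (be (qN p n t) (k : ZMod (l * n)) ∈ bS (univ.biUnion fun i => (r i).I) →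
      hdv (be (qN p n t) (k : ZMod (l * n))) ∈ enl S₀ n →
      ah plane (⟨fun i => (r i).wall θ (z i), 0⟩ : WCG ι).ph
        (be (qN p n t) (k : ZMod (l * n))) =
        θ / 4 * uN p n t k + stag θ β (qN p n t) (bc.ka l n t) k + 0) ∧
    (be (qN p n t) (k : ZMod (l * n)) ∈ bS (univ.biUnion fun i => (r i).I) →
      tlv (be (qN p n t) (k : ZMod (l * n))) ∈ enl S₀ n →
      at' plane (⟨fun i => (r i).wall θ (z i), 0⟩ : WCG ι).ph
        (be (qN p n t) (k : ZMod (l * n))) =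
        -(θ / 4 * uN p n t k + stag θ β (qN p n t) (bc.ka l n t) k + 0)) := by
  have hn : 0 < n := by omega
  have hq := isPolygon_qN hn hp t
  have hE := encloses_qN hn hp hD t
  obtain ⟨i, σ, hi, hσ, hkk⟩ := exists_kOf ht hk
  set g := be (qN p n t) (k : ZMod (l * n)) with hg
  have e1 : g = ce (vp p n i σ) (pdir p i) := by
    rw [hg, hkk]
    exact be_vp hp hi ht hσ
  have hin := ip_in hp hD hi hσ
  have hout := op_out hp hD hi hσ
  have htwo : Two g (face (vp p n i σ) (pdir p i)) (Enl.op p n i σ) := by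
    rw [e1]
    exact two_ce _ _
  -- the row of a square outside
  have key : ∀ u, u ∈ univ.biUnion (fun i => (r i).I) → u = Enl.op p n i σ →
      (hdv g = u ∧ tlv g ∈ enl S₀ n ∨ tlv g = u ∧ hdv g ∈ enl S₀ n) →
      ∃ x, u ∈ (r (f x)).I ∧ (x.1 : ℕ) = i ∧ sW p n Q d x.1 x.2 ≤ σ ∧
        σ < eW p n Q d x.1 x.2 := by
    intro u hu hu2 hgu
    obtain ⟨i₀, -, hi₀⟩ := mem_biUnion.1 hu
    by_cases hx : ∃ x, f x = i₀
    · obtain ⟨x, rfl⟩ := hx
      refine ⟨x, hi₀, ?_⟩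
      rw [hr, frowJ_I, shp_I, Enl.mem_rowP] at hi₀
      obtain ⟨σ', h1, h2, h3⟩ := hi₀
      have a1 := hR.lo x
      have a2 := hR.hi x
      obtain ⟨k1, k2⟩ := op_inj (σ := (σ' : ℤ)) (σ' := (σ : ℤ)) hp x.1.2 hi (by omega) (by omega)
        (by omega) (by omega) (h3.symm.trans hu2)
      have k2' : σ' = σ := by omega
      subst k2'
      exact ⟨k1, h1, h2⟩
    · push Not at hx
      obtain ⟨h1, h2⟩ := hoth i₀ hx g
      rcases hgu with ⟨h3, h4⟩ | ⟨h3, h4⟩
      · exact absurd h4 (h1 (h3 ▸ hi₀))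
      · exact absurd h4 (h2 (h3 ▸ hi₀))
  have hΦ : ∀ x, (x.1 : ℕ) = i → sW p n Q d x.1 x.2 ≤ σ → σ < eW p n Q d x.1 x.2 →
      (r (f x)).Φ θ g = stΦ θ β (uN p n t) (bc.ka l n t) k ∧
      (r (f x)).σ θ g = stτ (bc.ka l n t) k * ((3 * θ - Real.pi) / 4) := by
    rintro x rfl h1 h2
    have a1 := frowJ_Φ (θ := θ) (β := β) (J := J) (C := 0) (c := 1) hp hD hQ hb hd ht x.1.2
      (Nat.lt_succ_iff.1 x.2.2) h1 h2 true
    have a2 := frowJ_σ (θ := θ) (β := β) (J := J) (C := 0) (c := 1) hp hD hQ hb hd ht (Or.inl rfl)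
      x.1.2 (Nat.lt_succ_iff.1 x.2.2) h1 h2 true
    have e2 : ce (sdv ((n : ℤ) • p ((x.1 : ℕ) : ZMod l)) (pdir p x.1) true σ) (pdir p x.1) = g := by
      rw [e1]
      unfold sdv
      rw [if_pos rfl]
      congr 1
      show _ + ((0, 0) : ℤ × ℤ) = _
      rw [Prod.mk_zero_zero, add_zero]
      rfl
    rw [e2, ← hr] at a1 a2
    rw [a1, a2, hkk]
    simp only [if_true, one_mul, and_true]
    ring
  constructor
  · intro hb1 hh
    have h1 : tlv g = Enl.op p n i σ := by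
      rcases htwo with ⟨-, k4⟩ | ⟨k3, -⟩
      · exact k4
      · rw [k3] at hh
        exact absurd hh hout
    have h2 : hdv g ∉ univ.biUnion (fun i => (r i).I) := fun h => by
      obtain ⟨i₀, -, hi₀⟩ := mem_biUnion.1 h
      exact Finset.disjoint_left.1 (hdom i₀) hi₀ hh
    have h3 : tlv g ∈ univ.biUnion (fun i => (r i).I) := by
      rcases mem_bS.1 hb1 with ⟨h, -⟩ | ⟨-, h⟩
      · exact absurd h h2
      · exact h
    obtain ⟨x, k1, k2, k3, k4⟩ := key _ h3 h1 (Or.inr ⟨rfl, hh⟩)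
    obtain ⟨b1, b2⟩ := hΦ x k2 k3 k4
    rw [ah_frm hdis k1 fun k h => h2 (mem_biUnion.2 ⟨k, mem_univ _, h⟩), b1, b2]
    have hev : Even ((qN p n t (k : ZMod (l * n))).1 + (qN p n t (k : ZMod (l * n))).2) := by
      by_contra hne
      exact (be_odd hq hE hne).2.2.2 hh
    unfold stΦ stτ stag
    by_cases hkk : k < bc.ka l n t
    · rw [if_pos hkk, if_pos hkk, if_pos hkk, if_pos hev]
      ring
    · rw [if_neg hkk, if_neg hkk, if_neg hkk, if_pos hev]
      ring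
  · intro hb1 hh
    have h1 : hdv g = Enl.op p n i σ := by
      rcases htwo with ⟨-, k4⟩ | ⟨k3, -⟩
      · rw [k4] at hh
        exact absurd hh hout
      · exact k3
    have h2 : tlv g ∉ univ.biUnion (fun i => (r i).I) := fun h => by
      obtain ⟨i₀, -, hi₀⟩ := mem_biUnion.1 h
      exact Finset.disjoint_left.1 (hdom i₀) hi₀ hh
    have h3 : hdv g ∈ univ.biUnion (fun i => (r i).I) := by
      rcases mem_bS.1 hb1 with ⟨h, -⟩ | ⟨-, h⟩
      · exact h
      · exact absurd h h2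
    obtain ⟨x, k1, k2, k3, k4⟩ := key _ h3 h1 (Or.inl ⟨rfl, hh⟩)
    obtain ⟨b1, b2⟩ := hΦ x k2 k3 k4
    rw [at_frm hdis k1 fun k h => h2 (mem_biUnion.2 ⟨k, mem_univ _, h⟩), b1, b2]
    have hev : ¬ Even ((qN p n t (k : ZMod (l * n))).1 + (qN p n t (k : ZMod (l * n))).2) := by
      intro hne
      exact (be_even hq hE hne).2.2.2 hh
    unfold stΦ stτ stag
    by_cases hkk : k < bc.ka l n t
    · rw [if_pos hkk, if_pos hkk, if_pos hkk, if_neg hev]
      ring
    · rw [if_neg hkk, if_neg hkk, if_neg hkk, if_neg hev]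
      ring

end phs

end Vale.Agent.P167.N.ID
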