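import Vale.Agent.P167.N.ID.FrmP
import Vale.Agent.P167.N.ID.FrmS
import Vale.Agent.P167.N.ID.GeoSG

/-!
# P167, block ID: the fields `val` and `phs` of `FrS.GeoN` for the two families of frames
-/

set_option autoImplicit false

namespace Vale.Agent.P167.N.ID

open Finset Filter Topology
open Vale.Agent.P167.A (plane plane_sg)
open Vale.Agent.P167.E6 (IsPolygon Encloses dir face region)
open Vale.Agent.P167.H825 (pdir ptau enl domP Box dirOf Marks FlowIn epos rnd bsite)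
open Vale.Agent.P167.H825.Q (srow Bc)
open Vale.Agent.P167.XDL (bS mem_bS)
open Vale.Agent.P167.H199 (mks ah at' hb Gap)
open Vale.Agent.P167.BR (be)
open Vale.Agent.P167.Enl (sW eW tB kOf uN qN Rows BGap rows_marks)
open Vale.Agent.P167.H680.T (WallG WCG uI mem_uI)
open Vale.Agent.P167.QX (stag)

variable {l : ℕ} {θ β : ℝ} {p : ZMod l → ℤ × ℤ} {S₀ : Finset (ℤ × ℤ)} {b : Box} {tp : ℝ} {bc : Bc}
  {n : ℕ} {g δ κ : ℝ} {ia : ℕ} {ta : ℝ}

/-- Rows at a positive distance are disjoint. -/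
theorem disj_of_sep {I J : Finset (ℤ × ℤ)} (hn : 16 ≤ δ * n)
    (h : ∀ u ∈ I, ∀ v ∈ J, δ * n / 2 ≤ (nm (u - v) : ℝ)) : Disjoint I J := by
  rw [Finset.disjoint_left]
  intro u hu hv
  have h1 := h u hu u hv
  rw [sub_self] at h1
  have h2 : nm (0 : ℤ × ℤ) = 0 := by simp [nm]
  rw [h2] at h1
  norm_num at h1
  linarith

/-- The rows of the marks, at distance at least `3` from the vertices. -/
theorem rows3 {Q : Marks} (hQ : Q.Ok) (hg : Gap Q l g) (hδ : 0 < δ) (hδg : 4 * δ ≤ g)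
    (hn : 16 ≤ δ * n) : Rows l n 3 (fun x : Fin l × Fin (Q.m + 1) => (x.1 : ℕ))
      (fun x => sW p n Q ⌊δ * n⌋₊ x.1 x.2) (fun x => eW p n Q ⌊δ * n⌋₊ x.1 x.2) := by
  have h := rows_marks (p := p) hQ hg hδ hδg hn
  have h1 : 16 ≤ ⌊δ * n⌋₊ := Nat.le_floor (by push_cast; linarith)
  refine ⟨h.lt, fun x => ?_, fun x => ?_, fun x y hxy hi => ?_⟩
  · have := h.lo x
    omega
  · have := h.hi x
    omega
  · have := h.dis x y hxy hi
    omega

/-- **The field `phs` for the free and wired frames.** -/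
theorem frP_phs [NeZero l] (hp : IsPolygon p) (hD : Encloses p S₀) (hN : Nrm p)
    (hQ : (mks p b tp).Ok) (hb : bc.Ok l (mks p b tp)) (hg : Gap (mks p b tp) l g) (hδ : 0 < δ)
    (hδg : 4 * δ ≤ g) (hn : 16 ≤ δ * n) : ∃ K : ℝ, ∀ j < l * n,
    (be (qN p n ((frP θ β p S₀ b tp bc).t n)) (j : ZMod (l * n)) ∈
        bS ((frP θ β p S₀ b tp bc).U (rowS θ) δ n) →
      hdv (be (qN p n ((frP θ β p S₀ b tp bc).t n)) (j : ZMod (l * n))) ∈ enl S₀ n →
      ah plane ((frP θ β p S₀ b tp bc).ph (rowS θ) δ n 0)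
        (be (qN p n ((frP θ β p S₀ b tp bc).t n)) (j : ZMod (l * n))) =
        θ / 4 * uN p n ((frP θ β p S₀ b tp bc).t n) j +
          stag θ β (qN p n ((frP θ β p S₀ b tp bc).t n)) ((frP θ β p S₀ b tp bc).k n) j + K) ∧
    (be (qN p n ((frP θ β p S₀ b tp bc).t n)) (j : ZMod (l * n)) ∈
        bS ((frP θ β p S₀ b tp bc).U (rowS θ) δ n) →
      tlv (be (qN p n ((frP θ β p S₀ b tp bc).t n)) (j : ZMod (l * n))) ∈ enl S₀ n →
      at' plane ((frP θ β p S₀ b tp bc).ph (rowS θ) δ n 0)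
        (be (qN p n ((frP θ β p S₀ b tp bc).t n)) (j : ZMod (l * n))) =
        -(θ / 4 * uN p n ((frP θ β p S₀ b tp bc).t n) j +
          stag θ β (qN p n ((frP θ β p S₀ b tp bc).t n)) ((frP θ β p S₀ b tp bc).k n) j + K)) := by
  have hG := geoS_poly hp hD hQ hg hδ hδg hn hN
  have hI : ∀ x : Fin l × Fin 3, (rP θ β p b tp bc n ⌊δ * n⌋₊ x).I =
      (shp p (mks p b tp) n ⌊δ * n⌋₊ x.1 x.2).I := fun x => frowJ_I
  have hdis : ∀ i k : Fin l × Fin 3, i ≠ k → Disjoint (rP θ β p b tp bc n ⌊δ * n⌋₊ i).I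
      (rP θ β p b tp bc n ⌊δ * n⌋₊ k).I := fun i k hik => by
    rw [hI, hI]
    exact disj_of_sep hn (hG.sepr i k hik)
  have hdom : ∀ i : Fin l × Fin 3, Disjoint (rP θ β p b tp bc n ⌊δ * n⌋₊ i).I (enl S₀ n) :=
    fun i => by
    rw [hI, Finset.disjoint_left]
    intro u hu h
    exact Finset.disjoint_left.1 hG.dom (mem_uI.2 ⟨i, hu⟩) h
  refine ⟨0, fun j hj => ?_⟩
  have hoth : ∀ i : Fin l × Fin 3, (∀ x : Fin l × Fin 3, x ≠ i) →
      ∀ g : Ed, (hdv g ∈ (rP θ β p b tp bc n ⌊δ * n⌋₊ i).I → tlv g ∉ enl S₀ n) ∧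
        (tlv g ∈ (rP θ β p b tp bc n ⌊δ * n⌋₊ i).I → hdv g ∉ enl S₀ n) :=
    fun i hi => absurd (Eq.refl i) (hi i)
  exact phs_of (ι := Fin l × Fin 3) (r := fun x => rP θ β p b tp bc n ⌊δ * n⌋₊ x)
    (f := fun x => x) (Q := mks p b tp) (d := ⌊δ * n⌋₊) (J := fun _ => true) (z := fun _ => 0)
    hp hD hQ hb (Nat.le_floor (by push_cast; linarith))
    (t_lt hQ hg hδg hn (tP_le p n tp bc).2) (rows3 hQ hg hδ hδg hn) (fun x => rfl) hdis hdom
    hoth hj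

/-- **The field `val` for the free and wired frames.** -/
theorem frP_val [NeZero l] (hc : 0 ≤ Real.cos θ) (hp : IsPolygon p) (hD : Encloses p S₀)
    (hQ : (mks p b tp).Ok) (hθ : 0 < θ) (hθ' : θ < Real.pi / 2)
    (hβ : β = (θ - Real.pi) / 2 ∨ β = (Real.pi - 3 * θ) / 2) (hg : Gap (mks p b tp) l g)
    (hbg : BGap l (mks p b tp) g bc) (hδ : 0 < δ) (hδg : 4 * δ ≤ g) (hκ : 4 * κ ≤ g)
    (hκ0 : 0 ≤ κ) (hn : 16 ≤ δ * n) (i : (frP θ β p S₀ b tp bc).ι) :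
    (rowF hc).Val ((frP θ β p S₀ b tp bc).r δ n i) ∧
      κ * n ≤ (rowF hc).mg ((frP θ β p S₀ b tp bc).r δ n i) := by
  have h := rP_ok hp hD hQ hθ hθ' hβ hg hbg hδ hδg hκ hn i
  have hκn : 0 ≤ κ * n := by positivity
  exact ⟨h.val hκn, h.mg hκn⟩

/-- The rows of the Dobrushin frames have the shapes `shD`. -/
theorem rowD_I (x : IxD l) {d : ℕ} : (rD θ β p b tp ia ta n d x).I = (shD p b tp n d x).I := by
  rcases x with x | x | x
  · exact frowJ_I
  · exact frowJ_I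
  · rfl

/-- **The field `phs` for the Dobrushin frames.** -/
theorem frD_phs [NeZero l] (H : DobN p S₀ b tp g δ n)
    (hb : (Bc.dob ia ta).Ok l (mks p b tp)) : ∃ K : ℝ, ∀ j < l * n,
    (be (qN p n ((frD θ β p S₀ b tp ia ta).t n)) (j : ZMod (l * n)) ∈
        bS ((frD θ β p S₀ b tp ia ta).U (rowS θ) δ n) →
      hdv (be (qN p n ((frD θ β p S₀ b tp ia ta).t n)) (j : ZMod (l * n))) ∈ enl S₀ n →
      ah plane ((frD θ β p S₀ b tp ia ta).ph (rowS θ) δ n 0)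
        (be (qN p n ((frD θ β p S₀ b tp ia ta).t n)) (j : ZMod (l * n))) =
        θ / 4 * uN p n ((frD θ β p S₀ b tp ia ta).t n) j +
          stag θ β (qN p n ((frD θ β p S₀ b tp ia ta).t n))
            ((frD θ β p S₀ b tp ia ta).k n) j + K) ∧
    (be (qN p n ((frD θ β p S₀ b tp ia ta).t n)) (j : ZMod (l * n)) ∈
        bS ((frD θ β p S₀ b tp ia ta).U (rowS θ) δ n) →
      tlv (be (qN p n ((frD θ β p S₀ b tp ia ta).t n)) (j : ZMod (l * n))) ∈ enl S₀ n →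
      at' plane ((frD θ β p S₀ b tp ia ta).ph (rowS θ) δ n 0)
        (be (qN p n ((frD θ β p S₀ b tp ia ta).t n)) (j : ZMod (l * n))) =
        -(θ / 4 * uN p n ((frD θ β p S₀ b tp ia ta).t n) j +
          stag θ β (qN p n ((frD θ β p S₀ b tp ia ta).t n))
            ((frD θ β p S₀ b tp ia ta).k n) j + K)) := by
  have hG := H.geoS
  obtain ⟨b1, b3, b5, b6, b7⟩ := H.basic
  have hn0 : (1 : ℤ) ≤ n := by exact_mod_cast b5
  have hd16 : 16 ≤ ⌊δ * n⌋₊ := Nat.le_floor (by push_cast; linarith [H.hn])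
  have hI : ∀ x : IxD l, (rD θ β p b tp ia ta n ⌊δ * n⌋₊ x).I =
      (shD p b tp n ⌊δ * n⌋₊ x).I := fun x => rowD_I x
  have hdis : ∀ i k : IxD l, i ≠ k → Disjoint (rD θ β p b tp ia ta n ⌊δ * n⌋₊ i).I
      (rD θ β p b tp ia ta n ⌊δ * n⌋₊ k).I := fun i k hik => by
    rw [hI, hI]
    exact disj_of_sep H.hn (hG.sepr i k hik)
  have hdom : ∀ i : IxD l, Disjoint (rD θ β p b tp ia ta n ⌊δ * n⌋₊ i).I (enl S₀ n) :=
    fun i => by
    rw [hI]
    exact Finset.disjoint_of_subset_left (fun u hu => mem_uI.2 ⟨i, hu⟩) hG.dom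
  -- the rows of the box and the spoke do not touch the domain
  have hfar : ∀ i : IxD l, (∀ x : Fin l × Fin 3, (Sum.inl x : IxD l) ≠ i) →
      ∀ u ∈ (rD θ β p b tp ia ta n ⌊δ * n⌋₊ i).I, ∀ v ∈ enl S₀ n, 1 < nm (u - v) := by
    intro i hi u hu v hv
    rw [hI] at hu
    have h1 := enl_mem H.hp H.hD H.hN b5 hv
    have h2 := ((lowV_iT H.hp).enl H.hD b5 hv).1
    have hlt : (2 : ℤ) ≤ nm (u - v) := by
      rcases i with x | x | x
      · exact absurd rfl (hi x)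
      · have h3 := H.rowQ_mem' hu
        rw [le_nm_iff]
        simp only [Prod.fst_sub, Prod.snd_sub]
        omega
      · have h3 := H.spk_mem' hu
        rw [le_nm_iff]
        simp only [Prod.fst_sub, Prod.snd_sub]
        omega
    omega
  refine ⟨0, fun j hj => ?_⟩
  exact phs_of (ι := IxD l) (f := fun x => Sum.inl x) (Q := mks p b tp) (d := ⌊δ * n⌋₊)
    (J := JD p ia) (z := fun _ => 0) H.hp H.hD H.hQ hb (by omega)
    (t_lt H.hQ H.hg H.hδg H.hn (tP_le p n tp (.dob ia ta)).2) (rows3 H.hQ H.hg H.hδ H.hδg H.hn)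
    (fun x => rfl) hdis hdom
    (fun i hi e => ⟨fun h1 h2 => by
        have h3 := hfar i hi _ h1 _ h2
        have h4 := H680.T.nm_ht e
        omega,
      fun h1 h2 => by
        have h3 := hfar i hi _ h1 _ h2
        have h4 := H680.T.nm_ht e
        rw [← H199.nm_neg, neg_sub] at h3
        omega⟩) hj

/-- **The field `val` for the Dobrushin frames.** -/
theorem frD_val [NeZero l] (hc : 0 ≤ Real.cos θ) (H : DobN p S₀ b tp g δ n) (hθ : 0 < θ)
    (hθ' : θ < Real.pi / 2) (hβ : β = (θ - Real.pi) / 2 ∨ β = (Real.pi - 3 * θ) / 2)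
    (hbg : BGap l (mks p b tp) g (.dob ia ta)) (hκ : 4 * κ ≤ g) (hκ0 : 0 ≤ κ)
    (i : (frD θ β p S₀ b tp ia ta).ι) :
    (rowF hc).Val ((frD θ β p S₀ b tp ia ta).r δ n i) ∧
      κ * n ≤ (rowF hc).mg ((frD θ β p S₀ b tp ia ta).r δ n i) := by
  have h := rD_ok H.hp H.hD H.hN H.hQ H.hQ' hθ hθ' hβ H.hg H.hg' hbg H.hδ H.hδg hκ H.hn i
  have hκn : 0 ≤ κ * n := by positivity
  exact ⟨h.val hκn, h.mg hκn⟩

end Vale.Agent.P167.N.ID
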