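import Vale.Agent.P167.N.ID.FrmC2
import Vale.Agent.P167.N.ID.FrmQ
import Vale.Agent.P167.H592.S.Tips

/-!
# P167, block ID: the special points of the rows of the frames

The killed tips are at the holes (`rP_tip`, `rD_tip`), the base points and junctions are far from the
holes (`rP_oth`, `rD_oth`).
-/

set_option autoImplicit false

namespace Vale.Agent.P167.N.ID

open Finset Filter Topology
open Vale.Agent.P167.FK (Bq)
open Vale.Agent.P167.E6 (IsPolygon Encloses dir face region)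
open Vale.Agent.P167.H825 (pdir ptau enl domP Box dirOf Marks FlowIn epos rnd bsite)
open Vale.Agent.P167.H825.Q (srow Bc mem_srow stΦ stτ stτ_or jpos osq srow_L Cst)
open Vale.Agent.P167.H662 (hsite)
open Vale.Agent.P167.H199 (mks Gap c0)
open Vale.Agent.P167.Enl (sW eW tB kOf uN lt_n BGap RB rb_of vp nm_tri nm_sub_comm op_near vp_same
  vp_far face_back face_near pA_lt vp_pA pA fl theta_mono gn_big fin4_cases ctr_tips ctr_tip)

/-! ### the corners of a row along a side -/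

section side

variable {θ κ : ℝ} {J : Bool} {z : ℤ × ℤ} {r : Fin 4} {s e jp n : ℕ} {F T : ℕ → ℝ}

/-- The corners of the ends are next to the squares of the first or of the last step. -/
theorem srowJ_end (h : s < e) (b b' : Bool) :
    nm ((srowJ θ J z r s e jp F T).st b ((srowJ θ J z r s e jp F T).ke b') - osq z r s) ≤ 1 ∨
    nm ((srowJ θ J z r s e jp F T).st b ((srowJ θ J z r s e jp F T).ke b') -
      osq z r (e - 1)) ≤ 1 := by
  have key : ∀ σ, s ≤ σ → σ < e → (srowJ θ J z r s e jp F T).sq (Enl.idx r s e σ) = osq z r σ :=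
    fun σ h1 h2 => H825.Q.srow_sq z r _ _ h1 h2
  have k1 := key s le_rfl h
  have k2 := key (e - 1) (by omega) (by omega)
  have hL := srowJ_L θ J z r s e jp F T
  cases b'
  · have hn := (srowJ θ J z r s e jp F T).near_st b 0
    rcases Enl.idx_first r h with ⟨h1, h2⟩ | ⟨h1, h2⟩
    · left
      rw [h1] at k1
      rw [← k1]
      exact hn
    · right
      rw [h1] at k2
      rw [← k2]
      exact hn
  · have hn := (srowJ θ J z r s e jp F T).near_st' b (k := (srowJ θ J z r s e jp F T).L) (by omega)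
    rw [show (srowJ θ J z r s e jp F T).L - 1 = e - s - 1 by omega] at hn
    rcases Enl.idx_first r h with ⟨h1, h2⟩ | ⟨h1, h2⟩
    · right
      rw [h2] at k2
      rw [← k2]
      exact hn
    · left
      rw [h2] at k1
      rw [← k1]
      exact hn

/-- The sites of the special point. -/
theorem srowJ_mid (b : Bool) (h0 : 0 < (srowJ θ J z r s e jp F T).k0)
    (h1 : (srowJ θ J z r s e jp F T).k0 < (srowJ θ J z r s e jp F T).L) :
    s < jp ∧ jp < e ∧ min (srowJ θ J z r s e jp F T).k0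
      ((srowJ θ J z r s e jp F T).L - (srowJ θ J z r s e jp F T).k0) = min (jp - s) (e - jp) ∧
    ∃ σ, s ≤ σ ∧ σ < e ∧ (σ = jp ∨ σ + 1 = jp) ∧
      nm ((srowJ θ J z r s e jp F T).st b (srowJ θ J z r s e jp F T).k0 - osq z r σ) ≤ 1 := by
  have key : ∀ σ, s ≤ σ → σ < e → (srowJ θ J z r s e jp F T).sq (Enl.idx r s e σ) = osq z r σ :=
    fun σ h1 h2 => H825.Q.srow_sq z r _ _ h1 h2
  have hL := srowJ_L θ J z r s e jp F T
  have hk : (srowJ θ J z r s e jp F T).k0 = if r = 0 ∨ r = 1 then jp - s else e - jp :=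
    Enl.srow_k0 _ _ _ _ _ _ _
  have hn := (srowJ θ J z r s e jp F T).near_st b (srowJ θ J z r s e jp F T).k0
  rw [hL] at h1
  by_cases hr : r = 0 ∨ r = 1
  · rw [if_pos hr] at hk
    rw [hk] at h0 h1
    refine ⟨by omega, by omega, by omega, jp, by omega, by omega, Or.inl rfl, ?_⟩
    have h2 := key jp (by omega) (by omega)
    unfold Enl.idx at h2
    rw [if_pos hr, ← hk] at h2
    rw [← h2]
    exact hn
  · rw [if_neg hr] at hk
    rw [hk] at h0 h1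
    refine ⟨by omega, by omega, by omega, jp - 1, by omega, by omega, Or.inr (by omega), ?_⟩
    have h2 := key (jp - 1) (by omega) (by omega)
    unfold Enl.idx at h2
    rw [if_neg hr, show e - 1 - (jp - 1) = e - jp by omega, ← hk] at h2
    rw [← h2]
    exact hn

/-- **The special point of a row along a side which is not plain.** -/
theorem srowJ_spec (b : Bool) (hok : (srowJ θ J z r s e jp F T).Ok θ κ n) (hκ : 1 ≤ κ * n)
    (hx : ¬ (srowJ θ J z r s e jp F T).Plain) :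
    (s + κ * n ≤ jp ∧ jp + κ * n ≤ e) ∧ s < jp ∧ jp < e ∧
    ∃ σ, s ≤ σ ∧ σ < e ∧ (σ = jp ∨ σ + 1 = jp) ∧
      nm ((srowJ θ J z r s e jp F T).st b (srowJ θ J z r s e jp F T).k0 - osq z r σ) ≤ 1 := by
  rcases hok.kind with h | ⟨-, h1, h2⟩
  · exact absurd h hx
  have h3 : 0 < (srowJ θ J z r s e jp F T).k0 := by
    have : (0 : ℝ) < (srowJ θ J z r s e jp F T).k0 := by linarith
    exact_mod_cast this
  have h4 : (srowJ θ J z r s e jp F T).k0 < (srowJ θ J z r s e jp F T).L := by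
    have : ((srowJ θ J z r s e jp F T).k0 : ℝ) < (srowJ θ J z r s e jp F T).L := by linarith
    exact_mod_cast this
  obtain ⟨a1, a2, a3, a4⟩ := srowJ_mid b h3 h4
  refine ⟨?_, a1, a2, a4⟩
  have h5 : κ * n ≤ ((min (jp - s) (e - jp) : ℕ) : ℝ) := by
    rw [← a3, Nat.cast_min, Nat.cast_sub h4.le]
    exact le_min h1 (by linarith)
  rw [Nat.cast_min, Nat.cast_sub a1.le, Nat.cast_sub a2.le] at h5
  have h6 := h5.trans (min_le_left _ _)
  have h7 := h5.trans (min_le_right _ _)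
  constructor <;> linarith

end side

/-! ### the rows of a polygon -/

section poly

variable {l : ℕ} {p : ZMod l → ℤ × ℤ} {S₀ : Finset (ℤ × ℤ)} {Q : Marks} {bc : Bc} {t n : ℕ}
  {θ β κ C c g δ : ℝ} {J : ℕ → Bool}

/-- **The tips are next to the marks.** -/
theorem frowJ_tip (hp : IsPolygon p) (hQ : Q.Ok) (hg : Gap Q l g) (hδ : 0 < δ)
    (hδg : 4 * δ ≤ g) (hn : 16 ≤ δ * n) (x : Fin l × Fin (Q.m + 1)) (b b' : Bool) :
    ∃ y : Fin l × Fin (Q.m + 1), (nm ((frowJ θ β p Q n ⌊δ * n⌋₊ t bc J C c x.1 x.2).st b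
      ((frowJ θ β p Q n ⌊δ * n⌋₊ t bc J C c x.1 x.2).ke b') - hsite p Q n y) : ℝ) ≤
        2 * δ * n := by
  have hse := (rb_of (p := p) hQ hg hδ hδg hn x.1.2 (j := x.2) (by omega)).se
  have h0 := ctr_tip (θ := θ) (β := β) (bc := bc) hp hQ hg hδ hδg hn x
    (show (0 : Fin 3) ≠ 2 by decide)
  have h1 := ctr_tip (θ := θ) (β := β) (bc := bc) hp hQ hg hδ hδg hn x
    (show (1 : Fin 3) ≠ 2 by decide)
  have fin : ∀ {v w : ℤ × ℤ}, nm (v - w) ≤ 1 →
      (∃ y : Fin l × Fin (Q.m + 1), nm (w - hsite p Q n y) ≤ (⌊δ * n⌋₊ : ℤ) + 2) →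
      ∃ y : Fin l × Fin (Q.m + 1), (nm (v - hsite p Q n y) : ℝ) ≤ 2 * δ * n := by
    rintro v w h2 ⟨y, hy⟩
    refine ⟨y, ?_⟩
    have h3 := nm_tri v w (hsite p Q n y)
    have h4 : nm (v - hsite p Q n y) ≤ (⌊δ * n⌋₊ : ℤ) + 3 := by omega
    have h5 : (nm (v - hsite p Q n y) : ℝ) ≤ (⌊δ * n⌋₊ : ℝ) + 3 := by exact_mod_cast h4
    have h6 : (⌊δ * n⌋₊ : ℝ) ≤ δ * n := Nat.floor_le (by linarith)
    linarith
  have e1 : osq ((n : ℤ) • p (x.1 : ℕ)) (pdir p x.1) (sW p n Q ⌊δ * n⌋₊ x.1 x.2) =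
      Enl.op p n x.1 (sW p n Q ⌊δ * n⌋₊ x.1 x.2 : ℕ) := rfl
  have e2 : osq ((n : ℤ) • p (x.1 : ℕ)) (pdir p x.1) (eW p n Q ⌊δ * n⌋₊ x.1 x.2 - 1) =
      Enl.op p n x.1 ((eW p n Q ⌊δ * n⌋₊ x.1 x.2 - 1 : ℕ) : ℤ) := rfl
  have h2 : nm ((frowJ θ β p Q n ⌊δ * n⌋₊ t bc J C c x.1 x.2).st b
      ((frowJ θ β p Q n ⌊δ * n⌋₊ t bc J C c x.1 x.2).ke b') -
        Enl.op p n x.1 (sW p n Q ⌊δ * n⌋₊ x.1 x.2 : ℕ)) ≤ 1 ∨
      nm ((frowJ θ β p Q n ⌊δ * n⌋₊ t bc J C c x.1 x.2).st b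
      ((frowJ θ β p Q n ⌊δ * n⌋₊ t bc J C c x.1 x.2).ke b') -
        Enl.op p n x.1 ((eW p n Q ⌊δ * n⌋₊ x.1 x.2 - 1 : ℕ) : ℤ)) ≤ 1 :=
    srowJ_end hse b b'
  rcases ctr_tips (θ := θ) (β := β) (bc := bc) hse with ⟨h3, h4⟩ | ⟨h3, h4⟩
  · rcases h2 with h2 | h2
    · rw [← h3] at h2
      exact fin h2 h0
    · rw [← h4] at h2
      exact fin h2 h1
  · rcases h2 with h2 | h2
    · rw [← h4] at h2
      exact fin h2 h1
    · rw [← h3] at h2
      exact fin h2 h0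

/-- **The special points are far from the marks.** -/
theorem frowJ_oth (hp : IsPolygon p) (hQ : Q.Ok) (hg : Gap Q l g) (hδ : 0 < δ)
    (hδg : 4 * δ ≤ g) (hn : 16 ≤ δ * n) (x : Fin l × Fin (Q.m + 1)) (b : Bool)
    (hok : (frowJ θ β p Q n ⌊δ * n⌋₊ t bc J C c x.1 x.2).Ok θ κ n) (hκ : 1 ≤ κ * n)
    (hx : ¬ (frowJ θ β p Q n ⌊δ * n⌋₊ t bc J C c x.1 x.2).Plain)
    (y : Fin l × Fin (Q.m + 1)) :
    κ * n - 2 ≤ (nm ((frowJ θ β p Q n ⌊δ * n⌋₊ t bc J C c x.1 x.2).st b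
      (frowJ θ β p Q n ⌊δ * n⌋₊ t bc J C c x.1 x.2).k0 - hsite p Q n y) : ℝ) := by
  have hn0 : (0 : ℝ) ≤ n := Nat.cast_nonneg n
  have hrb := rb_of (p := p) hQ hg hδ hδg hn x.1.2 (j := x.2) (by omega)
  obtain ⟨⟨a1, a2⟩, a3, a4, σ, a5, a6, a7, a8⟩ := srowJ_spec b hok hκ hx
  have f1 := (fl hQ n x.1 (show (x.2 : ℕ) + 1 ≤ Q.m + 1 by omega)).2.2
  have hs3 := hrb.s3
  have he3 := hrb.e3
  generalize hjp : jpos n t bc x.1 = jp at a1 a2 a3 a4 a7
  have hys := vp_pA (p := p) (n := n) (Q := Q) y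
  have hyn := pA_lt hQ hrb.n0 y
  have hvp : κ * n ≤ (nm (vp p n x.1 jp - hsite p Q n y) : ℝ) := by
    rw [← hys]
    by_cases hyx : y.1 = x.1
    · rw [hyx, vp_same]
      have h5 : (pA n Q y : ℕ) ≤ ⌊Q.θ x.1 x.2 * n⌋₊ ∨ ⌊Q.θ x.1 (x.2 + 1) * n⌋₊ ≤ pA n Q y := by
        unfold pA
        rw [hyx]
        rcases Nat.lt_or_ge x.2 y.2 with h1 | h1
        · right
          exact Nat.floor_le_floor (mul_le_mul_of_nonneg_right
            (theta_mono hQ x.1 (by omega) (by omega)) hn0)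
        · left
          exact Nat.floor_le_floor (mul_le_mul_of_nonneg_right
            (theta_mono hQ x.1 (by omega) (by omega)) hn0)
      push_cast
      rcases h5 with h5 | h5
      · have h6 : ((pA n Q y : ℕ) : ℝ) ≤ sW p n Q ⌊δ * n⌋₊ x.1 x.2 := by
          exact_mod_cast h5.trans hs3.le
        refine le_trans ?_ (le_abs_self _)
        linarith
      · have h6 : (eW p n Q ⌊δ * n⌋₊ x.1 x.2 : ℝ) ≤ ((pA n Q y : ℕ) : ℝ) := by
          exact_mod_cast he3.trans h5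
        refine le_trans ?_ (neg_le_abs _)
        linarith
    · have s0 : (0 : ℝ) ≤ sW p n Q ⌊δ * n⌋₊ x.1 x.2 := Nat.cast_nonneg _
      have en : (eW p n Q ⌊δ * n⌋₊ x.1 x.2 : ℝ) ≤ n := by exact_mod_cast he3.trans f1
      have h4 : ⌈κ * n⌉ ≤ (jp : ℤ) := Int.ceil_le.2 (by push_cast; linarith)
      have h5 : ⌈κ * n⌉ ≤ (n : ℤ) - jp := Int.ceil_le.2 (by push_cast; linarith)
      have h6 := vp_far hp x.1.2 y.1.2 (fun h' => hyx (Fin.ext h').symm) (σ := jp)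
        (σ' := (pA n Q y : ℕ)) (m := ⌈κ * n⌉) (n := n) (by omega) (by omega) h4 h5 (by omega)
      exact (Int.le_ceil _).trans (by exact_mod_cast h6)
  have hnear : nm (Enl.op p n x.1 σ - vp p n x.1 jp) ≤ 1 := by
    rcases a7 with rfl | a7
    · exact op_near _ _
    · have e5 : Enl.op p n x.1 (σ : ℤ) =
          face (vp p n x.1 (jp : ℤ)) (pdir p x.1 - 1 - 1) := by
        have := face_back ((n : ℤ) • p (x.1 : ℕ)) (pdir p x.1) (jp : ℤ)
        rw [show (jp : ℤ) - 1 = σ by omega] at this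
        exact this.symm
      rw [e5]
      exact face_near _ _
  have a8' : nm ((frowJ θ β p Q n ⌊δ * n⌋₊ t bc J C c x.1 x.2).st b
      (frowJ θ β p Q n ⌊δ * n⌋₊ t bc J C c x.1 x.2).k0 - Enl.op p n x.1 σ) ≤ 1 := a8
  generalize (frowJ θ β p Q n ⌊δ * n⌋₊ t bc J C c x.1 x.2).st b
      (frowJ θ β p Q n ⌊δ * n⌋₊ t bc J C c x.1 x.2).k0 = w at a8' ⊢
  have t1 := nm_tri (vp p n x.1 jp) w (hsite p Q n y)
  have t2 := nm_tri (vp p n x.1 jp) (Enl.op p n x.1 σ) w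
  rw [nm_sub_comm (vp p n x.1 jp) (Enl.op p n x.1 σ), nm_sub_comm (Enl.op p n x.1 σ) w] at t2
  have t3 : nm (vp p n x.1 jp - hsite p Q n y) ≤ nm (w - hsite p Q n y) + 2 := by omega
  have t4 : (nm (vp p n x.1 jp - hsite p Q n y) : ℝ) ≤ nm (w - hsite p Q n y) + 2 := by
    exact_mod_cast t3
  linarith

end poly

/-! ### the frames -/

section frames

variable {l : ℕ} {θ β : ℝ} {p : ZMod l → ℤ × ℤ} {S₀ : Finset (ℤ × ℤ)} {b : Box} {tp : ℝ} {bc : Bc}
  {n : ℕ} {g δ : ℝ} {ia : ℕ} {ta : ℝ}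

/-- **The tips of the free and wired frames.** -/
theorem rP_tip (hp : IsPolygon p) (hQ : (mks p b tp).Ok) (hg : Gap (mks p b tp) l g)
    (hδ : 0 < δ) (hδg : 4 * δ ≤ g) (hn : 16 ≤ δ * n) (x : Fin l × Fin 3) :
    ∃ y : Fin l × Fin 3, (nm ((rP θ β p b tp bc n ⌊δ * n⌋₊ x).zt -
      hsite p (mks p b tp) n y) : ℝ) ≤ 2 * δ * n :=
  frowJ_tip hp hQ hg hδ hδg hn x _ _

/-- **The special points of the free and wired frames.** -/
theorem rP_oth (hp : IsPolygon p) (hD : Encloses p S₀) (hQ : (mks p b tp).Ok) (hθ : 0 < θ)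
    (hθ' : θ < Real.pi / 2) (hβ : β = (θ - Real.pi) / 2 ∨ β = (Real.pi - 3 * θ) / 2)
    (hg : Gap (mks p b tp) l g) (hbg : BGap l (mks p b tp) g bc) (hδ : 0 < δ)
    (hδg : 4 * δ ≤ g) (hn : 16 ≤ δ * n) (x : Fin l × Fin 3)
    (hx : ¬ (rP θ β p b tp bc n ⌊δ * n⌋₊ x).Plain) (y : Fin l × Fin 3) :
    g / 16 * n ≤ (nm ((rP θ β p b tp bc n ⌊δ * n⌋₊ x).zm - hsite p (mks p b tp) n y) : ℝ) := by
  have hl : 0 < l := by have := hp.1; omega
  obtain ⟨b1, b2, b3, b4, b5⟩ := gn_big hQ hg hδg hn hl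
  have h := frowJ_oth (κ := g / 4) hp hQ hg hδ hδg hn x (rP θ β p b tp bc n ⌊δ * n⌋₊ x).kf
    (rP_ok hp hD hQ hθ hθ' hβ hg hbg hδ hδg (by linarith) hn x) (by linarith) hx y
  have e : ∀ v : ℤ × ℤ, g / 4 * n - 2 ≤ (nm v : ℝ) → g / 16 * n ≤ (nm v : ℝ) := fun v hv => by
    linarith
  exact e _ h

/-- A corner of a row is next to a square of the row. -/
theorem Row.near_tip {r : Row} (h : 1 ≤ r.L) : ∃ u ∈ r.I, nm (r.zt - u) ≤ 1 := by
  unfold Row.zt Row.ke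
  cases r.p
  · refine ⟨r.sq 0, H680.T.sq_mem.2 (show 0 < r.L by omega), r.near_st _ _⟩
  · refine ⟨r.sq (r.L - 1), H680.T.sq_mem.2 (show r.L - 1 < r.L by omega), r.near_st' _ h⟩

/-- **The tips of the Dobrushin frames.** -/
theorem rD_tip (H : DobN p S₀ b tp g δ n) (x : IxD l) :
    ∃ y : HxD l, (nm ((rD θ β p b tp ia ta n ⌊δ * n⌋₊ x).zt - hoD p b tp n y) : ℝ) ≤
      2 * δ * n := by
  obtain ⟨c1, c2, c3, c4⟩ := H.box
  obtain ⟨d1, d2, d3⟩ := dfl H.hn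
  have hn := H.hn
  rcases x with x | x | x
  · obtain ⟨y, hy⟩ := frowJ_tip (θ := θ) (β := β) (bc := .dob ia ta) (t := ⌊tp * n⌋₊)
      (J := JD p ia) (C := 0) (c := 1) H.hp H.hQ H.hg H.hδ H.hδg hn x
      ((rD θ β p b tp ia ta n ⌊δ * n⌋₊ (.inl x)).gc (rD θ β p b tp ia ta n ⌊δ * n⌋₊ (.inl x)).p)
      (rD θ β p b tp ia ta n ⌊δ * n⌋₊ (.inl x)).p
    exact ⟨.inl y, hy⟩
  · obtain ⟨y, hy⟩ := frowJ_tip (θ := θ) (β := β) (bc := .free)
      (t := tG pQ (bM p * n) (tqB (bQ b (bM p))) (cT p ia))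
      (J := fun _ => true) (C := CQ θ β p ia) (c := cT p ia) pQ_poly H.hQ' H.hg' c1 c2 c3 x
      ((rD θ β p b tp ia ta n ⌊δ * n⌋₊ (.inr (.inl x))).gc
        (rD θ β p b tp ia ta n ⌊δ * n⌋₊ (.inr (.inl x))).p)
      (rD θ β p b tp ia ta n ⌊δ * n⌋₊ (.inr (.inl x))).p
    rw [c4] at hy
    have e1 : 2 * (δ / bM p) * ((bM p * n : ℕ) : ℝ) = 2 * δ * n := by
      have hM : (1 : ℝ) ≤ bM p := by exact_mod_cast DobN.hM (p := p)
      push_cast
      field_simp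
    rw [e1] at hy
    exact ⟨.inr (.inl y), hy⟩
  · -- the spoke
    have fin : ∀ {y : HxD l}, nm ((rD θ β p b tp ia ta n ⌊δ * n⌋₊ (.inr (.inr x))).zt -
        hoD p b tp n y) ≤ (⌊δ * n⌋₊ : ℤ) + 3 → (nm ((rD θ β p b tp ia ta n ⌊δ * n⌋₊
          (.inr (.inr x))).zt - hoD p b tp n y) : ℝ) ≤ 2 * δ * n := by
      intro y h
      have h5 : (nm ((rD θ β p b tp ia ta n ⌊δ * n⌋₊ (.inr (.inr x))).zt - hoD p b tp n y) : ℝ) ≤
        (⌊δ * n⌋₊ : ℝ) + 3 := by exact_mod_cast h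
      have h6 : (⌊δ * n⌋₊ : ℝ) ≤ δ * n := Nat.floor_le (by linarith)
      linarith
    obtain ⟨b1, b3, b5, b6, b7⟩ := H.basic
    have c2' := H.hN (iT p)
    have hn0 : (0 : ℤ) ≤ n := by positivity
    have h1 : 2 * (n : ℤ) ≤ n * (p (iT p)).2 := by nlinarith
    have hdn : ⌊δ * n⌋₊ ≤ n := by
      have := H.hδn.2.2.2
      exact_mod_cast this
    have hst : ∀ (c : Bool) (k : ℕ), (rD θ β p b tp ia ta n ⌊δ * n⌋₊ (.inr (.inr x))).st c k =
        ((n : ℤ) * (p (iT p)).1 + (if c then 1 else 0), (⌊δ * n⌋₊ : ℤ) + k) := fun c k => rfl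
    have hzt : ∃ c : Bool, (rD θ β p b tp ia ta n ⌊δ * n⌋₊ (.inr (.inr x))).zt =
          ((n : ℤ) * (p (iT p)).1 + (if c then 1 else 0), (⌊δ * n⌋₊ : ℤ) + (0 : ℕ)) ∨
        (rD θ β p b tp ia ta n ⌊δ * n⌋₊ (.inr (.inr x))).zt =
          ((n : ℤ) * (p (iT p)).1 + (if c then 1 else 0),
            (⌊δ * n⌋₊ : ℤ) + ((n * (p (iT p)).2).toNat - 2 * ⌊δ * n⌋₊ : ℕ)) := by
      unfold Row.zt Row.ke
      generalize (rD θ β p b tp ia ta n ⌊δ * n⌋₊ (.inr (.inr x))).p = c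
      refine ⟨(rD θ β p b tp ia ta n ⌊δ * n⌋₊ (.inr (.inr x))).gc c, ?_⟩
      cases c
      · exact Or.inl (hst _ _)
      · exact Or.inr (hst _ _)
    obtain ⟨c, h | h⟩ := hzt
    · refine ⟨.inr (.inr ()), fin ?_⟩
      rw [h]
      change nm (_ - ftD p n) ≤ _
      unfold ftD
      rw [nm_le_iff]
      cases c <;> simp only [Prod.mk_sub_mk, Bool.false_eq_true, if_false, if_true] <;> omega
    · refine ⟨.inl (xT H.hp (mks p b tp)), fin ?_⟩
      rw [h]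
      change nm (_ - hsite p (mks p b tp) n (xT H.hp (mks p b tp))) ≤ _
      rw [hsT H.hp H.hQ, nm_le_iff]
      cases c <;> simp only [Prod.mk_sub_mk, Bool.false_eq_true, if_false, if_true] <;> omega

/-- **The special points of the Dobrushin frames.** -/
theorem rD_oth (H : DobN p S₀ b tp g δ n) (hθ : 0 < θ) (hθ' : θ < Real.pi / 2)
    (hβ : β = (θ - Real.pi) / 2 ∨ β = (Real.pi - 3 * θ) / 2)
    (hbg : BGap l (mks p b tp) g (.dob ia ta)) (x : IxD l)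
    (hx : ¬ (rD θ β p b tp ia ta n ⌊δ * n⌋₊ x).Plain) (y : HxD l) :
    g / 16 * n ≤ (nm ((rD θ β p b tp ia ta n ⌊δ * n⌋₊ x).zm - hoD p b tp n y) : ℝ) := by
  obtain ⟨c1, c2, c3, c4⟩ := H.box
  obtain ⟨b1, b3, b5, b6, b7⟩ := H.basic
  obtain ⟨d1, d2, d3⟩ := dfl H.hn
  have hn := H.hn
  have hn0 : (0 : ℝ) ≤ n := Nat.cast_nonneg n
  have hn1 : (16 : ℝ) ≤ n := by
    have h1 : δ * n ≤ 1 * n := mul_le_mul_of_nonneg_right (by linarith [H.hδg]) hn0
    linarith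
  have hgn : g / 16 * n ≤ 1 / 16 * n := mul_le_mul_of_nonneg_right (by linarith) hn0
  have hok := rD_ok (κ := g / 4) H.hp H.hD H.hN H.hQ H.hQ' hθ hθ' hβ H.hg H.hg' hbg H.hδ H.hδg
    (by linarith) hn x
  have fin : ∀ {v : ℤ × ℤ}, g / 4 * n - 2 ≤ (nm v : ℝ) → g / 16 * n ≤ (nm v : ℝ) := fun {v} hv =>
    by linarith
  have far : ∀ {v : ℤ × ℤ}, 2 * (n : ℤ) - 3 ≤ nm v → g / 16 * n ≤ (nm v : ℝ) := by
    intro v hv
    have : 2 * (n : ℝ) - 3 ≤ nm v := by exact_mod_cast hv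
    linarith
  -- the special point is next to the row
  obtain ⟨u, hu, huz⟩ : ∃ u ∈ (shD p b tp n ⌊δ * n⌋₊ x).I,
      nm ((rD θ β p b tp ia ta n ⌊δ * n⌋₊ x).zm - u) ≤ 1 := by
    rw [← rD_I (θ := θ) (β := β) (ia := ia) (ta := ta)]
    have hk : (rD θ β p b tp ia ta n ⌊δ * n⌋₊ x).k0 < (rD θ β p b tp ia ta n ⌊δ * n⌋₊ x).L := by
      rcases hok.kind with h | ⟨-, h1, h2⟩
      · exact absurd h hx
      · have : ((rD θ β p b tp ia ta n ⌊δ * n⌋₊ x).k0 : ℝ) <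
          (rD θ β p b tp ia ta n ⌊δ * n⌋₊ x).L := by linarith
        exact_mod_cast this
    exact ⟨_, H680.T.sq_mem.2 hk, Row.near_st _ _ _⟩
  rcases x with x | x | x
  · rcases y with y | y | y
    · exact fin (frowJ_oth (κ := g / 4) H.hp H.hQ H.hg H.hδ H.hδg hn x _ hok (by linarith) hx y)
    · refine far ?_
      have h1 := H.rowP_mem hu
      have h2 := H.hsQ' y
      change 2 * (n : ℤ) - 3 ≤ nm (_ - hsite pQ (mksQ p b) (bM p * n) y)
      rw [nm_le_iff] at huz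
      rw [le_nm_iff]
      simp only [Prod.fst_sub, Prod.snd_sub] at huz ⊢
      omega
    · refine far ?_
      have h1 := H.rowP_mem hu
      have h2 := ft_mem (n := n) H.hp H.hN
      change 2 * (n : ℤ) - 3 ≤ nm (_ - ftD p n)
      rw [nm_le_iff] at huz
      rw [le_nm_iff]
      simp only [Prod.fst_sub, Prod.snd_sub] at huz ⊢
      omega
  · have hM : (1 : ℝ) ≤ bM p := by exact_mod_cast DobN.hM (p := p)
    have e2 : g / 4 / bM p * ((bM p * n : ℕ) : ℝ) = g / 4 * n := by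
      push_cast
      field_simp
    have hok' := hok.cast (κ' := g / 4 / bM p) (n' := bM p * n) (le_of_eq e2)
    have hκ' : 1 ≤ g / 4 / bM p * ((bM p * n : ℕ) : ℝ) := by rw [e2]; linarith
    rcases y with y | y | y
    · refine far ?_
      have h1 := H.rowQ_mem' hu
      have h2 := H.hsP y
      change 2 * (n : ℤ) - 3 ≤ nm (_ - hsite p (mks p b tp) n y)
      rw [nm_le_iff] at huz
      rw [le_nm_iff]
      simp only [Prod.fst_sub, Prod.snd_sub] at huz ⊢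
      omega
    · have hok2 : (frowJ θ β pQ (mksQ p b) (bM p * n) ⌊δ / bM p * ((bM p * n : ℕ) : ℝ)⌋₊
        (tG pQ (bM p * n) (tqB (bQ b (bM p))) (cT p ia)) .free (fun _ => true)
          (CQ θ β p ia) (cT p ia) x.1 x.2).Ok θ (g / 4 / bM p) (bM p * n) := by
        rw [c4]
        exact hok'
      have hx2 : ¬ (frowJ θ β pQ (mksQ p b) (bM p * n) ⌊δ / bM p * ((bM p * n : ℕ) : ℝ)⌋₊
        (tG pQ (bM p * n) (tqB (bQ b (bM p))) (cT p ia)) .free (fun _ => true)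
          (CQ θ β p ia) (cT p ia) x.1 x.2).Plain := by
        rw [c4]
        exact hx
      have h := frowJ_oth pQ_poly H.hQ' H.hg' c1 c2 c3 x
        (rD θ β p b tp ia ta n ⌊δ * n⌋₊ (.inr (.inl x))).kf hok2 hκ' hx2 y
      rw [c4, e2] at h
      exact fin h
    · -- the foot: the base of the box is on the top side
      refine far ?_
      obtain ⟨-, a3, a4, σ, a5, a6, a7, a8⟩ := srowJ_spec
        (rD θ β p b tp ia ta n ⌊δ * n⌋₊ (.inr (.inl x))).kf hok' hκ' hx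
      have hx0 : (x.1 : ℕ) = 0 := by
        by_contra h0
        have e3 : jpos (bM p * n) (tG pQ (bM p * n) (tqB (bQ b (bM p))) (cT p ia)) .free x.1 = 0 :=
          if_neg h0
        rw [e3] at a3
        omega
      have h2 := ft_mem (n := n) H.hp H.hN
      have a8' : nm ((rD θ β p b tp ia ta n ⌊δ * n⌋₊ (.inr (.inl x))).zm -
          Enl.op pQ (bM p * n) x.1 σ) ≤ 1 := a8
      rcases opQ (N := bM p * n) x.1.2 (σ : ℤ) with ⟨-, e⟩ | ⟨h', -⟩ | ⟨h', -⟩ | ⟨h', -⟩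
      · rw [e, nm_le_iff] at a8'
        change 2 * (n : ℤ) - 3 ≤ nm (_ - ftD p n)
        rw [le_nm_iff]
        have hMn : 2 * (n : ℤ) ≤ bM p * n := by
          have : (2 : ℤ) ≤ bM p := by exact_mod_cast b7
          nlinarith
        push_cast at a8'
        simp only [Prod.fst_sub, Prod.snd_sub] at a8' ⊢
        omega
      · omega
      · omega
      · omega
  · exact absurd (show (rD θ β p b tp ia ta n ⌊δ * n⌋₊ (.inr (.inr x))).Plain from ⟨rfl, rfl⟩) hx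

end frames

end Vale.Agent.P167.N.ID
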