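import Vale.Agent.P167.N.ID.GeoT
import Vale.Agent.P167.H592.T.FamC
import Vale.Agent.P167.H718.Rect

/-!
# P167, block ID, geometry of the frames: the shapes of the rows

* `shp`: the shape of the row `j` of the side `i` of a polygon.
* `pQ`, `bM`, `bQ`: the box: the `bM p * n`-fold enlargement of the unit square.
* `spk`: the shape of the spoke.
* `FamGeo`: the geometric part of `H680.T.Fam`.
-/

set_option autoImplicit false

namespace Vale.Agent.P167.N.ID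

open Finset Filter Topology
open Vale.Agent.P167.E6 (IsPolygon Encloses dir face region)
open Vale.Agent.P167.H825 (pdir enl domP Box dirOf Marks FlowIn epos rnd bsite)
open Vale.Agent.P167.H825.Q (Row srow Bc mem_srow)
open Vale.Agent.P167.XDL (bS mem_bS)
open Vale.Agent.P167.H199 (mks mth reg rg sp Gen MgR mgR_rg mgR_reg)
open Vale.Agent.P167.H680 (Mg)
open Vale.Agent.P167.H680.T (WallG WCG Fam Cls)
open Vale.Agent.P167.Enl (sW eW tB rowP mem_rowP frm vp op Rows)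

variable {l : ℕ}

/-! ### the rows of a polygon -/

section shape

variable (p : ZMod l → ℤ × ℤ) (Q : Marks) (n d : ℕ)

/-- The shape of the `j`-th row of the `i`-th side (the phases are `0`). -/
noncomputable def shp (i j : ℕ) : Row :=
  srow ((n : ℤ) • p i) (pdir p i) (sW p n Q d i j) (eW p n Q d i j) 0 (fun _ => 0) fun _ => 0

theorem shp_I (i j : ℕ) : (shp p Q n d i j).I = rowP p n i (sW p n Q d i j) (eW p n Q d i j) := by
  ext v
  unfold shp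
  rw [mem_srow, mem_rowP]
  rfl

theorem shp_L (i j : ℕ) : (shp p Q n d i j).L = eW p n Q d i j - sW p n Q d i j :=
  H825.Q.srow_L _ _ _ _ _ _ _

end shape

/-! ### the box -/

/-- The unit square, from the upper right corner: side `0` is the top, `1` the left side, `2` the
bottom, `3` the right side. -/
def pQ : ZMod 4 → ℤ × ℤ := ![(1, 1), (0, 1), (0, 0), (1, 0)]

theorem pQ_poly : IsPolygon pQ := by
  refine ⟨by norm_num, ?_, ?_⟩
  · decide
  · decide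

theorem pQ_rq : pQ = H718.rq 1 1 3 := by
  funext i
  revert i
  decide

theorem pQ_encl : Encloses pQ {(0, 0)} := by
  rw [pQ_rq]
  have h := H718.rq_encl (n := 1) (H := 1) le_rfl le_rfl 3
  have h1 : H718.Rt 1 1 = {(0, 0)} := by
    ext v
    rw [H718.mem_Rt, mem_singleton, Prod.ext_iff]
    push_cast
    constructor
    · rintro ⟨a, b, c, d⟩
      exact ⟨by omega, by omega⟩
    · rintro ⟨a, b⟩
      omega
  rwa [h1] at h

theorem pdir_pQ : pdir pQ 0 = 2 ∧ pdir pQ 1 = 3 ∧ pdir pQ 2 = 0 ∧ pdir pQ 3 = 1 := by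
  refine ⟨?_, ?_, ?_, ?_⟩
  · show dirOf (pQ ((0 : ℕ) + 1) - pQ (0 : ℕ)) = _
    decide
  · show dirOf (pQ ((1 : ℕ) + 1) - pQ (1 : ℕ)) = _
    decide
  · show dirOf (pQ ((2 : ℕ) + 1) - pQ (2 : ℕ)) = _
    decide
  · show dirOf (pQ ((3 : ℕ) + 1) - pQ (3 : ℕ)) = _
    decide

/-- The vertices are in the quadrant `[2, ∞)²`. -/
def Nrm (p : ZMod l → ℤ × ℤ) : Prop := ∀ i, 2 ≤ (p i).1 ∧ 2 ≤ (p i).2

/-- The side of the box, in units of `n`. -/
noncomputable def bM (p : ZMod l → ℤ × ℤ) : ℕ :=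
  (range l).sup (fun i => max (p i).1.toNat (p i).2.toNat) + 2

theorem le_bM (p : ZMod l → ℤ × ℤ) [NeZero l] (i : ZMod l) :
    (p i).1 + 2 ≤ bM p ∧ (p i).2 + 2 ≤ bM p := by
  have h1 : max (p i).1.toNat (p i).2.toNat ≤
      (range l).sup (fun i => max (p i).1.toNat (p i).2.toNat) := by
    have := le_sup (f := fun i : ℕ => max (p i).1.toNat (p i).2.toNat)
      (mem_range.2 (ZMod.val_lt i))
    rwa [ZMod.natCast_zmod_val] at this
  unfold bM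
  push_cast
  have := le_max_left (p i).1.toNat (p i).2.toNat
  have := le_max_right (p i).1.toNat (p i).2.toNat
  omega

/-- The box of the pinwheel in units of `M n`. -/
noncomputable def bQ (b : Box) (M : ℕ) : Box := ⟨b.xl / M, b.xr / M, b.yb / M, b.yt / M⟩

/-! ### the spoke -/

/-- **The spoke**: the column of squares on the right of the line through the lowest, then leftmost
vertex, at distance `d` from the domain and from the bottom of the box. -/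
noncomputable def spk (p : ZMod l → ℤ × ℤ) (n d : ℕ) : Row :=
  ⟨false, (n * (p (iT p)).1, d), (n * (p (iT p)).2).toNat - 2 * d, 0, 0, 0, 0, 0⟩

theorem mem_spk {p : ZMod l → ℤ × ℤ} {n d : ℕ} {v : ℤ × ℤ} :
    v ∈ (spk p n d).I ↔ v.1 = n * (p (iT p)).1 ∧ d ≤ v.2 ∧ v.2 + d < n * (p (iT p)).2 := by
  unfold Row.I Row.sq
  rw [mem_image]
  constructor
  · rintro ⟨k, hk, rfl⟩
    rw [mem_range] at hk
    change k < (n * (p (iT p)).2).toNat - 2 * d at hk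
    show n * (p (iT p)).1 = _ ∧ (d : ℤ) ≤ d + k ∧ ((d : ℤ) + k) + d < _
    refine ⟨rfl, ?_, ?_⟩ <;> omega
  · rintro ⟨h1, h2, h3⟩
    refine ⟨(v.2 - d).toNat, ?_, ?_⟩
    · rw [mem_range]
      show _ < (n * (p (iT p)).2).toNat - 2 * d
      omega
    · show (n * (p (iT p)).1, (d : ℤ) + ((v.2 - d).toNat : ℕ)) = v
      rw [Prod.ext_iff]
      simp only
      omega

/-! ### families of rows -/

/-- **The geometric part of `H680.T.Fam`**: separation, margins, distance from the flows. -/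
structure FamGeo {ι : Type} (S₀ : Finset (ℤ × ℤ)) (b : Box) (reg : ι → Fin 5)
    (I : ℕ → ι → Finset (ℤ × ℤ)) : Prop where
  ne : ∀ i, reg i ≠ 4
  geo : ∀ κ₀ : ℝ, 0 < κ₀ → ∃ κ : ℝ, 0 < κ ∧ ∃ R : ℝ, ∀ᶠ n : ℕ in atTop,
    (∀ i, ∀ e ∈ bS (I n i), (nm (epos e) : ℝ) ≤ R * n) ∧
    (∀ i j, i ≠ j → ∀ e ∈ bS (I n i), ∀ e' ∈ bS (I n j), κ * n ≤ (nm (epos e - epos e') : ℝ)) ∧
    (∀ u : ℤ × ℤ, (∀ v : ℤ × ℤ, (nm (v - u) : ℝ) ≤ κ₀ * n → v ∈ enl S₀ n) →
      (nm u : ℝ) ≤ R * n ∧ ∀ i, ∀ e ∈ bS (I n i), κ * n ≤ (nm (u - epos e) : ℝ)) ∧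
    (∀ i, ∀ e ∈ bS (I n i), Mg b κ n (reg i) (epos e))

variable {ι ι' : Type} {S₀ : Finset (ℤ × ℤ)} {b : Box} {rg₁ : ι → Fin 5} {rg₂ : ι' → Fin 5}
  {I₁ : ℕ → ι → Finset (ℤ × ℤ)} {I₂ : ℕ → ι' → Finset (ℤ × ℤ)}

/-- **`Fam` from its geometric part.** -/
theorem FamGeo.fam (h : FamGeo S₀ b rg₁ I₁) {Cl : Cls} (hCl : Cl.Ok) {w : ℕ → ι → WallG}
    (hw : ∀ n i, (w n i).S = bS (I₁ n i))
    (hP : ∃ κ : ℝ, 0 < κ ∧ ∀ᶠ n : ℕ in atTop, ∀ i, Cl.P κ n (w n i)) : Fam Cl S₀ b rg₁ w := by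
  refine ⟨h.ne, fun κ₀ hκ₀ => ?_⟩
  obtain ⟨κ₁, hκ₁, R, hev⟩ := h.geo κ₀ hκ₀
  obtain ⟨κ₂, hκ₂, hev2⟩ := hP
  refine ⟨min κ₁ κ₂, lt_min hκ₁ hκ₂, R, fun B => ?_⟩
  filter_upwards [hev, hev2] with n hn hn2
  obtain ⟨a1, a2, a3, a4⟩ := hn
  have hn0 : (0 : ℝ) ≤ n := Nat.cast_nonneg n
  have le1 : min κ₁ κ₂ * n ≤ κ₁ * n := mul_le_mul_of_nonneg_right (min_le_left _ _) hn0
  have le2 : min κ₁ κ₂ * n ≤ κ₂ * n := mul_le_mul_of_nonneg_right (min_le_right _ _) hn0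
  refine ⟨fun c hc => ⟨fun i e he => ?_, fun i j hij e he e' he' => ?_, fun e he => ?_, hc.cle,
    hc.dle⟩, fun i e he => ?_, fun i => hCl.mono le2 (hn2 i)⟩
  · exact a1 i e (by rw [← hw]; exact he)
  · exact le1.trans (a2 i j hij e (by rw [← hw]; exact he) e' (by rw [← hw]; exact he'))
  · obtain ⟨h1, h2⟩ := a3 (epos e) (hc.sup e he)
    exact ⟨h1, fun i e' he' => le1.trans (h2 i e' (by rw [← hw]; exact he'))⟩
  · have he' : e ∈ bS (I₁ n i) := by rw [← hw]; exact he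
    exact ⟨Enl.mg_mono' le1 (a4 i e he'), a1 i e he'⟩

/-- Two families at a positive distance. -/
theorem FamGeo.sum (h₁ : FamGeo S₀ b rg₁ I₁) (h₂ : FamGeo S₀ b rg₂ I₂)
    (hd : ∃ κ : ℝ, 0 < κ ∧ ∀ᶠ n : ℕ in atTop, ∀ i j, ∀ e ∈ bS (I₁ n i), ∀ e' ∈ bS (I₂ n j),
      κ * n ≤ (nm (epos e - epos e') : ℝ)) :
    FamGeo S₀ b (Sum.elim rg₁ rg₂) (fun n => Sum.elim (I₁ n) (I₂ n)) := by
  refine ⟨?_, fun κ₀ hκ₀ => ?_⟩
  · rintro (i | i)
    · exact h₁.ne i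
    · exact h₂.ne i
  obtain ⟨κ₁, hκ₁, R₁, e1⟩ := h₁.geo κ₀ hκ₀
  obtain ⟨κ₂, hκ₂, R₂, e2⟩ := h₂.geo κ₀ hκ₀
  obtain ⟨κ₃, hκ₃, e3⟩ := hd
  refine ⟨min (min κ₁ κ₂) κ₃, by positivity, max R₁ R₂, ?_⟩
  filter_upwards [e1, e2, e3] with n a1 a2 a3
  obtain ⟨b1, b2, b3, b4⟩ := a1
  obtain ⟨c1, c2, c3, c4⟩ := a2
  have hn0 : (0 : ℝ) ≤ n := Nat.cast_nonneg n
  have le1 : min (min κ₁ κ₂) κ₃ * n ≤ κ₁ * n :=
    mul_le_mul_of_nonneg_right ((min_le_left _ _).trans (min_le_left _ _)) hn0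
  have le2 : min (min κ₁ κ₂) κ₃ * n ≤ κ₂ * n :=
    mul_le_mul_of_nonneg_right ((min_le_left _ _).trans (min_le_right _ _)) hn0
  have le3 : min (min κ₁ κ₂) κ₃ * n ≤ κ₃ * n :=
    mul_le_mul_of_nonneg_right (min_le_right _ _) hn0
  have r1 : R₁ * n ≤ max R₁ R₂ * n := mul_le_mul_of_nonneg_right (le_max_left _ _) hn0
  have r2 : R₂ * n ≤ max R₁ R₂ * n := mul_le_mul_of_nonneg_right (le_max_right _ _) hn0
  refine ⟨?_, ?_, ?_, ?_⟩
  · rintro (i | i) e he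
    · exact (b1 i e he).trans r1
    · exact (c1 i e he).trans r2
  · rintro (i | i) (j | j) hij e he e' he'
    · exact le1.trans (b2 i j (fun h => hij (by rw [h])) e he e' he')
    · exact le3.trans (a3 i j e he e' he')
    · rw [← H199.nm_neg, neg_sub]
      exact le3.trans (a3 j i e' he' e he)
    · exact le2.trans (c2 i j (fun h => hij (by rw [h])) e he e' he')
  · intro u hu
    obtain ⟨d1, d2⟩ := b3 u hu
    obtain ⟨d3, d4⟩ := c3 u hu
    refine ⟨d1.trans r1, ?_⟩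
    rintro (i | i) e he
    · exact le1.trans (d2 i e he)
    · exact le2.trans (d4 i e he)
  · rintro (i | i) e he
    · exact Enl.mg_mono' le1 (b4 i e he)
    · exact Enl.mg_mono' le2 (c4 i e he)

end Vale.Agent.P167.N.ID
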