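import Vale.Agent.P167.N.ID.Geo

/-!
# P167, block ID, geometry of the frames: the rows of a polygon, of the box and the spoke as families
-/

set_option autoImplicit false

namespace Vale.Agent.P167.N.ID

open Finset Filter Topology
open Vale.Agent.P167.E6 (IsPolygon Encloses dir face region)
open Vale.Agent.P167.H825 (pdir enl domP Box dirOf Marks FlowIn epos rnd bsite)
open Vale.Agent.P167.H825.Q (Row srow Bc mem_srow)
open Vale.Agent.P167.XDL (bS mem_bS)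
open Vale.Agent.P167.H199 (mks mth reg rg sp Gen MgR mgR_rg mgR_reg Gap mks_ok c0 c0_pos reg_ne
  int_far)
open Vale.Agent.P167.H680 (Mg)
open Vale.Agent.P167.H680.T (WallG WCG Fam Cls)
open Vale.Agent.P167.Enl (sW eW tB rowP mem_rowP frm vp Rows rows_marks R0 row_mg nm_enl row_near
  op_out op_near nm_tri nm_sub_comm vz_eq fin4_cases dir0 dir1 dir2 dir3 mem_enl_div pdir_step)

variable {l : ℕ} {p : ZMod l → ℤ × ℤ} {S₀ : Finset (ℤ × ℤ)} {b : Box} {n d : ℕ} {tp : ℝ}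

/-- **The rows of a polygon.** -/
theorem famGeo_poly (hp : IsPolygon p) (hD : Encloses p S₀) (hgen : Gen b)
    (hsub : ∀ x : ℝ × ℝ, b.xl ≤ x.1 → x.1 ≤ b.xr → b.yb ≤ x.2 → x.2 ≤ b.yt → x ∈ domP S₀)
    (h0 : 0 < tp) (h1 : tp < 1)
    (ht : ∀ i : ℤ, ∀ y ∈ ({b.xl, b.xr, b.yb, b.yt} : Set ℝ), y ≠ i + tp ∧ y ≠ i - tp)
    {g δ : ℝ} (hg : Gap (mks p b tp) l g) (hδ : 0 < δ) (hδg : 4 * δ ≤ g) :
    FamGeo S₀ b (fun x : Fin l × Fin ((mks p b tp).m + 1) => reg p b x.1 x.2)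
      (fun n x => (shp p (mks p b tp) n ⌊δ * n⌋₊ x.1 x.2).I) := by
  have hQ : (mks p b tp).Ok := mks_ok p hgen h0 h1 ht
  have hc0 := c0_pos hgen
  refine ⟨fun x => ?_, fun κ₀ hκ₀ => ?_⟩
  · exact reg_ne hgen hp hD hsub x.1 (j := x.2) (by
      have := x.2.2
      have h2 : (mks p b tp).m = 2 := rfl
      omega)
  set κ' : ℝ := min (δ / 2) (c0 b) with hκ'
  have hκ'0 : 0 < κ' := by positivity
  set κ : ℝ := min (min (δ / 2) (κ₀ / 2)) (κ' / 2) with hκ
  have hκ0 : 0 < κ := by positivity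
  refine ⟨κ, hκ0, R0 p S₀ + 3, ?_⟩
  have ev : ∀ {x : ℝ} (y : ℝ), 0 < x → ∀ᶠ n : ℕ in atTop, y ≤ x * n := fun y hx =>
    (tendsto_natCast_atTop_atTop.const_mul_atTop hx).eventually_ge_atTop y
  filter_upwards [ev 16 hδ, ev 6 hκ₀, ev 4 hκ'0, eventually_gt_atTop 0] with n hn hn2 hn3 hn0
  have hn0' : (0 : ℝ) ≤ n := Nat.cast_nonneg n
  have hn1 : (1 : ℝ) ≤ n := by exact_mod_cast hn0
  have hR := rows_marks (p := p) hQ hg hδ hδg hn
  have le1 : κ * n ≤ δ / 2 * n := mul_le_mul_of_nonneg_right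
    ((min_le_left _ _).trans (min_le_left _ _)) hn0'
  have le2 : κ * n ≤ κ₀ / 2 * n := mul_le_mul_of_nonneg_right
    ((min_le_left _ _).trans (min_le_right _ _)) hn0'
  have le3 : κ * n ≤ κ' / 2 * n := mul_le_mul_of_nonneg_right (min_le_right _ _) hn0'
  have hm : δ * n - 2 ≤ ((⌊δ * n⌋₊ - 1 : ℕ) : ℝ) := by
    have h3 : 1 ≤ ⌊δ * n⌋₊ := Nat.le_floor (by push_cast; linarith)
    rw [Nat.cast_sub h3]
    have := Nat.lt_floor_add_one (δ * n)
    push_cast
    linarith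
  simp only [shp_I]
  refine ⟨fun x e he => hR.box hn0 he, fun x y hxy e he e' he' => ?_, fun u hu => ⟨?_, ?_⟩,
    fun x e he => ?_⟩
  · have h3 := hR.sep hp hxy he he'
    have h4 : ((⌊δ * n⌋₊ - 1 : ℕ) : ℝ) - 4 ≤ nm (epos e - epos e') := by exact_mod_cast h3
    linarith
  · have h1 : u ∈ enl S₀ n := by
      refine hu _ ?_
      rw [sub_self]
      have e0 : nm (0 : ℤ × ℤ) = 0 := by simp [nm]
      rw [e0]
      push_cast
      positivity
    have := nm_enl (p := p) h1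
    nlinarith
  · intro x e he
    obtain ⟨σ, h3, h4, h5⟩ := row_near he
    by_contra hlt
    push Not at hlt
    have a1 := hR.hi x
    refine op_out hp hD (hR.lt x) (σ := σ) (by omega) (hu _ ?_)
    have b1 := op_near (p := p) (n := n) x.1 σ
    have b2 := nm_tri (Enl.op p n x.1 σ) (vp p n x.1 σ) u
    have b3 := nm_tri (vp p n x.1 σ) (epos e) u
    have b4 := nm_sub_comm (vp p n x.1 σ) (epos e)
    have b5 := nm_sub_comm (epos e) u
    have b6 : nm (Enl.op p n x.1 σ - u) ≤ 3 + nm (u - epos e) := by omega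
    have b7 : (nm (Enl.op p n x.1 σ - u) : ℝ) ≤ 3 + nm (u - epos e) := by
      exact_mod_cast b6
    linarith
  · exact Enl.mg_mono' le3 (row_mg h0 h1 ht hgen hg hδ hδg hn hn3 x.1.2 (j := x.2)
      (by have := x.2.2; omega) he)

/-- Families at a larger scale. -/
theorem FamGeo.scale {ι : Type} {S₁ : Finset (ℤ × ℤ)} {M : ℕ} (hM : 0 < M) {reg : ι → Fin 5}
    {I : ℕ → ι → Finset (ℤ × ℤ)} (h : FamGeo S₁ (bQ b M) reg I)
    (hsub : ∀ n, enl S₀ n ⊆ enl S₁ (M * n)) : FamGeo S₀ b reg fun n => I (M * n) := by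
  refine ⟨h.ne, fun κ₀ hκ₀ => ?_⟩
  have hM' : (0 : ℝ) < M := by exact_mod_cast hM
  obtain ⟨κ, hκ, R, hev⟩ := h.geo (κ₀ / M) (by positivity)
  refine ⟨κ * M, by positivity, R * M, ?_⟩
  have ht : Tendsto (fun n : ℕ => M * n) atTop atTop :=
    tendsto_id.const_mul_atTop' hM
  filter_upwards [ht.eventually hev] with n hn
  obtain ⟨a1, a2, a3, a4⟩ := hn
  have e1 : ∀ x : ℝ, x * M * n = x * (M * n : ℕ) := fun x => by push_cast; ring
  refine ⟨fun i e he => ?_, fun i j hij e he e' he' => ?_, fun u hu => ?_, fun i e he => ?_⟩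
  · rw [e1]
    exact a1 i e he
  · rw [e1]
    exact a2 i j hij e he e' he'
  · rw [e1]
    obtain ⟨b1, b2⟩ := a3 u fun v hv => hsub n (hu v (by
      refine hv.trans (le_of_eq ?_)
      push_cast
      field_simp))
    refine ⟨b1, fun i e he => ?_⟩
    rw [e1]
    exact b2 i e he
  · have h1 := a4 i e he
    have e2 : ∀ x : ℝ, x / M * ((M * n : ℕ) : ℝ) = x * n := fun x => by
      push_cast
      field_simp
    have e3 : κ * ((M * n : ℕ) : ℝ) = κ * M * n := (e1 κ).symm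
    unfold Mg bQ at h1
    simp only [e2, e3] at h1
    exact h1

/-! ### positions -/

theorem nm_le_iff {v : ℤ × ℤ} {c : ℤ} : nm v ≤ c ↔ (-c ≤ v.1 ∧ v.1 ≤ c) ∧ -c ≤ v.2 ∧ v.2 ≤ c := by
  unfold nm
  rw [max_le_iff, abs_le, abs_le]

theorem le_nm_iff {v : ℤ × ℤ} {c : ℤ} : c ≤ nm v ↔ c ≤ v.1 ∨ v.1 ≤ -c ∨ c ≤ v.2 ∨ v.2 ≤ -c := by
  unfold nm
  rw [le_max_iff, le_abs', le_abs']
  tauto

/-- The sites of the sides of a normalised polygon. -/
theorem vp_mem (hp : IsPolygon p) (hN : Nrm p) {i σ : ℕ} (hσ : σ ≤ n) :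
    (2 * n ≤ (vp p n i σ).1 ∧ (vp p n i σ).1 + 2 * n ≤ bM p * n) ∧
      2 * n ≤ (vp p n i σ).2 ∧ (vp p n i σ).2 + 2 * n ≤ bM p * n := by
  have : NeZero l := ⟨by have := hp.1; omega⟩
  have a1 := hN i
  have a2 := hN ((i : ZMod l) + 1)
  have b1 := le_bM p i
  have b2 := le_bM p ((i : ZMod l) + 1)
  have h1 := pdir_step hp i
  obtain ⟨k0, k1, k2, k3⟩ := vz_eq ((n : ℤ) • p i) σ
  have hσ' : (σ : ℤ) ≤ n := by exact_mod_cast hσ
  have hσ0 : (0 : ℤ) ≤ σ := by positivity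
  have hn0 : (0 : ℤ) ≤ n := by positivity
  unfold vp
  generalize pdir p i = r at h1
  rw [h1] at a2 b2
  generalize hx : p (i : ZMod l) = x at *
  obtain ⟨x, y⟩ := x
  generalize (bM p : ℤ) = M at *
  rcases fin4_cases r with rfl | rfl | rfl | rfl
  · rw [k0]
    rw [dir0] at a2 b2
    simp only [Prod.mk_add_mk, Prod.smul_mk, smul_eq_mul] at *
    refine ⟨⟨?_, ?_⟩, ?_, ?_⟩ <;> nlinarith
  · rw [k1]
    rw [dir1] at a2 b2
    simp only [Prod.mk_add_mk, Prod.smul_mk, smul_eq_mul] at *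
    refine ⟨⟨?_, ?_⟩, ?_, ?_⟩ <;> nlinarith
  · rw [k2]
    rw [dir2] at a2 b2
    simp only [Prod.mk_add_mk, Prod.smul_mk, smul_eq_mul] at *
    refine ⟨⟨?_, ?_⟩, ?_, ?_⟩ <;> nlinarith
  · rw [k3]
    rw [dir3] at a2 b2
    simp only [Prod.mk_add_mk, Prod.smul_mk, smul_eq_mul] at *
    refine ⟨⟨?_, ?_⟩, ?_, ?_⟩ <;> nlinarith

/-- The sites of the sides are above the lowest vertex. -/
theorem LowV.vp {i₀ : ℕ} (h : LowV p i₀) (hp : IsPolygon p) {i σ : ℕ} (hσ : σ ≤ n) :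
    n * (p i₀).2 ≤ (vp p n i σ).2 := by
  have a1 := h.le i
  have a2 := h.le ((i : ZMod l) + 1)
  have h1 := pdir_step hp i
  obtain ⟨k0, k1, k2, k3⟩ := vz_eq ((n : ℤ) • p i) σ
  have hσ' : (σ : ℤ) ≤ n := by exact_mod_cast hσ
  have hσ0 : (0 : ℤ) ≤ σ := by positivity
  have hn0 : (0 : ℤ) ≤ n := by positivity
  unfold Enl.vp
  generalize pdir p i = r at h1
  rw [h1] at a2
  have a1' : (p i₀).2 ≤ (p (i : ZMod l)).2 := by omega
  have a2' : (p i₀).2 ≤ (p (i : ZMod l) + dir r).2 := by omega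
  generalize hx : p (i : ZMod l) = x at *
  obtain ⟨x, y⟩ := x
  rcases fin4_cases r with rfl | rfl | rfl | rfl
  · rw [k0]
    rw [dir0] at a2'
    simp only [Prod.mk_add_mk, Prod.smul_mk, smul_eq_mul] at *
    nlinarith
  · rw [k1]
    rw [dir1] at a2'
    simp only [Prod.mk_add_mk, Prod.smul_mk, smul_eq_mul] at *
    nlinarith
  · rw [k2]
    rw [dir2] at a2'
    simp only [Prod.mk_add_mk, Prod.smul_mk, smul_eq_mul] at *
    nlinarith
  · rw [k3]
    rw [dir3] at a2'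
    simp only [Prod.mk_add_mk, Prod.smul_mk, smul_eq_mul] at *
    nlinarith

/-- The sites of the sides of the box. -/
theorem vpQ {N i σ : ℕ} (hi : i < 4) : (vp pQ N i σ).1 = 0 ∨ (vp pQ N i σ).1 = N ∨
    (vp pQ N i σ).2 = 0 ∨ (vp pQ N i σ).2 = N := by
  obtain ⟨d0, d1, d2, d3⟩ := pdir_pQ
  unfold vp
  have e0 : pQ ((0 : ℕ) : ZMod 4) = (1, 1) := rfl
  have e1 : pQ ((1 : ℕ) : ZMod 4) = (0, 1) := rfl
  have e2 : pQ ((2 : ℕ) : ZMod 4) = (0, 0) := rfl
  have e3 : pQ ((3 : ℕ) : ZMod 4) = (1, 0) := rfl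
  interval_cases i
  · rw [d0, e0, (vz_eq _ _).2.2.1]
    simp
  · rw [d1, e1, (vz_eq _ _).2.2.2]
    simp
  · rw [d2, e2, (vz_eq _ _).1]
    simp
  · rw [d3, e3, (vz_eq _ _).2.1]
    simp

/-- The squares of the enlargement of a normalised polygon. -/
theorem enl_mem (hp : IsPolygon p) (hD : Encloses p S₀) (hN : Nrm p) {v : ℤ × ℤ}
    (hn : 0 < n) (hv : v ∈ enl S₀ n) :
    (2 * n ≤ v.1 ∧ v.1 + 2 * n < bM p * n) ∧ 2 * n ≤ v.2 ∧ v.2 + 2 * n < bM p * n := by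
  have : NeZero l := ⟨by have := hp.1; omega⟩
  have hn' : (0 : ℤ) < n := by exact_mod_cast hn
  have hS : ∀ w ∈ S₀, (2 ≤ w.1 ∧ w.1 + 3 ≤ bM p) ∧ 2 ≤ w.2 ∧ w.2 + 3 ≤ bM p := by
    intro w hw
    refine ⟨⟨?_, ?_⟩, ?_, ?_⟩
    · obtain ⟨u, hu, hmin⟩ := exists_min_image S₀ (fun v => v.1) ⟨w, hw⟩
      have h1 : face (u.1, u.2 + 1) 2 ∉ S₀ := by
        rw [Enl.face2]
        intro hc
        have := hmin _ hc
        simp only at this
        omega
      obtain ⟨j, hj, -⟩ := (hD (u.1, u.2 + 1) 3).2 ⟨by rw [Enl.face3]; simpa using hu, h1⟩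
      have h2 := hN j
      rw [hj] at h2
      have h3 := hmin w hw
      simp only at h2 h3
      omega
    · obtain ⟨u, hu, hmax⟩ := exists_max_image S₀ (fun v => v.1) ⟨w, hw⟩
      have h1 : face (u.1 + 1, u.2) 0 ∉ S₀ := by
        rw [Enl.face0]
        intro hc
        have := hmax _ hc
        simp only at this
        omega
      obtain ⟨j, hj, -⟩ := (hD (u.1 + 1, u.2) 1).2 ⟨by rw [Enl.face1]; simpa using hu, h1⟩
      have h2 := le_bM p j
      rw [hj] at h2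
      have h3 := hmax w hw
      simp only at h2 h3
      omega
    · obtain ⟨u, hu, hmin⟩ := exists_min_image S₀ (fun v => v.2) ⟨w, hw⟩
      have h1 : face u 3 ∉ S₀ := by
        rw [Enl.face3]
        intro hc
        have := hmin _ hc
        simp only at this
        omega
      obtain ⟨j, hj, -⟩ := (hD u 0).2 ⟨by rw [Enl.face0]; exact hu, h1⟩
      have h2 := hN j
      rw [hj] at h2
      have h3 := hmin w hw
      omega
    · obtain ⟨u, hu, hmax⟩ := exists_max_image S₀ (fun v => v.2) ⟨w, hw⟩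
      have h1 : face (u.1 + 1, u.2 + 1) 1 ∉ S₀ := by
        rw [Enl.face1]
        intro hc
        have := hmax _ hc
        simp only at this
        omega
      obtain ⟨j, hj, -⟩ := (hD (u.1 + 1, u.2 + 1) 2).2
        ⟨by rw [Enl.face2]; simpa using hu, h1⟩
      have h2 := le_bM p j
      rw [hj] at h2
      have h3 := hmax w hw
      simp only at h2 h3
      omega
  obtain ⟨⟨b1, b2⟩, b3, b4⟩ := hS _ ((mem_enl_div hn).1 hv)
  have e1 := Int.mul_ediv_add_emod v.1 n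
  have e2 := Int.emod_nonneg v.1 hn'.ne'
  have e3 := Int.emod_lt_of_pos v.1 hn'
  have f1 := Int.mul_ediv_add_emod v.2 n
  have f2 := Int.emod_nonneg v.2 hn'.ne'
  have f3 := Int.emod_lt_of_pos v.2 hn'
  simp only at b1 b2 b3 b4
  generalize (bM p : ℤ) = M at *
  refine ⟨⟨?_, ?_⟩, ?_, ?_⟩ <;> nlinarith

/-- The domain is in the box. -/
theorem enl_sub (hp : IsPolygon p) (hD : Encloses p S₀) (hN : Nrm p) (n : ℕ) :
    enl S₀ n ⊆ enl {(0, 0)} (bM p * n) := by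
  have : NeZero l := ⟨by have := hp.1; omega⟩
  rcases Nat.eq_zero_or_pos n with rfl | hn
  · intro v hv
    obtain ⟨f, hf, h1, h2⟩ := H327.mem_enl.1 hv
    push_cast at h1
    omega
  · intro v hv
    have h1 := enl_mem hp hD hN hn hv
    have h2 : (0 : ℤ) < bM p * n := by
      have : 0 < bM p := by unfold bM; omega
      positivity
    rw [H327.mem_enl]
    refine ⟨(0, 0), mem_singleton_self _, ?_, ?_⟩ <;> push_cast <;> constructor <;> omega

end Vale.Agent.P167.N.ID
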