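import Vale.Agent.P167.N.ID.GeoRay
import Vale.Agent.P167.N.ID.GeoDob

/-!
# P167, block ID, geometry of the frames: the rows and marks of one polygon
-/

set_option autoImplicit false

namespace Vale.Agent.P167.N.ID

open Finset Filter Topology
open Vale.Agent.P167.E6 (IsPolygon Encloses dir face region)
open Vale.Agent.P167.H825 (pdir enl domP Box dirOf Marks FlowIn epos rnd bsite)
open Vale.Agent.P167.H825.Q (Row Bc)
open Vale.Agent.P167.H662 (hsite)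
open Vale.Agent.P167.FK (Bq)
open Vale.Agent.P167.H199 (Gap)
open Vale.Agent.P167.XDL (bS)
open Vale.Agent.P167.H680.T (frows)
open Vale.Agent.P167.Enl (sW eW tB rowP mem_rowP frm vp oz vz vz_eq oz_eq fin4_cases frmQ mem_frmQ
  iB jB pA pB gA gB iB_lt jB_le vp_pA vp_pB pB_zero pB_pos pA_zero row_pos rows_long frm_box
  mem_Bq' Bq_of op_near nm_tri nm_sub_comm pA_lt pB_le enl_side op_same lt_n
  rows_marks near_hole fl fl_zero fl_one theta_mono theta_nonneg theta_le_one hsite_far mark_far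
  frow_I)

/-- `w` is in the smallest box which contains `u` and `v`. -/
def Btw (u v w : ℤ × ℤ) : Prop := min u.1 v.1 ≤ w.1 ∧ w.1 ≤ max u.1 v.1 ∧ min u.2 v.2 ≤ w.2 ∧
  w.2 ≤ max u.2 v.2

theorem Btw.symm {u v w : ℤ × ℤ} (h : Btw u v w) : Btw v u w := by
  unfold Btw at *
  rw [min_comm v.1, max_comm v.1, min_comm v.2, max_comm v.2]
  exact h

/-- Squares before and after a vertex. -/
theorem btw_corner {z : ℤ × ℤ} {ra rb : Fin 4} (h : ra + 2 ≠ rb) {s t : ℤ} (hs : 0 ≤ s)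
    (ht : t < 0) : ∃ w, Btw (oz z rb s) (oz z ra t) w ∧ nm (w - z) ≤ 1 := by
  obtain ⟨x, y⟩ := z
  have e0 : (0 : Fin 4) + 2 = 2 := rfl
  have e1 : (1 : Fin 4) + 2 = 3 := rfl
  have e2 : (2 : Fin 4) + 2 = 0 := rfl
  have e3 : (3 : Fin 4) + 2 = 1 := rfl
  obtain ⟨a0, a1, a2, a3⟩ := oz_eq (x, y) s
  obtain ⟨b0, b1, b2, b3⟩ := oz_eq (x, y) t
  simp only at a0 a1 a2 a3 b0 b1 b2 b3
  unfold Btw
  rcases fin4_cases ra with rfl | rfl | rfl | rfl <;>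
    rcases fin4_cases rb with rfl | rfl | rfl | rfl <;>
    first
      | exact absurd rfl h
      | (rw [a0, b0]; exact ⟨(x, y - 1), by simp only; omega, by rw [nm_le_iff]; simp only [Prod.mk_sub_mk]; omega⟩)
      | (rw [a1, b1]; exact ⟨(x, y), by simp only; omega, by rw [nm_le_iff]; simp only [Prod.mk_sub_mk]; omega⟩)
      | (rw [a2, b2]; exact ⟨(x, y), by simp only; omega, by rw [nm_le_iff]; simp only [Prod.mk_sub_mk]; omega⟩)
      | (rw [a3, b3]; exact ⟨(x - 1, y), by simp only; omega, by rw [nm_le_iff]; simp only [Prod.mk_sub_mk]; omega⟩)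
      | (rw [a1, b0]; exact ⟨(x, y - 1), by simp only; omega, by rw [nm_le_iff]; simp only [Prod.mk_sub_mk]; omega⟩)
      | (rw [a3, b0]; exact ⟨(x - 1, y - 1), by simp only; omega, by rw [nm_le_iff]; simp only [Prod.mk_sub_mk]; omega⟩)
      | (rw [a0, b1]; exact ⟨(x, y - 1), by simp only; omega, by rw [nm_le_iff]; simp only [Prod.mk_sub_mk]; omega⟩)
      | (rw [a2, b1]; exact ⟨(x, y), by simp only; omega, by rw [nm_le_iff]; simp only [Prod.mk_sub_mk]; omega⟩)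
      | (rw [a1, b2]; exact ⟨(x, y), by simp only; omega, by rw [nm_le_iff]; simp only [Prod.mk_sub_mk]; omega⟩)
      | (rw [a3, b2]; exact ⟨(x - 1, y), by simp only; omega, by rw [nm_le_iff]; simp only [Prod.mk_sub_mk]; omega⟩)
      | (rw [a0, b3]; exact ⟨(x - 1, y - 1), by simp only; omega, by rw [nm_le_iff]; simp only [Prod.mk_sub_mk]; omega⟩)
      | (rw [a2, b3]; exact ⟨(x - 1, y), by simp only; omega, by rw [nm_le_iff]; simp only [Prod.mk_sub_mk]; omega⟩)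

/-- Squares of one side. -/
theorem btw_side {l : ℕ} (p : ZMod l → ℤ × ℤ) (n i : ℕ) {σ τ m : ℤ} (h1 : σ ≤ m) (h2 : m ≤ τ) :
    Btw (Enl.op p n i σ) (Enl.op p n i τ) (Enl.op p n i m) := by
  unfold Btw Enl.op
  obtain ⟨a0, a1, a2, a3⟩ := oz_eq ((n : ℤ) • p (i : ℕ)) σ
  obtain ⟨b0, b1, b2, b3⟩ := oz_eq ((n : ℤ) • p (i : ℕ)) τ
  obtain ⟨c0, c1, c2, c3⟩ := oz_eq ((n : ℤ) • p (i : ℕ)) m
  rcases fin4_cases (pdir p i) with hr | hr | hr | hr <;> rw [hr]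
  · rw [a0, b0, c0]; simp only; omega
  · rw [a1, b1, c1]; simp only; omega
  · rw [a2, b2, c2]; simp only; omega
  · rw [a3, b3, c3]; simp only; omega

variable {l : ℕ} {p : ZMod l → ℤ × ℤ} {n : ℕ} {S₀ : Finset (ℤ × ℤ)} {Q : Marks}

section poly

variable (hp : IsPolygon p) (hD : Encloses p S₀) (hQ : Q.Ok) {g δ : ℝ} (hg : Gap Q l g)
  (hδ : 0 < δ) (hδg : 4 * δ ≤ g) (hn : 16 ≤ δ * n)

include hp hQ hg hδ hδg hn in
/-- The rows are separate. -/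
theorem sepr_poly {x y : Fin l × Fin (Q.m + 1)} (hxy : x ≠ y) {u v : ℤ × ℤ}
    (hu : u ∈ rowP p n x.1 (sW p n Q ⌊δ * n⌋₊ x.1 x.2) (eW p n Q ⌊δ * n⌋₊ x.1 x.2))
    (hv : v ∈ rowP p n y.1 (sW p n Q ⌊δ * n⌋₊ y.1 y.2) (eW p n Q ⌊δ * n⌋₊ y.1 y.2)) :
    (⌊δ * n⌋₊ : ℤ) - 3 ≤ nm (u - v) := by
  have hrow := rows_marks (p := p) hQ hg hδ hδg hn
  have hd : 16 ≤ ⌊δ * n⌋₊ := Nat.le_floor (by push_cast; linarith)
  obtain ⟨σ, h1, h2, rfl⟩ := mem_rowP.1 hu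
  obtain ⟨τ, h3, h4, rfl⟩ := mem_rowP.1 hv
  have h5 := hrow.far hp hxy h1 h2 h3 h4
  have a1 := op_near (p := p) (n := n) x.1 σ
  have a2 := op_near (p := p) (n := n) y.1 τ
  have a3 := nm_tri (vp p n x.1 σ) (Enl.op p n x.1 σ) (vp p n y.1 τ)
  have a4 := nm_tri (Enl.op p n x.1 σ) (Enl.op p n y.1 τ) (vp p n y.1 τ)
  rw [nm_sub_comm (vp p n x.1 σ) (Enl.op p n x.1 σ)] at a3
  omega

include hp hD hQ hg hδ hδg hn in
/-- Near squares of different rows: between them is a square near a mark. -/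
theorem hull_poly {x y : Fin l × Fin (Q.m + 1)} (hxy : x ≠ y) {u v : ℤ × ℤ}
    (hu : u ∈ rowP p n x.1 (sW p n Q ⌊δ * n⌋₊ x.1 x.2) (eW p n Q ⌊δ * n⌋₊ x.1 x.2))
    (hv : v ∈ rowP p n y.1 (sW p n Q ⌊δ * n⌋₊ y.1 y.2) (eW p n Q ⌊δ * n⌋₊ y.1 y.2))
    {ρ : ℤ} (h : nm (u - v) ≤ ρ) (hρ : (ρ : ℝ) + 8 ≤ g / 4 * n) :
    ∃ z, ∃ w, Btw u v w ∧ nm (w - hsite p Q n z) ≤ 1 := by
  have hrow := rows_marks (p := p) hQ hg hδ hδg hn
  have hd : 16 ≤ ⌊δ * n⌋₊ := Nat.le_floor (by push_cast; linarith)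
  have hn0 : (0 : ℝ) ≤ n := Nat.cast_nonneg n
  have key : ∀ {x y : Fin l × Fin (Q.m + 1)} {u v : ℤ × ℤ}, (x.1 : ℕ) = y.1 → (x.2 : ℕ) < y.2 →
      u ∈ rowP p n x.1 (sW p n Q ⌊δ * n⌋₊ x.1 x.2) (eW p n Q ⌊δ * n⌋₊ x.1 x.2) →
      v ∈ rowP p n y.1 (sW p n Q ⌊δ * n⌋₊ y.1 y.2) (eW p n Q ⌊δ * n⌋₊ y.1 y.2) →
      ∃ z, ∃ w, Btw u v w ∧ nm (w - hsite p Q n z) ≤ 1 := by
    intro x y u v hi hj hu hv
    obtain ⟨σ, h1, h2, rfl⟩ := mem_rowP.1 hu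
    obtain ⟨τ, h3, h4, rfl⟩ := mem_rowP.1 hv
    have hy2 := y.2.2
    obtain ⟨-, -, b1, b2⟩ := Enl.ends_bd (p := p) hQ hg hδ hδg hn x.1.2 (j := x.2) (by omega)
    obtain ⟨-, -, b3, b4⟩ := Enl.ends_bd (p := p) hQ hg hδ hδg hn y.1.2 (j := y.2) (by omega)
    have c1 : ⌊Q.θ x.1 (x.2 + 1) * n⌋₊ ≤ ⌊Q.θ x.1 y.2 * n⌋₊ :=
      Nat.floor_le_floor (mul_le_mul_of_nonneg_right (theta_mono hQ x.1 (by omega) (by omega)) hn0)
    rw [hi] at c1 b2 b1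
    refine ⟨y, Enl.op p n y.1 (pA n Q y), ?_, ?_⟩
    · rw [hi]
      refine btw_side p n y.1 ?_ ?_
      · unfold pA
        rw [hi] at h2
        omega
      · unfold pA
        omega
    · rw [← vp_pA]
      exact op_near _ _
  by_cases hi : (x.1 : ℕ) = y.1
  · have hj : (x.2 : ℕ) ≠ y.2 := fun hj => hxy (Prod.ext (Fin.ext hi) (Fin.ext hj))
    rcases lt_or_gt_of_ne hj with hlt | hgt
    · exact key hi hlt hu hv
    · obtain ⟨z, w, h1, h2⟩ := key hi.symm hgt hv hu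
      exact ⟨z, w, h1.symm, h2⟩
  · -- different sides
    obtain ⟨z, hz1, hz2⟩ := near_hole (θ := 0) (β := 0) (bc := .free) hp hQ hg hδ hδg hn hxy
      (u := u) (v := v) (by
        change u ∈ (H825.Q.frow 0 0 p Q n ⌊δ * n⌋₊ .free x.1 x.2).I
        rw [frow_I]; exact hu) (by
        change v ∈ (H825.Q.frow 0 0 p Q n ⌊δ * n⌋₊ .free y.1 y.2).I
        rw [frow_I]; exact hv) h hρ
    refine ⟨z, ?_⟩
    have hρ0 : (0 : ℝ) ≤ ρ := by exact_mod_cast (Enl.nm_nonneg _).trans h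
    have key2 : ∀ {y : Fin l × Fin (Q.m + 1)} {v : ℤ × ℤ},
        v ∈ rowP p n y.1 (sW p n Q ⌊δ * n⌋₊ y.1 y.2) (eW p n Q ⌊δ * n⌋₊ y.1 y.2) →
        nm (v - hsite p Q n z) ≤ ρ + 1 →
        ((y.1 : ℕ) = z.1 ∧ ∃ s : ℤ, 0 ≤ s ∧ v = oz (hsite p Q n z) (pdir p z.1) s) ∨
        ((y.1 : ℕ) = iB l z ∧ ∃ s : ℤ, s < 0 ∧ v = oz (hsite p Q n z) (pdir p (iB l z)) s) := by
      intro y v hv hz
      obtain ⟨σ, h1, h2, rfl⟩ := mem_rowP.1 hv
      have h3 : nm (vp p n y.1 σ - hsite p Q n z) ≤ ρ + 2 := by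
        have a2 := op_near (p := p) (n := n) y.1 σ
        have a3 := nm_tri (vp p n y.1 σ) (Enl.op p n y.1 σ) (hsite p Q n z)
        rw [nm_sub_comm (vp p n y.1 σ) (Enl.op p n y.1 σ)] at a3
        omega
      rcases frm_box (m := ρ + 2) hp hQ hg hδ hδg hn (by push_cast; linarith) h1 h2 h3 with
        ⟨rfl, h4, h5⟩ | ⟨h4, h5, h6, h7⟩
      · left
        refine ⟨rfl, (σ : ℤ) - pA n Q y, by omega, ?_⟩
        rw [← op_after, add_sub_cancel]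
      · right
        refine ⟨h4, (σ : ℤ) - pB n Q z, by omega, ?_⟩
        rw [← op_before hp hQ, add_sub_cancel, h4]
    have hb := no_back hp hD hQ hg hδg hn z
    rcases key2 hu hz1 with ⟨c1, s, hs, rfl⟩ | ⟨c1, s, hs, rfl⟩ <;>
      rcases key2 hv hz2 with ⟨c2, t, ht, rfl⟩ | ⟨c2, t, ht, rfl⟩
    · exact absurd (c1.trans c2.symm) hi
    · exact btw_corner hb hs ht
    · obtain ⟨w, h1, h2⟩ := btw_corner hb ht hs
      exact ⟨w, h1.symm, h2⟩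
    · exact absurd (c1.trans c2.symm) hi

include hp hD hQ hg hδg hn in
/-- **The domain at the marks.** -/
theorem shp_enl (x : Fin l × Fin (Q.m + 1)) {r R : ℤ} (hR : (R : ℝ) + 2 ≤ g * n) :
    H635.Shp (enl S₀ n) (hsite p Q n x) r R := by
  have hl : 0 < l := by have := hp.1; omega
  obtain ⟨b1, -, b3, -, b5⟩ := Enl.gn_big hQ hg hδg hn hl
  have hn0 : (0 : ℝ) ≤ n := Nat.cast_nonneg n
  rcases Nat.eq_zero_or_pos (x.2 : ℕ) with h | h
  · have e : hsite p Q n x = (n : ℤ) • p (x.1 : ℕ) := by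
      rw [← vp_pA, pA_zero hQ h]
      unfold vp vz
      simp
    rw [e]
    refine shp_vert hp hD b5 _ ?_
    have : g * n ≤ 1 * n := mul_le_mul_of_nonneg_right b3 hn0
    have h2 : (R : ℝ) ≤ n := by linarith
    exact_mod_cast h2
  · have hκ : ∀ i < l, ∀ j ≤ Q.m, g ≤ Q.θ i (j + 1) - Q.θ i j :=
      fun i hi j hj => by linarith [hg.1 i hi j hj]
    have h2 := mark_far (n := n) hQ hκ x.1.2 (j := x.2) h (by omega)
    have h5 : R ≤ ⌊g * n⌋ - 1 := by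
      have h6 : ((R + 2 : ℤ) : ℝ) ≤ g * n := by push_cast; exact hR
      have h7 : R + 2 ≤ ⌊g * n⌋ := Int.le_floor.2 h6
      omega
    have key : ∀ v ∈ H635.Ann (hsite p Q n x) r R,
        (v ∈ enl S₀ n ↔ H167.Q.hpl (pdir p x.1) (hsite p Q n x) v) := fun v hv =>
      enl_side hp hD b5 (i := x.1) (t := (⌊Q.θ x.1 x.2 * n⌋₊ : ℤ)) (ρ := R) (by omega) (by omega)
        (H635.mem_Ann.1 hv).1
    refine H635.shp_half ?_ key
    rcases fin4_cases (pdir p x.1) with hr | hr | hr | hr <;> rw [hr]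
    · exact ⟨_, Or.inr (Or.inr (Or.inr fun _ => Iff.rfl))⟩
    · exact ⟨_, Or.inl fun _ => Iff.rfl⟩
    · exact ⟨_, Or.inr (Or.inr (Or.inl fun _ => Iff.rfl))⟩
    · exact ⟨_, Or.inr (Or.inl fun _ => Iff.rfl)⟩

end poly

end Vale.Agent.P167.N.ID
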