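import Vale.Agent.P167.H592.U.Near
import Vale.Agent.P167.H592.T.HoleG
import Vale.Agent.P167.H592.R.Out
import Vale.Agent.P167.H592.S.Close
import Vale.Agent.P167.N.Base.ArmSDef

/-!
# P167, block ID, geometry of the frames: the frozen squares and the domain at the marks

* `shp_rays`: thin rays are a shape.
* `frm_rays`: in an annulus around a mark the rows of a polygon are two thin rays.
* `shp_enl`: in an annulus around a mark the domain is a half plane or the intersection or union of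
  two half planes.
-/

set_option autoImplicit false

namespace Vale.Agent.P167.N.ID

open Finset Filter Topology
open Vale.Agent.P167.E6 (IsPolygon Encloses dir face region)
open Vale.Agent.P167.H825 (pdir enl domP Box dirOf Marks FlowIn epos rnd bsite)
open Vale.Agent.P167.H662 (hsite)
open Vale.Agent.P167.FK (Bq)
open Vale.Agent.P167.H199 (Gap)
open Vale.Agent.P167.H635 (InRay RayOk HP mem_Ann)
open Vale.Agent.P167.Enl (sW eW tB rowP mem_rowP frm vp op oz vz vz_eq oz_eq fin4_cases frmQ mem_frmQ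
  iB jB pA pB gA gB iB_lt jB_le vp_pA vp_pB pB_zero pB_pos pA_zero row_pos rows_long frm_box
  mem_Bq' Bq_of op_near nm_tri nm_sub_comm turn_mark uA_mod uB_mod uA uB pA_lt pB_le enl_side
  no_checker mem_enl_div)

/-! ### rays -/

/-- The position of the squares on the right of a step in direction `r` from `z`. -/
def off (z : ℤ × ℤ) (r : Fin 4) : ℤ :=
  if r = 0 then z.2 - 1 else if r = 1 then z.1 else if r = 2 then z.2 else z.1 - 1

/-- The thin ray in direction `k` with position `t`. -/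
def OnR (z : ℤ × ℤ) (k : Fin 4) (t : ℤ) (v : ℤ × ℤ) : Prop :=
  if k = 0 then z.1 ≤ v.1 ∧ v.2 = t else if k = 1 then z.2 ≤ v.2 ∧ v.1 = t
  else if k = 2 then v.1 < z.1 ∧ v.2 = t else v.2 < z.2 ∧ v.1 = t

theorem onR0 {z v : ℤ × ℤ} {t : ℤ} : OnR z 0 t v ↔ z.1 ≤ v.1 ∧ v.2 = t := Iff.rfl

theorem onR1 {z v : ℤ × ℤ} {t : ℤ} : OnR z 1 t v ↔ z.2 ≤ v.2 ∧ v.1 = t := by
  unfold OnR
  simp

theorem onR2 {z v : ℤ × ℤ} {t : ℤ} : OnR z 2 t v ↔ v.1 < z.1 ∧ v.2 = t := by
  unfold OnR
  simp

theorem onR3 {z v : ℤ × ℤ} {t : ℤ} : OnR z 3 t v ↔ v.2 < z.2 ∧ v.1 = t := by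
  unfold OnR
  simp

/-- The squares on the right of the steps from `z` in direction `r`. -/
theorem onR_oz {z v : ℤ × ℤ} {r : Fin 4} : OnR z r (off z r) v ↔ ∃ s : ℤ, 0 ≤ s ∧ v = oz z r s := by
  obtain ⟨v1, v2⟩ := v
  constructor
  · intro h
    rcases fin4_cases r with rfl | rfl | rfl | rfl
    · rw [onR0] at h
      refine ⟨v1 - z.1, by simp only at h; omega, ?_⟩
      rw [(oz_eq z _).1, Prod.ext_iff]
      simp only [off, if_true] at h ⊢
      omega
    · rw [onR1] at h
      refine ⟨v2 - z.2, by simp only at h; omega, ?_⟩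
      rw [(oz_eq z _).2.1, Prod.ext_iff]
      simp [off] at h ⊢
      omega
    · rw [onR2] at h
      refine ⟨z.1 - v1 - 1, by simp only at h; omega, ?_⟩
      rw [(oz_eq z _).2.2.1, Prod.ext_iff]
      simp [off] at h ⊢
      omega
    · rw [onR3] at h
      refine ⟨z.2 - v2 - 1, by simp only at h; omega, ?_⟩
      rw [(oz_eq z _).2.2.2, Prod.ext_iff]
      simp [off] at h ⊢
      omega
  · rintro ⟨s, hs, h⟩
    rcases fin4_cases r with rfl | rfl | rfl | rfl
    · rw [onR0]
      rw [(oz_eq z _).1, Prod.ext_iff] at h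
      simp [off] at h ⊢
      omega
    · rw [onR1]
      rw [(oz_eq z _).2.1, Prod.ext_iff] at h
      simp [off] at h ⊢
      omega
    · rw [onR2]
      rw [(oz_eq z _).2.2.1, Prod.ext_iff] at h
      simp [off] at h ⊢
      omega
    · rw [onR3]
      rw [(oz_eq z _).2.2.2, Prod.ext_iff] at h
      simp [off] at h ⊢
      omega

/-- The squares on the right of the steps in direction `r` which end at `z`. -/
theorem onR_oz' {z v : ℤ × ℤ} {r : Fin 4} :
    OnR z (r + 2) (off z r) v ↔ ∃ s : ℤ, s < 0 ∧ v = oz z r s := by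
  obtain ⟨v1, v2⟩ := v
  have e0 : (0 : Fin 4) + 2 = 2 := rfl
  have e1 : (1 : Fin 4) + 2 = 3 := rfl
  have e2 : (2 : Fin 4) + 2 = 0 := rfl
  have e3 : (3 : Fin 4) + 2 = 1 := rfl
  constructor
  · intro h
    rcases fin4_cases r with rfl | rfl | rfl | rfl
    · rw [e0, onR2] at h
      refine ⟨v1 - z.1, by simp only at h; omega, ?_⟩
      rw [(oz_eq z _).1, Prod.ext_iff]
      simp [off] at h ⊢
      omega
    · rw [e1, onR3] at h
      refine ⟨v2 - z.2, by simp only at h; omega, ?_⟩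
      rw [(oz_eq z _).2.1, Prod.ext_iff]
      simp [off] at h ⊢
      omega
    · rw [e2, onR0] at h
      refine ⟨z.1 - v1 - 1, by simp only at h; omega, ?_⟩
      rw [(oz_eq z _).2.2.1, Prod.ext_iff]
      simp [off] at h ⊢
      omega
    · rw [e3, onR1] at h
      refine ⟨z.2 - v2 - 1, by simp only at h; omega, ?_⟩
      rw [(oz_eq z _).2.2.2, Prod.ext_iff]
      simp [off] at h ⊢
      omega
  · rintro ⟨s, hs, h⟩
    rcases fin4_cases r with rfl | rfl | rfl | rfl
    · rw [e0, onR2]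
      rw [(oz_eq z _).1, Prod.ext_iff] at h
      simp [off] at h ⊢
      omega
    · rw [e1, onR3]
      rw [(oz_eq z _).2.1, Prod.ext_iff] at h
      simp [off] at h ⊢
      omega
    · rw [e2, onR0]
      rw [(oz_eq z _).2.2.1, Prod.ext_iff] at h
      simp [off] at h ⊢
      omega
    · rw [e3, onR1]
      rw [(oz_eq z _).2.2.2, Prod.ext_iff] at h
      simp [off] at h ⊢
      omega

/-- The squares of a ray in boxes. -/
theorem oz_Bq {z : ℤ × ℤ} {r : Fin 4} {s R : ℤ} (_hR : 1 ≤ R) :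
    oz z r s ∈ Bq z R ↔ -R ≤ s ∧ s < R := by
  rw [mem_bq']
  obtain ⟨h0, h1, h2, h3⟩ := oz_eq z s
  rcases fin4_cases r with rfl | rfl | rfl | rfl
  · rw [h0]; simp only; omega
  · rw [h1]; simp only; omega
  · rw [h2]; simp only; omega
  · rw [h3]; simp only; omega

/-- The centre coordinate of a ray. -/
def cen (z : ℤ × ℤ) (k : Fin 4) : ℤ := if k = 0 ∨ k = 2 then z.2 else z.1

/-- **Thin rays are a shape.** -/
theorem shp_rays {K : Set (ℤ × ℤ)} {z : ℤ × ℤ} {r R : ℤ} (a : Fin 4 → Option ℤ) (hr : 1 ≤ r)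
    (ha : ∀ k t, a k = some t → cen z k - r ≤ t ∧ t < cen z k + r)
    (h : ∀ v ∈ Bq z R \ Bq z r, v ∈ K ↔ ∃ k t, a k = some t ∧ OnR z k t v) : Shp K z r R := by
  refine Shp.ray (l := fun k => (a k).getD (cen z k))
    (k := fun k => (a k).elim (cen z k) (· + 1)) ?_ fun v hv => ?_
  · have key : ∀ k, cen z k - r ≤ (a k).getD (cen z k) ∧
        (a k).elim (cen z k) (· + 1) ≤ cen z k + r := by
      intro k
      rcases hk : a k with _ | t
      · simp only [Option.getD_none, Option.elim_none]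
        omega
      · have := ha k t hk
        simp only [Option.getD_some, Option.elim_some]
        omega
    exact ⟨key 0, key 1, key 2, key 3⟩
  · rw [h v hv]
    have key : ∀ (k : Fin 4) (x : ℤ), ((a k).getD (cen z k) ≤ x ∧
        x < (a k).elim (cen z k) (· + 1)) ↔ a k = some x := by
      intro k x
      rcases hk : a k with _ | t
      · simp only [Option.getD_none, Option.elim_none, reduceCtorEq, iff_false]
        omega
      · simp only [Option.getD_some, Option.elim_some, Option.some.injEq]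
        omega
    unfold InRay
    rw [key 0, key 1, key 2, key 3]
    constructor
    · rintro ⟨k, t, h1, h2⟩
      rcases fin4_cases k with rfl | rfl | rfl | rfl
      · rw [onR0] at h2
        exact Or.inl ⟨h2.1, h2.2 ▸ h1⟩
      · rw [onR1] at h2
        exact Or.inr (Or.inl ⟨h2.1, h2.2 ▸ h1⟩)
      · rw [onR2] at h2
        exact Or.inr (Or.inr (Or.inl ⟨h2.1, h2.2 ▸ h1⟩))
      · rw [onR3] at h2
        exact Or.inr (Or.inr (Or.inr ⟨h2.1, h2.2 ▸ h1⟩))
    · rintro (⟨h1, h2⟩ | ⟨h1, h2⟩ | ⟨h1, h2⟩ | ⟨h1, h2⟩)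
      · exact ⟨0, _, h2, onR0.2 ⟨h1, rfl⟩⟩
      · exact ⟨1, _, h2, onR1.2 ⟨h1, rfl⟩⟩
      · exact ⟨2, _, h2, onR2.2 ⟨h1, rfl⟩⟩
      · exact ⟨3, _, h2, onR3.2 ⟨h1, rfl⟩⟩

/-! ### the rows of a polygon at a mark -/

/-- The positions of the rays at a mark of a polygon: arriving direction `ra`, departing direction
`rb`. -/
def aH (z : ℤ × ℤ) (ra rb : Fin 4) (k : Fin 4) : Option ℤ :=
  if k = rb then some (off z rb) else if k = ra + 2 then some (off z ra) else none

theorem off_cen (z : ℤ × ℤ) (r : Fin 4) : (cen z r - 1 ≤ off z r ∧ off z r ≤ cen z r) ∧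
    cen z (r + 2) - 1 ≤ off z r ∧ off z r ≤ cen z (r + 2) := by
  unfold off cen
  rcases fin4_cases r with rfl | rfl | rfl | rfl <;> simp

theorem aH_cen {z : ℤ × ℤ} {ra rb k : Fin 4} {t : ℤ} (h : aH z ra rb k = some t) :
    cen z k - 1 ≤ t ∧ t ≤ cen z k := by
  unfold aH at h
  split_ifs at h with h1 h2
  · rw [Option.some.injEq] at h
    rw [← h, h1]
    exact (off_cen z rb).1
  · rw [Option.some.injEq] at h
    rw [← h, h2]
    exact (off_cen z ra).2

/-- The rays at a mark. -/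
theorem aH_iff {z v : ℤ × ℤ} {ra rb : Fin 4} (h : ra + 2 ≠ rb) :
    (∃ k t, aH z ra rb k = some t ∧ OnR z k t v) ↔
      (∃ s : ℤ, 0 ≤ s ∧ v = oz z rb s) ∨ ∃ s : ℤ, s < 0 ∧ v = oz z ra s := by
  rw [← onR_oz, ← onR_oz']
  constructor
  · rintro ⟨k, t, h1, h2⟩
    unfold aH at h1
    split_ifs at h1 with h3 h4
    · rw [Option.some.injEq] at h1
      rw [← h1, h3] at h2
      exact Or.inl h2
    · rw [Option.some.injEq] at h1
      rw [← h1, h4] at h2
      exact Or.inr h2
  · rintro (h1 | h1)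
    · exact ⟨rb, _, if_pos rfl, h1⟩
    · exact ⟨ra + 2, _, by unfold aH; rw [if_neg h, if_pos rfl], h1⟩

theorem oz_vz (z : ℤ × ℤ) (r : Fin 4) (q s : ℤ) : oz (vz z r q) r s = oz z r (q + s) := by
  obtain ⟨h0, h1, h2, h3⟩ := oz_eq z (q + s)
  obtain ⟨k0, k1, k2, k3⟩ := vz_eq z q
  rcases fin4_cases r with rfl | rfl | rfl | rfl
  · rw [h0, k0, (oz_eq _ s).1]; ext <;> simp; ring
  · rw [h1, k1, (oz_eq _ s).2.1]; ext <;> simp; ring
  · rw [h2, k2, (oz_eq _ s).2.2.1]; ext <;> simp; ring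
  · rw [h3, k3, (oz_eq _ s).2.2.2]; ext <;> simp; ring

variable {l : ℕ} {p : ZMod l → ℤ × ℤ} {n : ℕ} {S₀ : Finset (ℤ × ℤ)} {Q : Marks}

theorem op_after (x : Fin l × Fin (Q.m + 1)) (s : ℤ) :
    Enl.op p n x.1 (pA n Q x + s) = oz (hsite p Q n x) (pdir p x.1) s := by
  rw [← vp_pA]
  exact (oz_vz _ _ _ _).symm

theorem op_before (hp : IsPolygon p) (hQ : Q.Ok) (x : Fin l × Fin (Q.m + 1)) (s : ℤ) :
    Enl.op p n (iB l x) (pB n Q x + s) = oz (hsite p Q n x) (pdir p (iB l x)) s := by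
  rw [← vp_pB hp hQ]
  exact (oz_vz _ _ _ _).symm

section hole

variable (hp : IsPolygon p) (hD : Encloses p S₀) (hQ : Q.Ok) {g δ : ℝ} (hg : Gap Q l g)
  (hδ : 0 < δ) (hδg : 4 * δ ≤ g) (hn : 16 ≤ δ * n) {R : ℤ} (hR : (2 * R : ℝ) + 8 < g * n)

include hp hD hQ hg hδg hn in
/-- No turn by `π`. -/
theorem no_back (x : Fin l × Fin (Q.m + 1)) : pdir p (iB l x) + 2 ≠ pdir p x.1 := by
  have hl : 0 < l := by have := hp.1; omega
  obtain ⟨b1, -, -, -, b5⟩ := Enl.gn_big hQ hg hδg hn hl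
  have h1 := turn_mark hp hD hQ hg (m := 0) le_rfl (by push_cast; linarith) b5 x
  have h2 := uA_mod hp hD hQ b5 x (pA_lt hQ b5 x)
  have h3 := uB_mod hp hD hQ b5 x
  intro h
  have h4 := congrArg Fin.val h
  rw [Fin.val_add] at h4
  have h5 : ((2 : Fin 4) : ℕ) = 2 := rfl
  rw [h5] at h4
  have := (pdir p x.1).isLt
  have := (pdir p (iB l x)).isLt
  omega

include hp hD hQ hg hδ hδg hn hR in
/-- **In an annulus around a mark the rows of a polygon are two thin rays.** -/
theorem frm_rays {r : ℤ} (hr : (⌊δ * n⌋₊ : ℤ) + 2 ≤ r) {x : Fin l × Fin (Q.m + 1)} {v : ℤ × ℤ}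
    (hv : v ∈ Bq (hsite p Q n x) R \ Bq (hsite p Q n x) r) :
    v ∈ frmQ p Q n ⌊δ * n⌋₊ ↔ ∃ k t,
      aH (hsite p Q n x) (pdir p (iB l x)) (pdir p x.1) k = some t ∧
        OnR (hsite p Q n x) k t v := by
  rw [aH_iff (no_back hp hD hQ hg hδg hn x)]
  obtain ⟨hv1, hv2⟩ := Finset.mem_sdiff.1 hv
  obtain ⟨⟨p1, p2, p3⟩, ⟨p4, p5, p6⟩⟩ := row_pos (p := p) hQ hg hδ hδg hn x
  constructor
  · intro h
    obtain ⟨y, σ, h1, h2, rfl⟩ := mem_frmQ.1 h
    have h3 : nm (vp p n y.1 σ - hsite p Q n x) ≤ R + 1 := by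
      have a1 := mem_Bq' hv1
      have a2 := op_near (p := p) (n := n) y.1 σ
      have a3 := nm_tri (vp p n y.1 σ) (Enl.op p n y.1 σ) (hsite p Q n x)
      rw [nm_sub_comm (vp p n y.1 σ) (Enl.op p n y.1 σ)] at a3
      omega
    rcases frm_box (m := R + 1) hp hQ hg hδ hδg hn (by push_cast; linarith) h1 h2 h3 with
      ⟨rfl, h4, h5⟩ | ⟨h4, h5, h6, h7⟩
    · left
      refine ⟨(σ : ℤ) - pA n Q y, by omega, ?_⟩
      rw [← op_after, add_sub_cancel]
    · right
      refine ⟨(σ : ℤ) - pB n Q x, by omega, ?_⟩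
      rw [← op_before hp hQ, add_sub_cancel, h4]
  · have hR1 : 1 ≤ R := by
      by_contra hc
      rw [mem_bq'] at hv1
      omega
    have hRn : ((2 * (R.toNat : ℕ) : ℝ)) + 8 < g * n := by
      have : ((R.toNat : ℕ) : ℤ) = R := Int.toNat_of_nonneg (by omega)
      have h2 : ((R.toNat : ℕ) : ℝ) = R := by exact_mod_cast congrArg (fun z : ℤ => (z : ℝ)) this
      rw [h2]
      exact hR
    obtain ⟨q1, q2⟩ := rows_long (p := p) hQ hg hδ hδg hn hRn x
    rintro (⟨s, h1, rfl⟩ | ⟨s, h1, rfl⟩)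
    · rw [oz_Bq hR1] at hv1
      rw [oz_Bq (by omega)] at hv2
      rw [← op_after]
      refine mem_frmQ.2 ⟨x, pA n Q x + s.toNat, by omega, by omega, ?_⟩
      congr 1
      push_cast
      omega
    · rw [oz_Bq hR1] at hv1
      rw [oz_Bq (by omega)] at hv2
      rw [← op_before hp hQ]
      refine mem_frmQ.2 ⟨(⟨iB l x, iB_lt x⟩, ⟨jB x, by have := jB_le x; omega⟩),
        ((pB n Q x : ℤ) + s).toNat, ?_, ?_, ?_⟩
      · show sW p n Q ⌊δ * n⌋₊ (iB l x) (jB x) ≤ _
        omega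
      · show _ < eW p n Q ⌊δ * n⌋₊ (iB l x) (jB x)
        omega
      · show Enl.op p n (iB l x) _ = Enl.op p n (iB l x) _
        congr 1
        omega

end hole

/-! ### the domain at a mark -/

theorem div_of {n a b : ℤ} (h1 : n * b ≤ a) (h2 : a < n * b + n) : a / n = b := by
  have hn : 0 < n := by linarith
  have e := Int.mul_ediv_add_emod a n
  have e1 := Int.emod_nonneg a hn.ne'
  have e2 := Int.emod_lt_of_pos a hn
  have e3 : a / n - b < 1 := by
    by_contra hcon
    push Not at hcon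
    nlinarith
  have e4 : b - a / n < 1 := by
    by_contra hcon
    push Not at hcon
    nlinarith
  omega

/-- **Near a lattice point** the domain is a half plane, the intersection or the union of two half
planes. -/
theorem shp_vert (hp : IsPolygon p) (hD : Encloses p S₀) (hn : 0 < n) (V : ℤ × ℤ) {r R : ℤ}
    (hR : R ≤ n) : H635.Shp (enl S₀ n) ((n : ℤ) • V) r R := by
  have hn' : (0 : ℤ) < n := by exact_mod_cast hn
  obtain ⟨x, y⟩ := V
  have f : ∀ k : Fin 4, face (x, y) k = if k = 0 then (x, y) else if k = 1 then (x - 1, y)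
      else if k = 2 then (x - 1, y - 1) else (x, y - 1) := by
    intro k
    rcases fin4_cases k with rfl | rfl | rfl | rfl <;> simp [face] <;> omega
  have key : ∀ v ∈ H635.Ann ((n : ℤ) • (x, y)) r R, (v ∈ enl S₀ n ↔
      ((n * x ≤ v.1 ∧ n * y ≤ v.2 ∧ (x, y) ∈ S₀) ∨
      (v.1 < n * x ∧ n * y ≤ v.2 ∧ (x - 1, y) ∈ S₀) ∨
      (v.1 < n * x ∧ v.2 < n * y ∧ (x - 1, y - 1) ∈ S₀) ∨
      (n * x ≤ v.1 ∧ v.2 < n * y ∧ (x, y - 1) ∈ S₀))) := by
    intro v hv
    have h1 := (mem_Ann.1 hv).1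
    rw [mem_bq'] at h1
    change (n * x - R ≤ v.1 ∧ v.1 < n * x + R) ∧ n * y - R ≤ v.2 ∧ v.2 < n * y + R at h1
    rw [mem_enl_div hn]
    have a1 : n * (x - 1) = n * x - n := by ring
    have a2 : n * (y - 1) = n * y - (n : ℤ) := by ring
    rcases le_or_gt (n * x) v.1 with h2 | h2 <;> rcases le_or_gt (n * y) v.2 with h3 | h3
    · rw [div_of h2 (by omega), div_of h3 (by omega)]
      constructor
      · exact fun h => Or.inl ⟨h2, h3, h⟩
      · rintro (h | h | h | h)
        · exact h.2.2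
        all_goals exact absurd h.1 (by omega)
    · rw [div_of h2 (by omega), div_of (b := y - 1) (by omega) (by omega)]
      constructor
      · exact fun h => Or.inr (Or.inr (Or.inr ⟨h2, h3, h⟩))
      · rintro (h | h | h | h)
        · omega
        · omega
        · omega
        · exact h.2.2
    · rw [div_of (b := x - 1) (by omega) (by omega), div_of h3 (by omega)]
      constructor
      · exact fun h => Or.inr (Or.inl ⟨h2, h3, h⟩)
      · rintro (h | h | h | h)
        · omega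
        · exact h.2.2
        · omega
        · omega
    · rw [div_of (b := x - 1) (by omega) (by omega), div_of (b := y - 1) (by omega) (by omega)]
      constructor
      · exact fun h => Or.inr (Or.inr (Or.inl ⟨h2, h3, h⟩))
      · rintro (h | h | h | h)
        · omega
        · omega
        · exact h.2.2
        · omega
  have hE : HP fun v => n * x ≤ v.1 := ⟨n * x, Or.inr (Or.inl fun _ => Iff.rfl)⟩
  have hW : HP fun v => v.1 < n * x := ⟨n * x, Or.inl fun _ => Iff.rfl⟩
  have hN : HP fun v => n * y ≤ v.2 := ⟨n * y, Or.inr (Or.inr (Or.inr fun _ => Iff.rfl))⟩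
  have hS : HP fun v => v.2 < n * y := ⟨n * y, Or.inr (Or.inr (Or.inl fun _ => Iff.rfl))⟩
  have c1 := no_checker hp hD (x, y) 0
  have c2 := no_checker hp hD (x, y) 1
  have e0 : (0 : Fin 4) - 1 = 3 := rfl
  have e1 : (0 : Fin 4) + 2 = 2 := rfl
  have e2 : (0 : Fin 4) + 2 - 1 = 1 := rfl
  have e3 : (1 : Fin 4) - 1 = 0 := rfl
  have e4 : (1 : Fin 4) + 2 = 3 := rfl
  have e5 : (1 : Fin 4) + 2 - 1 = 2 := rfl
  rw [e0, e2, e1, f 0, f 3, f 2, f 1] at c1
  rw [e3, e5, e4, f 0, f 3, f 2, f 1] at c2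
  simp only [Fin.isValue, Fin.reduceEq, if_true, if_false] at c1 c2
  by_cases ha : (x, y) ∈ S₀ <;> by_cases hb : (x - 1, y) ∈ S₀ <;>
    by_cases hc : (x - 1, y - 1) ∈ S₀ <;> by_cases hd : (x, y - 1) ∈ S₀ <;>
    simp only [ha, hb, hc, hd, and_true, and_false, or_false, false_or] at key
  · exact H635.shp_full fun v hv => (key v hv).2 (by omega)
  · exact H635.shp_or hW hN fun v hv => (key v hv).trans (by omega)
  · exact H635.shp_or hE hN fun v hv => (key v hv).trans (by omega)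
  · exact H635.shp_half hN fun v hv => (key v hv).trans (by omega)
  · exact H635.shp_or hE hS fun v hv => (key v hv).trans (by omega)
  · exact (c1 ha hd hc hb).elim
  · exact H635.shp_half hE fun v hv => (key v hv).trans (by omega)
  · exact H635.shp_and hE hN fun v hv => (key v hv).trans (by omega)
  · exact H635.shp_or hW hS fun v hv => (key v hv).trans (by omega)
  · exact H635.shp_half hW fun v hv => (key v hv).trans (by omega)
  · exact (c2 hb ha hd hc).elim
  · exact H635.shp_and hW hN fun v hv => (key v hv).trans (by omega)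
  · exact H635.shp_half hS fun v hv => (key v hv).trans (by omega)
  · exact H635.shp_and hW hS fun v hv => (key v hv).trans (by omega)
  · exact H635.shp_and hE hS fun v hv => (key v hv).trans (by omega)
  · exact H635.shp_none fun v hv h => (key v hv).1 h

end Vale.Agent.P167.N.ID
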