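import Vale.Agent.P167.N.ID.GeoSD

/-!
# P167, block ID, geometry of the frames: `GeoS` for the frame with Dobrushin boundary conditions
-/

set_option autoImplicit false

namespace Vale.Agent.P167.N.ID

open Finset Filter Topology
open Vale.Agent.P167.E6 (IsPolygon Encloses dir face region)
open Vale.Agent.P167.H825 (pdir enl domP Box dirOf Marks FlowIn epos rnd bsite)
open Vale.Agent.P167.H825.Q (Row Bc)
open Vale.Agent.P167.H662 (hsite)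
open Vale.Agent.P167.FK (Bq)
open Vale.Agent.P167.H199 (Gap mks mth c0 c0_pos int_far mks_ok Gen)
open Vale.Agent.P167.XDL (bS mem_bS)
open Vale.Agent.P167.H680.T (uI mem_uI)
open Vale.Agent.P167.H398.Q (Tch hB)
open Vale.Agent.P167.Enl (sW eW tB rowP mem_rowP frm vp oz vz vz_eq oz_eq fin4_cases frmQ mem_frmQ
  iB jB pA pB gA gB iB_lt jB_le vp_pA vp_pB pB_zero pB_pos pA_zero row_pos rows_long frm_box
  mem_Bq' Bq_of op_near nm_tri nm_sub_comm pA_lt pB_le enl_side op_same lt_n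
  rows_marks near_hole fl fl_zero fl_one theta_mono theta_nonneg theta_le_one hsite_far mark_far
  frow_I hole_near frmQ_disj clH clH_sub clH_disj cl_cov hsite_out gn_big mem_bS_two gap_step
  pdir_step dir0 dir1 dir2 dir3)

variable {l : ℕ} {p : ZMod l → ℤ × ℤ} {S₀ : Finset (ℤ × ℤ)} {b : Box} {n d : ℕ} {tp : ℝ}

/-- The squares of the frame. -/
theorem mem_shD {v : ℤ × ℤ} : v ∈ uI (shD p b tp n d) ↔ v ∈ frmQ p (mks p b tp) n d ∨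
    v ∈ frmQ pQ (mksQ p b) (bM p * n) d ∨ v ∈ (spk p n d).I := by
  rw [mem_uI]
  constructor
  · rintro ⟨x | x | x, h⟩
    · left
      rw [← uI_shp, mem_uI]
      exact ⟨x, h⟩
    · right; left
      rw [← uI_shp, mem_uI]
      exact ⟨x, h⟩
    · right; right
      exact h
  · rintro (h | h | h)
    · rw [← uI_shp, mem_uI] at h
      obtain ⟨x, h⟩ := h
      exact ⟨.inl x, h⟩
    · rw [← uI_shp, mem_uI] at h
      obtain ⟨x, h⟩ := h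
      exact ⟨.inr (.inl x), h⟩
    · exact ⟨.inr (.inr ()), h⟩

/-- The parameters of the frame at one scale. -/
structure DobN (p : ZMod l → ℤ × ℤ) (S₀ : Finset (ℤ × ℤ)) (b : Box) (tp g δ : ℝ) (n : ℕ) :
    Prop where
  hp : IsPolygon p
  hD : Encloses p S₀
  hN : Nrm p
  hb : b.Ok S₀
  hQ : (mks p b tp).Ok
  hQ' : (mksQ p b).Ok
  hg : Gap (mks p b tp) l g
  hg' : Gap (mksQ p b) 4 g
  hδ : 0 < δ
  hδg : 4 * δ ≤ g
  hn : 16 ≤ δ * n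
  hc : g ≤ c0 b

namespace DobN

variable {g δ : ℝ}

theorem hM : 0 < bM p := by unfold bM; omega

/-- The facts for the box. -/
theorem box (H : DobN p S₀ b tp g δ n) : 0 < δ / bM p ∧ 4 * (δ / bM p) ≤ g ∧
    16 ≤ δ / bM p * ((bM p * n : ℕ) : ℝ) ∧ ⌊δ / bM p * ((bM p * n : ℕ) : ℝ)⌋₊ = ⌊δ * n⌋₊ := by
  have hM : (1 : ℝ) ≤ bM p := by exact_mod_cast hM (p := p)
  have h1 : δ / bM p * ((bM p * n : ℕ) : ℝ) = δ * n := by
    push_cast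
    field_simp
  refine ⟨by have := H.hδ; positivity, ?_, by rw [h1]; exact H.hn, by rw [h1]⟩
  have : δ / bM p ≤ δ := div_le_self H.hδ.le hM
  linarith [H.hδg]

theorem basic (H : DobN p S₀ b tp g δ n) : 64 ≤ g * n ∧ g ≤ 1 ∧ 0 < n ∧ 0 < g ∧ 2 ≤ bM p := by
  have hl : 0 < l := by have := H.hp.1; omega
  obtain ⟨b1, b2, b3, b4, b5⟩ := gn_big H.hQ H.hg H.hδg H.hn hl
  refine ⟨b1, b3, b5, by linarith [H.hδ, H.hδg], by unfold bM; omega⟩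

/-- The rows of the polygon, of the box and the spoke. -/
theorem rowP_mem (H : DobN p S₀ b tp g δ n) {x : Fin l × Fin 3} {u : ℤ × ℤ}
    (hu : u ∈ (shD p b tp n ⌊δ * n⌋₊ (.inl x)).I) :
    ((2 * n - 1 ≤ u.1 ∧ u.1 + 2 * n ≤ bM p * n + 1) ∧ 2 * n - 1 ≤ u.2 ∧
      u.2 + 2 * n ≤ bM p * n + 1) ∧ n * (p (iT p)).2 - 1 ≤ u.2 := by
  change u ∈ (shp p (mks p b tp) n ⌊δ * n⌋₊ x.1 x.2).I at hu
  rw [shp_I] at hu
  have h := rows_le (p := p) H.hQ H.hg H.hδ H.hδg H.hn x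
  exact ⟨row_mem H.hp H.hN h hu, row_low H.hp h hu⟩

theorem rowQ_mem' (H : DobN p S₀ b tp g δ n) {x : Fin 4 × Fin 3} {u : ℤ × ℤ}
    (hu : u ∈ (shD p b tp n ⌊δ * n⌋₊ (.inr (.inl x))).I) :
    ((-1 ≤ u.1 ∧ u.1 ≤ bM p * n) ∧ -1 ≤ u.2 ∧ u.2 ≤ bM p * n) ∧
      (u.1 = -1 ∨ u.1 = bM p * n ∨ u.2 = bM p * n ∨ ((x.1 : ℕ) = 2 ∧ u.2 = -1)) := by
  obtain ⟨c1, c2, c3, c4⟩ := H.box
  change u ∈ (shp pQ (mksQ p b) (bM p * n) ⌊δ * n⌋₊ x.1 x.2).I at hu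
  rw [shp_I, ← c4] at hu
  have h := rows_le (p := pQ) H.hQ' H.hg' c1 c2 c3 x
  have h2 := rowQ_mem (x.1.2) h hu
  push_cast at h2
  exact h2

theorem spk_mem' (H : DobN p S₀ b tp g δ n) {v : ℤ × ℤ} {x : Unit}
    (hv : v ∈ (shD p b tp n ⌊δ * n⌋₊ (.inr (.inr x))).I) :
    (v.1 = n * (p (iT p)).1 ∧ (2 * n : ℤ) ≤ v.1 ∧ v.1 + 2 * n ≤ bM p * n) ∧
      (⌊δ * n⌋₊ : ℤ) ≤ v.2 ∧ v.2 + ⌊δ * n⌋₊ < n * (p (iT p)).2 ∧ v.2 + 2 * n ≤ bM p * n :=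
  spk_mem H.hp H.hN hv

/-- The marks of the polygon. -/
theorem hsP (H : DobN p S₀ b tp g δ n) (x : Fin l × Fin 3) :
    ((2 * n ≤ (hsite p (mks p b tp) n x).1 ∧ (hsite p (mks p b tp) n x).1 + 2 * n ≤ bM p * n) ∧
      2 * n ≤ (hsite p (mks p b tp) n x).2 ∧
        (hsite p (mks p b tp) n x).2 + 2 * n ≤ bM p * n) ∧
      n * (p (iT p)).2 ≤ (hsite p (mks p b tp) n x).2 := by
  obtain ⟨-, -, b5, -⟩ := H.basic
  have h0 : pA n (mks p b tp) (l := l) x < n := pA_lt (n := n) H.hQ b5 x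
  have h3 : vp p n x.1 (pA n (mks p b tp) (l := l) x : ℤ) = hsite p (mks p b tp) n x :=
    vp_pA (p := p) (n := n) (Q := mks p b tp) x
  rw [← h3]
  exact ⟨vp_mem H.hp H.hN h0.le, (lowV_iT H.hp).vp H.hp h0.le⟩

/-- The marks of the box. -/
theorem hsQ' (H : DobN p S₀ b tp g δ n) (x : Fin 4 × Fin 3) :
    ((0 ≤ (hsite pQ (mksQ p b) (bM p * n) x).1 ∧
      (hsite pQ (mksQ p b) (bM p * n) x).1 ≤ bM p * n) ∧
    0 ≤ (hsite pQ (mksQ p b) (bM p * n) x).2 ∧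
      (hsite pQ (mksQ p b) (bM p * n) x).2 ≤ bM p * n) ∧
    ((hsite pQ (mksQ p b) (bM p * n) x).1 = 0 ∨
      (hsite pQ (mksQ p b) (bM p * n) x).1 = bM p * n ∨
      (hsite pQ (mksQ p b) (bM p * n) x).2 = bM p * n ∨
      (hsite pQ (mksQ p b) (bM p * n) x).2 = 0) := by
  obtain ⟨-, -, b5, -⟩ := H.basic
  have hNn : 0 < bM p * n := Nat.mul_pos hM b5
  obtain ⟨⟨k1, k2⟩, ⟨k3, k4⟩, k5⟩ := hsQ H.hQ' hNn x
  push_cast at k2 k4 k5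
  refine ⟨⟨⟨k1, k2⟩, k3, k4⟩, ?_⟩
  rcases k5 with k5 | k5 | k5 | k5
  · exact Or.inl k5
  · exact Or.inr (Or.inl k5)
  · exact Or.inr (Or.inr (Or.inl k5))
  · exact Or.inr (Or.inr (Or.inr k5.1))

/-! ### separation -/

/-- The rows of the polygon and of the box. -/
theorem sPQ (H : DobN p S₀ b tp g δ n) {x : Fin l × Fin 3} {y : Fin 4 × Fin 3} {u v : ℤ × ℤ}
    (hu : u ∈ (shD p b tp n ⌊δ * n⌋₊ (.inl x)).I)
    (hv : v ∈ (shD p b tp n ⌊δ * n⌋₊ (.inr (.inl y))).I) : 2 * (n : ℤ) - 1 ≤ nm (u - v) := by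
  have h1 := H.rowP_mem hu
  have h2 := H.rowQ_mem' hv
  obtain ⟨-, -, b5, -⟩ := H.basic
  rw [le_nm_iff]
  simp only [Prod.fst_sub, Prod.snd_sub]
  omega

/-- The rows of the polygon and the spoke. -/
theorem sPS (H : DobN p S₀ b tp g δ n) {x : Fin l × Fin 3} {y : Unit} {u v : ℤ × ℤ}
    (hu : u ∈ (shD p b tp n ⌊δ * n⌋₊ (.inl x)).I)
    (hv : v ∈ (shD p b tp n ⌊δ * n⌋₊ (.inr (.inr y))).I) : (⌊δ * n⌋₊ : ℤ) ≤ nm (u - v) := by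
  have h1 := H.rowP_mem hu
  have h2 := H.spk_mem' hv
  rw [le_nm_iff]
  simp only [Prod.fst_sub, Prod.snd_sub]
  omega

/-- The rows of the box and the spoke. -/
theorem sQS (H : DobN p S₀ b tp g δ n) {x : Fin 4 × Fin 3} {y : Unit} {u v : ℤ × ℤ}
    (hu : u ∈ (shD p b tp n ⌊δ * n⌋₊ (.inr (.inl x))).I)
    (hv : v ∈ (shD p b tp n ⌊δ * n⌋₊ (.inr (.inr y))).I) :
    (2 * (n : ℤ) ≤ nm (u - v) ∨ (u.2 = -1 ∧ (⌊δ * n⌋₊ : ℤ) + 1 ≤ nm (u - v))) := by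
  have h1 := H.rowQ_mem' hu
  have h2 := H.spk_mem' hv
  rw [le_nm_iff, le_nm_iff]
  simp only [Prod.fst_sub, Prod.snd_sub]
  omega

theorem hδn (H : DobN p S₀ b tp g δ n) : δ * n / 2 ≤ 2 * (n : ℝ) - 1 ∧
    δ * n / 2 ≤ (⌊δ * n⌋₊ : ℝ) - 3 ∧ g / 16 * n < 2 * (n : ℝ) - 1 ∧ (⌊δ * n⌋₊ : ℝ) ≤ n := by
  obtain ⟨b1, b3, b5, b6, b7⟩ := H.basic
  obtain ⟨d1, d2, d3⟩ := dfl H.hn
  have hn0 : (0 : ℝ) ≤ n := Nat.cast_nonneg n
  have hn1 : (1 : ℝ) ≤ n := by exact_mod_cast b5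
  have h1 := H.hδg
  have h2 := H.hn
  have h3 : δ * n ≤ 1 / 4 * n := mul_le_mul_of_nonneg_right (by linarith) hn0
  have h4 : g / 16 * n ≤ 1 / 16 * n := mul_le_mul_of_nonneg_right (by linarith) hn0
  refine ⟨by linarith, by linarith, by linarith, by linarith⟩

theorem sepr (H : DobN p S₀ b tp g δ n) : ∀ i j, i ≠ j → ∀ u ∈ (shD p b tp n ⌊δ * n⌋₊ i).I,
    ∀ v ∈ (shD p b tp n ⌊δ * n⌋₊ j).I, δ * n / 2 ≤ (nm (u - v) : ℝ) := by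
  obtain ⟨a1, a2, a3, a4⟩ := H.hδn
  obtain ⟨c1, c2, c3, c4⟩ := H.box
  have kPQ : ∀ {x : Fin l × Fin 3} {y : Fin 4 × Fin 3} {u v : ℤ × ℤ},
      u ∈ (shD p b tp n ⌊δ * n⌋₊ (.inl x)).I → v ∈ (shD p b tp n ⌊δ * n⌋₊ (.inr (.inl y))).I →
      δ * n / 2 ≤ (nm (u - v) : ℝ) := by
    intro x y u v hu hv
    have h : 2 * (n : ℝ) - 1 ≤ nm (u - v) := by exact_mod_cast H.sPQ hu hv
    linarith
  have kPS : ∀ {x : Fin l × Fin 3} {y : Unit} {u v : ℤ × ℤ},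
      u ∈ (shD p b tp n ⌊δ * n⌋₊ (.inl x)).I → v ∈ (shD p b tp n ⌊δ * n⌋₊ (.inr (.inr y))).I →
      δ * n / 2 ≤ (nm (u - v) : ℝ) := by
    intro x y u v hu hv
    have h : (⌊δ * n⌋₊ : ℝ) ≤ nm (u - v) := by exact_mod_cast H.sPS hu hv
    linarith
  have kQS : ∀ {x : Fin 4 × Fin 3} {y : Unit} {u v : ℤ × ℤ},
      u ∈ (shD p b tp n ⌊δ * n⌋₊ (.inr (.inl x))).I →
      v ∈ (shD p b tp n ⌊δ * n⌋₊ (.inr (.inr y))).I →
      δ * n / 2 ≤ (nm (u - v) : ℝ) := by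
    intro x y u v hu hv
    rcases H.sQS hu hv with h | ⟨-, h⟩
    · have h' : 2 * (n : ℝ) ≤ nm (u - v) := by exact_mod_cast h
      linarith
    · have h' : (⌊δ * n⌋₊ : ℝ) + 1 ≤ nm (u - v) := by exact_mod_cast h
      linarith
  rintro (x | x | x) (y | y | y) hij u hu v hv
  · change u ∈ (shp p (mks p b tp) n ⌊δ * n⌋₊ x.1 x.2).I at hu
    change v ∈ (shp p (mks p b tp) n ⌊δ * n⌋₊ y.1 y.2).I at hv
    rw [shp_I] at hu hv
    have h1 := sepr_poly (Q := mks p b tp) (x := x) (y := y) H.hp H.hQ H.hg H.hδ H.hδg H.hn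
      (fun h => hij (by rw [h])) hu hv
    have h2 : (⌊δ * n⌋₊ : ℝ) - 3 ≤ nm (u - v) := by exact_mod_cast h1
    linarith
  · exact kPQ hu hv
  · exact kPS hu hv
  · rw [nm_sub_comm]
    exact kPQ hv hu
  · change u ∈ (shp pQ (mksQ p b) (bM p * n) ⌊δ * n⌋₊ x.1 x.2).I at hu
    change v ∈ (shp pQ (mksQ p b) (bM p * n) ⌊δ * n⌋₊ y.1 y.2).I at hv
    rw [shp_I, ← c4] at hu hv
    have h1 := sepr_poly (Q := mksQ p b) (x := x) (y := y) pQ_poly H.hQ' H.hg' c1 c2 c3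
      (fun h => hij (by rw [h])) hu hv
    rw [c4] at h1
    have h2 : (⌊δ * n⌋₊ : ℝ) - 3 ≤ nm (u - v) := by exact_mod_cast h1
    linarith
  · exact kQS hu hv
  · rw [nm_sub_comm]
    exact kPS hv hu
  · rw [nm_sub_comm]
    exact kQS hv hu
  · exact absurd rfl hij

theorem hull (H : DobN p S₀ b tp g δ n) : ∀ i j, i ≠ j → ∀ u ∈ (shD p b tp n ⌊δ * n⌋₊ i).I,
    ∀ v ∈ (shD p b tp n ⌊δ * n⌋₊ j).I, (nm (u - v) : ℝ) < g / 16 * n →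
    ∃ x, ∃ w : ℤ × ℤ, Btw u v w ∧ (nm (w - hoD p b tp n x) : ℝ) ≤ 2 * δ * n := by
  obtain ⟨a1, a2, a3, a4⟩ := H.hδn
  obtain ⟨b1, b3, b5, b6, b7⟩ := H.basic
  obtain ⟨c1, c2, c3, c4⟩ := H.box
  have hδn := H.hn
  have e16 : g / 16 * n = g * n / 16 := by ring
  have fin : ∀ {w z : ℤ × ℤ}, nm (w - z) ≤ 1 → (nm (w - z) : ℝ) ≤ 2 * δ * n := by
    intro w z h
    have h' : (nm (w - z) : ℝ) ≤ 1 := by exact_mod_cast h
    linarith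
  have kPQ : ∀ {x : Fin l × Fin 3} {y : Fin 4 × Fin 3} {u v : ℤ × ℤ},
      u ∈ (shD p b tp n ⌊δ * n⌋₊ (.inl x)).I → v ∈ (shD p b tp n ⌊δ * n⌋₊ (.inr (.inl y))).I →
      (nm (u - v) : ℝ) < g / 16 * n → False := by
    intro x y u v hu hv h
    have h' : 2 * (n : ℝ) - 1 ≤ nm (u - v) := by exact_mod_cast H.sPQ hu hv
    linarith
  have kPS : ∀ {x : Fin l × Fin 3} {y : Unit} {u v : ℤ × ℤ},
      u ∈ (shD p b tp n ⌊δ * n⌋₊ (.inl x)).I → v ∈ (shD p b tp n ⌊δ * n⌋₊ (.inr (.inr y))).I →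
      ∃ x, ∃ w : ℤ × ℤ, Btw u v w ∧ (nm (w - hoD p b tp n x) : ℝ) ≤ 2 * δ * n := by
    intro x y u v hu hv
    have h1 := H.rowP_mem hu
    have h2 := H.spk_mem' hv
    obtain ⟨d1, -, -⟩ := dfl H.hn
    refine ⟨.inl (xT H.hp (mks p b tp)), (n * (p (iT p)).1, n * (p (iT p)).2 - 1), ?_, fin ?_⟩
    · unfold Btw
      simp only
      omega
    · change nm (_ - hsite p (mks p b tp) n (xT H.hp (mks p b tp))) ≤ 1
      rw [hsT H.hp H.hQ, nm_le_iff]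
      simp only [Prod.mk_sub_mk]
      omega
  have kQS : ∀ {x : Fin 4 × Fin 3} {y : Unit} {u v : ℤ × ℤ},
      u ∈ (shD p b tp n ⌊δ * n⌋₊ (.inr (.inl x))).I →
      v ∈ (shD p b tp n ⌊δ * n⌋₊ (.inr (.inr y))).I → (nm (u - v) : ℝ) < g / 16 * n →
      ∃ x, ∃ w : ℤ × ℤ, Btw u v w ∧ (nm (w - hoD p b tp n x) : ℝ) ≤ 2 * δ * n := by
    intro x y u v hu hv h
    have h2 := H.spk_mem' hv
    rcases H.sQS hu hv with h' | ⟨h', -⟩
    · have h' : 2 * (n : ℝ) ≤ nm (u - v) := by exact_mod_cast h'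
      linarith
    · refine ⟨.inr (.inr ()), (n * (p (iT p)).1, -1), ?_, fin ?_⟩
      · unfold Btw
        simp only
        omega
      · change nm (_ - ftD p n) ≤ 1
        unfold ftD
        rw [nm_le_iff]
        simp only [Prod.mk_sub_mk]
        omega
  rintro (x | x | x) (y | y | y) hij u hu v hv h
  · change u ∈ (shp p (mks p b tp) n ⌊δ * n⌋₊ x.1 x.2).I at hu
    change v ∈ (shp p (mks p b tp) n ⌊δ * n⌋₊ y.1 y.2).I at hv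
    rw [shp_I] at hu hv
    rw [e16] at h
    obtain ⟨z, w, h1, h2⟩ := hull_poly (Q := mks p b tp) (x := x) (y := y) H.hp H.hD H.hQ H.hg
      H.hδ H.hδg H.hn (fun h => hij (by rw [h])) hu hv le_rfl (by linarith)
    exact ⟨.inl z, w, h1, fin h2⟩
  · exact (kPQ hu hv h).elim
  · exact kPS hu hv
  · rw [nm_sub_comm] at h
    exact (kPQ hv hu h).elim
  · change u ∈ (shp pQ (mksQ p b) (bM p * n) ⌊δ * n⌋₊ x.1 x.2).I at hu
    change v ∈ (shp pQ (mksQ p b) (bM p * n) ⌊δ * n⌋₊ y.1 y.2).I at hv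
    rw [shp_I, ← c4] at hu hv
    rw [e16] at h
    have hnr : (0 : ℝ) < n := by exact_mod_cast b5
    have h9 : g * n ≤ g * ((bM p * n : ℕ) : ℝ) := by
      refine mul_le_mul_of_nonneg_left ?_ b6.le
      exact_mod_cast Nat.le_mul_of_pos_left n (hM (p := p))
    obtain ⟨z, w, h1, h2⟩ := hull_poly (Q := mksQ p b) (x := x) (y := y) pQ_poly pQ_encl H.hQ'
      H.hg' c1 c2 c3 (fun h => hij (by rw [h])) hu hv le_rfl (by linarith)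
    exact ⟨.inr (.inl z), w, h1, fin h2⟩
  · exact kQS hu hv h
  · obtain ⟨z, w, h1, h2⟩ := kPS hv hu
    exact ⟨z, w, h1.symm, h2⟩
  · rw [nm_sub_comm] at h
    obtain ⟨z, w, h1, h2⟩ := kQS hv hu h
    exact ⟨z, w, h1.symm, h2⟩
  · exact absurd rfl hij

end DobN

end Vale.Agent.P167.N.ID
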