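import Vale.Agent.P167.N.ID.GeoSE

/-!
# P167, block ID, geometry of the frames: the shapes at the holes of the Dobrushin frame
-/

set_option autoImplicit false

namespace Vale.Agent.P167.N.ID

open Finset Filter Topology
open Vale.Agent.P167.E6 (IsPolygon Encloses dir face region)
open Vale.Agent.P167.H825 (pdir enl domP Box dirOf Marks FlowIn epos rnd bsite)
open Vale.Agent.P167.H825.Q (Row Bc)
open Vale.Agent.P167.H662 (hsite)
open Vale.Agent.P167.FK (Bq)
open Vale.Agent.P167.H199 (Gap mks mth c0 c0_pos int_far mks_ok Gen)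
open Vale.Agent.P167.XDL (bS mem_bS)
open Vale.Agent.P167.H680.T (uI mem_uI)
open Vale.Agent.P167.H398.Q (Tch hB)
open Vale.Agent.P167.Enl (sW eW tB rowP mem_rowP frm vp oz vz vz_eq oz_eq fin4_cases frmQ mem_frmQ
  iB jB pA pB gA gB iB_lt jB_le vp_pA vp_pB pB_zero pB_pos pA_zero row_pos rows_long frm_box
  mem_Bq' Bq_of op_near nm_tri nm_sub_comm pA_lt pB_le enl_side op_same lt_n
  rows_marks near_hole fl fl_zero fl_one theta_mono theta_nonneg theta_le_one hsite_far mark_far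
  frow_I hole_near frmQ_disj clH clH_sub clH_disj cl_cov hsite_out gn_big mem_bS_two gap_step
  pdir_step dir0 dir1 dir2 dir3)

variable {l : ℕ} {p : ZMod l → ℤ × ℤ} {S₀ : Finset (ℤ × ℤ)} {b : Box} {n d : ℕ} {tp : ℝ}
  {g δ : ℝ}

namespace DobN

theorem frmP_row {v : ℤ × ℤ} (hv : v ∈ frmQ p (mks p b tp) n d) :
    ∃ x, v ∈ (shD p b tp n d (.inl x)).I := by
  rw [← uI_shp, mem_uI] at hv
  exact hv

theorem frmQ_row {v : ℤ × ℤ} (hv : v ∈ frmQ pQ (mksQ p b) (bM p * n) d) :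
    ∃ x, v ∈ (shD p b tp n d (.inr (.inl x))).I := by
  rw [← uI_shp, mem_uI] at hv
  exact hv

/-- The size of the boxes of the holes. -/
theorem hR (H : DobN p S₀ b tp g δ n) {R : ℤ} (hR : (R : ℝ) ≤ g / 16 * n) :
    16 * R ≤ n ∧ (2 * R : ℝ) + 8 < g * n ∧ (R : ℝ) + 2 ≤ g * n := by
  obtain ⟨b1, b3, b5, b6, b7⟩ := H.basic
  have hn0 : (0 : ℝ) ≤ n := Nat.cast_nonneg n
  have e16 : g / 16 * n = g * n / 16 := by ring
  rw [e16] at hR
  have h1 : g * n ≤ 1 * n := mul_le_mul_of_nonneg_right b3 hn0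
  refine ⟨?_, by linarith, by linarith⟩
  have : (16 : ℝ) * R ≤ n := by linarith
  exact_mod_cast this

/-- **The frozen squares at a mark of the polygon without the spoke.** -/
theorem shpP (H : DobN p S₀ b tp g δ n) {x : Fin l × Fin 3}
    (hx : x ≠ xT H.hp (mks p b tp)) {r R : ℤ}
    (hr : (⌊δ * n⌋₊ : ℤ) + 4 ≤ r) (hR : (R : ℝ) ≤ g / 16 * n) :
    Shp (uI (shD p b tp n ⌊δ * n⌋₊) : Set (ℤ × ℤ)) (hsite p (mks p b tp) n x) r R := by
  obtain ⟨b1, b3, b5, b6, b7⟩ := H.basic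
  obtain ⟨k1, k2, k3⟩ := H.hR hR
  have hx1 := H.hsP x
  refine shp_rays (aH (hsite p (mks p b tp) n x) (pdir p (iB l (m := (mks p b tp).m) x))
    (pdir p x.1)) (by omega) (fun k t h => by have := aH_cen h; omega) fun v hv => ?_
  rw [mem_coe, mem_shD]
  have h1 := frm_rays (Q := mks p b tp) (x := x) H.hp H.hD H.hQ H.hg H.hδ H.hδg H.hn (R := R) k2
    (r := r) (by omega) hv
  rw [← h1]
  refine ⟨fun h => ?_, Or.inl⟩
  have hv1 := mem_bq'.1 (Finset.mem_sdiff.1 hv).1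
  rcases h with h | h | h
  · exact h
  · exfalso
    obtain ⟨y, hy⟩ := frmQ_row (tp := tp) h
    have h2 := H.rowQ_mem' hy
    omega
  · exfalso
    have h2 := H.spk_mem' (x := ()) h
    have hκ : ∀ i < l, ∀ j ≤ (mks p b tp).m,
        g ≤ (mks p b tp).θ i (j + 1) - (mks p b tp).θ i j :=
      fun i hi j hj => by linarith [H.hg.1 i hi j hj]
    have h3 := hsite_far (n := n) (Q := mks p b tp) H.hQ hκ H.hp b3 hx
    rw [hsT H.hp H.hQ] at h3
    have h4 : nm (hsite p (mks p b tp) n x - (n * (p (iT p)).1, n * (p (iT p)).2)) ≤ 2 * R := by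
      rw [nm_le_iff]
      simp only [Prod.fst_sub, Prod.snd_sub]
      omega
    have h5 : (nm (hsite p (mks p b tp) n x - (n * (p (iT p)).1, n * (p (iT p)).2)) : ℝ) ≤
      2 * R := by exact_mod_cast h4
    linarith

/-- **The frozen squares at the mark with the spoke.** -/
theorem shpT (H : DobN p S₀ b tp g δ n) {r R : ℤ}
    (hr : (⌊δ * n⌋₊ : ℤ) + 4 ≤ r) (hR : (R : ℝ) ≤ g / 16 * n) :
    Shp (uI (shD p b tp n ⌊δ * n⌋₊) : Set (ℤ × ℤ))
      (hsite p (mks p b tp) n (xT H.hp (mks p b tp))) r R := by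
  obtain ⟨b1, b3, b5, b6, b7⟩ := H.basic
  obtain ⟨k1, k2, k3⟩ := H.hR hR
  obtain ⟨e1, e2⟩ := dirT H.hp H.hD (mks p b tp)
  have hx1 := H.hsP (xT H.hp (mks p b tp))
  have hs := hsT (n := n) H.hp H.hQ
  set z := hsite p (mks p b tp) n (xT H.hp (mks p b tp)) with hz
  have hz1 : z.1 = n * (p (iT p)).1 := by rw [hs]
  have hz2 : z.2 = n * (p (iT p)).2 := by rw [hs]
  refine shp_rays (fun k => if k = 3 then some z.1 else aH z 3 0 k) (by omega)
    (fun k t h => ?_) fun v hv => ?_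
  · split_ifs at h with h3
    · rw [Option.some.injEq] at h
      rw [← h, h3]
      show cen z 3 - r ≤ z.1 ∧ z.1 < cen z 3 + r
      unfold cen
      simp only [Fin.reduceEq, or_self, if_false]
      omega
    · have := aH_cen h
      omega
  have h1 := frm_rays (Q := mks p b tp) (x := xT H.hp (mks p b tp)) H.hp H.hD H.hQ H.hg H.hδ
    H.hδg H.hn (R := R) k2 (r := r) (by omega) hv
  rw [e1, e2] at h1
  have hv1 := mem_bq'.1 (Finset.mem_sdiff.1 hv).1
  have hv2 : ¬ ((z.1 - r ≤ v.1 ∧ v.1 < z.1 + r) ∧ z.2 - r ≤ v.2 ∧ v.2 < z.2 + r) := fun h =>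
    (Finset.mem_sdiff.1 hv).2 (mem_bq'.2 h)
  have h6 : v ∈ (spk p n ⌊δ * n⌋₊).I ↔ OnR z 3 z.1 v := by
    rw [mem_spk, onR3]
    constructor
    · rintro ⟨a1, a2, a3⟩
      omega
    · rintro ⟨a1, a2⟩
      obtain ⟨d1, d2, d3⟩ := dfl H.hn
      have a4 := H.hδn.2.2.2
      have a5 : (⌊δ * n⌋₊ : ℤ) ≤ n := by exact_mod_cast a4
      omega
  rw [mem_coe, mem_shD, h1, h6]
  constructor
  · rintro (⟨k, t, h2, h3⟩ | h | h)
    · refine ⟨k, t, ?_, h3⟩
      rw [if_neg]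
      · exact h2
      · rintro rfl
        have : aH z 3 0 3 = none := rfl
        rw [this] at h2
        exact absurd h2 (by simp)
    · exfalso
      obtain ⟨y, hy⟩ := frmQ_row (tp := tp) h
      have h2 := H.rowQ_mem' hy
      omega
    · exact ⟨3, z.1, if_pos rfl, h⟩
  · rintro ⟨k, t, h2, h3⟩
    split_ifs at h2 with h4
    · rw [Option.some.injEq] at h2
      rw [h4, ← h2] at h3
      exact Or.inr (Or.inr h3)
    · exact Or.inl ⟨k, t, h2, h3⟩

/-- **The frozen squares at the marks of the box.** -/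
theorem shpQ (H : DobN p S₀ b tp g δ n) (x : Fin 4 × Fin 3) {r R : ℤ}
    (hr : (⌊δ * n⌋₊ : ℤ) + 4 ≤ r) (hR : (R : ℝ) ≤ g / 16 * n) :
    Shp (uI (shD p b tp n ⌊δ * n⌋₊) : Set (ℤ × ℤ)) (hsite pQ (mksQ p b) (bM p * n) x) r R := by
  obtain ⟨b1, b3, b5, b6, b7⟩ := H.basic
  obtain ⟨k1, k2, k3⟩ := H.hR hR
  obtain ⟨c1, c2, c3, c4⟩ := H.box
  have hx1 := H.hsQ' x
  have hn0 : (0 : ℝ) ≤ n := Nat.cast_nonneg n
  have hgN : g * n ≤ g * ((bM p * n : ℕ) : ℝ) := by
    refine mul_le_mul_of_nonneg_left ?_ b6.le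
    exact_mod_cast Nat.le_mul_of_pos_left n (hM (p := p))
  refine shp_rays (aH (hsite pQ (mksQ p b) (bM p * n) x)
    (pdir pQ (iB 4 (m := (mksQ p b).m) x)) (pdir pQ x.1)) (by omega)
    (fun k t h => by have := aH_cen h; omega) fun v hv => ?_
  rw [mem_coe, mem_shD]
  have h1 := frm_rays (Q := mksQ p b) (x := x) pQ_poly pQ_encl H.hQ' H.hg' c1 c2 c3 (R := R)
    (by linarith) (r := r) (by rw [c4]; omega) hv
  rw [c4] at h1
  rw [← h1]
  refine ⟨fun h => ?_, fun h => Or.inr (Or.inl h)⟩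
  have hv1 := mem_bq'.1 (Finset.mem_sdiff.1 hv).1
  rcases h with h | h | h
  · exfalso
    obtain ⟨y, hy⟩ := frmP_row h
    have h2 := H.rowP_mem hy
    omega
  · exact h
  · exfalso
    have h2 := H.spk_mem' (x := ()) h
    have h3 := foot_far H.hp H.hD H.hN H.hb H.hQ' b5 x
    have h4 : nm (ftD p n - hsite pQ (mksQ p b) (bM p * n) x) ≤ 2 * R := by
      have h5 := ft_mem (n := n) H.hp H.hN
      rw [nm_le_iff]
      simp only [Prod.fst_sub, Prod.snd_sub]
      omega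
    have h5 : (nm (ftD p n - hsite pQ (mksQ p b) (bM p * n) x) : ℝ) ≤ 2 * R := by
      exact_mod_cast h4
    have h6 : g * n ≤ c0 b * n := mul_le_mul_of_nonneg_right H.hc hn0
    linarith

/-- **The frozen squares at the foot of the spoke.** -/
theorem shpF (H : DobN p S₀ b tp g δ n) {r R : ℤ}
    (hr : (⌊δ * n⌋₊ : ℤ) + 4 ≤ r) (hR : (R : ℝ) ≤ g / 16 * n) :
    Shp (uI (shD p b tp n ⌊δ * n⌋₊) : Set (ℤ × ℤ)) (ftD p n) r R := by
  obtain ⟨b1, b3, b5, b6, b7⟩ := H.basic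
  obtain ⟨k1, k2, k3⟩ := H.hR hR
  obtain ⟨c1, c2, c3, c4⟩ := H.box
  have hn0 : (0 : ℝ) ≤ n := Nat.cast_nonneg n
  obtain ⟨z2, z1, z3, z4⟩ := ft_mem (n := n) H.hp H.hN
  set z := ftD p n with hz
  refine shp_rays (fun k => if k = 1 then some z.1 else if k = 3 then none else some (-1))
    (by omega) (fun k t h => ?_) fun v hv => ?_
  · unfold cen
    rcases fin4_cases k with rfl | rfl | rfl | rfl <;> simp at h <;> simp <;> omega
  have hv1 := mem_bq'.1 (Finset.mem_sdiff.1 hv).1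
  have hv2 : ¬ ((z.1 - r ≤ v.1 ∧ v.1 < z.1 + r) ∧ z.2 - r ≤ v.2 ∧ v.2 < z.2 + r) := fun h =>
    (Finset.mem_sdiff.1 hv).2 (mem_bq'.2 h)
  obtain ⟨d1, d2, d3⟩ := dfl H.hn
  have a5 : (⌊δ * n⌋₊ : ℤ) ≤ n := by exact_mod_cast H.hδn.2.2.2
  -- the spoke
  have h6 : v ∈ (spk p n ⌊δ * n⌋₊).I ↔ OnR z 1 z.1 v := by
    rw [mem_spk, onR1]
    have hy := (H.hN (iT p)).2
    have hy' : 2 * (n : ℤ) ≤ n * (p (iT p)).2 := by nlinarith [H.hN (iT p)]
    constructor
    · rintro ⟨a1, a2, a3⟩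
      omega
    · rintro ⟨a1, a2⟩
      omega
  -- the row of the box
  have h7 : v ∈ frmQ pQ (mksQ p b) (bM p * n) ⌊δ * n⌋₊ ↔ v.2 = -1 := by
    constructor
    · intro h
      obtain ⟨y, hy⟩ := frmQ_row (tp := tp) h
      have h2 := H.rowQ_mem' hy
      have : (2 : ℤ) * n ≤ bM p * n := by
        have : (2 : ℤ) ≤ bM p := by exact_mod_cast b7
        nlinarith
      have hy' : 2 * (n : ℤ) ≤ n * (p (iT p)).2 := by nlinarith [H.hN (iT p)]
      omega
    · intro h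
      have hv0 : 0 ≤ v.1 := by omega
      have hvN : v.1.toNat < bM p * n := by
        have : (v.1.toNat : ℤ) < ((bM p * n : ℕ) : ℤ) := by push_cast; omega
        exact_mod_cast this
      rcases gap_step (p := pQ) (d := ⌊δ * n⌋₊) pQ_poly H.hQ' (i := 2) (by norm_num) hvN with
        ⟨y, hy1, hy2, hy3⟩ | ⟨x, hx⟩
      · refine mem_frmQ.2 ⟨y, v.1.toNat, hy2, hy3, ?_⟩
        rw [hy1]
        rcases opQ (N := bM p * n) (i := 2) (by norm_num) (v.1.toNat : ℤ) with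
          ⟨h', -⟩ | ⟨h', -⟩ | ⟨-, h'⟩ | ⟨h', -⟩
        · omega
        · omega
        · rw [h']
          ext
          · simp only; omega
          · exact h
        · omega
      · exfalso
        have h3 := foot_far H.hp H.hD H.hN H.hb H.hQ' b5 x
        have h4 : nm (ftD p n - hsite pQ (mksQ p b) (bM p * n) x) ≤ R + ⌊δ * n⌋₊ := by
          have h5 : vp pQ (bM p * n) 2 (v.1.toNat : ℤ) = (v.1, 0) := by
            unfold vp
            have e2 : pQ ((2 : ℕ) : ZMod 4) = (0, 0) := rfl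
            rw [pdir_pQ.2.2.1, e2, (vz_eq _ _).1]
            simp
            omega
          rw [h5] at hx
          have h8 := nm_tri (ftD p n) (v.1, 0) (hsite pQ (mksQ p b) (bM p * n) x)
          have h9 : nm (ftD p n - (v.1, 0)) ≤ R := by
            rw [← hz, nm_le_iff]
            simp only [Prod.fst_sub, Prod.snd_sub]
            omega
          change nm ((v.1, 0) - hsite pQ (mksQ p b) (bM p * n) x) ≤ _ at hx
          omega
        have h5 : (nm (ftD p n - hsite pQ (mksQ p b) (bM p * n) x) : ℝ) ≤ R + ⌊δ * n⌋₊ := by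
          exact_mod_cast h4
        have h8 : g * n ≤ c0 b * n := mul_le_mul_of_nonneg_right H.hc hn0
        have h9 : 4 * δ * n ≤ g * n := mul_le_mul_of_nonneg_right H.hδg hn0
        linarith
  rw [mem_coe, mem_shD, h6, h7]
  constructor
  · rintro (h | h | h)
    · exfalso
      obtain ⟨y, hy⟩ := frmP_row h
      have h2 := H.rowP_mem hy
      omega
    · by_cases h8 : z.1 ≤ v.1
      · exact ⟨0, -1, rfl, onR0.2 ⟨h8, h⟩⟩
      · exact ⟨2, -1, rfl, onR2.2 ⟨by omega, h⟩⟩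
    · exact ⟨1, z.1, rfl, h⟩
  · rintro ⟨k, t, h2, h3⟩
    rcases fin4_cases k with rfl | rfl | rfl | rfl
    · have : t = -1 := by simpa using h2.symm
      rw [onR0] at h3
      exact Or.inr (Or.inl (h3.2.trans this))
    · have : t = z.1 := by simpa using h2.symm
      rw [this] at h3
      exact Or.inr (Or.inr h3)
    · have : t = -1 := by simpa using h2.symm
      rw [onR2] at h3
      exact Or.inr (Or.inl (h3.2.trans this))
    · simp at h2

end DobN

end Vale.Agent.P167.N.ID
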