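import Vale.Agent.P167.XDL.Enl2
import Vale.Agent.P167.H199.MkReg

/-!
# P167, block ID, geometry of the frames: the lowest, then leftmost vertex of a lattice polygon

`iT p`: the index of the vertex `T` at which the spoke hangs.
-/

set_option autoImplicit false

namespace Vale.Agent.P167.N.ID

open Finset
open Vale.Agent.P167.E6 (IsPolygon Encloses dir face region)
open Vale.Agent.P167.H825 (pdir enl domP Box dirOf)
open Vale.Agent.P167.Enl (face0 face1 face2 face3 dir0 dir1 dir2 dir3 pdir_step dirOf_dir dir_inj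
  mem_enl_div)

variable {l : ℕ} {p : ZMod l → ℤ × ℤ} {S₀ : Finset (ℤ × ℤ)} {i : ℕ}

/-- `i` is the index of the lowest, then leftmost vertex. -/
structure LowV (p : ZMod l → ℤ × ℤ) (i : ℕ) : Prop where
  lt : i < l
  le : ∀ j : ZMod l, (p i).2 < (p j).2 ∨ ((p i).2 = (p j).2 ∧ (p i).1 ≤ (p j).1)

theorem exists_lowV (hl : 0 < l) (p : ZMod l → ℤ × ℤ) : ∃ i, LowV p i := by
  have : NeZero l := ⟨by omega⟩
  obtain ⟨i, hi, hmin⟩ := exists_min_image (range l)
    (fun i : ℕ => (toLex ((p (i : ZMod l)).2, (p (i : ZMod l)).1) : Lex (ℤ × ℤ)))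
    ⟨0, mem_range.2 hl⟩
  refine ⟨i, mem_range.1 hi, fun j => ?_⟩
  have h1 := hmin j.val (mem_range.2 (ZMod.val_lt j))
  rw [ZMod.natCast_zmod_val, Prod.Lex.toLex_le_toLex] at h1
  exact h1

/-- The index of the lowest, then leftmost vertex. -/
noncomputable def iT (p : ZMod l → ℤ × ℤ) : ℕ := by
  classical
  exact if h : ∃ i, LowV p i then h.choose else 0

theorem lowV_iT (hp : IsPolygon p) : LowV p (iT p) := by
  have h := exists_lowV (by have := hp.1; omega) p
  unfold iT
  rw [dif_pos h]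
  exact h.choose_spec

/-- The squares of the polygon are above the lowest vertex, in the lowest line to the right of it. -/
theorem LowV.sq (h : LowV p i) (hD : Encloses p S₀) {v : ℤ × ℤ} (hv : v ∈ S₀) :
    (p i).2 ≤ v.2 ∧ (v.2 = (p i).2 → (p i).1 ≤ v.1) := by
  constructor
  · obtain ⟨w, hw, hmin⟩ := exists_min_image S₀ (fun v => v.2) ⟨v, hv⟩
    have h1 : face w 3 ∉ S₀ := by
      rw [face3]
      intro hc
      have := hmin _ hc
      simp only at this
      omega
    obtain ⟨j, hj, -⟩ := (hD w 0).2 ⟨by rw [face0]; exact hw, h1⟩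
    have h2 := h.le j
    rw [hj] at h2
    have h3 := hmin v hv
    omega
  · intro hv2
    obtain ⟨w, hw, hmin⟩ := exists_min_image (S₀.filter fun w => w.2 = (p i).2) (fun v => v.1)
      ⟨v, mem_filter.2 ⟨hv, hv2⟩⟩
    obtain ⟨hw1, hw2⟩ := mem_filter.1 hw
    have h1 : face (w.1, w.2 + 1) 2 ∉ S₀ := by
      rw [face2]
      simp only [add_sub_cancel_right]
      intro hc
      have := hmin _ (mem_filter.2 ⟨hc, hw2⟩)
      simp only at this
      omega
    obtain ⟨j, hj, hj'⟩ := (hD (w.1, w.2 + 1) 3).2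
      ⟨by rw [face3]; simpa using hw1, h1⟩
    have h2 := h.le (j + 1)
    rw [hj', dir3] at h2
    simp only [Prod.mk_add_mk, add_zero, add_neg_cancel_right] at h2
    have h3 := hmin v (mem_filter.2 ⟨hv, hv2⟩)
    omega

/-- The sides next to the lowest vertex. -/
theorem LowV.sides (h : LowV p i) (hp : IsPolygon p) (hD : Encloses p S₀) :
    pdir p i = 0 ∧ p ((i : ZMod l) - 1) = p i + (0, 1) ∧ p i ∈ S₀ := by
  have hl := hp.1
  -- the side which starts at `p i`
  obtain ⟨k1, k2⟩ := (hD (p i) (pdir p i)).1 ⟨i, rfl, pdir_step hp i⟩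
  have h1 := h.sq hD k1
  have h2 := h.le ((i : ZMod l) + 1)
  rw [pdir_step hp] at h2
  -- the side which ends at `p i`
  obtain ⟨r, hr⟩ := hp.2.2 ((i : ZMod l) - 1)
  rw [sub_add_cancel] at hr
  have h3 := h.le ((i : ZMod l) - 1)
  have h4 := (hD (p ((i : ZMod l) - 1)) r).1 ⟨_, rfl, by rw [sub_add_cancel]; exact hr⟩
  have h5 := h.sq hD h4.1
  generalize hq : p ((i : ZMod l) - 1) = q at hr h3 h4 h5 ⊢
  have h6 : p i = q + dir r := hr
  obtain ⟨x, y⟩ := q
  have e0 : pdir p i = 0 ∨ pdir p i = 1 ∨ pdir p i = 2 ∨ pdir p i = 3 := by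
    generalize pdir p i = s
    fin_cases s <;> simp
  have hinj : (p i : ℤ × ℤ) + dir (pdir p i) ≠ (x, y) := by
    rw [← pdir_step hp, ← hq]
    intro hc
    have h7 := hp.2.1 hc
    have h8 : ((2 : ℕ) : ZMod l) = 0 := by
      push_cast
      linear_combination h7
    rw [ZMod.natCast_eq_zero_iff] at h8
    have := Nat.le_of_dvd (by norm_num) h8
    omega
  have e1 : pdir p i = 0 ∧ (x, y) = p i + (0, 1) := by
    rw [h6] at h1 h2 h3 h5 hinj ⊢
    generalize pdir p i = s at h1 h2 e0 hinj k1 ⊢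
    fin_cases r
    · simp [dir0] at h3
    · simp [dir1] at h3
    · rcases e0 with rfl | rfl | rfl | rfl
      · exfalso
        apply hinj
        simp [dir0, dir2]
      · exfalso
        simp [dir2, face1] at h1
      · simp [dir2] at h2
      · simp [dir2, dir3] at h2
    · rcases e0 with rfl | rfl | rfl | rfl
      · exact ⟨rfl, by simp [dir3]⟩
      · exfalso
        apply hinj
        simp [dir1, dir3]
      · simp [dir2] at h2
      · simp [dir3] at h2
  refine ⟨e1.1, e1.2, ?_⟩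
  rw [e1.1, face0] at k1
  exact k1

/-- The squares of the enlargement are above the lowest vertex, and to the right of it near it. -/
theorem LowV.enl (h : LowV p i) (hD : Encloses p S₀) {n : ℕ} (hn : 0 < n) {v : ℤ × ℤ}
    (hv : v ∈ enl S₀ n) :
    n * (p i).2 ≤ v.2 ∧ (v.2 < n * ((p i).2 + 1) → n * (p i).1 ≤ v.1) := by
  have hn' : (0 : ℤ) < n := by exact_mod_cast hn
  obtain ⟨h1, h2⟩ := h.sq hD ((mem_enl_div hn).1 hv)
  simp only at h1 h2
  have e1 := Int.mul_ediv_add_emod v.2 n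
  have e2 := Int.emod_nonneg v.2 hn'.ne'
  have e4 := Int.mul_ediv_add_emod v.1 n
  have e5 := Int.emod_nonneg v.1 hn'.ne'
  refine ⟨by nlinarith, fun h3 => ?_⟩
  have h4 : v.2 / n = (p i).2 := by
    have : v.2 / n < (p i).2 + 1 := by
      by_contra hc
      push Not at hc
      nlinarith
    omega
  have := h2 h4
  nlinarith

/-- The box is above the lowest vertex. -/
theorem LowV.yb (h : LowV p i) (hD : Encloses p S₀) {b : Box} (hb : b.Ok S₀) :
    ((p i).2 : ℝ) < b.yb := by
  have h1 : (b.xl, b.yb) ∈ domP S₀ := hb.sub _ le_rfl hb.lr.le le_rfl hb.bt.le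
  have h2 : (⟨b.xl, b.yb⟩ : ℂ) ∈ region 1 S₀ := interior_subset h1
  obtain ⟨f, hf, -, -, h3, -⟩ := h2
  have h4 : ((p i).2 : ℝ) ≤ f.2 := by exact_mod_cast (h.sq hD hf).1
  have h5 : (f.2 : ℝ) ≤ b.yb := by simpa using h3
  refine lt_of_le_of_ne (h4.trans h5) fun hc => hb.gy.1 ?_
  rw [← hc]
  exact Int.fract_intCast _

end Vale.Agent.P167.N.ID
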