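import Vale.Agent.P167.N.ID.LowA
import Vale.Agent.P167.N.ID.ClsA
import Vale.Agent.P167.H662.S6.E

/-!
# P167, `q < 1`, START: the closed frame, independent of the rows and of the geometry

* `EF_union`, `EF_dlr`, `EF_le_of_Ex`: expectations given more frozen squares.
* `close_leA`, `close_absA`: frozen squares in the boxes of the holes.
* `h6_gen`: the closed frame for one size of the holes.
-/

set_option autoImplicit false

namespace Vale.Agent.P167.N.ID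

open Finset MeasureTheory

open Vale.Agent.P167 Vale.Agent.P167.N

open Vale.Agent.P167.FK

open Vale.Agent.P167.FKA (Loc Ind cf_out Ex_mono Ex_congr Ex_const Ex_mul_left Ex_add Ex_nonneg)

open Vale.Agent.P167.H519 (IsLim)

open Vale.Agent.P167.QX (QL dlr ql_Ex)

open Vale.Agent.P167.H506.Q (EF fz fz_one fz_zero fz_union fz_loc fz_nonneg fz_le_one RM
  fac fac_le dlr_fz EF_mono EF_nonneg)

open Vale.Agent.P167.H398.Q (CB EF_lin Gg Gg_good cb_Gg NA good_of good_iff)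

open Vale.Agent.P167.H662.S6 (fz_cfg EF_cfg EF_gg cb_Ex close_num er er_nonneg onD onE1 exists_good
  EF_abs_eq abs_Gg EF_gg_abs)

variable {Q : ℝ} {K H D : Finset (ℤ × ℤ)} {κ κ' s : Cfg} {P : Measure Cfg}

/-- More frozen squares. -/
theorem EF_union (hQ : Kit Q) (hP : IsLim Q P) (hg : ∀ᵐ ω ∂P, Good ω) (F : Cfg → ℝ) :
    EF P (K ∪ H) κ F * EF P K κ (fz H κ) = EF P K κ (fun ω => F ω * fz H κ ω) := by
  have hp := Vale.Agent.P167.N.H506.Q.fz_pos hQ hP hg (K ∪ H) κ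
  have hp' := Vale.Agent.P167.N.H506.Q.fz_pos hQ hP hg K κ
  have e1 : ∫ ω, fz K κ ω * fz H κ ω ∂P = ∫ ω, fz (K ∪ H) κ ω ∂P := by
    refine integral_congr_ae (Filter.Eventually.of_forall fun ω => ?_)
    exact (fz_union K H κ ω).symm
  have e2 : ∫ ω, fz K κ ω * (F ω * fz H κ ω) ∂P = ∫ ω, fz (K ∪ H) κ ω * F ω ∂P := by
    refine integral_congr_ae (Filter.Eventually.of_forall fun ω => ?_)
    show fz K κ ω * (F ω * fz H κ ω) = fz (K ∪ H) κ ω * F ω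
    rw [fz_union]
    ring
  unfold EF
  rw [e1, e2]
  field_simp

theorem EF_fz_pos (hQ : Kit Q) (hP : IsLim Q P) (hg : ∀ᵐ ω ∂P, Good ω) :
    0 < EF P K κ (fz H κ) := by
  have hp := Vale.Agent.P167.N.H506.Q.fz_pos hQ hP hg (K ∪ H) κ
  have hp' := Vale.Agent.P167.N.H506.Q.fz_pos hQ hP hg K κ
  have e1 : ∫ ω, fz K κ ω * fz H κ ω ∂P = ∫ ω, fz (K ∪ H) κ ω ∂P := by
    refine integral_congr_ae (Filter.Eventually.of_forall fun ω => ?_)
    exact (fz_union K H κ ω).symm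
  unfold EF
  rw [e1]
  positivity

/-- The squares of `D` are resampled. -/
theorem EF_dlr (hQ : Kit Q) (hP : IsLim Q P) (hg : ∀ᵐ ω ∂P, Good ω) (hDK : Disjoint D K)
    {F : Cfg → ℝ} (hF : CB F) : EF P K κ F = EF P K κ (fun ω => Ex Q D ω F) := by
  obtain ⟨h1, M, hM⟩ := hF
  have h := dlr_fz (κ := κ) hQ.pos hDK hP hg h1 hM (QL.const 1)
    (M := 1) (fun ω _ => by simp) fun _ _ _ => rfl
  simp only [one_mul] at h
  unfold EF
  rw [h]

theorem EF_le_of_Ex (hQ : Kit Q) (hP : IsLim Q P) (hg : ∀ᵐ ω ∂P, Good ω) (hDK : Disjoint D K)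
    {F G : Cfg → ℝ} (hF : CB F) (hG : CB G)
    (h : ∀ ω, Good ω → (∀ v ∈ K, ω v = κ v) → Ex Q D ω F ≤ Ex Q D ω G) :
    EF P K κ F ≤ EF P K κ G := by
  have hPp : IsProbabilityMeasure P := hP.1
  rw [EF_dlr hQ hP hg hDK hF, EF_dlr hQ hP hg hDK hG]
  obtain ⟨h1, M, hM⟩ := cb_Ex hQ.pos D hF
  obtain ⟨h2, M', hM'⟩ := cb_Ex hQ.pos D hG
  exact EF_mono hg h1 h2 hM hM' h

section close

variable {ι : Type} {J : Finset ι} {c : ι → ℤ × ℤ} {r R : ℤ} {ε : ℝ}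

/-- **Closing the holes**, nonnegative functions. -/
theorem close_leA (hQ : Kit Q)
    (h1 : RM Q K κ ((J.biUnion fun i => Bq (c i) R) \ K) ((J.biUnion fun i => Bq (c i) r) \ K)
      (fac J.card ε)) (hε0 : 0 ≤ ε) (hε1 : ε < 1) (hε : 8 * J.card * ε ≤ 1)
    (hP : IsLim Q P) (hg : ∀ᵐ ω ∂P, Good ω)
    (hH : H ⊆ J.biUnion fun i => Bq (c i) r) (hs : ∀ v ∈ K, s v = κ v) {G : Cfg → ℝ}
    (hG0 : ∀ ω, 0 ≤ G ω) (hGc : CB G) (hG : Ind ((J.biUnion fun i => Bq (c i) R) \ K) G) :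
    EF P (K ∪ H) s G ≤ (1 + 8 * J.card * ε) * EF P K κ G ∧
      EF P K κ G ≤ (1 + 8 * J.card * ε) * EF P (K ∪ H) s G := by
  obtain ⟨hGq, M, hM⟩ := hGc
  have hT : Loc (((J.biUnion fun i => Bq (c i) r) \ K) ∪ K) (fz H s) := by
    rw [Finset.sdiff_union_self_eq_union]
    intro ω ω' hh
    exact fz_loc H s ω ω' fun v hv => hh v (mem_union_left _ (hH hv))
  obtain ⟨r1, r2⟩ := Vale.Agent.P167.N.H506.Q.RM.EF_ratio hQ h1 Finset.sdiff_disjoint hP hg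
    (fun ω => fz_nonneg H s ω) hT hG0 hGq hM hG
  have e1 : ∀ F : Cfg → ℝ, EF P K κ F = EF P K s F := fun F => EF_cfg (fun v hv => (hs v hv).symm) F
  rw [e1, e1, e1, ← EF_union hQ hP hg] at r1 r2
  rw [e1]
  have hpos : 0 < EF P K s (fz H s) := EF_fz_pos hQ hP hg
  have hfac := fac_le hε0 hε hε1
  have g1 : 0 ≤ EF P K s G := EF_nonneg hG0
  have g2 : 0 ≤ EF P (K ∪ H) s G := EF_nonneg hG0
  constructor
  · refine le_trans ?_ (mul_le_mul_of_nonneg_right hfac g1)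
    refine le_of_mul_le_mul_right ?_ hpos
    rw [mul_assoc]
    exact r1
  · refine le_trans ?_ (mul_le_mul_of_nonneg_right hfac g2)
    refine le_of_mul_le_mul_right ?_ hpos
    rw [mul_assoc]
    exact r2

/-- **Closing the holes.** -/
theorem close_absA (hQ : Kit Q)
    (h1 : RM Q K κ ((J.biUnion fun i => Bq (c i) R) \ K) ((J.biUnion fun i => Bq (c i) r) \ K)
      (fac J.card ε)) (hε0 : 0 ≤ ε) (hε1 : ε < 1) (hε : 8 * J.card * ε ≤ 1)
    (hP : IsLim Q P) (hg : ∀ᵐ ω ∂P, Good ω)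
    (hH : H ⊆ J.biUnion fun i => Bq (c i) r) (hs : ∀ v ∈ K, s v = κ v) {F : Cfg → ℝ}
    (hF : CB F) (hFi : Ind ((J.biUnion fun i => Bq (c i) R) \ K) F) :
    |EF P K κ F - EF P (K ∪ H) s F| ≤
      8 * J.card * ε * EF P (K ∪ H) s (fun ω => |F ω|) := by
  have hPp : IsProbabilityMeasure P := hP.1
  have hη0 : 0 ≤ 8 * J.card * ε := by positivity
  obtain ⟨η, hη⟩ : ∃ η, η = 8 * J.card * ε := ⟨_, rfl⟩
  -- the two parts
  have cA : CB fun ω => |F ω| := hF.abs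
  have cp : CB fun ω => (1 / 2) * |F ω| + (1 / 2) * F ω := cA.lin hF _ _
  have cm : CB fun ω => (1 / 2) * |F ω| + (-(1 / 2)) * F ω := cA.lin hF _ _
  have ip : Ind ((J.biUnion fun i => Bq (c i) R) \ K) fun ω => (1 / 2) * |F ω| + (1 / 2) * F ω :=
    fun ω ω' hh => by simp only [hFi ω ω' hh]
  have im : Ind ((J.biUnion fun i => Bq (c i) R) \ K)
      fun ω => (1 / 2) * |F ω| + (-(1 / 2)) * F ω :=
    fun ω ω' hh => by simp only [hFi ω ω' hh]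
  have p0 : ∀ ω, 0 ≤ (1 / 2) * |F ω| + (1 / 2) * F ω := fun ω => by
    have := neg_abs_le (F ω)
    linarith
  have m0 : ∀ ω, 0 ≤ (1 / 2) * |F ω| + (-(1 / 2)) * F ω := fun ω => by
    have := le_abs_self (F ω)
    linarith
  obtain ⟨a1, a2⟩ := close_leA hQ h1 hε0 hε1 hε hP hg hH hs p0 cp ip
  obtain ⟨b1, b2⟩ := close_leA hQ h1 hε0 hε1 hε hP hg hH hs m0 cm im
  rw [← hη] at a1 a2 b1 b2 ⊢
  rw [← hη] at hη0
  have k1 := close_num hη0 a2 a1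
  have k2 := close_num hη0 b2 b1
  rw [EF_lin hg cA hF, EF_lin hg cA hF] at k1 k2
  rw [abs_le] at k1 k2 ⊢
  constructor <;> linarith [k1.1, k1.2, k2.1, k2.2]

/-- **Closing the holes**, functions which do not depend on the boxes on the good configurations. -/
theorem clE_A (hQ : Kit Q)
    (h1 : RM Q K κ ((J.biUnion fun i => Bq (c i) R) \ K) ((J.biUnion fun i => Bq (c i) r) \ K)
      (fac J.card ε)) (hε0 : 0 ≤ ε) (hε1 : ε < 1) {η : ℝ} (hη : 8 * J.card * ε ≤ η) (hη1 : η ≤ 1)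
    (hP : IsLim Q P) (hg : ∀ᵐ ω ∂P, Good ω)
    (hH : H ⊆ J.biUnion fun i => Bq (c i) r) (hs : ∀ v ∈ K, s v = κ v) {F : Cfg → ℝ}
    (hF : CB F) (hFi : ∀ ω ω' : Cfg, Good ω → Good ω' →
      (∀ v ∉ J.biUnion fun i => Bq (c i) R, ω v = ω' v) → F ω = F ω') :
    |EF P K κ F - EF P (K ∪ H) s F| ≤ η * EF P (K ∪ H) s (fun ω => |F ω|) ∧
    EF P (K ∪ H) s (fun ω => |F ω|) ≤ (1 + η) * EF P K κ (fun ω => |F ω|) ∧
    EF P K κ (fun ω => |F ω|) ≤ (1 + η) * EF P (K ∪ H) s (fun ω => |F ω|) := by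
  classical
  have cG : CB (Gg F) := cb_Gg hF
  have cGa : CB (fun ω => |Gg F ω|) := cG.abs
  have iG : Ind ((J.biUnion fun i => Bq (c i) R) \ K) (Gg F) := by
    intro ω ω' hh
    have hh' : ∀ v ∉ J.biUnion fun i => Bq (c i) R, ω v = ω' v := fun v hv =>
      hh v fun hv' => hv (mem_sdiff.1 hv').1
    unfold Gg
    by_cases hgo : Good ω
    · have hgo' := good_of hh' hgo
      rw [if_pos hgo, if_pos hgo', hFi ω ω' hgo hgo' hh']
    · rw [if_neg hgo, if_neg fun hgo' => hgo ((good_iff hh').2 hgo')]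
  have iGa : Ind ((J.biUnion fun i => Bq (c i) R) \ K) (fun ω => |Gg F ω|) :=
    fun ω ω' h => by simp only [iG ω ω' h]
  have k1 := close_absA hQ h1 hε0 hε1 (hη.trans hη1) hP hg hH hs cG iG
  have k2 := close_leA hQ h1 hε0 hε1 (hη.trans hη1) hP hg hH hs (fun ω => abs_nonneg _) cGa iGa
  rw [EF_gg hg, EF_gg hg, EF_gg_abs hg] at k1
  rw [EF_gg_abs hg, EF_gg_abs hg] at k2
  have n1 : 0 ≤ EF P (K ∪ H) s (fun ω => |F ω|) := EF_nonneg fun ω => abs_nonneg _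
  have n2 : 0 ≤ EF P K κ (fun ω => |F ω|) := EF_nonneg fun ω => abs_nonneg _
  refine ⟨k1.trans (mul_le_mul_of_nonneg_right hη n1), k2.1.trans ?_, k2.2.trans ?_⟩
  · exact mul_le_mul_of_nonneg_right (by linarith) n2
  · exact mul_le_mul_of_nonneg_right (by linarith) n1

end close

section frame

variable {GC G0 : Cfg → ℝ} {M M' e V ε₁ η : ℝ}

/-- **The closed frame**, from the domain. -/
theorem onE2A (hQ : Kit Q) (hP : IsLim Q P) (hg : ∀ᵐ ω ∂P, Good ω) (hDK : Disjoint D K)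
    (h0 : CB G0) (hc : CB GC)
    (h : ∀ ω, Good ω → (∀ v ∈ K, ω v = s v) → 0 ≤ Ex Q D ω G0 ∧
      |Ex Q D ω GC - V * Ex Q D ω G0| ≤ ε₁ * Ex Q D ω G0 ∧
      Ex Q D ω (fun ω => |GC ω|) ≤ M' * Ex Q D ω G0) :
    0 ≤ EF P K s G0 ∧ |EF P K s GC - V * EF P K s G0| ≤ ε₁ * EF P K s G0 ∧
      EF P K s (fun ω => |GC ω|) ≤ M' * EF P K s G0 := by
  have hPp : IsProbabilityMeasure P := hP.1
  have hZ : CB fun _ => (0 : ℝ) := CB.const 0
  have z0 : EF P K s (fun _ => (0 : ℝ)) = 0 := by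
    unfold EF
    simp
  have eL : ∀ a b : ℝ, ∀ F G : Cfg → ℝ, ∀ ω,
      Ex Q D ω (fun ω => a * F ω + b * G ω) = a * Ex Q D ω F + b * Ex Q D ω G := by
    intro a b F G ω
    rw [Ex_add, Ex_mul_left, Ex_mul_left]
  refine ⟨?_, ?_, ?_⟩
  · rw [← z0]
    refine EF_le_of_Ex hQ hP hg hDK hZ h0 fun ω hω hk => ?_
    rw [Ex_const hQ.pos]
    exact (h ω hω hk).1
  · rw [abs_le]
    constructor
    · have h1 := EF_le_of_Ex hQ hP hg hDK (CB.lin h0 h0 (-ε₁) 0) (CB.lin hc h0 1 (-V))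
        fun ω hω hk => by
          rw [eL, eL]
          have := (abs_le.1 (h ω hω hk).2.1).1
          linarith
      rw [EF_lin hg h0 h0, EF_lin hg hc h0] at h1
      linarith
    · have h1 := EF_le_of_Ex hQ hP hg hDK (CB.lin hc h0 1 (-V)) (CB.lin h0 h0 ε₁ 0)
        fun ω hω hk => by
          rw [eL, eL]
          have := (abs_le.1 (h ω hω hk).2.1).2
          linarith
      rw [EF_lin hg h0 h0, EF_lin hg hc h0] at h1
      linarith
  · have h1 := EF_le_of_Ex hQ hP hg hDK hc.abs (CB.lin h0 h0 M' 0)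
      fun ω hω hk => by
        rw [eL]
        have := (h ω hω hk).2.2
        linarith
    rw [EF_lin hg h0 h0] at h1
    linarith

/-- **The closed frame for one size of the holes.** `K`: the frozen squares of the rows, `H`: the
squares which close the holes, `s`: their states; `A`: there are no arms; `X`: the functional of the
domain, `V`: its mean. -/
theorem h6_gen (hQ : Kit Q) (hP : IsLim Q P) (hg : ∀ᵐ ω ∂P, Good ω) {ι : Type} {J : Finset ι}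
    {c : ι → ℤ × ℤ} {b : ι → Bool} {r R r' R' : ℤ} {ε ε' : ℝ}
    (h1 : RM Q K κ ((J.biUnion fun i => Bq (c i) R) \ K) ((J.biUnion fun i => Bq (c i) r) \ K)
      (fac J.card ε)) (hε0 : 0 ≤ ε) (hε1 : ε < 1) (hη : 8 * J.card * ε ≤ η) (hη1 : η ≤ 1)
    (hH : H ⊆ J.biUnion fun i => Bq (c i) r) (hs : ∀ v ∈ K, s v = κ v)
    (hD : Disjoint D (K ∪ H)) (hK : ∀ v ∉ D, ∀ w ∈ D, H398.Q.Tch v w → v ∈ K ∪ H)
    (hcol : ∀ i ∈ J, ∀ v ∈ K ∪ H, v ∈ Bq (c i) R' → s v = b i) (hrR : r' < R')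
    (hin : ∀ ω, Good ω → (∀ v ∈ K ∪ H, ω v = s v) → ∀ i ∈ J,
      Ex Q D ω ((H601.Q.InA (b i) (c i) r' R' D).indicator 1) ≤ ε')
    (he0 : 0 ≤ e) (he : J.card * ε' ≤ e) (he2 : e ≤ 1 / 2) (hM : 1 ≤ M)
    (h0 : CB G0) (hc : CB GC)
    (i0 : ∀ ω ω' : Cfg, Good ω → Good ω' →
      (∀ v ∉ J.biUnion fun i => Bq (c i) R, ω v = ω' v) → G0 ω = G0 ω')
    (ic : ∀ ω ω' : Cfg, Good ω → Good ω' →
      (∀ v ∉ J.biUnion fun i => Bq (c i) R, ω v = ω' v) → GC ω = GC ω')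
    (p0 : ∀ ω, Good ω → (∀ v ∈ K, ω v = κ v) → 0 ≤ G0 ω)
    (hX : ∀ ω, Good ω → (∀ v ∈ K ∪ H, ω v = s v) → ∃ (X : Cfg → ℝ) (T : ℝ), 0 ≤ T ∧
      Ex Q D ω (fun ω => X ω ^ 2) ≤ M ∧ Ex Q D ω X = V ∧
      (∀ S, S ⊆ D → G0 (cf D ω S) = T * (NA J b c r' R').indicator 1 (cf D ω S)) ∧
      ∀ S, S ⊆ D → GC (cf D ω S) =
        T * (NA J b c r' R').indicator 1 (cf D ω S) * X (cf D ω S)) :
    0 ≤ EF P K κ G0 ∧
    |EF P K κ GC - V * EF P K κ G0| ≤ ((2 * η * (M + er M e) + er M e) * (1 + η)) *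
      EF P K κ G0 ∧
    EF P K κ (fun ω => |GC ω|) ≤ (1 + η) ^ 2 * (M + er M e) * EF P K κ G0 ∧ |V| ≤ M := by
  classical
  have hPp : IsProbabilityMeasure P := hP.1
  have hη0 : 0 ≤ η := le_trans (by positivity) hη
  obtain ⟨j1, j2, j3⟩ := clE_A hQ h1 hε0 hε1 hη hη1 hP hg hH hs h0 i0
  obtain ⟨m1, m2, m3⟩ := clE_A hQ h1 hε0 hε1 hη hη1 hP hg hH hs hc ic
  have a1 := EF_abs_eq (K := K) (κ := κ) hg h0 p0
  have a2 := EF_abs_eq (K := K ∪ H) (κ := s) hg h0 fun ω h3 h4 =>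
    p0 ω h3 fun v hv => by rw [h4 v (mem_union_left _ hv), hs v hv]
  rw [a1, a2] at j2
  rw [a2] at j1
  have hcl : ∀ ω, Good ω → (∀ v ∈ K ∪ H, ω v = s v) → 0 ≤ Ex Q D ω G0 ∧
      |Ex Q D ω GC - V * Ex Q D ω G0| ≤ er M e * Ex Q D ω G0 ∧
      Ex Q D ω (fun ω => |GC ω|) ≤ (M + er M e) * Ex Q D ω G0 ∧ |V| ≤ M := by
    intro ω hω hk
    obtain ⟨X, T, hT, hX2, hXV, hX0, hXc⟩ := hX ω hω hk
    have hXa2 : Ex Q D ω (fun ω => (fun ω => |X ω|) ω ^ 2) ≤ M := by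
      simp only [sq_abs]
      exact hX2
    have k2 := cls_gen hQ.pos hK J c b hrR hcol (hin ω hω hk) he he2 hk hX2
    have k3 := cls_gen hQ.pos hK J c b hrR hcol (hin ω hω hk) he he2 hk hXa2
    have h := onD (A := NA J b c r' R') (X := X) (G0 := G0) (GC := GC) hQ.pos hT hM he0 hX0 hXc
      hX2 k2 k3
    rw [hXV] at h
    exact h
  obtain ⟨k1, k2, k3⟩ := onE2A hQ hP hg hD h0 hc fun ω hω hk =>
    ⟨(hcl ω hω hk).1, (hcl ω hω hk).2.1, (hcl ω hω hk).2.2.1⟩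
  obtain ⟨κ', hκ', hκσ'⟩ := exists_good (K ∪ H) s
  have hV := (hcl κ' hκ' hκσ').2.2.2
  have her := er_nonneg (M := M) (e := e) (by linarith) he0
  obtain ⟨r1, r2⟩ := onE1 (M' := M + er M e) (ε₁ := er M e) hη0 (by linarith) her m1 j1 m3 j2 k2 k3
    (hV.trans (by linarith))
  refine ⟨?_, r1, r2, hV⟩
  rw [← a1]
  exact EF_nonneg fun ω => abs_nonneg _

end frame

end Vale.Agent.P167.N.ID
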