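import Vale.Agent.P167.N.ID.TGA
import Vale.Agent.P167.N.ID.H6A
import Vale.Agent.P167.N.ID.ArmC
import Vale.Agent.P167.H592.T.Box

/-!
# P167, `q < 1`, START: the closed frame for one size

Arbitrary frozen squares, phases and holes (`TGA.lean`).

* `box_flowX`, `XBoffA_eq`, `GfA_zero`, `GfA_flow`: the functional of the domain.
* `Clo`: the squares which close the holes.
* `h6_one`: the closed frame, from the arm bounds and the shapes at the holes.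
-/

set_option autoImplicit false

namespace Vale.Agent.P167.N.ID

open Finset MeasureTheory

open Vale.Agent.P167 Vale.Agent.P167.N

open Vale.Agent.P167.BR hiding dv

open Vale.Agent.P167.FK

open Vale.Agent.P167.FKA (Loc Ind cf_out)

open Vale.Agent.P167.E6 (IsPolygon Encloses)

open Vale.Agent.P167.H519 (IsLim)

open Vale.Agent.P167.H825 (dv FlowIn epos)

open Vale.Agent.P167.QX (QL TB TO fLp VisL XBoff XB XB_eq_off XB_zero)

open Vale.Agent.P167.H506.Q (EF RM fac)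

open Vale.Agent.P167.H398.Q

open Vale.Agent.P167.H662.S6 (er)

open Vale.Agent.P167.Enl (epos_near nm_tri nm_sub_comm mem_Bq' loop_iter)

variable {ι : Type} {J : Finset ι} {b : ι → Bool} {c : ι → ℤ × ℤ} {r R R' : ℤ}
  {θ β : ℝ} {K D : Finset (ℤ × ℤ)} {a : Ed → Bool → ℝ} {R₁ R₂ R₃ R₄ : ℤ} {ω ω' : Cfg}
  {N k n : ℕ} {q : ZMod N → ℤ × ℤ} {f : Ed → ℝ} {κ₀ B₀ : ℝ}

/-- The holes are at squares off the domain. -/
def Outs (J : Finset ι) (c : ι → ℤ × ℤ) (D : Finset (ℤ × ℤ)) : Prop :=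
  ∀ i ∈ J, ∃ v ∉ D, nm (c i - v) ≤ 1

/-- **The flow vanishes in the boxes of the holes.** -/
theorem box_flowX (hf : FlowIn D κ₀ B₀ n f) (ho : Outs J c D) (hR : (R : ℝ) + 2 ≤ κ₀ * n)
    {i : ι} (hi : i ∈ J) {e : Ed} (he : hdv e ∈ Bq (c i) R ∨ tlv e ∈ Bq (c i) R) : f e = 0 := by
  by_contra h
  obtain ⟨v, hv, h1⟩ := ho i hi
  refine hv (hf.sup e h v ?_)
  have h2 : nm (c i - epos e) ≤ R + 1 := by
    obtain ⟨a1, a2⟩ := epos_near e
    rcases he with he | he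
    · have h3 := mem_Bq' he
      have h4 := nm_tri (c i) (hdv e) (epos e)
      have h5 := nm_sub_comm (c i) (hdv e)
      omega
    · have h3 := mem_Bq' he
      have h4 := nm_tri (c i) (tlv e) (epos e)
      have h5 := nm_sub_comm (c i) (tlv e)
      omega
  have h6 := nm_tri v (c i) (epos e)
  rw [nm_sub_comm v (c i)] at h6
  have h7 : nm (v - epos e) ≤ R + 2 := by omega
  have h8 : (nm (v - epos e) : ℝ) ≤ R + 2 := by exact_mod_cast h7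
  linarith

/-- The flow is in the domain. -/
theorem flow_inA (hc : FlowIn D κ₀ B₀ n f) (h1 : 1 ≤ κ₀ * n) (e : Ed) (he : f e ≠ 0) :
    hdv e ∈ D ∧ tlv e ∈ D := by
  obtain ⟨a1, a2⟩ := epos_near e
  have a1' : (nm (hdv e - epos e) : ℝ) ≤ 1 := by exact_mod_cast a1
  have a2' : (nm (tlv e - epos e) : ℝ) ≤ 1 := by exact_mod_cast a2
  exact ⟨hc.sup e he _ (by linarith), hc.sup e he _ (by linarith)⟩

/-- **Off the arms the functional of the domain does not see the holes.** -/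
theorem XBoffA_eq (hq : IsPolygon q) (hD : Encloses q D) (hf : FlowIn D κ₀ B₀ n f)
    (ho : Outs J c D) (h34 : R₃ + 2 ≤ R₄) (hR4 : (R₄ : ℝ) + 2 ≤ κ₀ * n) (hκ₀ : 1 ≤ κ₀ * n)
    (hω : Good ω) (ha : ω ∈ NA J b c (R₃ + 1) (R₄ - 1)) (hs : Real.sin θ ≠ 0)
    (hc : Real.cos θ ≠ 0) (hβ : Real.cos (θ / 2 + β) = Real.sin θ) (k : ℕ) :
    XBoff θ β q D k (dv f) (hBA J c R₃ : Set (ℤ × ℤ)) ω = XB θ β q D k (dv f) ω := by
  symm
  refine XB_eq_off hq hD hω (flow_inA hf hκ₀) ?_ hs hc hβ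
  rintro e ⟨j, hj⟩
  obtain ⟨ℓ, hℓ, heℓ⟩ := hω e
  obtain ⟨i, hi, hx⟩ := cnfA_NA h34 ha ℓ hℓ ⟨_, loop_iter hℓ heℓ j, hj⟩
  exact box_flowX hf ho hR4 hi (Or.inl (hx (hdv e) (mem_image_of_mem hdv heℓ)))

theorem GfA_zero (hq : IsPolygon q) (hD : Encloses q D) (hω : Good ω) (hs : Real.sin θ ≠ 0)
    (hc : Real.cos θ ≠ 0) (hβ : Real.cos (θ / 2 + β) = Real.sin θ) :
    GfA θ K a J b c β q D k 0 R₃ R₄ ω = TOA θ K a J b c R₃ R₄ ω := by
  unfold GfA TOA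
  rw [← XB_eq_off (c := (0 : Ed → ℝ)) hq hD hω
    (fun e h => absurd rfl h) (fun _ _ => rfl) hs hc hβ, dv_0A, XB_zero hs hc hβ, mul_one]

theorem GfA_flow (hq : IsPolygon q) (hD : Encloses q D) (hf : FlowIn D κ₀ B₀ n f)
    (ho : Outs J c D) (h34 : R₃ + 2 ≤ R₄) (hR4 : (R₄ : ℝ) + 2 ≤ κ₀ * n) (hκ₀ : 1 ≤ κ₀ * n)
    (hω : Good ω) (hs : Real.sin θ ≠ 0)
    (hc : Real.cos θ ≠ 0) (hβ : Real.cos (θ / 2 + β) = Real.sin θ) :
    GfA θ K a J b c β q D k f R₃ R₄ ω = TOA θ K a J b c R₃ R₄ ω * XB θ β q D k (dv f) ω := by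
  classical
  unfold GfA TOA
  by_cases h : ω ∈ NA J b c (R₃ + 1) (R₄ - 1)
  · rw [XBoffA_eq hq hD hf ho h34 hR4 hκ₀ hω h hs hc hβ]
    ring
  · rw [Set.indicator_of_notMem h]
    ring

theorem cb_TOA (h0 : 0 < θ) (h1 : Ang θ) : CB (TOA θ K a J b c R₃ R₄) := by
  have hs : 0 < Real.sin θ := Real.sin_pos_of_pos_of_lt_pi h0 (by linarith [Real.pi_pos, h1.lt])
  exact (Vale.Agent.P167.N.H398.Q.cb_TO hs h1.kit).mul cb_NA

theorem cb_GfA (h0 : 0 < θ) (h1 : Ang θ) : CB (GfA θ K a J b c β q D k f R₃ R₄) := by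
  have hs : 0 < Real.sin θ := Real.sin_pos_of_pos_of_lt_pi h0 (by linarith [Real.pi_pos, h1.lt])
  exact ((Vale.Agent.P167.N.H398.Q.cb_TO hs h1.kit).mul
    (Vale.Agent.P167.N.H398.Q.cb_XBoff h0 h1 _ _ _ _ _ _)).mul cb_NA

/-- **The squares `H` close the holes**: `K`: the frozen squares of the rows, `s`: the states,
`r`: the size of the holes, `R`: the boxes at the holes are disjoint and of one colour. -/
structure Clo (J : Finset ι) (b : ι → Bool) (c : ι → ℤ × ℤ) (K H D : Finset (ℤ × ℤ)) (s : Cfg)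
    (r R : ℤ) : Prop where
  /-- the squares are in the holes -/
  sub : H ⊆ hBA J c r
  /-- the domain is off the frozen squares -/
  disj : Disjoint D (K ∪ H)
  /-- the squares which touch the domain are frozen -/
  cov : ∀ v ∉ D, ∀ w ∈ D, Tch v w → v ∈ K ∪ H
  /-- the frozen squares near a hole have one colour -/
  col : ∀ i ∈ J, ∀ v ∈ K ∪ H, v ∈ Bq (c i) R → s v = b i

/-- **The closed frame for one size.** -/
theorem h6_one [DecidableEq ι] {P : Measure Cfg} {H : Finset (ℤ × ℤ)} {κ s : Cfg}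
    {α C α' C' M e η V : ℝ} (h0 : 0 < θ)
    (h1 : Ang θ) (hβ : Real.cos (θ / 2 + β) = Real.sin θ)
    (hP : IsLim (2 * Real.cos θ) P) (hg : ∀ᵐ ω ∂P, Good ω)
    (hA : ArmS (2 * Real.cos θ) α C) (hC : 0 ≤ C) (hA' : ArmM (2 * Real.cos θ) α' C')
    (hq : IsPolygon q) (hD : Encloses q D) (hκ : Good κ) (hs : ∀ v ∈ K, s v = κ v)
    (hcl : Clo J b c K H D s r R₄) (ho : Outs J c D) (hr : 1 ≤ r) (h3 : r ≤ R₃)
    (h34 : R₃ + 4 ≤ R₄) (hR4 : (R₄ : ℝ) + 2 ≤ κ₀ * n)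
    (hdis : ∀ i ∈ J, ∀ j ∈ J, i ≠ j → Disjoint (Bq (c i) R₄) (Bq (c j) R₄))
    (hsh : ∀ i ∈ J, Shp (K : Set (ℤ × ℤ)) (c i) r R₃)
    (hsh' : ∀ i ∈ J, H635.Shp D (c i) (R₃ + 1) (R₄ - 1))
    (hη : 8 * J.card * (C * ((r : ℝ) / R₃) ^ α) ≤ η) (hη1 : η ≤ 1)
    (hε1 : C * ((r : ℝ) / R₃) ^ α < 1)
    (he0 : 0 ≤ e) (he : J.card * (C' * (((R₃ + 1 : ℤ) : ℝ) / ((R₄ - 1 : ℤ) : ℝ)) ^ α') ≤ e)
    (he2 : e ≤ 1 / 2) (hM : 1 ≤ M)
    (hf : FlowIn D κ₀ B₀ n f)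
    (hT0 : ∀ ω, Good ω → (∀ v ∈ K, ω v = κ v) → 0 ≤ TO θ K a (hBA J c R₃ : Set (ℤ × ℤ)) ω)
    (hTC : ∀ ω ω', Good ω → Good ω' → (∀ v ∈ K, ω v = κ v) → (∀ v ∈ K, ω' v = κ v) →
      CnfA J c R₃ R₄ ω → CnfA J c R₃ R₄ ω' → (∀ v ∉ D, ω v = ω' v) →
      TO θ K a (hBA J c R₃ : Set (ℤ × ℤ)) ω = TO θ K a (hBA J c R₃ : Set (ℤ × ℤ)) ω')
    (hm : ∀ ω, Good ω → Ex (2 * Real.cos θ) D ω (fun ω => XB θ β q D k (dv f) ω ^ 2) ≤ M)
    (hV : ∀ ω, Good ω → (∀ v ∈ K ∪ H, ω v = s v) →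
      Ex (2 * Real.cos θ) D ω (XB θ β q D k (dv f)) = V) :
    0 ≤ EF P K κ (GfA θ K a J b c β q D k 0 R₃ R₄) ∧
    |EF P K κ (GfA θ K a J b c β q D k f R₃ R₄) -
        V * EF P K κ (GfA θ K a J b c β q D k 0 R₃ R₄)| ≤
      ((2 * η * (M + er M e) + er M e) * (1 + η)) *
        EF P K κ (GfA θ K a J b c β q D k 0 R₃ R₄) ∧
    EF P K κ (fun ω => |GfA θ K a J b c β q D k f R₃ R₄ ω|) ≤
      (1 + η) ^ 2 * (M + er M e) * EF P K κ (GfA θ K a J b c β q D k 0 R₃ R₄) ∧ |V| ≤ M := by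
  classical
  have hsin : 0 < Real.sin θ :=
    Real.sin_pos_of_pos_of_lt_pi h0 (by linarith [Real.pi_pos, h1.lt])
  have hcos : 0 < Real.cos θ := by have := h1.kit.pos; linarith
  have hQ := h1.kit
  have hr0 : (0 : ℝ) < r := by exact_mod_cast (by omega : 0 < r)
  have hR0 : (0 : ℝ) < R₃ := by exact_mod_cast (by omega : 0 < R₃)
  have hκ₀ : 1 ≤ κ₀ * n := by
    have : (1 : ℝ) ≤ R₄ := by exact_mod_cast (by omega : 1 ≤ R₄)
    linarith
  have hdis3 : ∀ i ∈ J, ∀ j ∈ J, i ≠ j → Disjoint (Bq (c i) R₃) (Bq (c j) R₃) :=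
    fun i hi j hj hij => Finset.disjoint_of_subset_left (Bq_mono' (by omega))
      (Finset.disjoint_of_subset_right (Bq_mono' (by omega)) (hdis i hi j hj hij))
  have hrm := Vale.Agent.P167.N.H506.Q.rm_holes hQ hκ hA J c hr h3 hdis3
    (fun i hi => ⟨b i, fun v hv hx => by
      rw [← hs v hv]
      exact hcl.col i hi v (mem_union_left _ hv) (Bq_mono' (by omega) hx)⟩) hsh hε1
  have hDK : Disjoint D K := Finset.disjoint_of_subset_right subset_union_left hcl.disj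
  refine h6_gen (J := J) (c := c) (b := b) (r := r) (R := R₃) (r' := R₃ + 1) (R' := R₄ - 1)
    (s := s) (H := H) (D := D) hQ hP hg hrm (by positivity) hε1 hη hη1 hcl.sub hs hcl.disj hcl.cov
    (fun i hi v hv hx => hcl.col i hi v hv (Bq_mono' (by omega) hx)) (by omega)
    (fun ω hω _ i hi => hin_of hQ.pos hA' (by omega) (by omega) hω (hsh' i hi)) he0 he he2 hM
    (cb_GfA h0 h1) (cb_GfA h0 h1)
    (fun ω ω' hω hω' h => GfA_congr (by omega) hdis hω hω' h)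
    (fun ω ω' hω hω' h => GfA_congr (by omega) hdis hω hω' h)
    (fun ω hω hk => ?_) fun ω hω hk => ?_
  · rw [GfA_zero hq hD hω hsin.ne' hcos.ne' hβ]
    exact mul_nonneg (hT0 ω hω hk) ind01A
  · have hkK : ∀ v ∈ K, ω v = κ v := fun v hv => by
      rw [hk v (mem_union_left _ hv), hs v hv]
    have hg' : ∀ S, S ⊆ D → Good (cf D ω S) := fun S hS => f_good.1 _ ω S hω
    have hk' : ∀ S, ∀ v ∈ K, cf D ω S v = κ v := fun S v hv => by
      rw [cf_out fun h => Finset.disjoint_left.1 hDK h hv]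
      exact hkK v hv
    obtain ⟨T, hT, hT'⟩ := TOA_const (θ := θ) (K := K) (a := a) (J := J) (b := b) (c := c)
      (R₃ := R₃) (R₄ := R₄) (R'' := R₄) (D := D) (ω := ω) (by omega) le_rfl
      (fun S hS => hT0 _ (hg' S hS) (hk' S))
      (fun S hS S' hS' h5 h6 => hTC _ _ (hg' S hS) (hg' S' hS') (hk' S) (hk' S') h5 h6
        fun v hv => by rw [cf_out hv, cf_out hv])
    refine ⟨XB θ β q D k (dv f), T, hT, hm ω hω, hV ω hω hk, fun S hS => ?_, fun S hS => ?_⟩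
    · rw [GfA_zero hq hD (hg' S hS) hsin.ne' hcos.ne' hβ]
      exact hT' S hS
    · rw [GfA_flow hq hD hf ho (by omega) hR4 hκ₀ (hg' S hS) hsin.ne' hcos.ne' hβ, hT' S hS]

end Vale.Agent.P167.N.ID
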