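import Vale.Agent.P167.N.ID.WinHole

/-!
# P167, `q < 1`, START: loops near a hole with two rows which do not visit it

`HoleN.one`: such a loop has the factor one: its strands stay on one side of the two rows, and no
strand which joins the two far sides is killed, except if the row before the hole is of the type `-`
and the row after the hole of the type `+`.
-/

set_option autoImplicit false

namespace Vale.Agent.P167.N.ID

open Finset
open Vale.Agent.P167.BR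
open Vale.Agent.P167.FK
open Vale.Agent.P167.Top
open Vale.Agent.P167.H871
open Vale.Agent.P167.H871.Q
open Vale.Agent.P167.A (plane)
open Vale.Agent.P167.XDL (bS mem_bS)
open Vale.Agent.P167.H199 (strand ret Returns ah at')
open Vale.Agent.P167.H680.S (nxt nxt_mem trS)
open Vale.Agent.P167.QX (returns_loop fLp wS out_stays)
open Vale.Agent.P167.Enl (Lq_box)

variable {θ c : ℝ} {τ : ℤ} {z : ℤ × ℤ} {d κ : ℤ} {A B R : ℕ} {mA mB : Bool}
  {K : Finset (ℤ × ℤ)} {EE : Set Ed} {a : Ed → Bool → ℝ} {P : ℕ → ℤ × ℤ} {U : ℕ → ℤ}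
  {ω : Cfg} {ℓ : Finset Ed} {ρ : ℤ} {v w : ℤ × ℤ}

/-- The side of the domain. -/
def NSq (z : ℤ × ℤ) (d κ : ℤ) (v : ℤ × ℤ) : Prop :=
  if κ = 1 then 0 ≤ (Lq z d v).2 ∧ 0 ≤ (Lq z (κ + d) v).2
  else 0 ≤ (Lq z d v).2 ∨ 0 ≤ (Lq z (κ + d) v).2

/-- The two squares of a medial edge in the coordinates of a frame. -/
theorem Lq_nb (z : ℤ × ℤ) (d : ℤ) (g : Ed) :
    ((Lq z d (hdv g)).1 = (Lq z d (tlv g)).1 ∧ (Lq z d (hdv g)).2 ≤ (Lq z d (tlv g)).2 + 1 ∧
      (Lq z d (tlv g)).2 ≤ (Lq z d (hdv g)).2 + 1) ∨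
    ((Lq z d (hdv g)).2 = (Lq z d (tlv g)).2 ∧ (Lq z d (hdv g)).1 ≤ (Lq z d (tlv g)).1 + 1 ∧
      (Lq z d (tlv g)).1 ≤ (Lq z d (hdv g)).1 + 1) := by
  obtain ⟨s, t, h1, h2, h3⟩ := exists_side' g
  obtain ⟨s', rfl⟩ := Ls_surj z d s
  obtain ⟨t', rfl⟩ : ∃ t', t = t' + d := ⟨t - d, by ring⟩
  rw [h2, h3, show t' + d - 1 = (t' - 1) + d by ring, Lq_sqL, Lq_sqL]
  obtain ⟨x, y⟩ := s'
  rcases (by omega : t' % 4 = 0 ∨ t' % 4 = 1 ∨ t' % 4 = 2 ∨ t' % 4 = 3) with h | h | h | h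
  · rw [sqL_congr (d := t') (d' := 0) (by omega), sqL_congr (d := t' - 1) (d' := -1) (by omega)]
    simp [sqL]
  · rw [sqL_congr (d := t') (d' := 1) (by omega), sqL_congr (d := t' - 1) (d' := 0) (by omega)]
    simp [sqL]
  · rw [sqL_congr (d := t') (d' := 2) (by omega), sqL_congr (d := t' - 1) (d' := 1) (by omega)]
    simp [sqL]
  · rw [sqL_congr (d := t') (d' := 3) (by omega), sqL_congr (d := t' - 1) (d' := 2) (by omega)]
    simp [sqL]

/-- **Off the hole the side does not change.** -/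
theorem ns_step (hκ : κ = 0 ∨ κ = 1 ∨ κ = -1) (hA : (R : ℤ) - A ≤ ρ) (hB : (R : ℤ) - B ≤ ρ)
    (h1 : 1 ≤ ρ) {g : Ed} (hv : tlv g ∈ Wn z d κ A B R) (hw : hdv g ∈ Wn z d κ A B R)
    (hv' : tlv g ∉ Bq z ρ) (hw' : hdv g ∉ Bq z ρ) : NSq z d κ (tlv g) ↔ NSq z d κ (hdv g) := by
  obtain ⟨⟨a1, a2, a3, a4⟩, a5, ⟨a6, a7, a8, a9⟩, a10⟩ := box_of hκ hv
  obtain ⟨⟨b1, b2, b3, b4⟩, b5, ⟨b6, b7, b8, b9⟩, b10⟩ := box_of hκ hw
  have c1 := Lq_rel z d (tlv g) hκ
  have c2 := Lq_rel z d (hdv g) hκ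
  have d1 := Lq_nb z d g
  have e1 : ¬ (-ρ ≤ (Lq z d (tlv g)).1 ∧ (Lq z d (tlv g)).1 < ρ ∧ -ρ ≤ (Lq z d (tlv g)).2 ∧
      (Lq z d (tlv g)).2 < ρ) := fun h => hv' ((Lq_box (u := d)).2 h)
  have e2 : ¬ (-ρ ≤ (Lq z d (hdv g)).1 ∧ (Lq z d (hdv g)).1 < ρ ∧ -ρ ≤ (Lq z d (hdv g)).2 ∧
      (Lq z d (hdv g)).2 < ρ) := fun h => hw' ((Lq_box (u := d)).2 h)
  unfold NSq
  generalize Lq z d (tlv g) = p at *
  generalize Lq z d (hdv g) = q at *
  generalize Lq z (κ + d) (tlv g) = p' at *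
  generalize Lq z (κ + d) (hdv g) = q' at *
  obtain ⟨x, y⟩ := p
  obtain ⟨x', y'⟩ := q
  obtain ⟨X, Y⟩ := p'
  obtain ⟨X', Y'⟩ := q'
  rcases hκ with rfl | rfl | rfl
  · simp only [if_true, Prod.mk.injEq, zero_ne_one, if_false] at *
    omega
  · simp only [one_ne_zero, if_false, if_true, Prod.mk.injEq] at *
    omega
  · have n1 : (-1 : ℤ) ≠ 0 := by norm_num
    have n2 : (-1 : ℤ) ≠ 1 := by norm_num
    simp only [n1, n2, if_false, Prod.mk.injEq] at *
    omega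

section cls

variable (hb : Bd (RW κ A B R) (2 * A + 8 * R + 2 * B) P U 1) (hW : WinI κ A B R P U)

include hb hW in
/-- **The steps of the rows off the hole**: the near side (`s = 0`), the far side. -/
theorem wH_cls (hκ : κ = 0 ∨ κ = 1 ∨ κ = -1) (hAR : A < R) (hBR : B + 1 < R)
    (hA : (R : ℤ) - A ≤ ρ) (hB : (R : ℤ) - B ≤ ρ) (h1 : 1 ≤ ρ) {k : ℕ}
    (hk : (wH θ c τ z d κ A B R mA mB P U).W k)
    (hq : sqL ((wH θ c τ z d κ A B R mA mB P U).P k) ((wH θ c τ z d κ A B R mA mB P U).u k) ∉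
      Bq z ρ) :
    ¬ (wH θ c τ z d κ A B R mA mB P U).E k ∧
    ((NSq z d κ (sqL ((wH θ c τ z d κ A B R mA mB P U).P k)
        ((wH θ c τ z d κ A B R mA mB P U).u k)) ∧
        (wH θ c τ z d κ A B R mA mB P U).s k = 0) ∨
      (¬ NSq z d κ (sqL ((wH θ c τ z d κ A B R mA mB P U).P k)
        ((wH θ c τ z d κ A B R mA mB P U).u k)) ∧
        ((k < 2 * A + 2 ∧ (wH θ c τ z d κ A B R mA mB P U).s k = if mA = true then 0 else 1) ∨
          (2 * A + 2 ≤ k ∧ (wH θ c τ z d κ A B R mA mB P U).s k =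
            if mB = true then -1 else 0)))) := by
  classical
  have hR : 2 ≤ R := by omega
  obtain ⟨tb1, tb2⟩ := tB_bd κ A B R hR
  obtain ⟨hk1, hk2⟩ := hk
  obtain ⟨i, rfl⟩ : ∃ i, k = i + 1 := ⟨k - 1, by omega⟩
  have hix := wH_idx hb (by omega) (k := i + 1) (by omega)
  rw [show i + 1 - 1 = i by omega] at hix hk2
  have eP : (wH θ c τ z d κ A B R mA mB P U).P (i + 1) = Ls z d (P i) := by
    show Ls z d (P (i + 1 + (2 * A + 8 * R + 2 * B - 1))) = _
    rw [hix.1]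
  have eU : (wH θ c τ z d κ A B R mA mB P U).u (i + 1) = U i + 4 + d := by
    show U (i + 1 + (2 * A + 8 * R + 2 * B - 1)) + d = _
    rw [hix.2]
  have eS : (wH θ c τ z d κ A B R mA mB P U).s (i + 1) = sH τ z d κ A B R mA mB P i := rfl
  have eE : (wH θ c τ z d κ A B R mA mB P U).E (i + 1) ↔ EH κ A B R mA mB i := by
    show 1 ≤ i + 1 ∧ EH κ A B R mA mB i ↔ _
    simp
  rw [eP, eU, show U i + 4 + d = (U i + d) + 4 by ring, sqL_congr (d' := U i + d) (by omega)] at hq ⊢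
  rw [eS, eE]
  have c1 := Lq_rel z d (sqL (Ls z d (P i)) (U i + d)) hκ
  have e1 : ¬ (-ρ ≤ (Lq z d (sqL (Ls z d (P i)) (U i + d))).1 ∧
      (Lq z d (sqL (Ls z d (P i)) (U i + d))).1 < ρ ∧
      -ρ ≤ (Lq z d (sqL (Ls z d (P i)) (U i + d))).2 ∧
      (Lq z d (sqL (Ls z d (P i)) (U i + d))).2 < ρ) := fun h => hq ((Lq_box (u := d)).2 h)
  have e2 : ¬ (-ρ ≤ (Lq z (κ + d) (sqL (Ls z d (P i)) (U i + d))).1 ∧
      (Lq z (κ + d) (sqL (Ls z d (P i)) (U i + d))).1 < ρ ∧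
      -ρ ≤ (Lq z (κ + d) (sqL (Ls z d (P i)) (U i + d))).2 ∧
      (Lq z (κ + d) (sqL (Ls z d (P i)) (U i + d))).2 < ρ) :=
    fun h => hq ((Lq_box (u := κ + d)).2 h)
  unfold EH NSq
  rcases hk2 with hk2 | ⟨hk2, hk3⟩
  · -- the row before the hole
    rcases lt_trichotomy i A with h2 | h2 | h2
    · have f1 : Lq z d (sqL (Ls z d (P i)) (U i + d)) = (-(R : ℤ) + i, 0) := by
        rw [Lq_sqL, (hW.aD i h2).1, (hW.aD i h2).2]
        simp [sqL]
      rw [f1] at c1 e1 ⊢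
      generalize Lq z (κ + d) (sqL (Ls z d (P i)) (U i + d)) = q' at *
      obtain ⟨X, Y⟩ := q'
      refine ⟨by omega, Or.inl ⟨?_, sH_near h2⟩⟩
      rcases hκ with rfl | rfl | rfl
      · simp
      · simp only [one_ne_zero, if_false, if_true, Prod.mk.injEq] at *
        omega
      · simp
    · exfalso
      subst h2
      have f1 : Lq z d (sqL (Ls z d (P i)) (U i + d)) = (-(R : ℤ) + i, -1) := by
        rw [Lq_sqL, hW.aE.1, hW.aE.2]
        simp [sqL]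
      rw [f1] at e1
      simp only at e1
      omega
    · obtain ⟨j, rfl⟩ : ∃ j, i = A + 1 + j := ⟨i - (A + 1), by omega⟩
      have f1 : Lq z d (sqL (Ls z d (P (A + 1 + j))) (U (A + 1 + j) + d)) =
          (-(R : ℤ) + A - j - 1, -2) := by
        rw [Lq_sqL, (hW.aF j (by omega)).1, (hW.aF j (by omega)).2]
        simp [sqL]
        ring
      rw [f1] at c1 e1 ⊢
      generalize Lq z (κ + d) (sqL (Ls z d (P (A + 1 + j))) (U (A + 1 + j) + d)) = q' at *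
      obtain ⟨X, Y⟩ := q'
      refine ⟨by omega, Or.inr ⟨?_, Or.inl ⟨by omega, sH_far (by omega) (by omega)⟩⟩⟩
      rcases hκ with rfl | rfl | rfl
      · simp only [if_true, Prod.mk.injEq, zero_ne_one, if_false] at *
        omega
      · simp
      · have n1 : (-1 : ℤ) ≠ 0 := by norm_num
        have n2 : (-1 : ℤ) ≠ 1 := by norm_num
        simp only [n1, n2, if_false, Prod.mk.injEq] at *
        omega
  · -- the row after the hole
    have hUs : U i + d = (U i - κ) + (κ + d) := by ring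
    rcases lt_trichotomy i (tB κ A R + B) with h2 | h2 | h2
    · obtain ⟨j, rfl⟩ : ∃ j, i = tB κ A R + j := ⟨i - tB κ A R, by omega⟩
      have f1 : Lq z (κ + d) (sqL (Ls z d (P (tB κ A R + j))) (U (tB κ A R + j) + d)) =
          ((R : ℤ) - j - 1, -2) := by
        rw [hUs, (hW.bF j (by omega)).1, (hW.bF j (by omega)).2, Ls_Ls, Lq_sqL,
          show κ + 2 - κ = 2 by ring]
        simp [sqL]
        ring
      rw [f1] at c1 e2 ⊢
      generalize Lq z d (sqL (Ls z d (P (tB κ A R + j))) (U (tB κ A R + j) + d)) = q' at *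
      obtain ⟨X, Y⟩ := q'
      refine ⟨by omega, Or.inr ⟨?_, Or.inr ⟨by omega, sH_farB hR (by omega) (by omega)⟩⟩⟩
      rcases hκ with rfl | rfl | rfl
      · simp only [if_true, Prod.mk.injEq, zero_ne_one, if_false] at *
        omega
      · simp
      · have n1 : (-1 : ℤ) ≠ 0 := by norm_num
        have n2 : (-1 : ℤ) ≠ 1 := by norm_num
        simp only [n1, n2, if_false, Prod.mk.injEq] at *
        omega
    · exfalso
      subst h2
      have f1 : Lq z (κ + d) (sqL (Ls z d (P (tB κ A R + B))) (U (tB κ A R + B) + d)) =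
          ((R : ℤ) - B - 1, -1) := by
        rw [hUs, hW.bE.1, hW.bE.2, Ls_Ls, Lq_sqL, show κ + 1 - κ = 1 by ring]
        simp [sqL]
        ring
      rw [f1] at e2
      simp only at e2
      omega
    · obtain ⟨j, rfl⟩ : ∃ j, i = tB κ A R + B + 1 + j := ⟨i - (tB κ A R + B + 1), by omega⟩
      have f1 : Lq z (κ + d) (sqL (Ls z d (P (tB κ A R + B + 1 + j)))
          (U (tB κ A R + B + 1 + j) + d)) = ((R : ℤ) - B + j, 0) := by
        rw [hUs, (hW.bD j (by omega)).1, (hW.bD j (by omega)).2, Ls_Ls, Lq_sqL,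
          show κ - κ = 0 by ring]
        simp [sqL]
      rw [f1] at c1 e2 ⊢
      generalize Lq z d (sqL (Ls z d (P (tB κ A R + B + 1 + j)))
          (U (tB κ A R + B + 1 + j) + d)) = q' at *
      obtain ⟨X, Y⟩ := q'
      refine ⟨by omega, Or.inl ⟨?_, sH_nearB hR (by omega)⟩⟩
      rcases hκ with rfl | rfl | rfl
      · simp
      · simp only [one_ne_zero, if_false, if_true, Prod.mk.injEq] at *
        omega
      · simp

end cls

/-- **Loops near a hole with two rows which do not visit it have the factor one.** -/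
theorem HoleN.one (h : HoleN θ c τ z d κ A B R mA mB K EE a) (h0 : 0 < θ) (h1 : θ < Real.pi / 2)
    (hm : ¬ (mA = false ∧ mB = true)) (hA : (R : ℤ) - A ≤ ρ) (hB : (R : ℤ) - B ≤ ρ)
    (hρ1 : 1 ≤ ρ) (hl : IsLoop ω ℓ) (hV : ∀ y ∈ ℓ, hdv y ∈ Bq z R)
    (hρ : ∀ y ∈ ℓ, hdv y ∉ Bq z ρ) (hc : ∀ v ∈ K, v ∈ Bq z R → ω v = decide (τ = -1))
    (hS : ∃ e ∈ bS K, e ∈ ℓ) : fLp θ K a ω ℓ = 1 := by
  obtain ⟨P, U, hb, hW⟩ := exists_win h.kap h.posA h.posB h.ltA h.ltB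
  have hok : (wH θ c τ z d κ A B R mA mB P U).Ok θ K EE a := h.ok hb hW
  have hvis : ∃ y ∈ ℓ, hdv y ∈ Wn z d κ A B R := by
    obtain ⟨e, he, hel⟩ := hS
    rcases mem_bS.1 he with ⟨g1, g2⟩ | ⟨g1, g2⟩
    · have hxi : e ∈ ℓ.image (nx ω) := by rw [hl.image]; exact hel
      obtain ⟨y, hy, rfl⟩ := mem_image.1 hxi
      refine ⟨y, hy, ?_⟩
      rw [tlv_nx] at g2
      by_contra h3
      exact g2 (h.kb _ (hV y hy) h3)
    · refine ⟨e, hel, ?_⟩
      by_contra h3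
      exact g1 (h.kb _ (hV e hel) h3)
  have hv : (wH θ c τ z d κ A B R mA mB P U).Lv K ω ℓ :=
    ⟨hl, fun y hy => mem_coe.2 (hV y hy), fun y hy hK => ⟨trivial, hc _ hK (hV y hy)⟩, hS, hvis⟩
  have hst : ∀ y ∈ ℓ, hdv y ∉ K → hdv y ∈ Wn z d κ A B R := hok.stay hv
  have htl : ∀ y ∈ ℓ, tlv y ∉ Bq z ρ := fun y hy => by
    have hxi : y ∈ ℓ.image (nx ω) := by rw [hl.image]; exact hy
    obtain ⟨x, hx, rfl⟩ := mem_image.1 hxi
    rw [tlv_nx]
    exact hρ x hx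
  -- the side along a strand
  have hside : ∀ e ∈ exs K ℓ, NSq z d κ (hdv e) ↔ NSq z d κ (tlv (nxt (bS K) ω e)) := by
    intro e he
    obtain ⟨g1, g2, g3⟩ := mem_exs.1 he
    have hr := returns_loop hl g3 g1
    obtain ⟨hm1, -⟩ := hr.spec
    have key : ∀ k < ret (nx ω) (bS K) e, NSq z d κ (hdv e) ↔ NSq z d κ (hdv ((nx ω)^[k] e)) := by
      intro k
      induction k with
      | zero => intro _; rfl
      | succ k ih =>
        intro hk
        rw [ih (by omega)]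
        have e1 : (nx ω)^[k + 1] e = nx ω ((nx ω)^[k] e) := Function.iterate_succ_apply' _ _ _
        have m1 := H199.loop_iter hl g3 k
        have m2 := H199.loop_iter hl g3 (k + 1)
        have s1 := hst _ m1 (out_stays g2 (by omega))
        have s2 := hst _ m2 (out_stays g2 hk)
        have t1 : tlv ((nx ω)^[k + 1] e) = hdv ((nx ω)^[k] e) := by rw [e1, tlv_nx]
        have := ns_step h.kap hA hB hρ1 (g := (nx ω)^[k + 1] e) (by rw [t1]; exact s1) s2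
          (htl _ m2) (hρ _ m2)
        rw [t1] at this
        exact this
    obtain ⟨k, hk⟩ : ∃ k, ret (nx ω) (bS K) e = k + 1 := ⟨ret (nx ω) (bS K) e - 1, by omega⟩
    have e2 : tlv (nxt (bS K) ω e) = hdv ((nx ω)^[k] e) := by
      unfold nxt
      rw [hk, Function.iterate_succ_apply', tlv_nx]
    rw [e2]
    exact key k (by omega)
  -- the feet
  have hfoot : ∀ e ∈ exs K ℓ, ∀ i j : ℕ,
      P4 e = M4 ((wH θ c τ z d κ A B R mA mB P U).P i)
        ((wH θ c τ z d κ A B R mA mB P U).u i) →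
      P4 (nxt (bS K) ω e) = M4 ((wH θ c τ z d κ A B R mA mB P U).P j)
        ((wH θ c τ z d κ A B R mA mB P U).u j) →
      sqL ((wH θ c τ z d κ A B R mA mB P U).P i)
        ((wH θ c τ z d κ A B R mA mB P U).u i) = hdv e ∧
      sqL ((wH θ c τ z d κ A B R mA mB P U).P j)
        ((wH θ c τ z d κ A B R mA mB P U).u j) = tlv (nxt (bS K) ω e) := by
    intro e he i j p1 p2
    obtain ⟨g1, g2, g3⟩ := mem_exs.1 he
    have hr := returns_loop hl g3 g1
    refine ⟨(cross_in hok.bd p1 (hst e g3 g2)).2.2.2.1.symm, ?_⟩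
    exact (cross_out hok.bd p2 (hok.kd _ (QX.exc_last g2 hr).1)).2.2.2.2.symm
  have hwb := fun {k : ℕ} => wH_cls (θ := θ) (c := c) (τ := τ) (z := z) (d := d) (mA := mA)
    (mB := mB) (ρ := ρ) (k := k) hb hW h.kap h.ltA h.ltB hA hB hρ1
  have hEE : ∀ e ∈ exs K ℓ, e ∉ EE ∧ nxt (bS K) ω e ∉ EE := by
    intro e he
    obtain ⟨g1, g2, g3⟩ := mem_exs.1 he
    have hr := returns_loop hl g3 g1
    obtain ⟨c1, c2⟩ := hv.ends he
    obtain ⟨i, j, i1, j1, k1, i2, j2, i3, j3, k2, k3⟩ := hok.exit g1 hr (fun k hk =>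
      hst _ (H199.loop_iter hl g3 k) (out_stays g2 hk)) c1 c2
    obtain ⟨q1, q2⟩ := hfoot e he i j i3 j3
    have n1 := (nxt_mem (S := bS K) hl g1 g3).2
    refine ⟨fun hE => (hwb i1 ?_).1 (i2 hE), fun hE => (hwb j1 ?_).1 (j2 hE)⟩
    · rw [q1]
      exact hρ e g3
    · rw [q2]
      exact htl _ n1
  rcases hok.loop h0 h1 hv with ⟨-, e, he, -, hk | ⟨hk, -⟩⟩ | ⟨r, p, e1, e2, e3⟩
  · exfalso
    obtain ⟨i, j, i1, j1, i3, j3, hk⟩ := hk
    obtain ⟨g1, g2, g3⟩ := mem_exs.1 he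
    have n1 := (nxt_mem (S := bS K) hl g1 g3).2
    obtain ⟨q1, q2⟩ := hfoot e he i j i3 j3
    have w1 := (hwb i1 (by rw [q1]; exact hρ e g3)).2
    have w2 := (hwb j1 (by rw [q2]; exact htl _ n1)).2
    rw [q1] at w1
    rw [q2] at w2
    have hs := hside e he
    have hτ := h.sg
    change 4 * ((wH θ c τ z d κ A B R mA mB P U).s i -
      (wH θ c τ z d κ A B R mA mB P U).s j) + (if i < j then -2 else 2) = -6 * τ at hk
    generalize (wH θ c τ z d κ A B R mA mB P U).s i = si at *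
    generalize (wH θ c τ z d κ A B R mA mB P U).s j = sj at *
    rcases w1 with ⟨w1, w3⟩ | ⟨w1, w3⟩ <;> rcases w2 with ⟨w2, w4⟩ | ⟨w2, w4⟩
    · rw [w3, w4] at hk
      rcases hτ with rfl | rfl <;> split_ifs at hk <;> omega
    · exact w2 (hs.1 w1)
    · exact w1 (hs.2 w2)
    · clear hwb hfoot hEE hside hst
      rcases hτ with rfl | rfl <;> rcases w3 with ⟨w3, w5⟩ | ⟨w3, w5⟩ <;>
        rcases w4 with ⟨w4, w6⟩ | ⟨w4, w6⟩ <;> cases mA <;> cases mB <;>
        simp at hm w5 w6 <;> split_ifs at hk <;> omega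
  · exact absurd hk (hEE e he).1
  · rw [e1, prod_eq_one fun e he => (e3 e he).2.2 (hEE e he).1 (hEE e he).2, mul_one]
    rcases e2 with e2 | ⟨-, x, -, -, -, j, hj, -⟩
    · exact e2
    · exact hj.elim

end Vale.Agent.P167.N.ID
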