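import Vale.Agent.P167.N.ID.WinHole
import Vale.Agent.P167.N.ID.FrmC
import Vale.Agent.P167.N.ID.RowC

/-!
# P167, `q < 1`, START: the sides of a row at a hole

`srowJ_side`: the phases, the staggers and the regular end side of a row along a side, in the
coordinates of a hole.
-/

set_option autoImplicit false

namespace Vale.Agent.P167.N.ID

open Finset
open Vale.Agent.P167.Top
open Vale.Agent.P167.A (plane)
open Vale.Agent.P167.E6 (IsPolygon Encloses dir face)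
open Vale.Agent.P167.H825 (enl pdir Marks)
open Vale.Agent.P167.H825.Q (srow Bc mem_srow stΦ stτ stτ_or jpos osq Cst cst_of same_side)
open Vale.Agent.P167.BR (ce)
open Vale.Agent.P167.XDL (bS mem_bS)
open Vale.Agent.P167.FK (Bq)
open Vale.Agent.P167.H199 (Gap ah at')
open Vale.Agent.P167.H662 (hsite)
open Vale.Agent.P167.Enl
open Vale.Agent.P167.H871.Q (Lq Wn rA rB RW Lq_rel box_of rA_not rB_not rA_rB)

/-- The coordinates of the squares on the inner side. -/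
theorem Lq_iz {r : Fin 4} {u : ℤ} (hu : u % 4 = ((r.val : ℕ) : ℤ)) (z : ℤ × ℤ) (q σ : ℤ) :
    Lq (vz z r q) u (face (vz z r σ) r) = (σ - q, 0) := by
  obtain ⟨h0, h1, h2, h3⟩ := vz_eq z σ
  obtain ⟨k0, k1, k2, k3⟩ := vz_eq z q
  unfold Lq
  rcases fin4_cases r with rfl | rfl | rfl | rfl
  · have hu' : u % 4 = 0 := by simpa using hu
    rcases head_cases u with ⟨a, b, c⟩ | ⟨a, b, c⟩ | ⟨a, b, c⟩ | ⟨a, b, c⟩
    · rw [h0, k0, b, c, face0]; simp
    all_goals exfalso; omega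
  · have hu' : u % 4 = 1 := by simpa using hu
    rcases head_cases u with ⟨a, b, c⟩ | ⟨a, b, c⟩ | ⟨a, b, c⟩ | ⟨a, b, c⟩
    · exfalso; omega
    · rw [h1, k1, b, c, face1]; simp
    all_goals exfalso; omega
  · have hu' : u % 4 = 2 := by simpa using hu
    rcases head_cases u with ⟨a, b, c⟩ | ⟨a, b, c⟩ | ⟨a, b, c⟩ | ⟨a, b, c⟩
    · exfalso; omega
    · exfalso; omega
    · rw [h2, k2, b, c, face2]; simp; ring
    · exfalso; omega
  · have hu' : u % 4 = 3 := by simpa using hu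
    rcases head_cases u with ⟨a, b, c⟩ | ⟨a, b, c⟩ | ⟨a, b, c⟩ | ⟨a, b, c⟩
    · exfalso; omega
    · exfalso; omega
    · exfalso; omega
    · rw [h3, k3, b, c, face3]; simp; ring

/-- The coordinates of the squares on the outer side. -/
theorem Lq_fz {r : Fin 4} {u : ℤ} (hu : u % 4 = ((r.val : ℕ) : ℤ)) (z : ℤ × ℤ) (q σ : ℤ) :
    Lq (vz z r q) u (oz z r σ + dir (r - 1)) = (σ - q, -2) := by
  obtain ⟨h0, h1, h2, h3⟩ := oz_eq z σ
  obtain ⟨k0, k1, k2, k3⟩ := vz_eq z q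
  unfold Lq
  rcases fin4_cases r with rfl | rfl | rfl | rfl
  · have hu' : u % 4 = 0 := by simpa using hu
    rcases head_cases u with ⟨a, b, c⟩ | ⟨a, b, c⟩ | ⟨a, b, c⟩ | ⟨a, b, c⟩
    · rw [h0, k0, b, c, m01, dir3]; ext <;> simp <;> ring
    all_goals exfalso; omega
  · have hu' : u % 4 = 1 := by simpa using hu
    rcases head_cases u with ⟨a, b, c⟩ | ⟨a, b, c⟩ | ⟨a, b, c⟩ | ⟨a, b, c⟩
    · exfalso; omega
    · rw [h1, k1, b, c, m11, dir0]; ext <;> simp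
    all_goals exfalso; omega
  · have hu' : u % 4 = 2 := by simpa using hu
    rcases head_cases u with ⟨a, b, c⟩ | ⟨a, b, c⟩ | ⟨a, b, c⟩ | ⟨a, b, c⟩
    · exfalso; omega
    · exfalso; omega
    · rw [h2, k2, b, c, m21, dir1]; ext <;> simp <;> ring
    · exfalso; omega
  · have hu' : u % 4 = 3 := by simpa using hu
    rcases head_cases u with ⟨a, b, c⟩ | ⟨a, b, c⟩ | ⟨a, b, c⟩ | ⟨a, b, c⟩
    · exfalso; omega
    · exfalso; omega
    · exfalso; omega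
    · rw [h3, k3, b, c, m31, dir2]; ext <;> simp <;> ring

theorem hJ_Jm (θ : ℝ) (J : Bool) : 2 * hJ θ J = Jm θ J := by
  unfold hJ Jm
  cases J <;> simp <;> ring

variable {θ : ℝ} {J : Bool} {z : ℤ × ℤ} {r : Fin 4} {s e jp : ℕ} {F T : ℕ → ℝ}

/-- The regular end side. -/
theorem es_srowJ (hse : s < e) :
    (srowJ θ J z r s e jp F T).es (!(srowJ θ J z r s e jp F T).p) =
      ce (vz z r ((if J then e else s : ℕ) : ℤ)) (r - 1) := by
  obtain ⟨x, y⟩ := z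
  obtain ⟨k0, k1, k2, k3⟩ := vz_eq (x, y) ((if J then e else s : ℕ) : ℤ)
  unfold Row.es Row.p
  rcases fin4_cases r with rfl | rfl | rfl | rfl
  · rw [k0, m01, BR.ce3]
    show (if true = true then (Sum.inl (if (!(xor true (if J then inF 0 else !inF 0))) = true then
      x + s + ((e - s : ℕ) : ℤ) - 1 else x + s - 1, y - 1) : Ed) else _) = _
    cases J
    · simp [inF]
    · simp [inF]
      omega
  · rw [k1, m11, BR.ce0]
    show (if false = true then _ else (Sum.inr (x, if (!(xor false (if J then inF 1 else !inF 1))) =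
      true then y + s + ((e - s : ℕ) : ℤ) - 1 else y + s - 1) : Ed)) = _
    cases J
    · simp [inF]
    · simp [inF]
      omega
  · rw [k2, m21, BR.ce1]
    show (if true = true then (Sum.inl (if (!(xor true (if J then inF 2 else !inF 2))) = true then
      x - e + ((e - s : ℕ) : ℤ) - 1 else x - e - 1, y) : Ed) else _) = _
    cases J
    · simp [inF]
      omega
    · simp [inF]
  · rw [k3, m31, BR.ce2]
    show (if false = true then _ else (Sum.inr (x - 1, if (!(xor false (if J then inF 3 else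
      !inF 3))) = true then y - e + ((e - s : ℕ) : ℤ) - 1 else y - e - 1) : Ed)) = _
    cases J
    · simp [inF]
      omega
    · simp [inF]

/-- **The sides of a row**, in the coordinates of the point `q` of the line. -/
theorem srowJ_side (hF : Cst s e jp F) (hT : Cst s e jp T) (hT1 : ∀ k, T k = 1 ∨ T k = -1) {u : ℤ}
    (hu : u % 4 = ((r.val : ℕ) : ℤ)) (q : ℤ) {g : Ed} {v w : ℤ × ℤ} (h : Two g v w)
    (hv : v ∈ (srowJ θ J z r s e jp F T).I) (hw : w ∉ (srowJ θ J z r s e jp F T).I) :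
    ∃ σ : ℕ, s ≤ σ ∧ σ < e ∧ v = oz z r σ ∧
      (srowJ θ J z r s e jp F T).Φ θ g = F σ + hΦ (Jm θ J) (Lq (vz z r q) u w).2 ∧
      (srowJ θ J z r s e jp F T).σ θ g = T σ * hσ θ (Lq (vz z r q) u w).2 ∧
      (g = (srowJ θ J z r s e jp F T).es (!(srowJ θ J z r s e jp F T).p) ↔
        (Lq (vz z r q) u w).2 = -1 ∧ ((J = true ∧ (Lq (vz z r q) u w).1 = e - q) ∨
          (J = false ∧ (Lq (vz z r q) u w).1 = s - 1 - q))) := by
  obtain ⟨σ, h1, h2, rfl⟩ := mem_srowJ.1 hv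
  have hse : s < e := by omega
  have hmem : ∀ τ : ℤ, oz z r τ ∈ (srowJ θ J z r s e jp F T).I ↔ (s : ℤ) ≤ τ ∧ τ < e := by
    intro τ
    rw [← oz_mem (z := z) (r := r), mem_rowZ, mem_srowJ]
    rfl
  have hes := es_srowJ (θ := θ) (J := J) (z := z) (r := r) (jp := jp) (F := F) (T := T) hse
  -- the regular end side has the second coordinate `-1`
  have hEE : ∀ X : ℤ, g = ce (vz z r X) (r - 1) →
      (Lq (vz z r q) u w = (X - q, -1) ∧ w = oz z r X) ∨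
      (Lq (vz z r q) u w = (X - 1 - q, -1) ∧ w = oz z r (X - 1)) := by
    intro X hX
    have h3 := two_side z r X
    rw [← hX] at h3
    have h4 : w = oz z r X ∨ w = oz z r (X - 1) := by
      rcases h with ⟨a1, a2⟩ | ⟨a1, a2⟩ <;> rcases h3 with ⟨a3, a4⟩ | ⟨a3, a4⟩
      · exact Or.inr (a2.symm.trans a4)
      · exact Or.inl (a2.symm.trans a4)
      · exact Or.inl (a1.symm.trans a3)
      · exact Or.inr (a1.symm.trans a3)
    rcases h4 with h4 | h4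
    · exact Or.inl ⟨by rw [h4, Lq_oz hu], h4⟩
    · exact Or.inr ⟨by rw [h4, Lq_oz hu], h4⟩
  have hEE' : (Lq (vz z r q) u w).2 ≠ -1 →
      ¬ g = (srowJ θ J z r s e jp F T).es (!(srowJ θ J z r s e jp F T).p) := by
    intro h3 h4
    rw [hes] at h4
    rcases hEE _ h4 with ⟨h5, -⟩ | ⟨h5, -⟩ <;> exact h3 (by rw [h5])
  refine ⟨σ, h1, h2, rfl, ?_⟩
  have hsv : ∀ b, sdv z r b σ = vz z r σ + if b then (0, 0) else dir (r - 1) := fun b => rfl
  rcases edge_of_oz (z := z) (r := r) (σ := (σ : ℤ)) h with ⟨hg, hw'⟩ | ⟨hg, hw'⟩ | ⟨hg, hw'⟩ |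
      ⟨hg, hw'⟩
  · -- the inner face
    have hL : Lq (vz z r q) u w = (σ - q, 0) := by rw [hw', Lq_iz hu]
    have hg' : g = ce (sdv z r true σ) r := by
      rw [hg, hsv]
      congr 1
      simp
    refine ⟨?_, ?_, ?_⟩
    · rw [hL, hg', srowJ_Φ hF h1 h2]
      unfold hΦ
      simp
    · rw [hL, hg', srowJ_σ hT hT1 h1 h2]
      unfold hσ
      simp
    · constructor
      · intro h3
        exact absurd h3 (hEE' (by rw [hL]; simp))
      · rintro ⟨h3, -⟩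
        rw [hL] at h3
        simp at h3
  · -- the outer face
    have hL : Lq (vz z r q) u w = (σ - q, -2) := by rw [hw', Lq_fz hu]
    have hg' : g = ce (sdv z r false σ) r := by
      rw [hg, hsv]
      congr 1
    refine ⟨?_, ?_, ?_⟩
    · rw [hL, hg', srowJ_Φ hF h1 h2, ← hJ_Jm]
      unfold hΦ
      norm_num
      ring
    · rw [hL, hg', srowJ_σ hT hT1 h1 h2]
      unfold hσ
      norm_num
    · constructor
      · intro h3
        exact absurd h3 (hEE' (by rw [hL]; norm_num))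
      · rintro ⟨h3, -⟩
        rw [hL] at h3
        norm_num at h3
  · -- the first end
    have h3 : σ = s := by
      rw [hw', hmem] at hw
      omega
    subst h3
    have hL : Lq (vz z r q) u w = (σ - 1 - q, -1) := by rw [hw', Lq_oz hu]
    have hg' : g = ce (z + ((if false then e else σ : ℕ) : ℤ) • dir r) (r - 1) := hg
    refine ⟨?_, ?_, ?_⟩
    · rw [hL, hg', srowJ_Φe hse false, ← hJ_Jm]
      unfold hΦ
      norm_num
      ring
    · rw [hL, hg', srowJ_σe hT1 hse false]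
      unfold hσ
      norm_num
    · rw [hL, hes]
      constructor
      · intro h3
        refine ⟨rfl, ?_⟩
        cases J
        · exact Or.inr ⟨rfl, rfl⟩
        · exfalso
          simp only [if_true] at h3
          rcases hEE _ h3 with ⟨-, h5⟩ | ⟨-, h5⟩
          · rw [hw'] at h5
            have := oz_inj h5
            omega
          · rw [hw'] at h5
            have := oz_inj h5
            omega
      · rintro ⟨-, ⟨h4, h5⟩ | ⟨h4, h5⟩⟩
        · simp only at h5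
          omega
        · rw [h4]
          exact hg
  · -- the last end
    have h3 : σ + 1 = e := by
      rw [hw', hmem] at hw
      omega
    subst h3
    have hL : Lq (vz z r q) u w = (σ + 1 - q, -1) := by rw [hw', Lq_oz hu]
    have hg' : g = ce (z + ((if true then σ + 1 else s : ℕ) : ℤ) • dir r) (r - 1) := by
      rw [hg]
      rfl
    refine ⟨?_, ?_, ?_⟩
    · rw [hL, hg', srowJ_Φe hse true, ← hJ_Jm]
      unfold hΦ
      norm_num
      ring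
    · rw [hL, hg', srowJ_σe hT1 hse true]
      unfold hσ
      norm_num
    · rw [hL, hes]
      constructor
      · intro h3
        refine ⟨rfl, ?_⟩
        cases J
        · exfalso
          simp only [Bool.false_eq_true, if_false] at h3
          rcases hEE _ h3 with ⟨-, h5⟩ | ⟨-, h5⟩
          · rw [hw'] at h5
            have := oz_inj h5
            omega
          · rw [hw'] at h5
            have := oz_inj h5
            omega
        · exact Or.inl ⟨rfl, by push_cast; rfl⟩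
      · rintro ⟨-, ⟨h4, h5⟩ | ⟨h4, h5⟩⟩
        · rw [h4]
          exact hg
        · simp only at h5
          omega

/-! ### the lifted directions at a mark, base at the step `t` -/

section dirs

variable {l : ℕ} {p : ZMod l → ℤ × ℤ} {n t : ℕ} {S₀ : Finset (ℤ × ℤ)} {Q : Marks}

/-- The base point is far from the mark. -/
structure FarB (l n t : ℕ) (Q : Marks) (m : ℤ) (x : Fin l × Fin (Q.m + 1)) : Prop where
  pos : 0 ≤ m
  lo : m < t
  hi : (t : ℤ) + m < n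
  far : (x.1 : ℕ) = 0 → m < |(pA n Q x : ℤ) - t|

theorem farB_of (hQ : Q.Ok) {g : ℝ} (hg : Gap Q l g) {m : ℤ} (hm0 : 0 ≤ m)
    (hm : (2 * m : ℝ) + 4 < g * n) (t1 : tB n Q ≤ t) (t2 : t ≤ tB n Q + 1)
    (x : Fin l × Fin (Q.m + 1)) : FarB l n t Q m x := by
  obtain ⟨⟨h1, h2⟩, h3⟩ := base_far hQ hg (m := m + 1) (by omega) (by push_cast; linarith) x
  refine ⟨hm0, by omega, by omega, fun hx => ?_⟩
  have h4 := h3 hx
  rw [lt_abs] at h4 ⊢
  omega

/-- The lifted direction after the mark. -/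
noncomputable def uAt (p : ZMod l → ℤ × ℤ) (n t : ℕ) (Q : Marks) (x : Fin l × Fin (Q.m + 1)) : ℤ :=
  uN p n t (kOf l n t x.1 (pA n Q x))

/-- The lifted direction before the mark. -/
noncomputable def uBt (p : ZMod l → ℤ × ℤ) (n t : ℕ) (Q : Marks) (x : Fin l × Fin (Q.m + 1)) : ℤ :=
  uN p n t (kOf l n t (iB l x) (pB n Q x - 1))

theorem kOf_pBt (hQ : Q.Ok) {g : ℝ} (hg : Gap Q l g) {m : ℤ} {x : Fin l × Fin (Q.m + 1)}
    (hx : FarB l n t Q m x) (hm : (2 * m : ℝ) + 4 < g * n) :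
    kOf l n t (iB l x) (pB n Q x - 1) + 1 = kOf l n t x.1 (pA n Q x) := by
  obtain ⟨hm0, h1, h2, h3⟩ := hx
  have hx := x.1.2
  by_cases h : (x.2 : ℕ) = 0
  · rw [pB_zero hQ h, pA_zero hQ h]
    rcases iB_succ h with h4 | ⟨h4, h5⟩
    · rw [← h4]
      unfold kOf
      have h6 : n ≤ (iB l x + 1) * n := Nat.le_mul_of_pos_left n (by omega)
      rw [add_mul, one_mul] at h6
      rw [if_pos (by omega), add_mul, one_mul, if_pos (by omega)]
      omega
    · rw [h5]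
      have h6 : (iB l x + 1) * n = l * n := by rw [h4]
      rw [add_mul, one_mul] at h6
      unfold kOf
      rw [if_pos (by omega), if_neg (by omega)]
      omega
  · obtain ⟨h4, h5, -⟩ := pB_pos (n := n) h
    rw [h4, h5]
    have h6 : 0 < pA n Q x := by
      have h7 := hg.1 x.1 hx (x.2 - 1) (by omega)
      have h8 := theta_nonneg hQ x.1 (j := x.2 - 1) (by omega)
      rw [show (x.2 : ℕ) - 1 + 1 = x.2 by omega] at h7
      unfold pA
      rw [Nat.floor_pos]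
      have hn0 : (0 : ℝ) ≤ n := Nat.cast_nonneg n
      have h9 : g * n ≤ Q.θ x.1 x.2 * n := mul_le_mul_of_nonneg_right (by linarith) hn0
      have hm0' : (0 : ℝ) ≤ m := by exact_mod_cast hm0
      linarith
    unfold kOf
    by_cases h7 : (x.1 : ℕ) = 0
    · have h8 := h3 h7
      rw [h7]
      have h11 : n ≤ l * n := Nat.le_mul_of_pos_left n (by omega)
      have h9 : pA n Q x ≠ t := fun h10 => by
        rw [h10, sub_self, abs_zero] at h8
        omega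
      split_ifs <;> omega
    · have h8 : n ≤ (x.1 : ℕ) * n := Nat.le_mul_of_pos_left n (by omega)
      rw [if_pos (by omega), if_pos (by omega)]
      omega

/-- **The corner at a mark.** -/
theorem turn_markt (hp : IsPolygon p) (hD : Encloses p S₀) (hQ : Q.Ok) {g : ℝ} (hg : Gap Q l g)
    {m : ℤ} {x : Fin l × Fin (Q.m + 1)}
    (hx : FarB l n t Q m x) (hm : (2 * m : ℝ) + 4 < g * n) :
    uAt p n t Q x - uBt p n t Q x = 0 ∨ uAt p n t Q x - uBt p n t Q x = 1 ∨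
      uAt p n t Q x - uBt p n t Q x = -1 := by
  have ht : t < n := by have := hx.hi; have := hx.pos; omega
  have h := (bd_qN (by omega) hp hD ht).turn (kOf l n t (iB l x) (pB n Q x - 1))
  rw [kOf_pBt hQ hg hx hm] at h
  change |uAt p n t Q x - uBt p n t Q x| ≤ 1 at h
  rw [abs_le] at h
  omega

/-- The direction on the window after the mark. -/
theorem uN_aftert {m : ℤ} {x : Fin l × Fin (Q.m + 1)} (hx : FarB l n t Q m x) {σ : ℕ}
    (hσ : σ < n) (h1 : pA n Q x ≤ σ) (h2 : (σ : ℤ) ≤ pA n Q x + m) :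
    uN p n t (kOf l n t x.1 σ) = uAt p n t Q x := by
  obtain ⟨hm0, h3, h4, h5⟩ := hx
  refine uN_same x.1.2 (by omega) hσ (by omega) ?_
  by_cases h7 : (x.1 : ℕ) = 0
  · have h8 := h5 h7
    rw [h7, lt_abs] at *
    constructor <;> intro h9 <;> omega
  · have h8 : n ≤ (x.1 : ℕ) * n := Nat.le_mul_of_pos_left n (by omega)
    constructor <;> intro h9 <;> omega

/-- The direction on the window before the mark. -/
theorem uN_beforet (hQ : Q.Ok) {m : ℤ} {x : Fin l × Fin (Q.m + 1)} (hx : FarB l n t Q m x) {σ : ℕ}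
    (hσ : σ < pB n Q x) (h2 : (pB n Q x : ℤ) ≤ σ + m) :
    uN p n t (kOf l n t (iB l x) σ) = uBt p n t Q x := by
  obtain ⟨hm0, h3, h4, h5⟩ := hx
  have h6 := pB_le (n := n) hQ x
  refine uN_same (iB_lt x) (by omega) (by omega) (by omega) ?_
  by_cases h7 : iB l x = 0
  · rw [h7, zero_mul, zero_add, zero_add]
    by_cases h : (x.2 : ℕ) = 0
    · rw [pB_zero hQ h] at *
      constructor <;> intro h9 <;> omega
    · obtain ⟨h8, h9, -⟩ := pB_pos (n := n) h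
      rw [h9] at h7
      have h10 := h5 h7
      rw [← h8, lt_abs] at h10
      constructor <;> intro h9 <;> omega
  · have h8 : n ≤ iB l x * n := Nat.le_mul_of_pos_left n (by omega)
    constructor <;> intro h9 <;> omega

theorem uAt_mod (hp : IsPolygon p) (hD : Encloses p S₀) (ht : t < n)
    (x : Fin l × Fin (Q.m + 1)) (h : pA n Q x < n) :
    uAt p n t Q x % 4 = (((pdir p x.1).val : ℕ) : ℤ) := uN_mod hp hD ht x.1.2 h

theorem uBt_mod (hp : IsPolygon p) (hD : Encloses p S₀) (hQ : Q.Ok) (ht : t < n)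
    (x : Fin l × Fin (Q.m + 1)) :
    uBt p n t Q x % 4 = (((pdir p (iB l x)).val : ℕ) : ℤ) :=
  uN_mod hp hD ht (iB_lt x) (by have := pB_le (n := n) hQ x; omega)

end dirs

/-! ### the rows of a polygon -/

section poly

variable {l : ℕ} {p : ZMod l → ℤ × ℤ} {n t : ℕ} {S₀ : Finset (ℤ × ℤ)} {Q : Marks} {bc : Bc}
  {θ β C c : ℝ} {J : ℕ → Bool}

/-- **The sides of the rows of a polygon.** -/
theorem frowJ_side (hp : IsPolygon p) (hD : Encloses p S₀) (hQ : Q.Ok) (hb : bc.Ok l Q) {d : ℕ}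
    (hd : 1 ≤ d) (ht : t < n) (hc : c = 1 ∨ c = -1) {i j : ℕ} (hi : i < l) (hj : j ≤ Q.m) {u : ℤ}
    (hu : u % 4 = (((pdir p i).val : ℕ) : ℤ)) (q : ℤ) {g : Ed} {v w : ℤ × ℤ} (h : Two g v w)
    (hv : v ∈ (frowJ θ β p Q n d t bc J C c i j).I)
    (hw : w ∉ (frowJ θ β p Q n d t bc J C c i j).I) :
    ∃ σ : ℕ, sW p n Q d i j ≤ σ ∧ σ < eW p n Q d i j ∧ v = Enl.op p n i σ ∧
      (frowJ θ β p Q n d t bc J C c i j).Φ θ g =
        C + stΦ θ β (uN p n t) (bc.ka l n t) (kOf l n t i σ) +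
          hΦ (Jm θ (J i)) (Lq (vp p n i q) u w).2 ∧
      (frowJ θ β p Q n d t bc J C c i j).σ θ g =
        c * stτ (bc.ka l n t) (kOf l n t i σ) * hσ θ (Lq (vp p n i q) u w).2 ∧
      (g = (frowJ θ β p Q n d t bc J C c i j).es (!(frowJ θ β p Q n d t bc J C c i j).p) ↔
        (Lq (vp p n i q) u w).2 = -1 ∧
          ((J i = true ∧ (Lq (vp p n i q) u w).1 = eW p n Q d i j - q) ∨
          (J i = false ∧ (Lq (vp p n i q) u w).1 = sW p n Q d i j - 1 - q))) := by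
  refine srowJ_side (F := fun σ => C + stΦ θ β (uN p n t) (bc.ka l n t) (kOf l n t i σ))
    (T := fun σ => c * stτ (bc.ka l n t) (kOf l n t i σ))
    (cst_of (m := n) (fun σ h1 h2 => lt_n hQ hd hj h1 h2) ?_)
    (cst_of (m := n) (fun σ h1 h2 => lt_n hQ hd hj h1 h2) ?_) (fun k => ?_) hu q h hv hw
  · intro σ σ' hσ hσ' h
    obtain ⟨h3, h4⟩ := same_side hp hD hb ht hi hσ hσ' h
    show C + (θ / 4 * _ + (if _ then _ else _)) = C + (θ / 4 * _ + (if _ then _ else _))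
    rw [h3]
    simp only [h4]
  · intro σ σ' hσ hσ' h
    obtain ⟨h3, h4⟩ := same_side hp hD hb ht hi hσ hσ' h
    show c * (if _ then (1 : ℝ) else -1) = c * (if _ then 1 else -1)
    simp only [h4]
  · rcases hc with rfl | rfl <;> rcases stτ_or (bc.ka l n t) (kOf l n t i k) with h | h <;>
      rw [h] <;> norm_num

variable (hp : IsPolygon p) (hD : Encloses p S₀) (hQ : Q.Ok) {g δ : ℝ} (hg : Gap Q l g)
  (hδ : 0 < δ) (hδg : 4 * δ ≤ g) (hn : 16 ≤ δ * n) {R : ℕ} (hR1 : ⌊δ * n⌋₊ + 3 ≤ R)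
  (hR2 : (2 * R : ℝ) + 10 < g * n) (ht : t < n)

include hp hD hQ hg hδ hδg hn hR2 ht in
/-- The squares of the rows in the box of a mark, in coordinates. -/
theorem row_coord {x : Fin l × Fin (Q.m + 1)} {v : ℤ × ℤ}
    (hv : v ∈ frmQ p Q n ⌊δ * n⌋₊)
    (hb : v ∈ Bq (hsite p Q n x) (R + 1)) :
    (∃ σ : ℕ, v = Enl.op p n (iB l x) σ ∧
        Lq (hsite p Q n x) (uBt p n t Q x) v = ((σ : ℤ) - pB n Q x, -1) ∧
        (pB n Q x : ℤ) - R - 1 ≤ σ ∧ σ + gB p n Q ⌊δ * n⌋₊ x < pB n Q x) ∨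
      (∃ σ : ℕ, v = Enl.op p n x.1 σ ∧
        Lq (hsite p Q n x) (uAt p n t Q x) v = ((σ : ℤ) - pA n Q x, -1) ∧
        pA n Q x + gA p n Q ⌊δ * n⌋₊ x ≤ σ ∧ (σ : ℤ) ≤ pA n Q x + R) := by
  obtain ⟨y, σ, h1, h2, rfl⟩ := mem_frmQ.1 hv
  have h3 : nm (vp p n y.1 σ - hsite p Q n x) ≤ (R : ℤ) + 2 := by
    have a1 := mem_Bq' hb
    have a2 := op_near (p := p) (n := n) y.1 σ
    have a3 := nm_tri (vp p n y.1 σ) (Enl.op p n y.1 σ) (hsite p Q n x)
    rw [nm_sub_comm (vp p n y.1 σ) (Enl.op p n y.1 σ)] at a3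
    omega
  have hm : (2 * ((R + 2 : ℕ) : ℤ) : ℝ) + 2 < g * n := by push_cast; linarith
  have h4 := frm_box (m := ((R + 2 : ℕ) : ℤ)) hp hQ hg hδ hδg hn hm h1 h2
    (by push_cast; exact h3)
  have h5 := (Lq_box (u := uBt p n t Q x)).1 hb
  have h6 := (Lq_box (u := uAt p n t Q x)).1 hb
  have hn' : 0 < n := by omega
  have LB : ∀ σ : ℤ, Lq (hsite p Q n x) (uBt p n t Q x) (Enl.op p n (iB l x) σ) =
      (σ - pB n Q x, -1) := fun σ => by
    rw [← vp_pB hp hQ x]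
    exact Lq_oz (uBt_mod hp hD hQ ht x) _ _ _
  have LA : ∀ σ : ℤ, Lq (hsite p Q n x) (uAt p n t Q x) (Enl.op p n x.1 σ) =
      (σ - pA n Q x, -1) := fun σ => by
    rw [← vp_pA]
    exact Lq_oz (uAt_mod hp hD ht x (Enl.pA_lt hQ hn' x)) _ _ _
  rcases h4 with ⟨rfl, h7, -⟩ | ⟨h7, h8, h9, -⟩
  · right
    rw [LA] at h6 ⊢
    exact ⟨σ, rfl, rfl, h7, by omega⟩
  · left
    rw [h7] at h5 ⊢
    rw [LB] at h5
    exact ⟨σ, rfl, LB _, by omega, h9⟩

/-- The sign of a colour as an integer. -/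
noncomputable def tz (x : ℝ) : ℤ := open Classical in if x = 1 then 1 else -1

theorem tz_or (x : ℝ) : tz x = 1 ∨ tz x = -1 := by
  unfold tz
  split_ifs
  · exact Or.inl rfl
  · exact Or.inr rfl

theorem tz_eq {x : ℝ} (h : x = 1 ∨ x = -1) : (tz x : ℝ) = x := by
  unfold tz
  rcases h with rfl | rfl
  · rw [if_pos rfl]
    norm_num
  · rw [if_neg (by norm_num)]
    norm_num

theorem c_stτ {c : ℝ} (hc : c = 1 ∨ c = -1) (ka k : ℕ) : c * stτ ka k = 1 ∨ c * stτ ka k = -1 := by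
  rcases hc with rfl | rfl <;> rcases stτ_or ka k with h | h <;> rw [h] <;> norm_num

/-- Near the point `z` the frozen squares and the phases are those of the rows of a polygon. -/
structure AtP (θ β C c : ℝ) (p : ZMod l → ℤ × ℤ) (Q : Marks) (n d t : ℕ) (bc : Bc) (J : ℕ → Bool)
    (R : ℕ) (z : ℤ × ℤ) (K : Finset (ℤ × ℤ)) (EE : Set Ed) (a : Ed → Bool → ℝ) : Prop where
  frz : ∀ v ∈ Bq z (R + 1), v ∈ K ↔ v ∈ frmQ p Q n d
  out : ∀ (y : Fin l × Fin (Q.m + 1)) (g : Ed), g ∈ bS (frowJ θ β p Q n d t bc J C c y.1 y.2).I →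
    hdv g ∈ Bq z R → hdv g ∉ K → ah plane a g =
      (frowJ θ β p Q n d t bc J C c y.1 y.2).Φ θ g + (frowJ θ β p Q n d t bc J C c y.1 y.2).σ θ g
  inn : ∀ (y : Fin l × Fin (Q.m + 1)) (g : Ed), g ∈ bS (frowJ θ β p Q n d t bc J C c y.1 y.2).I →
    tlv g ∈ Bq z R → tlv g ∉ K → at' plane a g =
      -(frowJ θ β p Q n d t bc J C c y.1 y.2).Φ θ g + (frowJ θ β p Q n d t bc J C c y.1 y.2).σ θ g
  off : ∀ g, g ∉ bS K → hdv g ∈ Bq z R → a g false + a g true = 0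
  reg : ∀ (y : Fin l × Fin (Q.m + 1)) (g : Ed), g ∈ bS (frowJ θ β p Q n d t bc J C c y.1 y.2).I →
    (hdv g ∈ Bq z R ∨ tlv g ∈ Bq z R) → (g ∈ EE ↔
      g = (frowJ θ β p Q n d t bc J C c y.1 y.2).es (!(frowJ θ β p Q n d t bc J C c y.1 y.2).p))

variable {K : Finset (ℤ × ℤ)} {EE : Set Ed} {a : Ed → Bool → ℝ}

include hp hD hQ hg hδ hδg hn hR1 hR2 ht in
/-- **A mark of a polygon is a hole with two rows.** -/
theorem AtP.holeN (hb : bc.Ok l Q) (t1 : tB n Q ≤ t) (t2 : t ≤ tB n Q + 1)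
    (hW : WCol p Q n t (bc.ka l n t) g) (hc : c = 1 ∨ c = -1) {x : Fin l × Fin (Q.m + 1)}
    (h : AtP θ β C c p Q n ⌊δ * n⌋₊ t bc J R (hsite p Q n x) K EE a) :
    HoleN θ (C + (θ / 4 * uBt p n t Q x +
        if kOf l n t x.1 (pA n Q x) < bc.ka l n t then 0 else β))
      (tz (c * stτ (bc.ka l n t) (kOf l n t x.1 (pA n Q x)))) (hsite p Q n x) (uBt p n t Q x)
      (uAt p n t Q x - uBt p n t Q x) (R - gB p n Q ⌊δ * n⌋₊ x) (R - gA p n Q ⌊δ * n⌋₊ x) R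
      (J (iB l x)) (J x.1) K EE a := by
  have hd1 : 16 ≤ ⌊δ * n⌋₊ := Nat.le_floor (by push_cast; linarith)
  have hn' : 0 < n := by omega
  obtain ⟨⟨p1, p2, p3⟩, ⟨p4, p5, p6⟩⟩ := row_pos (p := p) hQ hg hδ hδg hn x
  obtain ⟨q1, q2⟩ := rows_long (p := p) hQ hg hδ hδg hn (R := R) (by linarith) x
  have hfar : FarB l n t Q ((R + 2 : ℕ) : ℤ) x :=
    farB_of hQ hg (by positivity) (by push_cast; linarith) t1 t2 x
  have hmm : (2 * ((R + 2 : ℕ) : ℤ) : ℝ) + 4 < g * n := by push_cast; linarith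
  have hmm' : (2 * ((R + 2 : ℕ) : ℤ) : ℝ) + 2 < g * n := by push_cast; linarith
  have hκ := turn_markt (p := p) hp hD hQ hg hfar hmm
  have hcoord := fun {v : ℤ × ℤ} =>
    row_coord hp hD hQ hg hδ hδg hn hR2 ht (x := x) (v := v)
  have hPB := pB_le (n := n) hQ x
  have huB := uBt_mod (p := p) hp hD hQ ht x
  have huA := uAt_mod (p := p) hp hD ht x (Enl.pA_lt hQ hn' x)
  have LB : ∀ σ : ℤ, Lq (hsite p Q n x) (uBt p n t Q x) (Enl.op p n (iB l x) σ) =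
      (σ - pB n Q x, -1) := fun σ => by
    rw [← vp_pB hp hQ x]
    exact Lq_oz huB _ _ _
  have LA : ∀ σ : ℤ, Lq (hsite p Q n x) (uAt p n t Q x) (Enl.op p n x.1 σ) =
      (σ - pA n Q x, -1) := fun σ => by
    rw [← vp_pA]
    exact Lq_oz huA _ _ _
  have hcc := c_stτ hc (bc.ka l n t)
  have htz := tz_eq (hcc (kOf l n t x.1 (pA n Q x)))
  have ezB : vp p n (iB l x) (pB n Q x : ℤ) = hsite p Q n x := vp_pB hp hQ x
  have ezA : vp p n x.1 (pA n Q x : ℤ) = hsite p Q n x := vp_pA x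
  -- the rows before and after
  let y : Fin l × Fin (Q.m + 1) := (⟨iB l x, iB_lt x⟩, ⟨jB x, by have := jB_le x; omega⟩)
  -- colours and phases
  have hcol : ∀ {i σ : ℕ}, i < l → σ < n → nm (vp p n i σ - hsite p Q n x) ≤ (R : ℤ) + 2 →
      (kOf l n t i σ < bc.ka l n t ↔ kOf l n t x.1 (pA n Q x) < bc.ka l n t) := fun hi hσ h =>
    hW ((R + 2 : ℕ) : ℤ) hmm' x _ _ hi hσ (by push_cast; exact h)
  have hvpB : ∀ σ : ℕ, nm (vp p n (iB l x) σ - hsite p Q n x) = |(σ : ℤ) - pB n Q x| := fun σ => by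
    rw [← vp_pB hp hQ x, vp_same]
  have hvpA : ∀ σ : ℕ, nm (vp p n x.1 σ - hsite p Q n x) = |(σ : ℤ) - pA n Q x| := fun σ => by
    rw [← vp_pA, vp_same]
  have hB1 : ∀ {σ : ℕ}, (pB n Q x : ℤ) - R ≤ σ → σ + gB p n Q ⌊δ * n⌋₊ x < pB n Q x →
      stΦ θ β (uN p n t) (bc.ka l n t) (kOf l n t (iB l x) σ) = θ / 4 * uBt p n t Q x +
        (if kOf l n t x.1 (pA n Q x) < bc.ka l n t then 0 else β) ∧
      stτ (bc.ka l n t) (kOf l n t (iB l x) σ) =
        stτ (bc.ka l n t) (kOf l n t x.1 (pA n Q x)) := by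
    intro σ h1 h2
    have k1 := hcol (iB_lt x) (σ := σ) (by omega) (by rw [hvpB, abs_le]; omega)
    have k2 := uN_beforet (p := p) hQ hfar (σ := σ) (by omega) (by push_cast; omega)
    unfold stΦ stτ
    rw [k2]
    simp only [k1, and_self]
  have hA1 : ∀ {σ : ℕ}, pA n Q x + gA p n Q ⌊δ * n⌋₊ x ≤ σ → σ < pA n Q x + R →
      stΦ θ β (uN p n t) (bc.ka l n t) (kOf l n t x.1 σ) = θ / 4 * uAt p n t Q x +
        (if kOf l n t x.1 (pA n Q x) < bc.ka l n t then 0 else β) ∧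
      stτ (bc.ka l n t) (kOf l n t x.1 σ) =
        stτ (bc.ka l n t) (kOf l n t x.1 (pA n Q x)) := by
    intro σ h1 h2
    have hσn : σ < n := by
      have h3 := (rows_marks (p := p) hQ hg hδ hδg hn).hi x
      omega
    have k1 := hcol x.1.2 (σ := σ) hσn (by rw [hvpA, abs_le]; omega)
    have k2 := uN_aftert (p := p) hfar (σ := σ) hσn (by omega) (by push_cast; omega)
    unfold stΦ stτ
    rw [k2]
    simp only [k1]
    exact ⟨trivial, trivial⟩
  have hcancel : uAt p n t Q x - uBt p n t Q x + uBt p n t Q x = uAt p n t Q x := by ring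
  set z := hsite p Q n x with hz
  set u := uBt p n t Q x with hu
  -- the rows of the window
  have rAi : ∀ v, v ∈ rA z u (R - gB p n Q ⌊δ * n⌋₊ x) R ↔
      ∃ σ : ℕ, v = Enl.op p n (iB l x) σ ∧ (pB n Q x : ℤ) - R ≤ σ ∧
        σ + gB p n Q ⌊δ * n⌋₊ x < pB n Q x := by
    intro v
    unfold rA
    rw [Set.mem_ofPred_eq]
    constructor
    · rintro ⟨h1, h2, h3⟩
      refine ⟨((Lq z u v).1 + pB n Q x).toNat, ?_, by omega, by omega⟩
      apply Lq_inj (z := z) (u := u)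
      rw [LB]
      ext
      · show _ = (((Lq z u v).1 + pB n Q x).toNat : ℤ) - pB n Q x
        omega
      · exact h1
    · rintro ⟨σ, rfl, h2, h3⟩
      rw [LB]
      refine ⟨rfl, ?_, ?_⟩
      · show -(R : ℤ) ≤ (σ : ℤ) - pB n Q x
        omega
      · show (σ : ℤ) - pB n Q x < -R + ((R - gB p n Q ⌊δ * n⌋₊ x : ℕ) : ℤ)
        omega
  have rBi : ∀ v, v ∈ rB z u (uAt p n t Q x - u) (R - gA p n Q ⌊δ * n⌋₊ x) R ↔
      ∃ σ : ℕ, v = Enl.op p n x.1 σ ∧ pA n Q x + gA p n Q ⌊δ * n⌋₊ x ≤ σ ∧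
        σ < pA n Q x + R := by
    intro v
    unfold rB
    rw [Set.mem_ofPred_eq, hcancel]
    constructor
    · rintro ⟨h1, h2, h3⟩
      refine ⟨((Lq z (uAt p n t Q x) v).1 + pA n Q x).toNat, ?_, by omega, by omega⟩
      apply Lq_inj (z := z) (u := uAt p n t Q x)
      rw [LA]
      ext
      · show _ = (((Lq z (uAt p n t Q x) v).1 + pA n Q x).toNat : ℤ) - pA n Q x
        omega
      · exact h1
    · rintro ⟨σ, rfl, h2, h3⟩
      rw [LA]
      refine ⟨rfl, ?_, ?_⟩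
      · show (R : ℤ) - ((R - gA p n Q ⌊δ * n⌋₊ x : ℕ) : ℤ) ≤ (σ : ℤ) - pA n Q x
        omega
      · show (σ : ℤ) - pA n Q x < R
        omega
  -- membership in the rows
  have hfB : ∀ {σ : ℕ}, (pB n Q x : ℤ) - R ≤ σ → σ + gB p n Q ⌊δ * n⌋₊ x < pB n Q x →
      sW p n Q ⌊δ * n⌋₊ (iB l x) (jB x) ≤ σ ∧ σ < eW p n Q ⌊δ * n⌋₊ (iB l x) (jB x) := by
    intro σ h1 h2
    constructor <;> omega
  have hfA : ∀ {σ : ℕ}, pA n Q x + gA p n Q ⌊δ * n⌋₊ x ≤ σ → σ < pA n Q x + R →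
      sW p n Q ⌊δ * n⌋₊ x.1 x.2 ≤ σ ∧ σ < eW p n Q ⌊δ * n⌋₊ x.1 x.2 := by
    intro σ h1 h2
    constructor <;> omega
  have hKR : ∀ {v : ℤ × ℤ}, v ∈ Bq z R → v ∈ Bq z (R + 1) := by
    intro v hv
    rw [Lq_box (u := u)] at hv ⊢
    omega
  -- the squares of the window are not frozen
  have hWn : ∀ v, v ∈ Wn z u (uAt p n t Q x - u) (R - gB p n Q ⌊δ * n⌋₊ x)
      (R - gA p n Q ⌊δ * n⌋₊ x) R → v ∈ Bq z R ∧ v ∉ K := by
    intro v hv
    obtain ⟨b1, -, -, -⟩ := box_of hκ hv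
    have hvB : v ∈ Bq z R := (Lq_box (u := u)).2 b1
    refine ⟨hvB, fun hf => ?_⟩
    have hvB' := hKR hvB
    rcases hcoord ((h.frz v hvB').1 hf) hvB' with ⟨σ, h1, h2, h3, h4⟩ | ⟨σ, h1, h2, h3, h4⟩
    · refine rA_not hκ ((rAi v).2 ⟨σ, h1, ?_, h4⟩) hv
      rw [h2] at b1
      have := b1.1
      simp only at this
      omega
    · have b2 := (Lq_box (u := uAt p n t Q x)).1 hvB
      refine rB_not hκ ((rBi v).2 ⟨σ, h1, h3, ?_⟩) hv
      rw [h2] at b2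
      have := b2.2.1
      simp only at this
      omega
  -- a frozen square next to the window
  have hnext : ∀ {e : Ed} {v w : ℤ × ℤ}, Two e v w →
      v ∈ Wn z u (uAt p n t Q x - u) (R - gB p n Q ⌊δ * n⌋₊ x) (R - gA p n Q ⌊δ * n⌋₊ x) R →
      w ∈ K → w ∈ rA z u (R - gB p n Q ⌊δ * n⌋₊ x) R ∨
        w ∈ rB z u (uAt p n t Q x - u) (R - gA p n Q ⌊δ * n⌋₊ x) R := by
    intro e v w h2 hv hw
    obtain ⟨b1, b2, b3, b4⟩ := box_of hκ hv
    rw [hcancel] at b3 b4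
    have n1 := Lq_nb (z := z) (u := u) h2
    have n2 := Lq_nb (z := z) (u := uAt p n t Q x) h2
    have hwB' : w ∈ Bq z (R + 1) := by
      rw [Lq_box (u := u)]
      omega
    rcases hcoord ((h.frz w hwB').1 hw) hwB' with ⟨σ, h1, h3, h4, h5⟩ | ⟨σ, h1, h3, h4, h5⟩
    · left
      refine (rAi w).2 ⟨σ, h1, ?_, h5⟩
      by_contra hcon
      rw [h3] at n1
      simp only at n1
      refine b2 ⟨?_, ?_⟩ <;> omega
    · right
      refine (rBi w).2 ⟨σ, h1, h4, ?_⟩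
      by_contra hcon
      rw [h3] at n2
      simp only at n2
      refine b4 ⟨?_, ?_⟩ <;> omega
  have hS1 : ∀ e ∈ bS K, (hdv e ∉ K → tlv e ∈ K) ∧ (tlv e ∉ K → hdv e ∈ K) := by
    intro e he
    rw [mem_bS] at he
    tauto
  -- the sides of the row before the hole
  have hsB : ∀ {g' : Ed} {v w : ℤ × ℤ}, Two g' v w → v ∈ rA z u (R - gB p n Q ⌊δ * n⌋₊ x) R →
      w ∈ Wn z u (uAt p n t Q x - u) (R - gB p n Q ⌊δ * n⌋₊ x) (R - gA p n Q ⌊δ * n⌋₊ x) R →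
      g' ∈ bS (frowJ θ β p Q n ⌊δ * n⌋₊ t bc J C c y.1 y.2).I ∧
      (frowJ θ β p Q n ⌊δ * n⌋₊ t bc J C c y.1 y.2).Φ θ g' =
        C + (θ / 4 * u + if kOf l n t x.1 (pA n Q x) < bc.ka l n t then 0 else β) +
          hΦ (Jm θ (J (iB l x))) (Lq z u w).2 ∧
      (frowJ θ β p Q n ⌊δ * n⌋₊ t bc J C c y.1 y.2).σ θ g' =
        (tz (c * stτ (bc.ka l n t) (kOf l n t x.1 (pA n Q x))) : ℝ) * hσ θ (Lq z u w).2 ∧
      (g' = (frowJ θ β p Q n ⌊δ * n⌋₊ t bc J C c y.1 y.2).es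
          (!(frowJ θ β p Q n ⌊δ * n⌋₊ t bc J C c y.1 y.2).p) ↔
        (Lq z u w).2 = -1 ∧ J (iB l x) = true) := by
    intro g' v w h2 hv hw
    obtain ⟨σ, k1, k2, k3⟩ := (rAi v).1 hv
    obtain ⟨hwB, hwK⟩ := hWn w hw
    have hyI : ∀ {v : ℤ × ℤ}, v ∈ (frowJ θ β p Q n ⌊δ * n⌋₊ t bc J C c y.1 y.2).I ↔
        ∃ σ : ℕ, sW p n Q ⌊δ * n⌋₊ (iB l x) (jB x) ≤ σ ∧
          σ < eW p n Q ⌊δ * n⌋₊ (iB l x) (jB x) ∧ v = Enl.op p n (iB l x) σ := by
      intro v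
      rw [frowJ_I, shp_I, mem_rowP]
    have hvI : v ∈ (frowJ θ β p Q n ⌊δ * n⌋₊ t bc J C c y.1 y.2).I :=
      hyI.2 ⟨σ, (hfB k2 k3).1, (hfB k2 k3).2, k1⟩
    have hwI : w ∉ (frowJ θ β p Q n ⌊δ * n⌋₊ t bc J C c y.1 y.2).I := fun h' => by
      obtain ⟨τ, l1, l2, l3⟩ := hyI.1 h'
      exact hwK ((h.frz w (hKR hwB)).2 (mem_frmQ.2 ⟨y, τ, l1, l2, l3⟩))
    obtain ⟨σ', m1, m2, m3, m4, m5, m6⟩ := frowJ_side (θ := θ) (β := β) (C := C) (c := c) (J := J)
      hp hD hQ hb (d := ⌊δ * n⌋₊) (by omega) ht hc (iB_lt x) (jB_le x) huB (pB n Q x) h2 hvI hwI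
    have hσ' : σ' = σ := by
      have e1 := oz_inj (m3.symm.trans k1)
      omega
    subst hσ'
    obtain ⟨k4, k5⟩ := hB1 k2 k3
    rw [ezB] at m4 m5 m6
    refine ⟨mem_bS_two.2 ⟨v, w, h2, hvI, hwI⟩, ?_, ?_, m6.trans ⟨?_, ?_⟩⟩
    · rw [← k4]
      exact m4
    · rw [htz, ← k5]
      exact m5
    · rintro ⟨n1, ⟨n2, -⟩ | ⟨-, n3⟩⟩
      · exact ⟨n1, n2⟩
      · exfalso
        have b1 := ((Lq_box (u := u)).1 hwB).1
        omega
    · rintro ⟨n1, n2⟩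
      refine ⟨n1, Or.inl ⟨n2, ?_⟩⟩
      have nb := Lq_nb (z := z) (u := u) h2
      rw [k1, LB] at nb
      simp only at nb
      have b1 := ((Lq_box (u := u)).1 hwB).1
      have hno : ¬ ((sW p n Q ⌊δ * n⌋₊ (iB l x) (jB x) : ℤ) ≤ (Lq z u w).1 + pB n Q x ∧
          (Lq z u w).1 + pB n Q x < eW p n Q ⌊δ * n⌋₊ (iB l x) (jB x)) := by
        rintro ⟨l1, l2⟩
        refine hwI (hyI.2 ⟨((Lq z u w).1 + pB n Q x).toNat, by omega, by omega, ?_⟩)
        apply Lq_inj (z := z) (u := u)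
        rw [LB]
        ext
        · show _ = (((Lq z u w).1 + pB n Q x).toNat : ℤ) - pB n Q x
          omega
        · exact n1
      obtain ⟨f1, f2⟩ := hfB k2 k3
      omega
  -- the sides of the row after the hole
  have hsA : ∀ {g' : Ed} {v w : ℤ × ℤ}, Two g' v w →
      v ∈ rB z u (uAt p n t Q x - u) (R - gA p n Q ⌊δ * n⌋₊ x) R →
      w ∈ Wn z u (uAt p n t Q x - u) (R - gB p n Q ⌊δ * n⌋₊ x) (R - gA p n Q ⌊δ * n⌋₊ x) R →
      g' ∈ bS (frowJ θ β p Q n ⌊δ * n⌋₊ t bc J C c x.1 x.2).I ∧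
      (frowJ θ β p Q n ⌊δ * n⌋₊ t bc J C c x.1 x.2).Φ θ g' =
        C + (θ / 4 * u + if kOf l n t x.1 (pA n Q x) < bc.ka l n t then 0 else β) +
          ((uAt p n t Q x - u : ℤ) : ℝ) * (θ / 4) +
          hΦ (Jm θ (J x.1)) (Lq z (uAt p n t Q x) w).2 ∧
      (frowJ θ β p Q n ⌊δ * n⌋₊ t bc J C c x.1 x.2).σ θ g' =
        (tz (c * stτ (bc.ka l n t) (kOf l n t x.1 (pA n Q x))) : ℝ) *
          hσ θ (Lq z (uAt p n t Q x) w).2 ∧
      (g' = (frowJ θ β p Q n ⌊δ * n⌋₊ t bc J C c x.1 x.2).es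
          (!(frowJ θ β p Q n ⌊δ * n⌋₊ t bc J C c x.1 x.2).p) ↔
        (Lq z (uAt p n t Q x) w).2 = -1 ∧ J x.1 = false) := by
    intro g' v w h2 hv hw
    obtain ⟨σ, k1, k2, k3⟩ := (rBi v).1 hv
    obtain ⟨hwB, hwK⟩ := hWn w hw
    have hyI : ∀ {v : ℤ × ℤ}, v ∈ (frowJ θ β p Q n ⌊δ * n⌋₊ t bc J C c x.1 x.2).I ↔
        ∃ σ : ℕ, sW p n Q ⌊δ * n⌋₊ x.1 x.2 ≤ σ ∧
          σ < eW p n Q ⌊δ * n⌋₊ x.1 x.2 ∧ v = Enl.op p n x.1 σ := by
      intro v
      rw [frowJ_I, shp_I, mem_rowP]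
    have hvI : v ∈ (frowJ θ β p Q n ⌊δ * n⌋₊ t bc J C c x.1 x.2).I :=
      hyI.2 ⟨σ, (hfA k2 k3).1, (hfA k2 k3).2, k1⟩
    have hwI : w ∉ (frowJ θ β p Q n ⌊δ * n⌋₊ t bc J C c x.1 x.2).I := fun h' => by
      obtain ⟨τ, l1, l2, l3⟩ := hyI.1 h'
      exact hwK ((h.frz w (hKR hwB)).2 (mem_frmQ.2 ⟨x, τ, l1, l2, l3⟩))
    obtain ⟨σ', m1, m2, m3, m4, m5, m6⟩ := frowJ_side (θ := θ) (β := β) (C := C) (c := c) (J := J)
      hp hD hQ hb (d := ⌊δ * n⌋₊) (by omega) ht hc x.1.2 (Nat.lt_succ_iff.1 x.2.2) huA (pA n Q x)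
      h2 hvI hwI
    have hσ' : σ' = σ := by
      have e1 := oz_inj (m3.symm.trans k1)
      omega
    subst hσ'
    obtain ⟨k4, k5⟩ := hA1 k2 k3
    rw [ezA] at m4 m5 m6
    refine ⟨mem_bS_two.2 ⟨v, w, h2, hvI, hwI⟩, ?_, ?_, m6.trans ⟨?_, ?_⟩⟩
    · rw [m4, k4]
      push_cast
      ring
    · rw [htz, ← k5]
      exact m5
    · rintro ⟨n1, ⟨-, n3⟩ | ⟨n2, -⟩⟩
      · exfalso
        have b1 := ((Lq_box (u := uAt p n t Q x)).1 hwB).2.1
        omega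
      · exact ⟨n1, n2⟩
    · rintro ⟨n1, n2⟩
      refine ⟨n1, Or.inr ⟨n2, ?_⟩⟩
      have nb := Lq_nb (z := z) (u := uAt p n t Q x) h2
      rw [k1, LA] at nb
      simp only at nb
      have b1 := ((Lq_box (u := uAt p n t Q x)).1 hwB).2.1
      have hno : ¬ ((sW p n Q ⌊δ * n⌋₊ x.1 x.2 : ℤ) ≤ (Lq z (uAt p n t Q x) w).1 + pA n Q x ∧
          (Lq z (uAt p n t Q x) w).1 + pA n Q x < eW p n Q ⌊δ * n⌋₊ x.1 x.2) := by
        rintro ⟨l1, l2⟩
        refine hwI (hyI.2 ⟨((Lq z (uAt p n t Q x) w).1 + pA n Q x).toNat, by omega, by omega, ?_⟩)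
        apply Lq_inj (z := z) (u := uAt p n t Q x)
        rw [LA]
        ext
        · show _ = (((Lq z (uAt p n t Q x) w).1 + pA n Q x).toNat : ℤ) - pA n Q x
          omega
        · exact n1
      obtain ⟨f1, f2⟩ := hfA k2 k3
      omega
  refine ⟨hκ, tz_or _, by omega, by omega, by omega, by omega, fun v hv hv' => (hWn v hv').2 hv,
    fun v hv hv' => ?_, fun e he => ?_, fun e he h' => h.off e he (hWn _ h').1, fun e he => ?_,
    fun e he => ?_⟩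
  · by_contra hvK
    refine hv' (in_Wn hκ hv (fun h1 => hvK ?_) (fun h1 => hvK ?_))
    · obtain ⟨σ, k1, k2, k3⟩ := (rAi v).1 h1
      exact (h.frz v (hKR hv)).2 (mem_frmQ.2 ⟨y, σ, (hfB k2 k3).1, (hfB k2 k3).2, k1⟩)
    · obtain ⟨σ, k1, k2, k3⟩ := (rBi v).1 h1
      exact (h.frz v (hKR hv)).2 (mem_frmQ.2 ⟨x, σ, (hfA k2 k3).1, (hfA k2 k3).2, k1⟩)
  · exact ⟨fun h1 => hnext (Or.inl ⟨rfl, rfl⟩) h1 ((hS1 e he).1 (hWn _ h1).2),
      fun h1 => hnext (Or.inr ⟨rfl, rfl⟩) h1 ((hS1 e he).2 (hWn _ h1).2)⟩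
  · constructor
    · intro h1 h2
      obtain ⟨k1, k2, k3, k4⟩ := hsB (Or.inr ⟨rfl, rfl⟩) h2 h1
      rw [h.out y e k1 (hWn _ h1).1 (hWn _ h1).2, k2, k3]
      exact ⟨rfl, (h.reg y e k1 (Or.inl (hWn _ h1).1)).trans k4⟩
    · intro h1 h2
      obtain ⟨k1, k2, k3, k4⟩ := hsB (Or.inl ⟨rfl, rfl⟩) h2 h1
      rw [h.inn y e k1 (hWn _ h1).1 (hWn _ h1).2, k2, k3]
      exact ⟨rfl, (h.reg y e k1 (Or.inr (hWn _ h1).1)).trans k4⟩
  · constructor
    · intro h1 h2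
      obtain ⟨k1, k2, k3, k4⟩ := hsA (Or.inr ⟨rfl, rfl⟩) h2 h1
      rw [h.out x e k1 (hWn _ h1).1 (hWn _ h1).2, k2, k3, hcancel]
      exact ⟨rfl, (h.reg x e k1 (Or.inl (hWn _ h1).1)).trans k4⟩
    · intro h1 h2
      obtain ⟨k1, k2, k3, k4⟩ := hsA (Or.inl ⟨rfl, rfl⟩) h2 h1
      rw [h.inn x e k1 (hWn _ h1).1 (hWn _ h1).2, k2, k3, hcancel]
      exact ⟨rfl, (h.reg x e k1 (Or.inr (hWn _ h1).1)).trans k4⟩

end poly

end Vale.Agent.P167.N.ID
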