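import Vale.Agent.P167.N.ID.HoleR
import Vale.Agent.P167.N.ID.FrmG
import Vale.Agent.P167.N.ID.FrmQ

/-!
# P167, `q < 1`, START: the holes with two rows of the two families of frames

`atP_of`: near a point the phases of a system of rows are those of the rows of a polygon.
`holeP`, `holeD`, `holeB`: the marks of the free/wired frame, of the domain and of the box of the
Dobrushin frame are holes with two rows.
-/

set_option autoImplicit false

namespace Vale.Agent.P167.N.ID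

open Finset
open Vale.Agent.P167.Top
open Vale.Agent.P167.A (plane)
open Vale.Agent.P167.E6 (IsPolygon Encloses dir face)
open Vale.Agent.P167.H825 (enl pdir Marks Box)
open Vale.Agent.P167.H825.Q (srow Bc)
open Vale.Agent.P167.XDL (bS mem_bS)
open Vale.Agent.P167.FK (Bq Good)
open Vale.Agent.P167.H199 (mks Gap ah at')
open Vale.Agent.P167.H662 (hsite)
open Vale.Agent.P167.H680.T (WCG uI mem_uI nm_ht)
open Vale.Agent.P167.Enl
open Vale.Agent.P167 Vale.Agent.P167.N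

/-- The regular end sides of a system of rows. -/
def esS {ι : Type} (r : ι → Row) : Set Ed := {g | ∃ i, g = (r i).es (!(r i).p)}

section at_

variable {ι : Type} [Fintype ι] {l : ℕ} {θ β C c : ℝ} {p : ZMod l → ℤ × ℤ}
  {Q : Marks} {N d t R : ℕ} {bc : Bc} {J : ℕ → Bool} {r : ι → Row} {w : ι → ℝ} {z : ℤ × ℤ}
  {f : Fin l × Fin (Q.m + 1) → ι}

/-- The sides of two separate rows are different. -/
theorem bS_sep {I I' : Finset (ℤ × ℤ)} (h : ∀ u ∈ I, ∀ v ∈ I', 2 ≤ nm (u - v)) {g : Ed}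
    (h1 : g ∈ bS I) (h2 : g ∈ bS I') : False := by
  have e1 := nm_ht g
  have e2 : nm (tlv g - hdv g) ≤ 1 := by rw [← H199.nm_neg, neg_sub]; exact e1
  have e0 : nm (0 : ℤ × ℤ) = 0 := by simp [nm]
  rcases mem_bS.1 h1 with ⟨a1, -⟩ | ⟨-, a1⟩ <;> rcases mem_bS.1 h2 with ⟨a2, -⟩ | ⟨-, a2⟩
  · have := h _ a1 _ a2
    rw [sub_self, e0] at this
    omega
  · have := h _ a1 _ a2
    omega
  · have := h _ a1 _ a2
    omega
  · have := h _ a1 _ a2
    rw [sub_self, e0] at this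
    omega

/-- **A system of rows near a point**: only rows of the polygon. -/
theorem atP_of (hr : ∀ y, r (f y) = frowJ θ β p Q N d t bc J C c y.1 y.2)
    (hsep : ∀ i k, i ≠ k → ∀ u ∈ (r i).I, ∀ v ∈ (r k).I, 2 ≤ nm (u - v))
    (hfar : ∀ i, (∀ y, f y ≠ i) → ∀ u ∈ (r i).I, u ∉ Bq z (R + 1))
    (hL : ∀ i, 1 ≤ (r i).L) :
    AtP θ β C c p Q N d t bc J R z (univ.biUnion fun i => (r i).I) (esS r)
      (⟨fun i => (r i).wall θ (w i), 0⟩ : WCG ι).ph := by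
  have hdis : ∀ i k, i ≠ k → Disjoint (r i).I (r k).I := fun i k hik => by
    rw [Finset.disjoint_left]
    intro u hu hv
    have h1 := hsep i k hik u hu u hv
    rw [sub_self] at h1
    have h2 : nm (0 : ℤ × ℤ) = 0 := by simp [nm]
    omega
  have hK : ∀ v, v ∈ (univ.biUnion fun i => (r i).I) ↔ ∃ i, v ∈ (r i).I := fun v => by simp
  refine ⟨?_, ?_, ?_, ?_, ?_⟩
  · intro v hv
    rw [hK, mem_frmQ]
    constructor
    · rintro ⟨i, hi⟩
      by_cases hx : ∃ y, f y = i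
      · obtain ⟨y, rfl⟩ := hx
        rw [hr, frowJ_I, shp_I, Enl.mem_rowP] at hi
        exact ⟨y, hi⟩
      · push Not at hx
        exact absurd hv (hfar i hx v hi)
    · rintro ⟨y, h⟩
      refine ⟨f y, ?_⟩
      rw [hr, frowJ_I, shp_I, Enl.mem_rowP]
      exact h
  · intro y g hg h1 h2
    rw [← hr]
    rw [← hr] at hg
    have hn : ∀ k, hdv g ∉ (r k).I := fun k hk => h2 ((hK _).2 ⟨k, hk⟩)
    rcases mem_bS.1 hg with ⟨h3, -⟩ | ⟨-, h3⟩
    · exact absurd h3 (hn _)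
    · exact ah_frm hdis h3 hn
  · intro y g hg h1 h2
    rw [← hr]
    rw [← hr] at hg
    have hn : ∀ k, tlv g ∉ (r k).I := fun k hk => h2 ((hK _).2 ⟨k, hk⟩)
    rcases mem_bS.1 hg with ⟨h3, -⟩ | ⟨-, h3⟩
    · exact at_frm hdis h3 hn
    · exact absurd h3 (hn _)
  · intro g hg _
    have hz : ∀ b, (⟨fun i => (r i).wall θ (w i), 0⟩ : WCG ι).ph g b = 0 := by
      intro b
      show ∑ y, ((r y).wall θ (w y)).a g b + (0 : ℝ) / 2 = 0
      rw [zero_div, add_zero]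
      refine sum_eq_zero fun y _ => ?_
      have h3 : g ∉ ((r y).wall θ (w y)).S := by
        intro h4
        change g ∈ bS (r y).I at h4
        refine hg (mem_bS.2 ?_)
        have e1 := nm_ht g
        have e2 : nm (tlv g - hdv g) ≤ 1 := by rw [← H199.nm_neg, neg_sub]; exact e1
        rcases mem_bS.1 h4 with ⟨a1, a2⟩ | ⟨a1, a2⟩
        · left
          refine ⟨(hK _).2 ⟨y, a1⟩, fun h5 => ?_⟩
          obtain ⟨k, hk⟩ := (hK _).1 h5
          have hne : y ≠ k := fun e => a2 (e ▸ hk)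
          have := hsep y k hne _ a1 _ hk
          omega
        · right
          refine ⟨fun h5 => ?_, (hK _).2 ⟨y, a2⟩⟩
          obtain ⟨k, hk⟩ := (hK _).1 h5
          have hne : k ≠ y := fun e => a1 (e ▸ hk)
          have := hsep k y hne _ hk _ a2
          omega
      rw [((r y).wall θ (w y)).off g h3]
      rfl
    rw [hz, hz, add_zero]
  · intro y g hg _
    rw [← hr]
    rw [← hr] at hg
    constructor
    · rintro ⟨i, hi⟩
      by_cases hiy : i = f y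
      · rw [← hiy]
        exact hi
      · exfalso
        refine bS_sep (hsep i (f y) hiy) ?_ hg
        rw [hi]
        exact (mem_bS_iff (hL i)).2 (Or.inr ⟨_, rfl⟩)
    · intro h
      exact ⟨f y, h⟩

end at_

/-! ### the windows of the holes -/

/-- **The loops in the box of radius `R` at the hole `x` live in windows.** -/
def FrS.InH (Φ : FrS Row) (θ δ : ℝ) (n : ℕ) (R : ℤ) (x : Φ.H) : Prop :=
  ∀ ω : Cfg, Good ω → Φ.Frz (rowS θ) δ n ω → ∀ ℓ, IsLoop ω ℓ →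
    (∀ y ∈ ℓ, hdv y ∈ Bq (Φ.h δ n x) R) → (∃ e ∈ bS (Φ.U (rowS θ) δ n), e ∈ ℓ) →
    InWin0 θ (Φ.U (rowS θ) δ n) (esS (Φ.r δ n)) (Φ.ph (rowS θ) δ n 0) ω ℓ

/-- The colour of a mark as a sign. -/
theorem wcJ_tz {l n : ℕ} {Q : Marks} {t ka : ℕ} (x : Fin l × Fin (Q.m + 1)) :
    wcJ l n Q t ka x = decide (tz (1 * H825.Q.stτ ka (kOf l n t x.1 (pA n Q x))) = -1) := by
  unfold wcJ H825.Q.stτ
  rw [one_mul]
  by_cases h : kOf l n t x.1 (pA n Q x) < ka
  · rw [if_pos h]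
    unfold tz
    rw [if_pos rfl]
    simp [h]
  · rw [if_neg h]
    unfold tz
    rw [if_neg (by norm_num)]
    simp [h]

/-- A hole with two rows: the loops live in windows. -/
theorem FrS.InH.of_holeN {Φ : FrS Row} {θ δ : ℝ} {n : ℕ} {x : Φ.H} {c : ℝ} {τ d κ : ℤ}
    {A B R : ℕ} {mA mB : Bool}
    (h : HoleN θ c τ (Φ.h δ n x) d κ A B R mA mB (Φ.U (rowS θ) δ n) (esS (Φ.r δ n))
      (Φ.ph (rowS θ) δ n 0))
    (hc : ∀ ω, Φ.Frz (rowS θ) δ n ω → ∀ v ∈ Φ.U (rowS θ) δ n, v ∈ Bq (Φ.h δ n x) R →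
      ω v = decide (τ = -1)) : Φ.InH θ δ n R x := by
  intro ω _ hf ℓ hl h1 h2
  exact h.inWin hl h1 (hc ω hf) h2

section poly

variable {l : ℕ} {θ β : ℝ} {p : ZMod l → ℤ × ℤ} {S₀ : Finset (ℤ × ℤ)} {b : Box} {tp : ℝ} {bc : Bc}
  {n : ℕ} {g δ : ℝ} {ia : ℕ} {ta : ℝ}

/-- The rows are not empty. -/
theorem row_len {Q : Marks} (hQ : Q.Ok) (hg : Gap Q l g) (hδ : 0 < δ) (hδg : 4 * δ ≤ g)
    (hn : 16 ≤ δ * n) {i : ℕ} (hi : i < l) {j : ℕ} (hj : j ≤ Q.m) :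
    sW p n Q ⌊δ * n⌋₊ i j + 1 ≤ eW p n Q ⌊δ * n⌋₊ i j := by
  obtain ⟨⟨-, h1⟩, ⟨h2, -⟩, -⟩ := ends_bd (p := p) hQ hg hδ hδg hn hi hj
  have h3 := hg.1 i hi j hj
  have hn0 : (0 : ℝ) ≤ n := Nat.cast_nonneg n
  have h4 : (4 * δ) * n ≤ (Q.θ i (j + 1) - Q.θ i j) * n :=
    mul_le_mul_of_nonneg_right (by linarith) hn0
  have h5 : ((sW p n Q ⌊δ * n⌋₊ i j + 1 : ℕ) : ℝ) ≤ eW p n Q ⌊δ * n⌋₊ i j := by
    push_cast
    nlinarith
  exact_mod_cast h5

/-- **The holes of the free and wired frames.** -/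
theorem holeP [NeZero l] (hp : IsPolygon p) (hD : Encloses p S₀) (hN : Nrm p)
    (hQ : (mks p b tp).Ok) (hbc : bc = .free ∨ bc = .wired) (hb : bc.Ok l (mks p b tp))
    (hg : Gap (mks p b tp) l g) (hδ : 0 < δ) (hδg : 4 * δ ≤ g) (hn : 16 ≤ δ * n) {R : ℕ}
    (hR1 : ⌊δ * n⌋₊ + 3 ≤ R) (hR2 : (2 * R : ℝ) + 10 < g * n) (x : Fin l × Fin 3) :
    HoleN θ (0 + (θ / 4 * uBt p n (tP p n tp bc) (mks p b tp) x +
        if kOf l n (tP p n tp bc) x.1 (pA n (mks p b tp) x) < bc.ka l n (tP p n tp bc) then 0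
        else β))
      (tz (1 * H825.Q.stτ (bc.ka l n (tP p n tp bc))
        (kOf l n (tP p n tp bc) x.1 (pA n (mks p b tp) x))))
      (hsite p (mks p b tp) n x) (uBt p n (tP p n tp bc) (mks p b tp) x)
      (uAt p n (tP p n tp bc) (mks p b tp) x - uBt p n (tP p n tp bc) (mks p b tp) x)
      (R - gB p n (mks p b tp) ⌊δ * n⌋₊ x) (R - gA p n (mks p b tp) ⌊δ * n⌋₊ x) R true true
      ((frP θ β p S₀ b tp bc).U (rowS θ) δ n) (esS ((frP θ β p S₀ b tp bc).r δ n))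
      ((frP θ β p S₀ b tp bc).ph (rowS θ) δ n 0) := by
  have hG := geoS_poly hp hD hQ hg hδ hδg hn hN
  have ht : tP p n tp bc < n := tP_lt hQ hg hδg hn
  have hd16 : 16 ≤ ⌊δ * n⌋₊ := Nat.le_floor (by push_cast; linarith)
  obtain ⟨t1, t2⟩ := tP_le p n tp bc
  have hI : ∀ x : Fin l × Fin 3, (rP θ β p b tp bc n ⌊δ * n⌋₊ x).I =
      (shp p (mks p b tp) n ⌊δ * n⌋₊ x.1 x.2).I := fun x => frowJ_I
  have hsep : ∀ i k : Fin l × Fin 3, i ≠ k → ∀ u ∈ (rP θ β p b tp bc n ⌊δ * n⌋₊ i).I,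
      ∀ v ∈ (rP θ β p b tp bc n ⌊δ * n⌋₊ k).I, 2 ≤ nm (u - v) := by
    intro i k hik u hu v hv
    rw [hI] at hu hv
    have h1 := hG.sepr i k hik u hu v hv
    have h2 : (2 : ℝ) ≤ (nm (u - v) : ℝ) := by linarith
    exact_mod_cast h2
  have hL : ∀ i : Fin l × Fin 3, 1 ≤ (rP θ β p b tp bc n ⌊δ * n⌋₊ i).L := by
    intro i
    have h1 := row_len (p := p) hQ hg hδ hδg hn i.1.2 (j := i.2) (Nat.lt_succ_iff.1 i.2.2)
    show 1 ≤ (frowJ θ β p (mks p b tp) n ⌊δ * n⌋₊ (tP p n tp bc) bc (fun _ => true) 0 1 i.1 i.2).L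
    rw [frowJ_L]
    omega
  have hat := atP_of (ι := Fin l × Fin 3) (r := fun x => rP θ β p b tp bc n ⌊δ * n⌋₊ x)
    (f := fun x => x) (Q := mks p b tp) (d := ⌊δ * n⌋₊) (J := fun _ => true) (w := fun _ => 0)
    (C := 0) (c := 1) (R := R) (z := hsite p (mks p b tp) n x) (fun y => rfl) hsep
    (fun i hi => absurd rfl (hi i)) hL
  exact AtP.holeN hp hD hQ hg hδ hδg hn hR1 hR2 ht hb t1 t2
    ((wcol_of hQ ht hbc).mono le_rfl) (Or.inl rfl) hat

/-- **The windows of the holes of the free and wired frames.** -/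
theorem inhP [NeZero l] (hp : IsPolygon p) (hD : Encloses p S₀) (hN : Nrm p)
    (hQ : (mks p b tp).Ok) (hbc : bc = .free ∨ bc = .wired) (hbg : BGap l (mks p b tp) g bc)
    (hg : Gap (mks p b tp) l g) (hδ : 0 < δ) (hδg : 4 * δ ≤ g) (hn : 16 ≤ δ * n) {R : ℕ}
    (hR1 : ⌊δ * n⌋₊ + 3 ≤ R) (hR2 : (R : ℝ) + 2 < g / 16 * n) (x : Fin l × Fin 3) :
    (frP θ β p S₀ b tp bc).InH θ δ n R x := by
  have hl : 0 < l := Nat.pos_of_ne_zero (NeZero.ne l)
  obtain ⟨b1, b2, b3, b4, b5⟩ := gn_big hQ hg hδg hn hl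
  have e16 : g / 16 * n = g * n / 16 := by ring
  refine FrS.InH.of_holeN (holeP hp hD hN hQ hbc (bc_ok (by linarith) hbg) hg hδ hδg hn hR1
    (by linarith) x) ?_
  intro ω hf v hv hvB
  obtain ⟨i, hi⟩ := mem_uI.1 hv
  rw [hf i v hi, colP hp hD hQ hg hbg hδ hδg hn x i v hi ?_]
  · exact wcJ_tz (Q := mks p b tp) x
  · have h1 : (nm (v - (frP θ β p S₀ b tp bc).h δ n x) : ℝ) ≤ R := by exact_mod_cast mem_Bq' hvB
    linarith

/-! ### the Dobrushin frames -/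

/-- The rows of the Dobrushin frames are not empty. -/
theorem rD_len (H : DobN p S₀ b tp g δ n) (i : IxD l) :
    1 ≤ (rD θ β p b tp ia ta n ⌊δ * n⌋₊ i).L := by
  obtain ⟨c1, c2, c3, c4⟩ := H.box
  rcases i with i | i | i
  · have h1 := row_len (p := p) H.hQ H.hg H.hδ H.hδg H.hn i.1.2 (j := i.2)
      (Nat.lt_succ_iff.1 i.2.2)
    show 1 ≤ (frowJ θ β p (mks p b tp) n ⌊δ * n⌋₊ ⌊tp * n⌋₊ (.dob ia ta) (JD p ia) 0 1 i.1 i.2).L
    rw [frowJ_L]
    omega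
  · have h1 := row_len (p := pQ) H.hQ' H.hg' c1 c2 c3 i.1.2 (j := i.2)
      (Nat.lt_succ_iff.1 i.2.2)
    rw [c4] at h1
    show 1 ≤ (frowJ θ β pQ (mksQ p b) (bM p * n) ⌊δ * n⌋₊
      (tG pQ (bM p * n) (tqB (bQ b (bM p))) (cT p ia)) .free (fun _ => true)
      (CQ θ β p ia) (cT p ia) i.1 i.2).L
    rw [frowJ_L]
    omega
  · show 1 ≤ (n * (p (iT p)).2).toNat - 2 * ⌊δ * n⌋₊
    have h1 := H.hN (iT p)
    obtain ⟨b1, b3, b5, b6, b7⟩ := H.basic
    have hn0 : (0 : ℝ) ≤ n := Nat.cast_nonneg n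
    have h2 : (⌊δ * n⌋₊ : ℝ) ≤ δ * n := Nat.floor_le (by have := H.hδ; positivity)
    have h3 : 4 * δ * n ≤ 1 * n := mul_le_mul_of_nonneg_right (by linarith [H.hδg]) hn0
    have h4 : 4 * ⌊δ * n⌋₊ ≤ n := by
      have : (4 : ℝ) * ⌊δ * n⌋₊ ≤ n := by linarith
      exact_mod_cast this
    have h5 : 2 * (n : ℤ) ≤ n * (p (iT p)).2 := by nlinarith [h1.2]
    omega

/-- **The marks of the domain of the Dobrushin frames**, except the one at the spoke. -/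
theorem holeD [NeZero l] (H : DobN p S₀ b tp g δ n) (hbg : BGap l (mks p b tp) g (.dob ia ta))
    {R : ℕ} (hR1 : ⌊δ * n⌋₊ + 3 ≤ R) (hR2 : (R : ℝ) + 2 < g / 16 * n) (x : Fin l × Fin 3)
    (hx : x ≠ xT H.hp (mks p b tp)) :
    HoleN θ (0 + (θ / 4 * uBt p n ⌊tp * n⌋₊ (mks p b tp) x +
        if kOf l n ⌊tp * n⌋₊ x.1 (pA n (mks p b tp) x) < (Bc.dob ia ta).ka l n ⌊tp * n⌋₊ then 0
        else β))
      (tz (1 * H825.Q.stτ ((Bc.dob ia ta).ka l n ⌊tp * n⌋₊)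
        (kOf l n ⌊tp * n⌋₊ x.1 (pA n (mks p b tp) x))))
      (hsite p (mks p b tp) n x) (uBt p n ⌊tp * n⌋₊ (mks p b tp) x)
      (uAt p n ⌊tp * n⌋₊ (mks p b tp) x - uBt p n ⌊tp * n⌋₊ (mks p b tp) x)
      (R - gB p n (mks p b tp) ⌊δ * n⌋₊ x) (R - gA p n (mks p b tp) ⌊δ * n⌋₊ x) R
      (JD p ia (iB l x)) (JD p ia x.1)
      ((frD θ β p S₀ b tp ia ta).U (rowS θ) δ n) (esS ((frD θ β p S₀ b tp ia ta).r δ n))
      ((frD θ β p S₀ b tp ia ta).ph (rowS θ) δ n 0) := by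
  have hG := H.geoS
  obtain ⟨b1, b3, b5, b6, b7⟩ := H.basic
  obtain ⟨d1, d2, d3, d4⟩ := H.hδn
  have hd16 : 16 ≤ ⌊δ * n⌋₊ := Nat.le_floor (by push_cast; linarith [H.hn])
  have hn0 : (0 : ℝ) ≤ n := Nat.cast_nonneg n
  have ht : ⌊tp * n⌋₊ < n := tP_lt (bc := .dob ia ta) H.hQ H.hg H.hδg H.hn
  have hI : ∀ x : IxD l, (rD θ β p b tp ia ta n ⌊δ * n⌋₊ x).I = (shD p b tp n ⌊δ * n⌋₊ x).I :=
    fun x => rowD_I x
  have hsep : ∀ i k : IxD l, i ≠ k → ∀ u ∈ (rD θ β p b tp ia ta n ⌊δ * n⌋₊ i).I,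
      ∀ v ∈ (rD θ β p b tp ia ta n ⌊δ * n⌋₊ k).I, 2 ≤ nm (u - v) := by
    intro i k hik u hu v hv
    rw [hI] at hu hv
    have h1 := hG.sepr i k hik u hu v hv
    have h2 : (2 : ℝ) ≤ (nm (u - v) : ℝ) := by linarith [H.hn]
    exact_mod_cast h2
  have e16 : g / 16 * n = g * n / 16 := by ring
  have hfar : ∀ i : IxD l, (∀ y : Fin l × Fin 3, (Sum.inl y : IxD l) ≠ i) →
      ∀ u ∈ (rD θ β p b tp ia ta n ⌊δ * n⌋₊ i).I, u ∉ Bq (hsite p (mks p b tp) n x) (R + 1) := by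
    intro i hi u hu hB
    rw [hI] at hu
    have h0 := mem_Bq' hB
    have h0' : (nm (u - hsite p (mks p b tp) n x) : ℝ) ≤ R + 1 := by exact_mod_cast h0
    rcases i with y | y | y
    · exact absurd rfl (hi y)
    · have h1 := H.rowQ_mem' hu
      have h2 := H.hsP x
      have h3 : 2 * (n : ℤ) - 1 ≤ nm (u - hsite p (mks p b tp) n x) := by
        rw [le_nm_iff]
        simp only [Prod.fst_sub, Prod.snd_sub]
        omega
      have h4 : 2 * (n : ℝ) - 1 ≤ nm (u - hsite p (mks p b tp) n x) := by exact_mod_cast h3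
      linarith
    · have h1 := H.seph (.inl x) (.inl (xT H.hp (mks p b tp))) (fun h => hx (Sum.inl.inj h))
      have h2 := H.spk_mem' hu
      have h3 := H.hsP x
      have h4 : nm (hoD p b tp n (.inl x) - hoD p b tp n (.inl (xT H.hp (mks p b tp)))) ≤
          nm (u - hoD p b tp n (.inl x)) := by
        have e := hsT (n := n) H.hp (Q := mks p b tp) H.hQ
        change nm (hsite p (mks p b tp) n x - hsite p (mks p b tp) n (xT H.hp (mks p b tp))) ≤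
          nm (u - hsite p (mks p b tp) n x)
        rw [e, H945.Q.nm_comm u]
        generalize hz : nm (hsite p (mks p b tp) n x - u) = z
        have hz' : nm (hsite p (mks p b tp) n x - u) ≤ z := hz.le
        rw [nm_le_iff] at hz' ⊢
        simp only [Prod.fst_sub, Prod.snd_sub] at hz' ⊢
        omega
      have h5 : (nm (hoD p b tp n (.inl x) - hoD p b tp n (.inl (xT H.hp (mks p b tp)))) : ℝ) ≤
          nm (u - hoD p b tp n (.inl x)) := by exact_mod_cast h4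
      change (nm (u - hoD p b tp n (.inl x)) : ℝ) ≤ R + 1 at h0'
      linarith
  have hL : ∀ i : IxD l, 1 ≤ (rD θ β p b tp ia ta n ⌊δ * n⌋₊ i).L := rD_len H
  have hat := atP_of (ι := IxD l) (r := fun x => rD θ β p b tp ia ta n ⌊δ * n⌋₊ x)
    (f := fun x => Sum.inl x) (Q := mks p b tp) (d := ⌊δ * n⌋₊) (J := JD p ia) (w := fun _ => 0)
    (C := 0) (c := 1) (R := R) (z := hsite p (mks p b tp) n x) (fun y => rfl) hsep hfar hL
  exact AtP.holeN H.hp H.hD H.hQ H.hg H.hδ H.hδg H.hn hR1 (by linarith) ht (bc_ok b6 hbg)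
    le_rfl (Nat.le_succ _) (wcol_dob H.hp H.hQ H.hg hbg) (Or.inl rfl) hat

/-- **The marks of the box of the Dobrushin frames.** -/
theorem holeB [NeZero l] (H : DobN p S₀ b tp g δ n) {R : ℕ} (hR1 : ⌊δ * n⌋₊ + 3 ≤ R) (hR2 : (R : ℝ) + 2 < g / 16 * n) (x : Fin 4 × Fin 3) :
    HoleN θ (CQ θ β p ia + (θ / 4 * uBt pQ (bM p * n)
          (tG pQ (bM p * n) (tqB (bQ b (bM p))) (cT p ia)) (mksQ p b) x +
        if kOf 4 (bM p * n) (tG pQ (bM p * n) (tqB (bQ b (bM p))) (cT p ia)) x.1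
            (pA (bM p * n) (mksQ p b) x) <
          Bc.free.ka 4 (bM p * n) (tG pQ (bM p * n) (tqB (bQ b (bM p))) (cT p ia)) then 0
        else β))
      (tz (cT p ia * H825.Q.stτ (Bc.free.ka 4 (bM p * n)
          (tG pQ (bM p * n) (tqB (bQ b (bM p))) (cT p ia)))
        (kOf 4 (bM p * n) (tG pQ (bM p * n) (tqB (bQ b (bM p))) (cT p ia)) x.1
            (pA (bM p * n) (mksQ p b) x))))
      (hsite pQ (mksQ p b) (bM p * n) x)
      (uBt pQ (bM p * n) (tG pQ (bM p * n) (tqB (bQ b (bM p))) (cT p ia)) (mksQ p b) x)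
      (uAt pQ (bM p * n) (tG pQ (bM p * n) (tqB (bQ b (bM p))) (cT p ia)) (mksQ p b) x -
        uBt pQ (bM p * n) (tG pQ (bM p * n) (tqB (bQ b (bM p))) (cT p ia)) (mksQ p b) x)
      (R - gB pQ (bM p * n) (mksQ p b) ⌊δ * n⌋₊ x) (R - gA pQ (bM p * n) (mksQ p b) ⌊δ * n⌋₊ x) R
      true true
      ((frD θ β p S₀ b tp ia ta).U (rowS θ) δ n) (esS ((frD θ β p S₀ b tp ia ta).r δ n))
      ((frD θ β p S₀ b tp ia ta).ph (rowS θ) δ n 0) := by
  have hG := H.geoS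
  obtain ⟨b1, b3, b5, b6, b7⟩ := H.basic
  obtain ⟨c1, c2, c3, c4⟩ := H.box
  obtain ⟨d1, d2, d3, d4⟩ := H.hδn
  have hd16 : 16 ≤ ⌊δ * n⌋₊ := Nat.le_floor (by push_cast; linarith [H.hn])
  have hn0 : (0 : ℝ) ≤ n := Nat.cast_nonneg n
  have hNn : 0 < bM p * n := Nat.mul_pos (DobN.hM (p := p)) b5
  set t := tG pQ (bM p * n) (tqB (bQ b (bM p))) (cT p ia) with htd
  obtain ⟨t1, t2⟩ := tG_le pQ (bM p * n) (tqB (bQ b (bM p))) (cT p ia)
  have ht : t < bM p * n := t_lt H.hQ' H.hg' c2 c3 t2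
  have hI : ∀ x : IxD l, (rD θ β p b tp ia ta n ⌊δ * n⌋₊ x).I = (shD p b tp n ⌊δ * n⌋₊ x).I :=
    fun x => rowD_I x
  have hsep : ∀ i k : IxD l, i ≠ k → ∀ u ∈ (rD θ β p b tp ia ta n ⌊δ * n⌋₊ i).I,
      ∀ v ∈ (rD θ β p b tp ia ta n ⌊δ * n⌋₊ k).I, 2 ≤ nm (u - v) := by
    intro i k hik u hu v hv
    rw [hI] at hu hv
    have h1 := hG.sepr i k hik u hu v hv
    have h2 : (2 : ℝ) ≤ (nm (u - v) : ℝ) := by linarith [H.hn]
    exact_mod_cast h2
  have e16 : g / 16 * n = g * n / 16 := by ring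
  have hfar : ∀ i : IxD l, (∀ y : Fin 4 × Fin 3, (Sum.inr (Sum.inl y) : IxD l) ≠ i) →
      ∀ u ∈ (rD θ β p b tp ia ta n ⌊δ * n⌋₊ i).I,
        u ∉ Bq (hsite pQ (mksQ p b) (bM p * n) x) (R + 1) := by
    intro i hi u hu hB
    rw [hI] at hu
    have h0 := mem_Bq' hB
    have h0' : (nm (u - hsite pQ (mksQ p b) (bM p * n) x) : ℝ) ≤ R + 1 := by exact_mod_cast h0
    have h2 := H.hsQ' x
    rcases i with y | y | y
    · have h1 := H.rowP_mem hu
      have h3 : 2 * (n : ℤ) - 1 ≤ nm (u - hsite pQ (mksQ p b) (bM p * n) x) := by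
        rw [le_nm_iff]
        simp only [Prod.fst_sub, Prod.snd_sub]
        omega
      have h4 : 2 * (n : ℝ) - 1 ≤ nm (u - hsite pQ (mksQ p b) (bM p * n) x) := by
        exact_mod_cast h3
      linarith
    · exact absurd rfl (hi y)
    · have h1 := H.spk_mem' hu
      have h5 := foot_far H.hp H.hD H.hN H.hb H.hQ' b5 x
      have hc := H.hc
      have h6 : g * n ≤ H199.c0 b * n := mul_le_mul_of_nonneg_right hc hn0
      by_cases h7 : 2 * (n : ℤ) ≤ nm (u - hsite pQ (mksQ p b) (bM p * n) x)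
      · have h4 : 2 * (n : ℝ) ≤ nm (u - hsite pQ (mksQ p b) (bM p * n) x) := by exact_mod_cast h7
        linarith
      · have h8 : nm (ftD p n - hsite pQ (mksQ p b) (bM p * n) x) ≤
            nm (u - hsite pQ (mksQ p b) (bM p * n) x) := by
          rw [le_nm_iff] at h7
          generalize hz : nm (u - hsite pQ (mksQ p b) (bM p * n) x) = z
          have hz' : nm (u - hsite pQ (mksQ p b) (bM p * n) x) ≤ z := hz.le
          rw [nm_le_iff] at hz' ⊢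
          unfold ftD
          simp only [Prod.fst_sub, Prod.snd_sub] at hz' h7 ⊢
          omega
        have h9 : (nm (ftD p n - hsite pQ (mksQ p b) (bM p * n) x) : ℝ) ≤
            nm (u - hsite pQ (mksQ p b) (bM p * n) x) := by exact_mod_cast h8
        linarith
  have hL : ∀ i : IxD l, 1 ≤ (rD θ β p b tp ia ta n ⌊δ * n⌋₊ i).L := rD_len H
  have hat := atP_of (ι := IxD l) (r := fun x => rD θ β p b tp ia ta n ⌊δ * n⌋₊ x)
    (f := fun x => Sum.inr (Sum.inl x)) (Q := mksQ p b) (d := ⌊δ * n⌋₊) (J := fun _ => true)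
    (w := fun _ => 0) (C := CQ θ β p ia) (c := cT p ia) (R := R)
    (z := hsite pQ (mksQ p b) (bM p * n) x) (fun y => rfl) hsep hfar hL
  have hgN : g * n ≤ g * ((bM p * n : ℕ) : ℝ) := by
    refine mul_le_mul_of_nonneg_left ?_ b6.le
    exact_mod_cast Nat.le_mul_of_pos_left n (DobN.hM (p := p))
  have hat' : AtP θ β (CQ θ β p ia) (cT p ia) pQ (mksQ p b) (bM p * n)
      ⌊δ / bM p * ((bM p * n : ℕ) : ℝ)⌋₊ t .free (fun _ => true) R
      (hsite pQ (mksQ p b) (bM p * n) x) ((frD θ β p S₀ b tp ia ta).U (rowS θ) δ n)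
      (esS ((frD θ β p S₀ b tp ia ta).r δ n)) ((frD θ β p S₀ b tp ia ta).ph (rowS θ) δ n 0) := by
    rw [c4]
    exact hat
  have h := AtP.holeN (bc := .free) pQ_poly pQ_encl H.hQ' H.hg' c1 c2 c3 (by rw [c4]; exact hR1)
    (by linarith) ht trivial t1 t2 (wcol_of H.hQ' ht (Or.inl rfl)) (cT_or p ia) hat'
  rw [c4] at h
  exact h

/-- **The windows of the holes with two rows of the Dobrushin frames**: marks of the domain. -/
theorem inhD [NeZero l] (H : DobN p S₀ b tp g δ n) (hbg : BGap l (mks p b tp) g (.dob ia ta))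
    {R : ℕ} (hR1 : ⌊δ * n⌋₊ + 3 ≤ R) (hR2 : (R : ℝ) + 2 < g / 16 * n) (x : Fin l × Fin 3)
    (hx : x ≠ xT H.hp (mks p b tp)) :
    (frD θ β p S₀ b tp ia ta).InH θ δ n R (.inl x) := by
  refine FrS.InH.of_holeN (holeD H hbg hR1 hR2 x hx) ?_
  intro ω hf v hv hvB
  obtain ⟨i, hi⟩ := mem_uI.1 hv
  rw [hf i v hi, colD H hbg (.inl x) i v hi ?_]
  · exact wcJ_tz (Q := mks p b tp) x
  · have h1 : (nm (v - (frD θ β p S₀ b tp ia ta).h δ n (.inl x)) : ℝ) ≤ R := by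
      exact_mod_cast mem_Bq' hvB
    linarith

/-- **The windows of the holes with two rows of the Dobrushin frames**: marks of the box. -/
theorem inhB [NeZero l] (H : DobN p S₀ b tp g δ n) (hbg : BGap l (mks p b tp) g (.dob ia ta))
    {R : ℕ} (hR1 : ⌊δ * n⌋₊ + 3 ≤ R) (hR2 : (R : ℝ) + 2 < g / 16 * n) (x : Fin 4 × Fin 3) :
    (frD θ β p S₀ b tp ia ta).InH θ δ n R (.inr (.inl x)) := by
  obtain ⟨b1, b3, b5, b6, b7⟩ := H.basic
  obtain ⟨c1, c2, c3, c4⟩ := H.box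
  have hNn : 0 < bM p * n := Nat.mul_pos (DobN.hM (p := p)) b5
  refine FrS.InH.of_holeN (holeB H hR1 hR2 x) ?_
  intro ω hf v hv hvB
  obtain ⟨i, hi⟩ := mem_uI.1 hv
  rw [hf i v hi, colD H hbg (.inr (.inl x)) i v hi ?_]
  · show decide (cT p ia = -1) = _
    have ht : tG pQ (bM p * n) (tqB (bQ b (bM p))) (cT p ia) < bM p * n :=
      t_lt H.hQ' H.hg' c2 c3 (tG_le pQ (bM p * n) (tqB (bQ b (bM p))) (cT p ia)).2
    have h1 := kOf_lt x.1.2 (pA_lt H.hQ' hNn x) ht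
    have h2 : H825.Q.stτ (Bc.free.ka 4 (bM p * n)
        (tG pQ (bM p * n) (tqB (bQ b (bM p))) (cT p ia)))
        (kOf 4 (bM p * n) (tG pQ (bM p * n) (tqB (bQ b (bM p))) (cT p ia)) x.1
          (pA (bM p * n) (mksQ p b) x)) = 1 := if_pos h1
    rw [h2, mul_one]
    rcases cT_or p ia with h | h <;> rw [h] <;> unfold tz
    · rw [if_pos rfl]
      norm_num
    · rw [if_neg (by norm_num)]
      norm_num
  · have h1 : (nm (v - (frD θ β p S₀ b tp ia ta).h δ n (.inr (.inl x))) : ℝ) ≤ R := by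
      exact_mod_cast mem_Bq' hvB
    linarith

end poly

end Vale.Agent.P167.N.ID
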