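import Vale.Agent.P167.N.ID.HosA
import Vale.Agent.P167.N.H945.Q.HMaj

/-!
# P167, `q < 1`, HOS: moments of the law-free majorant, for an arbitrary system of straight walls
-/

set_option autoImplicit false

namespace Vale.Agent.P167.N.ID

open Finset MeasureTheory Filter

open Vale.Agent.P167 Vale.Agent.P167.N

open Vale.Agent.P167.BR hiding dv

open Vale.Agent.P167.FK

open Vale.Agent.P167.FKA (Loc Ind Loc.ind Ex_mono Ex_congr)

open Vale.Agent.P167.H519 (IsLim)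

open Vale.Agent.P167.H825 (dv epos)

open Vale.Agent.P167.H166 (bxx mem_bxx)

open Vale.Agent.P167.H680.T (mem_uI)

open Vale.Agent.P167.H506.Q (EF fz LF EF_le EF_lin EF_nonneg RectP oneC_rect)

open Vale.Agent.P167.H562.QM (MajA OneC Nr oneC_sub)

open Vale.Agent.P167.H562.MAJ (Sm)

open Vale.Agent.P167.H945.Q (nm_sub_le nm_comm nm_of_Bq Bq_of_nm mem_Bq MajA.mono MajA.cover
  grid_cover majA_empty EF_comb dv_near)

variable {X : Type} {RS : RSys X} {Kx : Type} {F : Fct RS Kx}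

/-- One row is seen: one primal and one dual cluster. -/
theorem oneC_rowA (F : Fct RS Kx) {x : X} {D : Finset (ℤ × ℤ)} {η : Cfg} {y : ℤ × ℤ} {a : ℤ}
    (hD : ∀ v ∈ bxx y a, v ∉ D ↔ v ∈ RS.I x) (hη : ∀ v ∈ RS.I x, η v = RS.fr x v) :
    OneC y a D η := by
  have key : ∀ c : Bool, RectP c (bxx y a) D η := by
    intro c
    obtain ⟨a0, a1, b0, b1, h⟩ := F.rect x c
    refine ⟨a0, a1, b0, b1, fun z hz => ?_⟩
    rw [← h z, hD z hz]
    constructor
    · rintro ⟨h1, h2⟩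
      exact ⟨h1, by rw [← hη z h1]; exact h2⟩
    · rintro ⟨h1, h2⟩
      exact ⟨h1, by rw [hη z h1]; exact h2⟩
  exact oneC_rect (key true) (key false)

section maj

variable {ι : Type} [Fintype ι] {r : ι → X}

/-- The factors of all special points. -/
noncomputable def fA (F : Fct RS Kx) (r : ι → X) (ρ : ℤ) (p : ι × Kx) (ω : Cfg) : ℝ :=
  F.T (RS.uI r) (r p.1) p.2 ρ ω

theorem fA_nonneg (F : Fct RS Kx) (r : ι → X) (ρ : ℤ) (p : ι × Kx) (ω : Cfg) :
    0 ≤ fA F r ρ p ω := F.nonneg _ _ _ _ _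

theorem fA_loc (F : Fct RS Kx) (r : ι → X) (ρ : ℤ) (p : ι × Kx) :
    Loc (F.bx (r p.1) p.2 ρ) (fA F r ρ p) := F.loc' _ _ _ _

open Classical in
/-- The zones. -/
noncomputable def AJA (F : Fct RS Kx) (r : ι → X) (h ρ : ℤ) (Ord : ℤ × ℤ → Prop) :
    (ℤ × ℤ) ⊕ (ι × Kx) → Finset (ℤ × ℤ) := Sum.elim
  (fun g => if Ord g then Bq ((h * g.1, h * g.2) : ℤ × ℤ) h else ∅)
  (fun p => if F.Sp (r p.1) p.2 then Bq (F.ctr (r p.1) p.2) (2 * ρ) else ∅)

/-- The zones cover. -/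
theorem AJA_cover [Fintype Kx] {h ρ : ℤ} {d : ℝ} (hh0 : 0 < h)
    (hd : 2 * (h : ℝ) + d < ρ) {Gn : ℕ} {v : ℤ × ℤ} (hv : v ∈ Bq 0 (h * Gn)) :
    ∃ j ∈ (Finset.Icc (-(Gn : ℤ)) Gn ×ˢ Finset.Icc (-(Gn : ℤ)) Gn).disjSum
        (univ : Finset (ι × Kx)),
      v ∈ AJA F r h ρ (fun g => ∀ p : ι × Kx, F.Sp (r p.1) p.2 →
        (ρ + h + d : ℝ) < (nm (F.ctr (r p.1) p.2 - (h * g.1, h * g.2)) : ℝ)) j := by
  classical
  obtain ⟨g, hgg, hvg⟩ := grid_cover hh0 hv
  by_cases hO : ∀ p : ι × Kx, F.Sp (r p.1) p.2 →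
        (ρ + h + d : ℝ) < (nm (F.ctr (r p.1) p.2 - (h * g.1, h * g.2)) : ℝ)
  · refine ⟨Sum.inl g, Finset.inl_mem_disjSum.2 hgg, ?_⟩
    unfold AJA
    rw [Sum.elim_inl, if_pos hO]
    exact hvg
  · push Not at hO
    obtain ⟨p, hp1, hp2⟩ := hO
    refine ⟨Sum.inr p, Finset.inr_mem_disjSum.2 (mem_univ p), ?_⟩
    unfold AJA
    rw [Sum.elim_inr, if_pos hp1]
    refine Bq_of_nm ?_
    have h2 : (nm (v - (h * g.1, h * g.2)) : ℝ) ≤ h := by exact_mod_cast nm_of_Bq hvg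
    have h3 : (nm (v - F.ctr (r p.1) p.2) : ℝ) ≤ nm (v - (h * g.1, h * g.2)) +
        nm (((h * g.1, h * g.2) : ℤ × ℤ) - F.ctr (r p.1) p.2) := by
      exact_mod_cast nm_sub_le v _ _
    rw [nm_comm ((h * g.1, h * g.2) : ℤ × ℤ)] at h3
    have h4 : (nm (v - F.ctr (r p.1) p.2) : ℝ) < ((2 * ρ : ℤ) : ℝ) := by
      push_cast
      linarith
    exact_mod_cast h4

end maj

/-- **Moments of the majorant.** -/
theorem EF_majA [Fintype Kx] (F : Fct RS Kx) {θ : ℝ} (h0 : 0 < θ) (h1 : Ang θ)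
    (hR : RSW (2 * Real.cos θ)) (hb : P1bg RS F θ) {P : Measure Cfg}
    (hP : IsLim (2 * Real.cos θ) P) (hg : ∀ᵐ ω ∂P, Good ω) {κ κ' R B A : ℝ} (M : ℕ) (hκ : 0 < κ)
    (hκ' : 0 < κ') (hκκ : κ' ≤ κ / 200) (hA1 : 1 ≤ A) :
    ∃ C : ℝ, 0 < C ∧ ∀ᶠ n : ℕ in atTop, ∀ (ι : Type) [Fintype ι] (r : ι → X) (c : Ed → ℝ),
      (Function.support c).Finite → Fintype.card ι ≤ M → (RS.wc r c).Adm κ R B n →
      (∀ i, F.Val (r i) ∧ κ * n ≤ F.mg (r i)) → ∀ σ : Cfg, RS.Frz r σ →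
      ∃ (N : Cfg → ℕ) (Z : Finset (ℤ × ℤ)),
        LF (fun ω => A ^ N ω * Real.exp (-(Real.tan θ * Sm (dv c) (κ' * n) ω))) ∧
        (∀ v : ℤ × ℤ, (nm v : ℝ) ≤ (R + 1) * n → v ∈ Z) ∧
        (∀ ω, Good ω → MajA Z (κ' * n) ω (N ω)) ∧
        EF P (RS.uI r) σ (fun ω => PG (fA F r ⌊κ * n / 16⌋) ω *
            (A ^ N ω * Real.exp (-(Real.tan θ * Sm (dv c) (κ' * n) ω)))) ≤
          C * EF P (RS.uI r) σ (PG (fA F r ⌊κ * n / 16⌋)) := by
  classical
  have hPp : IsProbabilityMeasure P := hP.1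
  have hQ := h1.kit
  -- the grid
  obtain ⟨Gn, hGn⟩ : ∃ Gn : ℕ, 200 * (|R| + 4) / κ + 2 ≤ (Gn : ℝ) := exists_nat_ge _
  obtain ⟨grid, hgrid⟩ : ∃ grid : Finset (ℤ × ℤ), grid =
    Finset.Icc (-(Gn : ℤ)) Gn ×ˢ Finset.Icc (-(Gn : ℤ)) Gn := ⟨_, rfl⟩
  obtain ⟨m₀, hm₀⟩ : ∃ m₀ : ℕ, m₀ = grid.card + M * Fintype.card Kx + 1 := ⟨_, rfl⟩
  obtain ⟨e1, he1, hzone⟩ := EF_zoneG hQ hR hP hg 0
  obtain ⟨C1, n1, hC1, hn1, hzone⟩ := hzone κ' κ (m₀ * Real.log A) hκ' hκ.le
  obtain ⟨C2, n2, hC2, hn2, hflow⟩ := EF_flowG (Rf := |R| + 1) (B := B) h0 h1 hR hP hg (m₀ : ℝ)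
    hκ' (by positivity)
  obtain ⟨C3, ρ3, hC3, hsp⟩ := hb (κ' * 16 / κ) (m₀ * Real.log A) (by positivity)
  have hm1 : (0 : ℝ) < max (max C1 C3) 1 := lt_of_lt_of_le one_pos (le_max_right _ _)
  refine ⟨m₀ * (max (max C1 C3) 1 + C2), by rw [hm₀]; positivity, ?_⟩
  have hlim : Tendsto (fun n : ℕ => κ * (n : ℝ)) atTop atTop :=
    tendsto_natCast_atTop_atTop.const_mul_atTop hκ
  have hlim' : Tendsto (fun n : ℕ => (n : ℝ)) atTop atTop := tendsto_natCast_atTop_atTop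
  filter_upwards [hlim.eventually_ge_atTop 1000, hlim.eventually_ge_atTop (16 * (ρ3 + 1)),
    hlim'.eventually_ge_atTop n1, hlim'.eventually_ge_atTop n2, hlim'.eventually_ge_atTop 1]
    with n hn hnρ hnn1 hnn2 hnn
  intro ι _ r c hc hM hA hr σ hσ
  have hmg : ∀ i, 1 ≤ F.mg (r i) := fun i => by
    have h2 : (1 : ℝ) ≤ F.mg (r i) := by linarith [(hr i).2]
    exact_mod_cast h2
  have hL : ∀ i, 1 ≤ (RS.shape (r i)).L := fun i => (hmg i).trans (F.mg_le (hr i).1)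
  obtain ⟨ρ, hρ⟩ : ∃ ρ : ℤ, ρ = ⌊κ * n / 16⌋ := ⟨_, rfl⟩
  obtain ⟨h, hh⟩ : ∃ h : ℤ, h = ⌊κ * n / 100⌋ := ⟨_, rfl⟩
  rw [← hρ]
  have hρ1 : (ρ : ℝ) ≤ κ * n / 16 := by rw [hρ]; exact Int.floor_le _
  have hρ2 : κ * n / 16 - 1 < ρ := by rw [hρ]; exact Int.sub_one_lt_floor _
  have hh1 : (h : ℝ) ≤ κ * n / 100 := by rw [hh]; exact Int.floor_le _
  have hh2 : κ * n / 100 - 1 < h := by rw [hh]; exact Int.sub_one_lt_floor _
  have hρpos : 1 ≤ ρ := by
    have : (0 : ℝ) < ρ := by linarith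
    have : 0 < ρ := by exact_mod_cast this
    omega
  have hhpos : 1 ≤ h := by
    have : (0 : ℝ) < h := by linarith
    have : 0 < h := by exact_mod_cast this
    omega
  have hκ'n : κ' * n ≤ κ * n / 200 := by
    have := mul_le_mul_of_nonneg_right hκκ (by linarith : (0 : ℝ) ≤ n)
    linarith
  have hκ'n0 : 0 ≤ κ' * n := by positivity
  obtain ⟨E, hE⟩ : ∃ E, E = EF P (RS.uI r) σ (PG (fA F r ρ)) := ⟨_, rfl⟩
  have hE0 : 0 ≤ E := by rw [hE]; exact EF_nonneg fun ω => PG_nonneg (fA_nonneg F r ρ) ω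
  rw [← hE]
  -- the charges
  have hcz : ∀ z, dv c z ≠ 0 → (nm z : ℝ) ≤ (|R| + 1) * n ∧
      ∀ i, ∀ u ∈ RS.I (r i), κ * n - 1 ≤ (nm (z - u) : ℝ) := by
    intro z hz
    obtain ⟨e, he, hez⟩ := dv_near hz
    obtain ⟨h2, h3⟩ := adm_flowA hA hL he
    have hez' : (nm (epos e - z) : ℝ) ≤ 1 := by exact_mod_cast hez
    constructor
    · have h4 : (nm z : ℝ) ≤ nm (z - epos e) + nm (epos e) := by
        have := nm_sub_le z (epos e) 0
        rw [sub_zero, sub_zero] at this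
        exact_mod_cast this
      rw [nm_comm z] at h4
      have h5 : R * n ≤ |R| * n := mul_le_mul_of_nonneg_right (le_abs_self R) (by linarith)
      nlinarith
    · intro i u hu
      have h4 := h3 i u hu
      have h5 : (nm (epos e - u) : ℝ) ≤ nm (epos e - z) + nm (z - u) := by
        exact_mod_cast nm_sub_le _ z u
      linarith
  -- the zones
  have hz : ∀ j : (ℤ × ℤ) ⊕ (ι × Kx), ∃ N : Cfg → ℕ,
      (∃ U : Finset (ℤ × ℤ), ∀ ω ω' : Cfg, (∀ v ∈ U, ω v = ω' v) → N ω = N ω') ∧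
      (∀ ω, Good ω → MajA (AJA F r h ρ (fun g => ∀ p : ι × Kx, F.Sp (r p.1) p.2 →
        (ρ + h + κ' * n : ℝ) < (nm (F.ctr (r p.1) p.2 - (h * g.1, h * g.2)) : ℝ)) j)
        (κ' * n) ω (N ω)) ∧
      EF P (RS.uI r) σ (fun ω => PG (fA F r ρ) ω * Real.exp (m₀ * Real.log A * (N ω : ℝ))) ≤
        max (max C1 C3) 1 * E := by
    have hzero : EF P (RS.uI r) σ (fun ω => PG (fA F r ρ) ω *
        Real.exp (m₀ * Real.log A * (((fun _ => 0 : Cfg → ℕ) ω : ℕ) : ℝ))) ≤
        max (max C1 C3) 1 * E := by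
      simp only [Nat.cast_zero, mul_zero, Real.exp_zero, mul_one]
      rw [← hE]
      calc E = 1 * E := (one_mul _).symm
        _ ≤ _ := mul_le_mul_of_nonneg_right (le_max_right _ _) hE0
    rintro (g | p)
    · by_cases hg' : ∀ p : ι × Kx, F.Sp (r p.1) p.2 →
        (ρ + h + κ' * n : ℝ) < (nm (F.ctr (r p.1) p.2 - (h * g.1, h * g.2)) : ℝ)
      · obtain ⟨N, hN1, hN2, hN3⟩ := hzone n hnn1 (h * g.1, h * g.2)
          (Bq ((h * g.1, h * g.2) : ℤ × ℤ) h) (fun v hv => by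
            have h2 : (nm (v - ((h * g.1, h * g.2) : ℤ × ℤ)) : ℝ) ≤ h := by
              exact_mod_cast nm_of_Bq hv
            linarith) Fin.elim0
        have hnear : ∀ v, Nr (Bq ((h * g.1, h * g.2) : ℤ × ℤ) h) (κ' * n) v →
            (nm (v - ((h * g.1, h * g.2) : ℤ × ℤ)) : ℝ) ≤ h + κ' * n := by
          rintro v ⟨u, hu, hv⟩
          have h2 : (nm (u - ((h * g.1, h * g.2) : ℤ × ℤ)) : ℝ) ≤ h := by
            exact_mod_cast nm_of_Bq hu
          have h3 : (nm (v - ((h * g.1, h * g.2) : ℤ × ℤ)) : ℝ) ≤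
              nm (v - u) + nm (u - ((h * g.1, h * g.2) : ℤ × ℤ)) := by
            exact_mod_cast nm_sub_le v u _
          linarith
        have hN4 := hN3 (RS.uI r) σ (fA F r ρ) (fun p => F.bx (r p.1) p.2 ρ)
          (fA_nonneg F r ρ) (fA_loc F r ρ) (fun D η _ hk hD1 hD2 z a ha _ hz => by
            -- the box sees at most one row
            have hzn : ∀ v ∈ bxx z a, Nr (Bq ((h * g.1, h * g.2) : ℤ × ℤ) h) (κ' * n) v :=
              fun v hv => (hz v hv).1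
            by_cases hex : ∃ v₀ ∈ bxx z a, v₀ ∈ RS.uI r
            · obtain ⟨v₀, hv₀, hv₀'⟩ := hex
              obtain ⟨i, hi⟩ := mem_uIA.1 hv₀'
              refine oneC_rowA F (x := r i) (fun v hv => ?_) fun v hv => ?_
              · constructor
                · intro hvD
                  have hv2 : v ∈ RS.uI r := by
                    by_contra hne
                    exact hvD (hD1 v (hzn v hv) hne)
                  obtain ⟨j, hj⟩ := mem_uIA.1 hv2
                  by_cases hij : j = i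
                  · rw [← hij]
                    exact hj
                  · exfalso
                    have h2 := adm_sepA hA hL hij hj hi
                    have h3 := hnear v (hzn v hv)
                    have h4 := hnear v₀ (hzn v₀ hv₀)
                    have h5 : (nm (v - v₀) : ℝ) ≤ nm (v - ((h * g.1, h * g.2) : ℤ × ℤ)) +
                        nm (((h * g.1, h * g.2) : ℤ × ℤ) - v₀) := by
                      exact_mod_cast nm_sub_le v _ v₀
                    rw [nm_comm ((h * g.1, h * g.2) : ℤ × ℤ) v₀] at h5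
                    linarith
                · intro hv1 hv2
                  exact hD2 v (mem_uIA.2 ⟨i, hv1⟩) hv2
              · rw [hk v (mem_uIA.2 ⟨i, hv⟩)]
                exact hσ i v hv
            · push Not at hex
              exact oneC_sub fun v hv => hD1 v (hzn v hv) (hex v hv))
          (fun p v hv hv' => by
            obtain ⟨hp, hv⟩ := Fct.mem_bx.1 hv
            have h2 := hnear v hv'.1
            have h3 : (nm (v - F.ctr (r p.1) p.2) : ℝ) ≤ ρ := by exact_mod_cast nm_of_Bq hv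
            have h4 : (nm (F.ctr (r p.1) p.2 - ((h * g.1, h * g.2) : ℤ × ℤ)) : ℝ) ≤
                nm (F.ctr (r p.1) p.2 - v) + nm (v - ((h * g.1, h * g.2) : ℤ × ℤ)) := by
              exact_mod_cast nm_sub_le _ v _
            rw [nm_comm _ v] at h4
            have h5 := hg' p hp
            linarith)
        rw [← hE] at hN4
        refine ⟨N, hN1, fun ω _ => ?_, hN4.trans (mul_le_mul_of_nonneg_right
          ((le_max_left _ _).trans (le_max_left _ _)) hE0)⟩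
        unfold AJA
        rw [Sum.elim_inl, if_pos hg']
        exact hN2 ω
      · refine ⟨fun _ => 0, ⟨∅, fun _ _ _ => rfl⟩, fun ω _ => ?_, hzero⟩
        unfold AJA
        rw [Sum.elim_inl, if_neg hg']
        exact majA_empty _
    · by_cases hp' : F.Sp (r p.1) p.2
      · have hmr : ((8 * ρ : ℤ) : ℝ) ≤ (F.mg (r p.1) : ℝ) := by
          push_cast
          linarith [(hr p.1).2]
        have h8 : 8 * ρ ≤ F.mg (r p.1) := by exact_mod_cast hmr
        obtain ⟨N, hN1, hN2, hN3⟩ := hsp (r p.1) p.2 ρ (hr p.1).1 hp' (by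
          have : ρ3 ≤ (ρ : ℝ) := by linarith
          exact this) h8
        have hρκ : (ρ : ℝ) < κ * n - 1 := by linarith
        have hD1 : Disjoint (Bq (F.ctr (r p.1) p.2) (4 * ρ) \ RS.I (r p.1)) (RS.uI r) := by
          rw [Finset.disjoint_left]
          intro v hv hv'
          obtain ⟨hv1, hv2⟩ := Finset.mem_sdiff.1 hv
          refine hv2 (ctr_rowA hA hr (by linarith) hp' hv' ?_)
          have h2 : (nm (v - F.ctr (r p.1) p.2) : ℝ) ≤ (4 * ρ : ℤ) := by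
            exact_mod_cast nm_of_Bq hv1
          push_cast at h2
          linarith
        have hoth : ∀ q : ι × Kx, q ≠ p → Disjoint (F.bx (r q.1) q.2 ρ)
            (Bq (F.ctr (r p.1) p.2) (4 * ρ) \ RS.I (r p.1)) := by
          intro q hq
          rw [Finset.disjoint_left]
          intro v hv hv'
          obtain ⟨hq', hv⟩ := Fct.mem_bx.1 hv
          have h2 := ctr_sepA hA hr (by linarith) hp' hq' (Ne.symm hq)
          have h3 := nm_of_Bq (Finset.mem_sdiff.1 hv').1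
          have h4 := nm_of_Bq hv
          have h5 := nm_sub_le (F.ctr (r p.1) p.2) v (F.ctr (r q.1) q.2)
          rw [nm_comm (F.ctr (r p.1) p.2) v] at h5
          have h6 : (nm (F.ctr (r p.1) p.2 - F.ctr (r q.1) q.2) : ℝ) ≤ ((4 * ρ + ρ : ℤ) : ℝ) := by
            exact_mod_cast h5.trans (add_le_add h3 h4)
          push_cast at h6
          linarith
        have e0 : fA F r ρ p = F.T (RS.I (r p.1)) (r p.1) p.2 ρ := by
          funext ω
          exact T_adm hA hr (by linarith) hρκ ω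
        have hN4 := EF_spG (J := ι × Kx) (f := fA F r ρ) (Bx := fun q => F.bx (r q.1) q.2 ρ)
          (s := m₀ * Real.log A) (C := C3) (σ := σ) hQ hP hg
          (fA_nonneg F r ρ) (fA_loc F r ρ) hD1 hoth hN1 (fun η hη hk => by
            rw [e0]
            exact hN3 η hη fun v hv => by
              rw [hk v (mem_uIA.2 ⟨_, hv⟩)]
              exact hσ _ v hv)
        rw [← hE] at hN4
        refine ⟨N, ⟨_, hN1⟩, fun ω hω => ?_, hN4.trans (mul_le_mul_of_nonneg_right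
          ((le_max_right _ _).trans (le_max_left _ _)) hE0)⟩
        unfold AJA
        rw [Sum.elim_inr, if_pos hp']
        refine MajA.mono (hN2 ω hω) ?_
        calc κ' * 16 / κ * ρ ≤ κ' * 16 / κ * (κ * n / 16) :=
              mul_le_mul_of_nonneg_left hρ1 (by positivity)
          _ = κ' * n := by field_simp
      · refine ⟨fun _ => 0, ⟨∅, fun _ _ _ => rfl⟩, fun ω _ => ?_, hzero⟩
        unfold AJA
        rw [Sum.elim_inr, if_neg hp']
        exact majA_empty _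
  choose N hN1 hN2 hN3 using hz
  -- the index set
  obtain ⟨J, hJ⟩ : ∃ J : Finset ((ℤ × ℤ) ⊕ (ι × Kx)), J = grid.disjSum univ := ⟨_, rfl⟩
  have hJc : J.card + 1 ≤ m₀ := by
    rw [hJ, Finset.card_disjSum, Finset.card_univ, Fintype.card_prod, hm₀]
    have := Nat.mul_le_mul_right (Fintype.card Kx) hM
    omega
  have hJc' : ((J.card + 1 : ℕ) : ℝ) ≤ m₀ := by exact_mod_cast hJc
  have hfl : ∀ t : ℝ, 0 ≤ t → t ≤ (m₀ : ℝ) →
      LF (fun ω => Real.exp (-(t * (Real.tan θ * Sm (dv c) (κ' * n) ω)))) ∧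
      EF P (RS.uI r) σ (fun ω => PG (fA F r ρ) ω *
          Real.exp (-(t * (Real.tan θ * Sm (dv c) (κ' * n) ω)))) ≤ C2 * E := fun t ht ht' => by
    rw [hE]
    refine hflow n hnn2 (fA_nonneg F r ρ) (fA_loc F r ρ) hc hA.dle (fun z hz => ?_) σ t ht ht'
    obtain ⟨z1, z2⟩ := hcz z hz
    refine ⟨z1, fun u hu => ?_, fun p u hu => ?_⟩
    · obtain ⟨i, hi⟩ := mem_uIA.1 hu
      have := z2 i u hi
      linarith
    · obtain ⟨hp, hu⟩ := Fct.mem_bx.1 hu
      obtain ⟨w, hw, a1, -⟩ := ctr_u F (hr p.1).1 (hmg _) hp z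
      have h2 := z2 _ w hw
      have h3 : (nm (u - F.ctr (r p.1) p.2) : ℝ) ≤ ρ := by exact_mod_cast nm_of_Bq hu
      have h4 : (nm (z - F.ctr (r p.1) p.2) : ℝ) ≤ nm (z - u) + nm (u - F.ctr (r p.1) p.2) := by
        exact_mod_cast nm_sub_le z u _
      linarith
  obtain ⟨k1, k2⟩ := EF_comb hg hA1 (PG_LF (fA_loc F r ρ)) (fun ω => PG_nonneg (fA_nonneg F r ρ) ω)
    J N hN1 (z := fun ω => Real.tan θ * Sm (dv c) (κ' * n) ω)
    (fun t ht ht' => (hfl t ht (ht'.trans hJc')).1) hJc hm1.le hC2.le hE0 hN3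
    (hfl _ (by positivity) hJc').2
  refine ⟨fun ω => ∑ j ∈ J, N j ω, Bq 0 (h * Gn), k1, fun v hv => ?_, fun ω hω => ?_, k2⟩
  · refine Bq_of_nm ?_
    have h2 : (κ * n / 200) * (200 * (|R| + 4) / κ) = (|R| + 4) * n := by
      field_simp
    have h3 : (κ * n / 200 : ℝ) ≤ h := by linarith
    have h4 : (|R| + 4) * n ≤ h * (200 * (|R| + 4) / κ) := by
      rw [← h2]
      exact mul_le_mul_of_nonneg_right h3 (by positivity)
    have h5 : (h : ℝ) * (200 * (|R| + 4) / κ) ≤ h * Gn :=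
      mul_le_mul_of_nonneg_left (by linarith) (by linarith)
    have h6 : (R + 1) * n ≤ (|R| + 1) * n :=
      mul_le_mul_of_nonneg_right (by linarith [le_abs_self R]) (by linarith)
    have h7 : (nm (v - 0) : ℝ) < ((h * Gn : ℤ) : ℝ) := by
      rw [sub_zero]
      push_cast
      nlinarith
    exact_mod_cast h7
  · refine MajA.cover (fun v hv => ?_) fun j _ => hN2 j ω hω
    rw [hJ, hgrid]
    exact AJA_cover (by omega) (by linarith) hv

end Vale.Agent.P167.N.ID
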