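import Vale.Agent.P167.N.ID.StartG

/-!
# P167, `q < 1`, block 2A: HOS in terms of the law, for an arbitrary system of straight walls

* `RSys X`: rows `x : X` with their shape, their walls (with a label) and their frozen states.
* `HOSRg`: the upper bound in terms of the expectations of `RT`.
* `hosc_of`: `HOSRg → HOSc` for every class whose walls are the walls of the rows.
-/

set_option autoImplicit false

namespace Vale.Agent.P167.N.ID

open Finset Filter Topology MeasureTheory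

open Vale.Agent.P167 Vale.Agent.P167.N

open Vale.Agent.P167.H592

open Vale.Agent.P167.H519 (IsLim)

open Vale.Agent.P167.H825.Q (Row WX)

open Vale.Agent.P167.H506.Q (fz)

open Vale.Agent.P167.FK (Good)

open Vale.Agent.P167.QX (RT)

open Vale.Agent.P167.H680.T (WCG WallG Fc Cls uI)

open Vale.Agent.P167.N.H825.Q (HOSc)

/-- A system of straight walls. -/
structure RSys (X : Type) where
  /-- the shape: only the fields `o`, `x`, `L` matter -/
  shape : X → Row
  /-- the wall with a label -/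
  wall : X → ℝ → WallG
  /-- the frozen state -/
  fr : X → ℤ × ℤ → Bool
  /-- the wall cuts all sides -/
  cuts : ∀ x z, 1 ≤ (shape x).L → Cuts (shape x) (wall x z)
  /-- the label -/
  wall_z : ∀ x z, (wall x z).z = z
  /-- the phases do not depend on the label -/
  wall_a : ∀ x z z', (wall x z).a = (wall x z').a

variable {X : Type}

/-- The normalisation of the insertion of a row. -/
noncomputable def RSys.Zrow (RS : RSys X) (θ : ℝ) (Zp : ℕ → X → ℝ) (n : ℕ) (x : X) : ℝ :=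
  2 * (2 * Real.cos (θ / 4)) ^ (2 * (RS.shape x).L) * Zp n x

/-- **The upper bound in terms of the law**, for the rows in `Ok κ n`, with the normalisations
`Zp`. -/
def HOSRg (RS : RSys X) (Ok : ℝ → ℕ → X → Prop) (θ : ℝ) (P : Measure Cfg) (Zp : ℕ → X → ℝ) : Prop :=
  ∀ (κ R B : ℝ) (M : ℕ), 0 < κ → ∃ C : ℝ, 0 < C ∧ ∀ᶠ n : ℕ in atTop,
    ∀ (ι : Type) [Fintype ι] (r : ι → X) (c : Ed → ℝ), (Function.support c).Finite →
      Fintype.card ι ≤ M → (⟨fun i => RS.wall (r i) 0, c⟩ : WCG ι).Adm κ R B n →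
      (∀ i, Ok κ n (r i)) → (∀ i, 1 ≤ (RS.shape (r i)).L) →
        ∀ σ : Cfg, (∀ i, ∀ v ∈ (RS.shape (r i)).I, σ v = RS.fr (r i) v) →
          |ERT θ P (fun i => RS.shape (r i)) (fun i => RS.wall (r i) 0) c σ| ≤ C * ∏ i, Zp n (r i)

/-- **HOS for the class** from the bound in terms of the law. -/
theorem hosc_of {RS : RSys X} {Ok : ℝ → ℕ → X → Prop} {θ : ℝ} (h1 : Ang θ) {P : Measure Cfg}
    (hP : IsLim (2 * Real.cos θ) P) (hgd : ∀ᵐ ω ∂P, Good ω) {Zp : ℕ → X → ℝ} {Cl : Cls}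
    (hlen : ∀ {κ : ℝ} {n : ℕ} {x : X}, Ok κ n x → κ * n ≤ (RS.shape x).L)
    (hCl : ∀ {κ : ℝ} {n : ℕ} {w : WallG}, 0 ≤ κ * n → Cl.P κ n w →
      ∃ x : X, Ok κ n x ∧ w = RS.wall x (RS.Zrow θ Zp n x))
    (hZ : ∀ n w, Cl.Z n w = w.z) (hH : HOSRg RS Ok θ P Zp) : HOSc θ P Cl := by
  classical
  intro κ R B M hκ
  obtain ⟨C, hC, hev⟩ := hH κ R B M hκ
  refine ⟨C, hC, ?_⟩
  have hlim : Tendsto (fun n : ℕ => κ * (n : ℝ)) atTop atTop :=
    tendsto_natCast_atTop_atTop.const_mul_atTop hκ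
  filter_upwards [hev, hlim.eventually_gt_atTop 1] with n h2 hn
  intro ι _ W hc hM hW hIn
  have hκn : 0 ≤ κ * n := by linarith
  have h3 : ∀ i, ∃ x : X, Ok κ n x ∧ W.w i = RS.wall x (RS.Zrow θ Zp n x) := fun i =>
    hCl hκn (hIn i)
  choose r hr hw using h3
  have hL : ∀ i, 1 ≤ (RS.shape (r i)).L := by
    intro i
    have h4 := hlen (hr i)
    have h5 : (1 : ℝ) < (RS.shape (r i)).L := by linarith
    have h6 : 1 < (RS.shape (r i)).L := by exact_mod_cast h5
    omega
  have hcut : ∀ i, Cuts (RS.shape (r i)) (W.w i) := fun i => by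
    rw [hw i]
    exact RS.cuts _ _ (hL i)
  have hdis : ∀ i j, i ≠ j → Disjoint (RS.shape (r i)).I (RS.shape (r j)).I := fun i j hij =>
    (sepd_of hW hn hcut hij).dis
  obtain ⟨σ, hσ⟩ : ∃ σ : Cfg, ∀ i, ∀ v ∈ (RS.shape (r i)).I, σ v = RS.fr (r i) v := by
    refine ⟨fun v => if hv : ∃ i, v ∈ (RS.shape (r i)).I then RS.fr (r hv.choose) v else false,
      fun i v hv => ?_⟩
    have hex : ∃ i, v ∈ (RS.shape (r i)).I := ⟨i, hv⟩
    have : hex.choose = i := by
      by_contra hne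
      exact Finset.disjoint_left.1 (hdis _ _ hne) hex.choose_spec hv
    beta_reduce
    rw [dif_pos hex, this]
  have hS : ∀ i, (W.w i).S = (RS.wall (r i) 0).S := fun i => by
    rw [(hcut i).S, (RS.cuts (r i) 0 (hL i)).S]
  have ha : ∀ i, (W.w i).a = (RS.wall (r i) 0).a := fun i => by
    rw [hw i]
    exact RS.wall_a _ _ _
  have hA : (⟨fun i => RS.wall (r i) 0, W.c⟩ : WCG ι).Adm κ R B n :=
    { box := fun i e he => hW.box i e (by rw [hS i]; exact he)
      sep := fun i i' hi e he e' he' => hW.sep i i' hi e (by rw [hS i]; exact he) e'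
        (by rw [hS i']; exact he')
      csup := fun e he => ⟨(hW.csup e he).1, fun i e' he' => (hW.csup e he).2 i e'
        (by rw [hS i]; exact he')⟩
      cle := hW.cle
      dle := hW.dle }
  have hph : W.ph = (⟨fun i => RS.wall (r i) 0, W.c⟩ : WCG ι).ph := by
    funext e b
    show ∑ i, (W.w i).a e b + W.c e / 2 = ∑ i, (RS.wall (r i) 0).a e b + W.c e / 2
    congr 1
    exact sum_congr rfl fun i _ => by rw [ha i]
  have h5 := h2 ι r W.c hc hM hA hr hL σ hσ
  rw [wx_redG hP hgd h1.kit hc hW hn hcut σ, abs_mul, hph]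
  have hpos : 0 ≤ ∏ i, 2 * (2 * Real.cos (θ / 4)) ^ (2 * (RS.shape (r i)).L) :=
    prod_nonneg fun i _ => by
      rw [pow_mul]
      positivity
  rw [abs_of_nonneg hpos]
  have h6 : W.Z Cl n =
      (∏ i, 2 * (2 * Real.cos (θ / 4)) ^ (2 * (RS.shape (r i)).L)) * ∏ i, Zp n (r i) := by
    unfold WCG.Z
    rw [← prod_mul_distrib]
    refine prod_congr rfl fun i _ => ?_
    rw [hZ, hw i, RS.wall_z]
    rfl
  rw [h6]
  calc (∏ i, 2 * (2 * Real.cos (θ / 4)) ^ (2 * (RS.shape (r i)).L)) *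
        |∫ ω, fz (uI fun i => RS.shape (r i)) σ ω *
          RT θ (uI fun i => RS.shape (r i)) (⟨fun i => RS.wall (r i) 0, W.c⟩ : WCG ι).ph ω ∂P|
        ≤ (∏ i, 2 * (2 * Real.cos (θ / 4)) ^ (2 * (RS.shape (r i)).L)) *
          (C * ∏ i, Zp n (r i)) := mul_le_mul_of_nonneg_left h5 hpos
    _ = _ := by ring

end Vale.Agent.P167.N.ID
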