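import Vale.Agent.P167.N.ID.SymArm
import Vale.Agent.P167.N.NET.Piv

/-!
# P167, `0 < q < 1`: the finite-volume measures under the lattice isometries

`Isom.Ex_mv : Ex Q (D.image g.V) (g.mv η) F = Ex Q D η (fun ω => F (g.mv ω))`.
-/

set_option autoImplicit false

namespace Vale.Agent.P167.N.ID

open Finset MeasureTheory
open Vale.Agent.P167 Vale.Agent.P167.FK
open Vale.Agent.P167.FK (SyR SyP Sy trV trE shV shE rxV rxE ryV ryE swV swE Bq)
open Vale.Agent.P167.H135 (fx rl)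
open Vale.Agent.P167.H680.T (Sym PI fx_fx fx_xor pF)
open Vale.Agent.P167.H632 (cs pr)
open Vale.Agent.P167.H871 (IsC)
open Vale.Agent.P167.N.NET (Jn)

namespace Isom

variable {g : Isom} {I D : Finset (ℤ × ℤ)} {z : ℤ × ℤ} {R : ℤ} {e : Bool} {ω η : Cfg}

theorem pi0 (σ : (ℤ × ℤ) ≃ (ℤ × ℤ)) (b : Bool) : PI (0 : Measure Cfg) σ b := fun I f => by
  simp [pF]

theorem sy0_one : Sym (0 : Measure Cfg) (Equiv.refl Ed) (Equiv.refl (ℤ × ℤ)) false false := by
  refine ⟨pi0 _ _, fun ω => ?_⟩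
  show SyP (Equiv.refl Ed) (Equiv.refl (ℤ × ℤ)) ω (rl (Equiv.refl (ℤ × ℤ)).symm false ω)
  exact ⟨fun e => rfl, fun e => rfl⟩

theorem sy0_cnd {φ : Ed ≃ Ed} {σ : (ℤ × ℤ) ≃ (ℤ × ℤ)} (c : Bool)
    (h : Sym (0 : Measure Cfg) φ σ false true) :
    Sym (0 : Measure Cfg) (cnd c φ) (cnd c σ) false c := by
  cases c
  · exact sy0_one
  · exact h

theorem sy0_ev (p : ℤ × ℤ) (hp : Even (p.1 + p.2)) :
    Sym (0 : Measure Cfg) (trE p) (trV p) false false := ⟨pi0 _ _, fun ω => syP_tr p hp ω⟩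

theorem sy0_du : Sym (0 : Measure Cfg) shE shV true true := by
  refine ⟨pi0 _ _, fun ω => ?_⟩
  show SyR shE shV ω (rl shV.symm true ω)
  exact syR_du ω

/-- All translations. -/
theorem sy0_tr (t : ℤ × ℤ) :
    Sym (0 : Measure Cfg) (trE (-t)) (trV (-t)) (!decide (Even (t.1 + t.2)))
      (!decide (Even (t.1 + t.2))) := by
  by_cases h : Even (t.1 + t.2)
  · have h1 : Even ((-t).1 + (-t).2) := by
      show Even (-t.1 + -t.2)
      rw [Int.even_iff] at h ⊢
      omega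
    have h2 : (!decide (Even (t.1 + t.2))) = false := by simp [h]
    rw [h2]
    exact sy0_ev _ h1
  · have h1 : Even ((1 - t.1, -t.2).1 + ((1 - t.1, -t.2) : ℤ × ℤ).2) := by
      show Even (1 - t.1 + -t.2)
      rw [Int.even_iff] at h ⊢
      omega
    have h2 : (!decide (Even (t.1 + t.2))) = true := by simp [h]
    have h3 := (sy0_ev _ h1).comp sy0_du
    have h4 : (trE (1 - t.1, -t.2)).trans shE = trE (-t) := by
      ext e
      rcases e with w | w
      · show Sum.inl (w.1 - (1 - t.1) + 1, w.2 - -t.2) = Sum.inl (w.1 - -t.1, w.2 - -t.2)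
        congr 2
        ring
      · show Sum.inr (w.1 - (1 - t.1) + 1, w.2 - -t.2) = Sum.inr (w.1 - -t.1, w.2 - -t.2)
        congr 2
        ring
    have h5 : (trV (1 - t.1, -t.2)).trans shV = trV (-t) := by
      ext w
      · show w.1 - (1 - t.1) + 1 = w.1 - -t.1
        ring
      · rfl
    rw [h2, ← h4, ← h5]
    exact h3

theorem sym0 (g : Isom) : Sym (0 : Measure Cfg) g.E g.V g.b g.r := by
  have h1 := (sy0_cnd g.a ⟨pi0 _ _, fun ω => syR_sw ω⟩).comp
    (sy0_cnd g.s1 ⟨pi0 _ _, fun ω => syR_rx ω⟩)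
  have h2 := (sy0_cnd g.s2 ⟨pi0 _ _, fun ω => syR_ry ω⟩).comp (sy0_tr g.t)
  have h3 := h1.comp h2
  have h4 : xor (xor false false) (xor false (!decide (Even (g.t.1 + g.t.2)))) = g.b := by
    show xor false (xor false g.b) = g.b
    cases g.b <;> rfl
  rw [h4] at h3
  exact h3

/-- The loops are mapped. -/
theorem sy (g : Isom) (ω : Cfg) : Sy g.E g.V ω (g.mv ω) := by
  have h := (sym0 g).sy ω
  cases hr : g.r
  · rw [hr] at h
    simp only [Bool.false_eq_true, if_false] at h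
    exact SyP.sy h
  · rw [hr] at h
    simp only [if_true] at h
    exact SyR.sy h

/-- The inverse action. -/
def iv (g : Isom) (ω : Cfg) : Cfg := fun v => fx g.b (ω (g.V v))

theorem mv_iv (g : Isom) (ω : Cfg) : g.mv (g.iv ω) = ω := by
  funext v
  obtain ⟨v, rfl⟩ := g.V.surjective v
  rw [mv_V]
  unfold iv
  rw [fx_fx]

theorem good_mv (h : Good ω) : Good (g.mv ω) := (g.sy ω).good h

theorem good_iv (h : Good ω) : Good (g.iv ω) := by
  have h1 : Good (g.mv (g.iv ω)) := by rwa [mv_iv]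
  intro e
  obtain ⟨ℓ, h2, h3⟩ := h1 (g.E e)
  refine ⟨_, ((g.sy (g.iv ω)).r ℓ h2).1, ?_⟩
  rw [FK.mem_im]
  exact h3

/-- **Invariance of the finite-volume measures.** -/
theorem Ex_mv (g : Isom) (Q : ℝ) (D : Finset (ℤ × ℤ)) (η : Cfg) (F : Cfg → ℝ) :
    Ex Q (D.image g.V) (g.mv η) F = Ex Q D η (fun ω => F (g.mv ω)) := by
  classical
  have hLD : ∀ S ∈ D.powerset, LD (D.image g.V) (g.mv (cf D η S)) = LD D (cf D η S) :=
    fun S _ => (g.sy _).LD D
  cases hb : g.b
  · refine Ex_sy (fun S => S.image g.V) (fun S hS => ?_) ?_ (fun S hS => ?_) hLD Q F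
    · rw [mem_powerset] at hS ⊢
      exact image_subset_image hS
    · exact fun x _ y _ h => image_injective g.V.injective h
    · funext v
      obtain ⟨v, rfl⟩ := g.V.surjective v
      rw [mv_V, hb]
      unfold cf
      by_cases h : v ∈ D
      · rw [if_pos h, if_pos (mem_image_of_mem _ h)]
        have : g.V v ∈ S.image g.V ↔ v ∈ S := by rw [FK.mem_im, Equiv.symm_apply_apply]
        simp only [this]
        rfl
      · have h' : g.V v ∉ D.image g.V := by rw [FK.mem_im, Equiv.symm_apply_apply]; exact h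
        rw [if_neg h, if_neg h', mv_V, hb]
  · refine Ex_sy (fun S => (D \ S).image g.V) (fun S hS => ?_) ?_ (fun S hS => ?_) hLD Q F
    · rw [mem_powerset]
      exact image_subset_image sdiff_subset
    · intro x hx y hy h
      have h1 := image_injective g.V.injective h
      rw [mem_coe, mem_powerset] at hx hy
      rw [← Finset.sdiff_sdiff_eq_self hx, ← Finset.sdiff_sdiff_eq_self hy, h1]
    · funext v
      obtain ⟨v, rfl⟩ := g.V.surjective v
      rw [mv_V, hb]
      unfold cf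
      by_cases h : v ∈ D
      · rw [if_pos h, if_pos (mem_image_of_mem _ h)]
        have : g.V v ∈ (D \ S).image g.V ↔ v ∉ S := by
          rw [FK.mem_im, Equiv.symm_apply_apply, mem_sdiff]
          simp [h]
        simp only [this]
        by_cases h2 : v ∈ S <;> simp [h2, fx]
      · have h' : g.V v ∉ D.image g.V := by rw [FK.mem_im, Equiv.symm_apply_apply]; exact h
        rw [if_neg h, if_neg h', mv_V, hb]

/-- The measure in the picture. -/
theorem Ex_iv (g : Isom) (Q : ℝ) (D : Finset (ℤ × ℤ)) (η : Cfg) (F : Cfg → ℝ) :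
    Ex Q (D.image g.V.symm) (g.iv η) (fun ω => F (g.mv ω)) = Ex Q D η F := by
  rw [← g.Ex_mv, mv_iv, image_image, Equiv.self_comp_symm, image_id]

/-! ### corners, parity, connections -/

theorem isC_S {v s : ℤ × ℤ} : IsC (g.V v) (g.S s) ↔ IsC v s := by
  unfold IsC
  rw [S_apply, V_apply]
  cases g.a <;> cases g.s1 <;> cases g.s2 <;>
    simp only [Bool.false_eq_true, if_false, if_true] <;> omega

/-- Connections. -/
theorem Jn_mv {G : Set (ℤ × ℤ)} {A B : Set (ℤ × ℤ)} :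
    g.mv ω ∈ Jn (fx g.b e) (g.V '' G) (g.S '' A) (g.S '' B) ↔ ω ∈ Jn e G A B := by
  have h : cs (fx g.b e) (g.mv ω) ∩ (g.V '' G) = g.V '' (cs e ω ∩ G) := by
    rw [cs_mv, Set.image_inter g.V.injective]
  constructor
  · rintro ⟨u, ⟨u, hu, rfl⟩, v, ⟨v, hv, rfl⟩, h1⟩
    rw [h, pw_iff] at h1
    exact ⟨u, hu, v, hv, h1⟩
  · rintro ⟨u, hu, v, hv, h1⟩
    refine ⟨g.S u, ⟨u, hu, rfl⟩, g.S v, ⟨v, hv, rfl⟩, ?_⟩
    rw [h, pw_iff]
    exact h1

end Isom

end Vale.Agent.P167.N.ID
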