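import Vale.Agent.P167.N.ID.Cnt
import Vale.Agent.P167.QX.RFam

/-!
# P167, `q < 1`: the majorant of the loops which meet the rows

`prod_fLp_le1`, `maj1`: versions of `QX.prod_fLp_le`, `QX.RowFam.maj0` without `1 ≤ 2 cos θ`. The loops
which are not `bad` (they stay in a box and all their strands are small) have exactly one strand of
closed type, the others cost a constant `A ≥ 1, 1 / (2 cos θ)`. `inner0`: no loop inside of the rows.
-/

set_option autoImplicit false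

namespace Vale.Agent.P167.N.ID

open Finset
open Vale.Agent.P167.A (plane plane_nx plane_sg)
open Vale.Agent.P167.BR
open Vale.Agent.P167.XDL (bS mem_bS)
open Vale.Agent.P167.FK
open Vale.Agent.P167.H199 (cang strand ret mem_strand loop_nx loop_iter ret_min ret_le Returns
  strand_sub cang_congr)
open Vale.Agent.P167.H685 (LE mem_LE)
open Vale.Agent.P167.QX (exc mem_exc ExtPot ExtConn Thin Bx Ins mem_Bx Esc ClT lst InB wS fLp rS natS
  natS_pos rS_nonneg prod_by_loops abs_wS_le RowFam Sml ClK rK rK_eq returns_loop in_stays)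
open Vale.Agent.P167.H680.S (nxt nxt_mem)

variable {ι : Type*} {K : Finset (ℤ × ℤ)} {J : ι → Finset (ℤ × ℤ)} {Ab : ι → ℤ × ℤ → ℤ × ℤ → Prop}
  {ω : Cfg} {θ A : ℝ} {a : Ed → Bool → ℝ} {ℓ : Finset Ed} {e : Ed} {i j : ι} {p q : ℤ × ℤ}
  {sm cl : Ed → Prop} {bad : Finset Ed → Prop} {r : Ed → ℝ}

open Classical in
/-- **The majorant of the product over the loops which meet `K`**, any sign of `log (2 cos θ)`. -/
theorem prod_fLp_le1 (hg : Good ω) (hs : 0 < Real.sin θ) (hc : 0 < Real.cos θ) (hA1 : 1 ≤ A)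
    (hA2 : 1 ≤ A * (2 * Real.cos θ))
    (h1 : ∀ e ∈ bS K, hdv e ∉ K → sm e →
      |wS θ K a ω e| = (if cl e then 2 * Real.cos θ else 1) * r e)
    (h0 : ∀ e ∈ bS K, hdv e ∉ K → sm e → 0 ≤ r e)
    (h3 : ∀ ℓ ∈ LE ω (bS K),
      ((bS K).filter fun e => (hdv e ∉ K ∧ e ∈ ℓ) ∧ sm e ∧ cl e).card ≤ 1)
    (h4 : ∀ ℓ ∈ LE ω (bS K), ¬ bad ℓ →
      1 ≤ ((bS K).filter fun e => (hdv e ∉ K ∧ e ∈ ℓ) ∧ sm e ∧ cl e).card) :
    |∏ ℓ ∈ LE ω (bS K), fLp θ K a ω ℓ| ≤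
      (∏ e ∈ (bS K).filter (fun e => hdv e ∉ K ∧ sm e), r e) *
        ((Real.sin θ)⁻¹) ^ ((bS K).filter fun e => hdv e ∉ K ∧ ¬ sm e).card *
        A ^ ((LE ω (bS K)).filter bad).card := by
  have hc0 : (0 : ℝ) < 2 * Real.cos θ := by linarith
  have hA0 : 0 ≤ A := by linarith
  have hloop : ∀ ℓ ∈ LE ω (bS K), |fLp θ K a ω ℓ| ≤
      (∏ e ∈ (bS K).filter (fun e => (hdv e ∉ K ∧ sm e) ∧ e ∈ ℓ), r e) *
        (∏ _e ∈ (bS K).filter (fun e => (hdv e ∉ K ∧ ¬ sm e) ∧ e ∈ ℓ), (Real.sin θ)⁻¹) *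
        (if bad ℓ then A else 1) := by
    intro ℓ hℓ
    unfold fLp
    rw [abs_div, abs_of_pos hc0, abs_prod, div_le_iff₀ hc0,
      ← prod_filter_mul_prod_filter_not ((bS K).filter fun e => hdv e ∉ K ∧ e ∈ ℓ) sm,
      filter_filter, filter_filter]
    have e1 : (bS K).filter (fun e => (hdv e ∉ K ∧ e ∈ ℓ) ∧ sm e) =
        (bS K).filter (fun e => (hdv e ∉ K ∧ sm e) ∧ e ∈ ℓ) :=
      filter_congr fun x _ => by tauto
    have e2 : (bS K).filter (fun e => (hdv e ∉ K ∧ e ∈ ℓ) ∧ ¬ sm e) =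
        (bS K).filter (fun e => (hdv e ∉ K ∧ ¬ sm e) ∧ e ∈ ℓ) :=
      filter_congr fun x _ => by tauto
    rw [e1, e2]
    have k1 : ∏ e ∈ (bS K).filter (fun e => (hdv e ∉ K ∧ sm e) ∧ e ∈ ℓ), |wS θ K a ω e| =
        (2 * Real.cos θ) ^ ((bS K).filter fun e => (hdv e ∉ K ∧ e ∈ ℓ) ∧ sm e ∧ cl e).card *
          ∏ e ∈ (bS K).filter (fun e => (hdv e ∉ K ∧ sm e) ∧ e ∈ ℓ), r e := by
      rw [prod_congr rfl fun e he => h1 e (mem_filter.1 he).1 (mem_filter.1 he).2.1.1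
        (mem_filter.1 he).2.1.2, prod_mul_distrib, prod_ite, prod_const, prod_const_one, mul_one,
        filter_filter]
      congr 3
      exact filter_congr fun x _ => by tauto
    have k2 : ∏ e ∈ (bS K).filter (fun e => (hdv e ∉ K ∧ ¬ sm e) ∧ e ∈ ℓ), |wS θ K a ω e| ≤
        ∏ _e ∈ (bS K).filter (fun e => (hdv e ∉ K ∧ ¬ sm e) ∧ e ∈ ℓ), (Real.sin θ)⁻¹ :=
      prod_le_prod (fun _ _ => abs_nonneg _) fun e _ => abs_wS_le hs e
    have hr : 0 ≤ ∏ e ∈ (bS K).filter (fun e => (hdv e ∉ K ∧ sm e) ∧ e ∈ ℓ), r e :=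
      prod_nonneg fun e he => h0 e (mem_filter.1 he).1 (mem_filter.1 he).2.1.1
        (mem_filter.1 he).2.1.2
    have k3 : (2 * Real.cos θ) ^ ((bS K).filter fun e => (hdv e ∉ K ∧ e ∈ ℓ) ∧ sm e ∧ cl e).card ≤
        (if bad ℓ then A else 1) * (2 * Real.cos θ) := by
      have g3 := h3 ℓ hℓ
      set m := ((bS K).filter fun e => (hdv e ∉ K ∧ e ∈ ℓ) ∧ sm e ∧ cl e).card with hm
      by_cases hb : bad ℓ
      · rw [if_pos hb]
        have hm01 : m = 0 ∨ m = 1 := by omega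
        rcases hm01 with h | h
        · rw [h, pow_zero]; exact hA2
        · rw [h, pow_one]; exact le_mul_of_one_le_left hc0.le hA1
      · have g4 := h4 ℓ hℓ hb
        rw [if_neg hb, one_mul]
        have h : m = 1 := by omega
        rw [h, pow_one]
    have hX : 0 ≤ (if bad ℓ then A else 1) := by split_ifs <;> linarith
    rw [k1]
    calc (2 * Real.cos θ) ^ ((bS K).filter fun e => (hdv e ∉ K ∧ e ∈ ℓ) ∧ sm e ∧ cl e).card *
          (∏ e ∈ (bS K).filter (fun e => (hdv e ∉ K ∧ sm e) ∧ e ∈ ℓ), r e) *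
          ∏ e ∈ (bS K).filter (fun e => (hdv e ∉ K ∧ ¬ sm e) ∧ e ∈ ℓ), |wS θ K a ω e|
        ≤ ((if bad ℓ then A else 1) * (2 * Real.cos θ)) *
          (∏ e ∈ (bS K).filter (fun e => (hdv e ∉ K ∧ sm e) ∧ e ∈ ℓ), r e) *
          ∏ _e ∈ (bS K).filter (fun e => (hdv e ∉ K ∧ ¬ sm e) ∧ e ∈ ℓ), (Real.sin θ)⁻¹ := by
          refine mul_le_mul (mul_le_mul_of_nonneg_right k3 hr) k2
            (prod_nonneg fun _ _ => abs_nonneg _) (mul_nonneg (mul_nonneg hX hc0.le) hr)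
      _ = _ := by ring
  have hR : ∏ e ∈ (bS K).filter (fun e => hdv e ∉ K ∧ sm e), r e =
      ∏ ℓ ∈ LE ω (bS K), ∏ e ∈ (bS K).filter (fun e => (hdv e ∉ K ∧ sm e) ∧ e ∈ ℓ), r e :=
    prod_by_loops hg (bS K) (fun e => hdv e ∉ K ∧ sm e) r
  have hS : ((Real.sin θ)⁻¹) ^ ((bS K).filter fun e => hdv e ∉ K ∧ ¬ sm e).card =
      ∏ ℓ ∈ LE ω (bS K), ∏ _e ∈ (bS K).filter (fun e => (hdv e ∉ K ∧ ¬ sm e) ∧ e ∈ ℓ),
        (Real.sin θ)⁻¹ := by
    rw [← prod_const]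
    exact prod_by_loops hg (bS K) (fun e => hdv e ∉ K ∧ ¬ sm e) fun _ => (Real.sin θ)⁻¹
  have hB : A ^ ((LE ω (bS K)).filter bad).card = ∏ ℓ ∈ LE ω (bS K), if bad ℓ then A else 1 := by
    rw [prod_ite, prod_const, prod_const_one, mul_one]
  rw [abs_prod, hR, hS, hB, ← prod_mul_distrib, ← prod_mul_distrib]
  exact prod_le_prod (fun _ _ => abs_nonneg _) hloop

/-- A loop which meets the boundary of `K` leaves `K`. -/
theorem exists_exit (hl : ℓ ∈ LE ω (bS K)) : ∃ e ∈ ℓ, hdv e ∉ K ∧ tlv e ∈ K := by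
  obtain ⟨h1, x, hx, hxℓ⟩ := mem_LE.1 hl
  by_cases h : hdv x ∈ K
  · obtain ⟨h2, h3⟩ := nxt_mem h1 hx hxℓ
    have hr := returns_loop h1 hxℓ hx
    have h4 : tlv (nxt (bS K) ω x) ∈ K := by
      unfold nxt
      obtain ⟨m, hm⟩ : ∃ m, ret (nx ω) (bS K) x = m + 1 :=
        ⟨_, (Nat.sub_add_cancel hr.spec.1).symm⟩
      rw [hm, Function.iterate_succ_apply', tlv_nx]
      exact in_stays h (by omega)
    refine ⟨_, h3, ?_, h4⟩
    rw [mem_bS] at h2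
    tauto
  · refine ⟨x, hxℓ, h, ?_⟩
    rw [mem_bS] at hx
    tauto

open Classical in
/-- **The majorant of the loops which meet the rows.** -/
theorem maj1 [Fintype ι] (F : RowFam K J Ab ω) (hs : 0 < Real.sin θ) (hc : 0 < Real.cos θ)
    (hA1 : 1 ≤ A) (hA2 : 1 ≤ A * (2 * Real.cos θ)) (hsm : ∀ e, sm e → Sml J Ab ω e)
    (hpot : ∀ i e, hdv e ∉ J i → tlv e ∈ J i → Returns (nx ω) (bS (J i)) e →
      ∃ σ φ, ExtPot (J i) (exc (J i) ω e) σ φ)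
    (hbad : ∀ ℓ ∈ LE ω (bS K), ¬ bad ℓ → (∃ i p q, Ab i p q ∧
      ∀ y ∈ ℓ, hdv y ∈ Bx p q ∧ tlv y ∈ Bx p q) ∧ ∀ e ∈ ℓ, hdv e ∉ K → tlv e ∈ K → sm e) :
    |∏ ℓ ∈ LE ω (bS K), fLp θ K a ω ℓ| ≤
      (∏ e ∈ (bS K).filter (fun e => hdv e ∉ K ∧ sm e), rK θ J a ω e) *
        ((Real.sin θ)⁻¹) ^ ((bS K).filter fun e => hdv e ∉ K ∧ ¬ sm e).card *
        A ^ ((LE ω (bS K)).filter bad).card := by
  have hexit : ∀ e ∈ bS K, hdv e ∉ K → tlv e ∈ K := by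
    intro e he h
    rw [mem_bS] at he
    tauto
  refine prod_fLp_le1 (K := K) (a := a) (sm := sm) (cl := ClK J ω) (r := rK θ J a ω) (bad := bad)
    F.good hs hc hA1 hA2 ?_ ?_ ?_ ?_
  · intro e he h1 he'
    obtain ⟨i, p, q, hab, h2, hB⟩ := hsm e he'
    have h3 : hdv e ∉ J i := fun h => h1 ((F.mem _).2 ⟨i, h⟩)
    have hn := natS_pos hc (J i) ω e
    rw [rK_eq F h2, F.wS_K hab hB h3]
    have hcl : ClK J ω e ↔ ClT (J i) ω e :=
      ⟨fun ⟨k, hk, h⟩ => by rwa [F.disj k i _ hk h2] at h, fun h => ⟨i, h2, h⟩⟩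
    have hnat : (if ClK J ω e then 2 * Real.cos θ else 1) = natS θ (J i) ω e := by
      unfold natS
      exact if_congr hcl rfl rfl
    rw [hnat]
    unfold rS
    field_simp
  · intro e he h1 he'
    obtain ⟨i, p, q, hab, h2, hB⟩ := hsm e he'
    rw [rK_eq F h2]
    exact rS_nonneg hc _ _ _ _
  · intro ℓ hℓ
    rw [card_le_one]
    intro e he e' he'
    obtain ⟨g1, ⟨g2, g3⟩, g4', k, hk, hcl⟩ := mem_filter.1 he
    obtain ⟨g1', ⟨g2', g3'⟩, -, k', hk', hcl'⟩ := mem_filter.1 he'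
    obtain ⟨i, p, q, hab, g4, hB⟩ := hsm e g4'
    have hik := F.disj k i _ hk g4
    subst hik
    obtain ⟨-, h⟩ := F.trapK (mem_LE.1 hℓ).1 hab hB g3 (fun h => g2 ((F.mem _).2 ⟨k, h⟩)) g4 hcl
    obtain ⟨⟨h1, -⟩, -, h2⟩ := h e' g3' g2' (hexit e' g1' g2')
    have hk2 := F.disj k' k _ hk' h1
    subst hk2
    exact (h2 hcl').symm
  · intro ℓ hℓ hb
    obtain ⟨⟨i, p, q, hab, hbox⟩, hall⟩ := hbad ℓ hℓ hb
    obtain ⟨e0, g1, g2, g3⟩ := exists_exit hℓ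
    have hl := (mem_LE.1 hℓ).1
    have g4 : tlv e0 ∈ J i := F.sep i p q hab _ (hbox e0 g1).2 g3
    have g5 : hdv e0 ∉ J i := fun h => g2 ((F.mem _).2 ⟨i, h⟩)
    obtain ⟨e, he, hcl⟩ := exists_clT (F.thin i) (F.conn i) hl hbox (F.esc i p q hab)
      ⟨e0, mem_Xit.2 ⟨g5, g4, g1⟩⟩ (fun e he => by
        obtain ⟨k1, k2, k3⟩ := mem_Xit.1 he
        exact hpot i e k1 k2 (returns_loop hl k3 (mem_bS.2 (Or.inr ⟨k1, k2⟩))))
    obtain ⟨k1, k2, k3⟩ := mem_Xit.1 he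
    have k4 : hdv e ∉ K := fun h => k1 (F.sep i p q hab _ (hbox e k3).1 h)
    have k5 : tlv e ∈ K := (F.mem _).2 ⟨i, k2⟩
    refine card_pos.2 ⟨e, mem_filter.2 ⟨mem_bS.2 (Or.inr ⟨k4, k5⟩), ⟨k4, k3⟩,
      hall e k3 k4 k5, i, k2, hcl⟩⟩

/-- The interface turns at every square. -/
theorem alt_type (e : Ed) : (∃ u v, e = Sum.inl u ∧ nx ω e = Sum.inr v) ∨
    ∃ u v, e = Sum.inr u ∧ nx ω e = Sum.inl v := by
  rcases e with u | u
  · left
    refine ⟨u, ?_⟩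
    simp only [nx]
    split_ifs <;> simp
  · right
    refine ⟨u, ?_⟩
    simp only [nx]
    split_ifs <;> simp

/-- **No loop stays in the rows.** -/
theorem no_inner (F : RowFam K J Ab ω) (hl : IsLoop ω ℓ) : ¬ ∀ e ∈ ℓ, hdv e ∈ K := by
  intro hK
  obtain ⟨e, he⟩ := hl.nonempty
  have he1 := loop_nx hl he
  have he2 := loop_nx hl he1
  obtain ⟨i, hi⟩ := (F.mem _).1 (hK _ he)
  obtain ⟨j, hj⟩ := (F.mem _).1 (hK _ he1)
  obtain ⟨k, hk⟩ := (F.mem _).1 (hK _ he2)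
  have h1 : j = i := F.adj j i (nx ω e) hj (by rw [tlv_nx]; exact hi)
  have h2 : k = j := F.adj k j (nx ω (nx ω e)) hk (by rw [tlv_nx]; exact hj)
  subst h2
  subst h1
  have key : ∀ y, hdv y ∈ J k → tlv y ∈ J k → ∀ y', (∃ u v, y = Sum.inl u ∧ y' = Sum.inr v) ∨
      (∃ u v, y = Sum.inr u ∧ y' = Sum.inl v) → hdv y' ∈ J k → tlv y' ∈ J k → False := by
    intro y g1 g2 y' hy g3 g4
    rcases F.thin k with ⟨c, hc⟩ | ⟨c, hc⟩
    · rcases hy with ⟨u, v, rfl, rfl⟩ | ⟨u, v, rfl, rfl⟩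
      · have a1 := hc _ g3
        have a2 := hc _ g4
        simp only [hdv, tlv] at a1 a2
        split_ifs at a1 a2 <;> simp only at a1 a2 <;> omega
      · have a1 := hc _ g1
        have a2 := hc _ g2
        simp only [hdv, tlv] at a1 a2
        split_ifs at a1 a2 <;> simp only at a1 a2 <;> omega
    · rcases hy with ⟨u, v, rfl, rfl⟩ | ⟨u, v, rfl, rfl⟩
      · have a1 := hc _ g1
        have a2 := hc _ g2
        simp only [hdv, tlv] at a1 a2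
        split_ifs at a1 a2 <;> simp only at a1 a2 <;> omega
      · have a1 := hc _ g3
        have a2 := hc _ g4
        simp only [hdv, tlv] at a1 a2
        split_ifs at a1 a2 <;> simp only at a1 a2 <;> omega
  exact key (nx ω e) hj (by rw [tlv_nx]; exact hi) (nx ω (nx ω e)) (alt_type _) hk
    (by rw [tlv_nx]; exact hj)

/-- **No loop stays in the rows.** -/
theorem inner0 (F : RowFam K J Ab ω) [DecidablePred (IsLp K)] :
    ((pcs ω K).filter (IsLp K)).card = 0 := by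
  rw [card_eq_zero, filter_eq_empty_iff]
  intro A hA h
  exact no_inner F (h.isLoop hA) h

end Vale.Agent.P167.N.ID
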