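import Vale.Agent.P167.N.ID.L1Geo
import Vale.Agent.P167.N.ID.Maj
import Vale.Agent.P167.H945.Nrm
import Vale.Agent.P167.H436.Bmp
import Vale.Agent.P167.H871.Q.Alt

/-!
# P167, `q < 1`: the law-free majorant of an admissible configuration of straight rows

* `big_countG`: the number of the long strands and of the big loops which meet the flow.
* `bad_countG`: the number of the loops which are not small and meet the rows.
* `L1_coreG`: the majorant for one size, from the product over the small strands of each row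
  (`hprod`) and the majorant of the loops off the rows (`hLp`).
-/

set_option autoImplicit false

namespace Vale.Agent.P167.N.ID

open Finset Filter

open Vale.Agent.P167

open Vale.Agent.P167.BR hiding dv

open Vale.Agent.P167.XDL (bS mem_bS lp_disj)

open Vale.Agent.P167.FK

open Vale.Agent.P167.H199 (strand ret mem_strand Returns ret_le ret_min strand_unique loop_iter
  loop_nx self_mem_strand strand_sub)

open Vale.Agent.P167.H685 (LE mem_LE)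

open Vale.Agent.P167.H825.Q (Row)

open Vale.Agent.P167.H825 (epos dv)

open Vale.Agent.P167.H680.T (sq_mem sq_inj mem_I uI mem_uI et et_pos et_mem nm_ht nm_sq sq_hb WCG
  WallG)

open Vale.Agent.P167.H945.Q (exists_sq nm_sub_le nm_comm)

open Vale.Agent.P167.H945 (IsSeg)

open Vale.Agent.P167.H562.QM (MajA)

open Vale.Agent.P167.H562.MAJ (Sm)

open Vale.Agent.P167.QX

variable {ι : Type} {ω : Cfg} {θ κ R B : ℝ} {n : ℕ} {g : ι → Row} {W : WCG ι}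
  {p q : ℤ × ℤ} {w d : ℤ} {i : ι} {e : Ed}

/-- An exit of a row whose strand leaves the box around it has a long strand. -/
theorem big_strandG [Fintype ι] (hg : Good ω) (hA : W.Adm κ R B n)
    (hS : ∀ i, (W.w i).S = bS (g i).I) (hd : 1 ≤ d)
    (hdn : (d : ℝ) ≤ κ * n) (he : tlv e ∈ (g i).I) (he' : hdv e ∉ uI g)
    (hB : ¬ InB (Bq (tlv e) d) (g i).I ω e) :
    ∃ e1 ∈ strand (nx ω) (bS (uI g)) e, ∃ e2 ∈ strand (nx ω) (bS (uI g)) e,
      d - 2 ≤ nm (hdv e1 - hdv e2) := by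
  obtain ⟨ℓ, hl, heℓ⟩ := hg e
  have heI : hdv e ∉ (g i).I := fun h => he' (mem_uI.2 ⟨i, h⟩)
  have hbK : e ∈ bS (uI g) := mem_bS.2 (Or.inr ⟨he', mem_uI.2 ⟨i, he⟩⟩)
  have hbI : e ∈ bS (g i).I := mem_bS.2 (Or.inr ⟨heI, he⟩)
  have hrK := returns_loop hl heℓ hbK
  have hrI := returns_loop hl heℓ hbI
  set m := ret (nx ω) (bS (uI g)) e with hm
  have hm1 := hrK.spec.1
  rw [← hm] at hm1
  obtain ⟨g1, g2⟩ := exc_last he' hrK
  rw [← hm] at g1 g2
  have key : ∃ k ≤ m, d ≤ nm (hdv ((nx ω)^[k] e) - tlv e) := by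
    obtain ⟨j, hj⟩ := mem_uI.1 g1
    by_cases hij : j = i
    · subst hij
      have h1 : ret (nx ω) (bS (g j).I) e ≤ m :=
        ret_le hm1 (mem_bS.2 (Or.inl ⟨hj, fun h => g2 (mem_uI.2 ⟨j, h⟩)⟩))
      have h2 : ∃ k ≤ ret (nx ω) (bS (g j).I) e, hdv ((nx ω)^[k] e) ∉ Bq (tlv e) d := by
        by_contra hn
        push Not at hn
        refine hB ⟨hrI, ?_, hn⟩
        refine H945.Q.Bq_of_nm ?_
        rw [sub_self, nm_zero']
        omega
      obtain ⟨k, hk, hk'⟩ := h2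
      refine ⟨k, hk.trans h1, ?_⟩
      by_contra hlt
      exact hk' (H945.Q.Bq_of_nm (not_le.1 hlt))
    · refine ⟨m, le_rfl, ?_⟩
      have h3 := sep_g hA hS hij hj he
      have h4 : (d : ℝ) ≤ (nm (hdv ((nx ω)^[m] e) - tlv e) : ℝ) := hdn.trans h3
      exact_mod_cast h4
  obtain ⟨k, hk, hk'⟩ := key
  have h1 : nm (tlv e - hdv e) ≤ 1 := by
    rw [nm_comm]
    exact nm_ht e
  rcases hk.lt_or_eq with hlt | heq
  · refine ⟨(nx ω)^[k] e, mem_strand.2 ⟨k, hlt, rfl⟩, e, self_mem_strand hrK, ?_⟩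
    have h2 := nm_sub_le (hdv ((nx ω)^[k] e)) (hdv e) (tlv e)
    rw [nm_comm (hdv e)] at h2
    linarith
  · obtain ⟨l, hl'⟩ : ∃ l, m = l + 1 := ⟨m - 1, by omega⟩
    refine ⟨(nx ω)^[l] e, mem_strand.2 ⟨l, by omega, rfl⟩, e, self_mem_strand hrK, ?_⟩
    have h2 := nm_sub_le (hdv ((nx ω)^[k] e)) (hdv ((nx ω)^[l] e)) (tlv e)
    have h3 := nm_sub_le (hdv ((nx ω)^[l] e)) (hdv e) (tlv e)
    rw [nm_comm (hdv e)] at h3
    have h5 : tlv ((nx ω)^[k] e) = hdv ((nx ω)^[l] e) := by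
      rw [heq, hl', Function.iterate_succ_apply', tlv_nx]
    have h4 : nm (hdv ((nx ω)^[k] e) - hdv ((nx ω)^[l] e)) ≤ 1 := h5 ▸ nm_ht _
    linarith

/-- A strand is a segment. -/
theorem isSeg_strandG {S : Finset Ed} (h : Returns (nx ω) S e) : IsSeg ω (strand (nx ω) S e) := by
  refine ⟨e, ret (nx ω) S e - 1, fun a => ?_⟩
  rw [mem_strand]
  have := h.spec.1
  constructor
  · rintro ⟨k, hk, rfl⟩
    exact ⟨k, by omega, rfl⟩
  · rintro ⟨k, hk, rfl⟩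
    exact ⟨k, by omega, rfl⟩

open Classical in
/-- **The number of the long strands and of the big loops which meet the flow.** -/
theorem big_countG [Fintype ι] (hg : Good ω) (hA : W.Adm κ R B n)
    (hS : ∀ i, (W.w i).S = bS (g i).I) (hn1 : 1 ≤ n)
    (hd : 1 ≤ d) (hdn : (d : ℝ) ≤ κ * n) {δ : ℝ} (hδ : δ + 2 ≤ d) {sm : Ed → Prop}
    (hsm : ∀ i, ∀ e, tlv e ∈ (g i).I → hdv e ∉ uI g → InB (Bq (tlv e) d) (g i).I ω e → sm e)
    {Z : Finset (ℤ × ℤ)} {N : ℕ} (hZ : ∀ v : ℤ × ℤ, (nm v : ℝ) ≤ (R + 1) * n → v ∈ Z)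
    (hN : MajA Z δ ω N) {𝓕 : Finset (Finset Ed)}
    (h𝓕 : ∀ ℓ ∈ 𝓕, IsLoop ω ℓ ∧ (∀ e ∈ ℓ, e ∉ eds (uI g)) ∧ ¬ Small δ ℓ ∧ ∃ e ∈ ℓ, W.c e ≠ 0) :
    𝓕.card + ((bS (uI g)).filter fun e => hdv e ∉ uI g ∧ ¬ sm e).card ≤ N := by
  have hn1' : (1 : ℝ) ≤ n := by exact_mod_cast hn1
  set X := (bS (uI g)).filter fun e => hdv e ∉ uI g ∧ ¬ sm e with hX
  set s : Ed → Finset Ed := fun e => strand (nx ω) (bS (uI g)) e with hgg
  have hinj : Function.Injective (nx ω) := (s_nx ω).1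
  have hret : ∀ e ∈ bS (uI g), Returns (nx ω) (bS (uI g)) e := fun e he => by
    obtain ⟨ℓ, hl, heℓ⟩ := hg e
    exact returns_loop hl heℓ he
  have hself : ∀ e ∈ X, e ∈ s e := fun e he => self_mem_strand (hret e (mem_filter.1 he).1)
  have huniq : ∀ e ∈ X, ∀ e' ∈ X, ∀ x, x ∈ s e → x ∈ s e' → e = e' := fun e he e' he' x h1 h2 =>
    strand_unique hinj (mem_filter.1 he).1 (mem_filter.1 he').1 h1 h2
  have hgi : Set.InjOn s X := fun e he e' he' h =>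
    huniq e he e' he' e (hself e he) (h ▸ hself e he)
  have hexit : ∀ e ∈ X, ∃ i, tlv e ∈ (g i).I := by
    intro e he
    obtain ⟨h1, h2, -⟩ := mem_filter.1 he
    rw [mem_bS] at h1
    rcases h1 with ⟨h1, -⟩ | ⟨-, h1⟩
    · exact absurd h1 h2
    · exact mem_uI.1 h1
  -- loops off the rows and strands are disjoint
  have hdis : ∀ ℓ ∈ 𝓕, ∀ e ∈ X, Disjoint ℓ (s e) := by
    intro ℓ hℓ e he
    rw [Finset.disjoint_left]
    intro x hx hx'
    obtain ⟨hl, hoff, -, -⟩ := h𝓕 ℓ hℓ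
    obtain ⟨ℓ', hl', heℓ'⟩ := hg e
    have h1 : x ∈ ℓ' := strand_sub hl' heℓ' _ hx'
    have h2 : ℓ = ℓ' := hl.eq_of_mem hl' hx h1
    refine hoff e (h2 ▸ heℓ') ?_
    have h3 := (mem_filter.1 he).1
    rw [mem_bS] at h3
    rcases h3 with h3 | h3
    · exact mem_eds.2 (Or.inl h3.1)
    · exact mem_eds.2 (Or.inr h3.2)
  have hd2 : Disjoint 𝓕 (X.image s) := by
    rw [Finset.disjoint_left]
    intro ℓ hℓ hℓ'
    obtain ⟨e, he, rfl⟩ := mem_image.1 hℓ'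
    exact Finset.disjoint_left.1 (hdis _ hℓ e he) (hself e he) (hself e he)
  rw [← card_image_of_injOn hgi, ← card_union_of_disjoint hd2]
  refine hN _ (fun γ hγ => ?_) (fun γ hγ γ' hγ' hne => ?_) fun γ hγ => ?_
  · rcases mem_union.1 hγ with h | h
    · exact H945.isSeg_of_loop (h𝓕 γ h).1
    · obtain ⟨e, he, rfl⟩ := mem_image.1 h
      exact isSeg_strandG (hret e (mem_filter.1 he).1)
  · rcases mem_union.1 hγ with h | h <;> rcases mem_union.1 hγ' with h' | h'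
    · rw [Finset.disjoint_left]
      intro x hx hx'
      exact hne ((h𝓕 γ h).1.eq_of_mem (h𝓕 γ' h').1 hx hx')
    · obtain ⟨e, he, rfl⟩ := mem_image.1 h'
      exact hdis γ h e he
    · obtain ⟨e, he, rfl⟩ := mem_image.1 h
      exact (hdis γ' h' e he).symm
    · obtain ⟨e, he, rfl⟩ := mem_image.1 h
      obtain ⟨e', he', rfl⟩ := mem_image.1 h'
      rw [Finset.disjoint_left]
      intro x hx hx'
      exact hne (by rw [huniq e he e' he' x hx hx'])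
  · rcases mem_union.1 hγ with h | h
    · obtain ⟨hl, -, hs, e, he, hce⟩ := h𝓕 γ h
      refine ⟨⟨e, he, hZ _ ?_⟩, ?_⟩
      · have h1 := (flow_g hA hS hce).1
        have h2 : (nm (hdv e) : ℝ) ≤ nm (hdv e - epos e) + nm (epos e) := by
          have := nm_sub_le (hdv e) (epos e) 0
          rw [sub_zero, sub_zero] at this
          exact_mod_cast this
        have h3 : (nm (hdv e - epos e) : ℝ) ≤ 1 := by
          rw [nm_comm]
          exact_mod_cast (nm_pos e).1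
        nlinarith
      · unfold Small at hs
        push Not at hs
        obtain ⟨u, hu, v, hv, huv⟩ := hs
        obtain ⟨e1, h1, rfl⟩ := mem_image.1 hu
        obtain ⟨e2, h2, rfl⟩ := mem_image.1 hv
        exact ⟨e1, h1, e2, h2, huv⟩
    · obtain ⟨e, he, rfl⟩ := mem_image.1 h
      obtain ⟨i, hi⟩ := hexit e he
      obtain ⟨h1, h2, h3⟩ := mem_filter.1 he
      refine ⟨⟨e, hself e he, hZ _ ?_⟩, ?_⟩
      · have h4 := box_g hA hS hi
        have h5 : (nm (hdv e) : ℝ) ≤ nm (hdv e - tlv e) + nm (tlv e) := by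
          have := nm_sub_le (hdv e) (tlv e) 0
          rw [sub_zero, sub_zero] at this
          exact_mod_cast this
        have h6 : (nm (hdv e - tlv e) : ℝ) ≤ 1 := by exact_mod_cast nm_ht e
        nlinarith
      · obtain ⟨e1, g1, e2, g2, g3⟩ := big_strandG hg hA hS hd hdn hi h2
          (fun hB => h3 (hsm i e hi h2 hB))
        refine ⟨e1, g1, e2, g2, ?_⟩
        have g4 : ((d - 2 : ℤ) : ℝ) ≤ (nm (hdv e1 - hdv e2) : ℝ) := by exact_mod_cast g3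
        push_cast at g4
        linarith

/-- A small loop which meets the flow is off the rows. -/
theorem far_g (hA : W.Adm κ R B n) (hS : ∀ i, (W.w i).S = bS (g i).I) {δ : ℝ}
    (hδ : δ + 4 ≤ κ * n) [Fintype ι] {ℓ : Finset Ed} (hsl : Small δ ℓ)
    (hc : ∃ e ∈ ℓ, W.c e ≠ 0) : ∀ e ∈ ℓ, e ∉ eds (uI g) := by
  obtain ⟨e, he, hce⟩ := hc
  intro e' he' hK
  have key : ∀ v ∈ uI g, ∀ y ∈ ℓ, κ * n - 1 ≤ (nm (hdv y - v) : ℝ) + δ := by
    intro v hv y hy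
    obtain ⟨i, hi⟩ := mem_uI.1 hv
    have g1 := (flow_g hA hS hce).2 i v hi
    have g2 : (nm (epos e - v) : ℝ) ≤ nm (epos e - hdv e) + nm (hdv e - hdv y) +
        nm (hdv y - v) := by
      have a1 := nm_sub_le (epos e) (hdv e) v
      have a2 := nm_sub_le (hdv e) (hdv y) v
      have : nm (epos e - v) ≤ nm (epos e - hdv e) + nm (hdv e - hdv y) +
        nm (hdv y - v) := by linarith
      exact_mod_cast this
    have g3 : (nm (epos e - hdv e) : ℝ) ≤ 1 := by exact_mod_cast (nm_pos e).1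
    have g4 := hsl _ (mem_image_of_mem hdv he) _ (mem_image_of_mem hdv hy)
    linarith
  rcases mem_eds.1 hK with h | h
  · have k1 := key _ h e' he'
    rw [sub_self, nm_zero'] at k1
    norm_num at k1
    linarith
  · have k1 := key _ h e' he'
    have : (nm (hdv e' - tlv e') : ℝ) ≤ 1 := by exact_mod_cast nm_ht e'
    linarith

theorem nm_tl (y : Ed) (v : ℤ × ℤ) : nm (tlv y - v) ≤ nm (hdv y - v) + 1 := by
  have h1 := nm_sub_le (tlv y) (hdv y) v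
  have h2 : nm (tlv y - hdv y) ≤ 1 := by
    rw [nm_comm]
    exact nm_ht y
  linarith

/-- A small loop stays in the box around each of its squares. -/
theorem small_box {δ : ℝ} {ℓ : Finset Ed} (hsl : Small δ ℓ) (hδ : δ + 2 ≤ d) {v : ℤ × ℤ}
    (hv : ∃ e ∈ ℓ, hdv e = v ∨ tlv e = v) : ∀ y ∈ ℓ, hdv y ∈ Bq v d ∧ tlv y ∈ Bq v d := by
  obtain ⟨e, he, hev⟩ := hv
  intro y hy
  have h1 := hsl _ (mem_image_of_mem hdv hy) _ (mem_image_of_mem hdv he)
  have h2 : nm (hdv e - v) ≤ 1 := by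
    rcases hev with h | h
    · rw [h, sub_self, nm_zero']
      norm_num
    · rw [← h]
      exact nm_ht e
  have h3 := nm_sub_le (hdv y) (hdv e) v
  have h4 : ((nm (hdv y - v) : ℤ) : ℝ) ≤ nm (hdv y - hdv e) + 1 := by exact_mod_cast h3.trans (by linarith)
  have h5 : ((nm (tlv y - v) : ℤ) : ℝ) ≤ nm (hdv y - v) + 1 := by exact_mod_cast nm_tl y v
  constructor
  · refine H945.Q.Bq_of_nm ?_
    have : ((nm (hdv y - v) : ℤ) : ℝ) < d := by linarith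
    exact_mod_cast this
  · refine H945.Q.Bq_of_nm ?_
    have : ((nm (tlv y - v) : ℤ) : ℝ) < d := by linarith
    exact_mod_cast this

open Classical in
/-- **The number of the loops which are not small and meet the rows.** -/
theorem bad_countG [Fintype ι] (hA : W.Adm κ R B n) (hS : ∀ i, (W.w i).S = bS (g i).I)
    (hn1 : 1 ≤ n) {δ : ℝ} {Z : Finset (ℤ × ℤ)} {N : ℕ}
    (hZ : ∀ v : ℤ × ℤ, (nm v : ℝ) ≤ (R + 1) * n → v ∈ Z) (hN : MajA Z δ ω N) :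
    ((LE ω (bS (uI g))).filter fun ℓ => ¬ Small δ ℓ).card ≤ N := by
  have hn1' : (1 : ℝ) ≤ n := by exact_mod_cast hn1
  refine hN _ (fun γ hγ => ?_) (fun γ hγ γ' hγ' hne => ?_) fun γ hγ => ?_
  · exact H945.isSeg_of_loop (mem_LE.1 (mem_filter.1 hγ).1).1
  · rw [Finset.disjoint_left]
    intro x hx hx'
    exact hne ((mem_LE.1 (mem_filter.1 hγ).1).1.eq_of_mem (mem_LE.1 (mem_filter.1 hγ').1).1 hx hx')
  · obtain ⟨h1, h2⟩ := mem_filter.1 hγ
    obtain ⟨-, e, he, heℓ⟩ := mem_LE.1 h1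
    constructor
    · refine ⟨e, heℓ, hZ _ ?_⟩
      have h3 : ∃ v ∈ uI g, nm (hdv e - v) ≤ 1 := by
        rw [mem_bS] at he
        rcases he with ⟨h, -⟩ | ⟨-, h⟩
        · exact ⟨_, h, by rw [sub_self, nm_zero']; norm_num⟩
        · exact ⟨_, h, nm_ht e⟩
      obtain ⟨v, hv, h4⟩ := h3
      obtain ⟨i, hi⟩ := mem_uI.1 hv
      have h5 := box_g hA hS hi
      have h6 : (nm (hdv e) : ℝ) ≤ nm (hdv e - v) + nm v := by
        have := nm_sub_le (hdv e) v 0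
        rw [sub_zero, sub_zero] at this
        exact_mod_cast this
      have h7 : (nm (hdv e - v) : ℝ) ≤ 1 := by exact_mod_cast h4
      nlinarith
    · unfold Small at h2
      push Not at h2
      obtain ⟨u, hu, v, hv, huv⟩ := h2
      obtain ⟨e1, h1, rfl⟩ := mem_image.1 hu
      obtain ⟨e2, h2, rfl⟩ := mem_image.1 hv
      exact ⟨e1, h1, e2, h2, huv⟩

/-- The excursions of a row have an exterior potential. -/
theorem pot_row {r : Row} (hL : 1 ≤ r.L) (h1 : hdv e ∉ r.I) (h2 : tlv e ∈ r.I)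
    (hr : Returns (nx ω) (bS r.I) e) : ∃ σ φ, ExtPot r.I (exc r.I ω e) σ φ := by
  obtain ⟨i, j, φ, σ, hi, hj, hij, e1, e2, hφ, hT⟩ :=
    H871.Q.exists_ext (H871.Q.rqr_polygon (b := true) hL) (H871.Q.rqr_encloses hL)
      (H871.Q.rqr_bd (r := r) (b := true) hL) h1 h2 hr
  exact ⟨σ, φ, hφ⟩

open Classical in
/-- **The majorant of the loops which meet the rows**, with the numbers of the large strands and of
the large loops. -/
theorem maj_g [Fintype ι] (h0 : 0 < θ) (h1 : θ < Real.pi / 2) (hg : Good ω)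
    (hA : W.Adm κ R B n) (hS : ∀ i, (W.w i).S = bS (g i).I)
    (hn : 1 < κ * n) (hL : ∀ i, 1 ≤ (g i).L) {δ : ℝ} {ρ : ℤ}
    (hcol : ∀ i, Cols (g i) (2 * ρ) ω) (hd : 1 ≤ d) (hδ : δ + 2 ≤ d) (hdρ : d ≤ ρ)
    (hρ : 2 * (ρ : ℝ) ≤ κ * n) {A₁ : ℝ} (hA1 : 1 ≤ A₁) (hA2 : 1 ≤ A₁ * (2 * Real.cos θ))
    {sm : Ed → Prop} (hsm : ∀ e, sm e → Sml (fun i => (g i).I) (AbR g (2 * ρ)) ω e)
    (hplain : ∀ i, ∀ e, tlv e ∈ (g i).I → hdv e ∉ uI g → InB (Bq (tlv e) d) (g i).I ω e → sm e) :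
    |∏ ℓ ∈ LE ω (bS (uI g)), fLp θ (uI g) W.ph ω ℓ| ≤
      (∏ e ∈ (bS (uI g)).filter (fun e => hdv e ∉ uI g ∧ sm e),
        rK θ (fun i => (g i).I) W.ph ω e) *
        ((Real.sin θ)⁻¹) ^ ((bS (uI g)).filter fun e => hdv e ∉ uI g ∧ ¬ sm e).card *
        A₁ ^ ((LE ω (bS (uI g))).filter fun ℓ => ¬ Small δ ℓ).card := by
  have hpi := Real.pi_pos
  have hs : 0 < Real.sin θ := Real.sin_pos_of_pos_of_lt_pi h0 (by linarith)
  have hc0 : 0 < Real.cos θ := Real.cos_pos_of_mem_Ioo ⟨by linarith, by linarith⟩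
  have F := rowFamG (w := 2 * ρ) hg hA hS hn hcol (by push_cast; linarith)
  have hmain := maj1 (a := W.ph) (bad := fun ℓ => ¬ Small δ ℓ) F hs hc0 hA1 hA2 hsm
    (fun i e k1 k2 k3 => pot_row (hL i) k1 k2 k3) ?_
  · convert hmain
  intro ℓ hℓ hb
  have hb' : Small δ ℓ := not_not.1 hb
  obtain ⟨hl, e0, he0, he0ℓ⟩ := mem_LE.1 hℓ
  constructor
  · obtain ⟨i, v, hi, hv⟩ : ∃ i, ∃ v ∈ (g i).I, hdv e0 = v ∨ tlv e0 = v := by
      rw [mem_bS] at he0
      rcases he0 with ⟨h, -⟩ | ⟨-, h⟩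
      · obtain ⟨i, hi⟩ := mem_uI.1 h
        exact ⟨i, _, hi, Or.inl rfl⟩
      · obtain ⟨i, hi⟩ := mem_uI.1 h
        exact ⟨i, _, hi, Or.inr rfl⟩
    have hbox := small_box hb' hδ ⟨e0, he0ℓ, hv⟩
    rw [Bq_eq] at hbox
    refine ⟨i, _, _, ⟨⟨v, hi, ?_⟩, ?_, ?_⟩, hbox⟩
    · rw [← Bq_eq]
      refine H945.Q.Bq_of_nm ?_
      rw [sub_self, nm_zero']
      omega
    · simp only
      omega
    · simp only
      omega
  · intro e he k1 k2
    obtain ⟨i, hi⟩ := mem_uI.1 k2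
    have hbox := small_box hb' hδ ⟨e, he, Or.inr rfl⟩
    refine hplain i e hi k1 ⟨?_, (hbox e he).2, fun k _ => ?_⟩
    · exact returns_loop hl he (mem_bS.2 (Or.inr ⟨fun h => k1 (mem_uI.2 ⟨i, h⟩), hi⟩))
    · exact (hbox _ (loop_iter hl he k)).1

open Classical in
/-- **The law-free majorant, for one size.** -/
theorem L1_coreG [Fintype ι] (h0 : 0 < θ) (h1 : θ < Real.pi / 2) (hg : Good ω)
    (hA : W.Adm κ R B n) (hS : ∀ i, (W.w i).S = bS (g i).I) (hn1 : 1 ≤ n)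
    (hn : 1 < κ * n) (hL : ∀ i, 1 ≤ (g i).L) {κ' : ℝ} {ρ : ℤ}
    (hcol : ∀ i, Cols (g i) (2 * ρ) ω)
    (hd : 1 ≤ d) (hδ : κ' * n + 2 ≤ d) (hdρ : 2 * d + 2 ≤ ρ) (hρ : 16 * (ρ : ℝ) ≤ κ * n)
    {Gs : ι → Finset Ed}
    (hG1 : ∀ i, ∀ e ∈ Gs i, tlv e ∈ (g i).I ∧ hdv e ∉ (g i).I ∧
      ∃ p q : ℤ × ℤ, q.1 ≤ p.1 + 2 * ρ ∧ q.2 ≤ p.2 + 2 * ρ ∧ InB (Bx p q) (g i).I ω e)
    (hG2 : ∀ i e, tlv e ∈ (g i).I → hdv e ∉ (g i).I → InB (Bq (tlv e) d) (g i).I ω e → e ∈ Gs i)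
    {C : ℝ} {T : ι → ℝ} (hT : ∀ i, 0 ≤ T i) (hC : 0 ≤ C)
    (hprod : ∀ i, ∏ e ∈ Gs i, rS θ (g i).I (W.w i).a ω e ≤ C * T i)
    {A₁ : ℝ} (hA1 : 1 ≤ A₁) (hA2 : 1 ≤ A₁ * (2 * Real.cos θ))
    {E : ℝ} (hLp : ∃ 𝓕 : Finset (Finset Ed), (∀ ℓ ∈ 𝓕, IsLoop ω ℓ ∧ (∀ e ∈ ℓ, e ∉ eds (uI g)) ∧
      ¬ Small (κ' * n) ℓ ∧ ∃ e ∈ ℓ, W.c e ≠ 0) ∧
      |LpO θ (uI g) W.ph ω| ≤ ((Real.cos θ)⁻¹) ^ 𝓕.card * E)
    {Z : Finset (ℤ × ℤ)} {N : ℕ} (hZ : ∀ v : ℤ × ℤ, (nm v : ℝ) ≤ (R + 1) * n → v ∈ Z)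
    (hN : MajA Z (κ' * n) ω N) :
    |RT θ (uI g) W.ph ω| ≤ (∏ i, (2 * Real.sin θ) ^ ((g i).L + 1)) *
      (((Real.cos θ)⁻¹ * (Real.sin θ)⁻¹ * A₁) ^ N * C ^ Fintype.card ι * E * ∏ i, T i) := by
  have hpi := Real.pi_pos
  have hs : 0 < Real.sin θ := Real.sin_pos_of_pos_of_lt_pi h0 (by linarith)
  have hc0 : 0 < Real.cos θ := Real.cos_pos_of_mem_Ioo ⟨by linarith, by linarith⟩
  have hρ0 : (0 : ℝ) ≤ ρ := by
    have : (0 : ℤ) ≤ ρ := by omega
    exact_mod_cast this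
  have hw : ((2 * ρ : ℤ) : ℝ) < κ * n := by
    push_cast
    linarith
  have hdn : (d : ℝ) ≤ κ * n := by
    have : (2 * (d : ℝ) + 2) ≤ ρ := by exact_mod_cast hdρ
    have : (0 : ℝ) ≤ d := by
      have : (0 : ℤ) ≤ d := by omega
      exact_mod_cast this
    linarith
  have F := rowFamG hg hA hS hn hcol hw.le
  -- the small strands
  have hGab : ∀ i, ∀ e ∈ Gs i, ∃ p q, AbR g (2 * ρ) i p q ∧ tlv e ∈ (g i).I ∧
      InB (Bx p q) (g i).I ω e := by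
    intro i e he
    obtain ⟨g1, g2, p, q, g3, g4, g5⟩ := hG1 i e he
    exact ⟨p, q, ⟨⟨_, g1, g5.2.1⟩, g3, g4⟩, g1, g5⟩
  set sm : Ed → Prop := fun e => ∃ i, e ∈ Gs i with hsmd
  have hsm : ∀ e, sm e → Sml (fun i => (g i).I) (AbR g (2 * ρ)) ω e := by
    rintro e ⟨i, he⟩
    obtain ⟨p, q, g1, g2, g3⟩ := hGab i e he
    exact ⟨i, p, q, g1, g2, g3⟩
  have hplain : ∀ i, ∀ e, tlv e ∈ (g i).I → hdv e ∉ uI g → InB (Bq (tlv e) d) (g i).I ω e →
      sm e := by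
    intro i e g1 g2 g3
    have g4 : hdv e ∉ (g i).I := fun h => g2 (mem_uI.2 ⟨i, h⟩)
    exact ⟨i, hG2 i e g1 g4 g3⟩
  have hmaj := maj_g (W := W) (δ := κ' * n) h0 h1 hg hA hS hn hL hcol hd hδ (by omega)
    (by linarith) hA1 hA2 hsm hplain
  have hin : |((2 * Real.cos θ) ^ ((pcs ω (uI g)).filter (IsLp (uI g))).card)⁻¹| ≤ 1 := by
    rw [inner0 F]
    simp
  -- the number of exits
  have hex := card_exits_g hA hS hn hL
  -- the small strands, row by row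
  have hprod : ∏ e ∈ (bS (uI g)).filter (fun e => hdv e ∉ uI g ∧ sm e),
      rK θ (fun i => (g i).I) W.ph ω e ≤ C ^ Fintype.card ι * ∏ i, T i := by
    have e1 : (bS (uI g)).filter (fun e => hdv e ∉ uI g ∧ sm e) = univ.biUnion Gs := by
      rw [← filter_filter, exits_g hA hS hn]
      ext e
      simp only [mem_filter, mem_biUnion, mem_univ, true_and]
      constructor
      · rintro ⟨-, i, he⟩
        exact ⟨i, he⟩
      · rintro ⟨i, he⟩
        obtain ⟨g1, g2, -⟩ := hG1 i e he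
        exact ⟨⟨i, mem_bS.2 (Or.inr ⟨g2, g1⟩), g2⟩, i, he⟩
    rw [e1, prod_biUnion]
    · have e2 : C ^ Fintype.card ι * ∏ i, T i = ∏ i, (C * T i) := by
        rw [prod_mul_distrib, prod_const, Finset.card_univ]
      rw [e2]
      refine prod_le_prod (fun i _ => prod_nonneg fun e he => ?_) fun i _ => ?_
      · obtain ⟨_, _, -, g1, -⟩ := hGab i e he
        rw [rK_eq F g1]
        exact rS_nonneg hc0 _ _ _ _
      · refine le_trans (le_of_eq ?_) (hprod i)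
        refine prod_congr rfl fun e he => ?_
        obtain ⟨p, q, g0, g1, g2⟩ := hGab i e he
        rw [rK_eq F g1]
        unfold rS
        rw [wS_ph g2 fun y hy _ => ph_g hA hS hw g0 hy]
    · intro i _ j _ hij
      rw [Function.onFun, Finset.disjoint_left]
      intro e he he'
      obtain ⟨_, _, -, g1, -⟩ := hGab i e he
      obtain ⟨_, _, -, g2, -⟩ := hGab j e he'
      exact hij (F.disj i j _ g1 g2)
  -- the loops off the rows
  obtain ⟨𝓕, h𝓕, hLp⟩ := hLp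
  have hcount := big_countG hg hA hS hn1 hd hdn (δ := κ' * n) hδ hplain hZ hN h𝓕
  -- conclusion
  have hT0 : 0 ≤ ∏ i, T i := prod_nonneg fun i _ => hT i
  have ha : 1 ≤ (Real.cos θ)⁻¹ := (one_le_inv₀ hc0).2 (Real.cos_le_one _)
  have hb : 1 ≤ (Real.sin θ)⁻¹ := one_le_inv_sin hs
  have hbad := bad_countG (W := W) (ω := ω) hA hS hn1 hZ hN
  obtain ⟨nb, mb, hcount', hmb, hmaj'⟩ : ∃ nb mb : ℕ, 𝓕.card + nb ≤ N ∧ mb ≤ N ∧
      |∏ ℓ ∈ LE ω (bS (uI g)), fLp θ (uI g) W.ph ω ℓ| ≤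
      (∏ e ∈ (bS (uI g)).filter (fun e => hdv e ∉ uI g ∧ sm e),
        rK θ (fun i => (g i).I) W.ph ω e) * ((Real.sin θ)⁻¹) ^ nb * A₁ ^ mb :=
    ⟨_, _, hcount, hbad, by convert hmaj⟩
  have hab : ((Real.cos θ)⁻¹) ^ 𝓕.card * (((Real.sin θ)⁻¹) ^ nb * A₁ ^ mb) ≤
      ((Real.cos θ)⁻¹ * (Real.sin θ)⁻¹ * A₁) ^ N := by
    rw [mul_assoc, mul_pow, mul_pow]
    exact mul_le_mul (pow_le_pow_right₀ ha (by omega)) (mul_le_mul
      (pow_le_pow_right₀ hb (by omega)) (pow_le_pow_right₀ hA1 hmb) (by positivity)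
      (by positivity)) (by positivity) (by positivity)
  have hP1 : 0 ≤ ∏ i, (2 * Real.sin θ) ^ ((g i).L + 1) := prod_nonneg fun _ _ => by positivity
  have hE : 0 ≤ ((Real.cos θ)⁻¹) ^ 𝓕.card * E := (abs_nonneg _).trans hLp
  have hE0 : 0 ≤ E := by
    have : 0 < ((Real.cos θ)⁻¹) ^ 𝓕.card := by positivity
    exact nonneg_of_mul_nonneg_right hE this
  rw [RT_prod hg hs.ne' hc0.ne', hex, abs_mul, abs_mul, abs_mul,
    abs_of_nonneg (by positivity : 0 ≤ (2 * Real.sin θ) ^ (∑ i, ((g i).L + 1))),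
    ← prod_pow_eq_pow_sum]
  set C1 := C ^ Fintype.card ι with hC1
  have hC10 : 0 ≤ C1 := by positivity
  set T1 := ∏ i, T i with hT1
  have hin' : |((2 * Real.cos θ) ^ ((pcs ω (uI g)).filter (IsLp (uI g))).card)⁻¹| ≤ 1 := hin
  calc (∏ i, (2 * Real.sin θ) ^ ((g i).L + 1)) *
        |((2 * Real.cos θ) ^ ((pcs ω (uI g)).filter (IsLp (uI g))).card)⁻¹| *
        |LpO θ (uI g) W.ph ω| *
        |∏ ℓ ∈ LE ω (bS (uI g)), fLp θ (uI g) W.ph ω ℓ|
      ≤ (∏ i, (2 * Real.sin θ) ^ ((g i).L + 1)) * 1 * (((Real.cos θ)⁻¹) ^ 𝓕.card * E) *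
        ((C1 * T1) * (((Real.sin θ)⁻¹) ^ nb * A₁ ^ mb)) := by
        refine mul_le_mul (mul_le_mul (mul_le_mul_of_nonneg_left hin' hP1) hLp (abs_nonneg _)
          (by positivity)) ?_ (abs_nonneg _) (by positivity)
        rw [mul_assoc] at hmaj'
        exact hmaj'.trans (mul_le_mul_of_nonneg_right hprod (by positivity))
    _ = (∏ i, (2 * Real.sin θ) ^ ((g i).L + 1)) *
        ((((Real.cos θ)⁻¹) ^ 𝓕.card * (((Real.sin θ)⁻¹) ^ nb * A₁ ^ mb)) * (C1 * E * T1)) := by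
        ring
    _ ≤ (∏ i, (2 * Real.sin θ) ^ ((g i).L + 1)) *
        (((Real.cos θ)⁻¹ * (Real.sin θ)⁻¹ * A₁) ^ N * (C1 * E * T1)) := by
        refine mul_le_mul_of_nonneg_left (mul_le_mul_of_nonneg_right hab (by positivity)) hP1
    _ = _ := by ring

end Vale.Agent.P167.N.ID
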