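import Vale.Agent.P167.QX.L1D

/-!
# P167, `q < 1`: admissible configurations of straight rows with arbitrary phases are families of rows

The geometric part of the majorant of the isolated rows. `g i` is the shape of the row number `i`
(only `o`, `x`, `L` matter), `W` a configuration of walls with `(W.w i).S = bS (g i).I`. The only
property of the frozen states is `Cols`: every square of a row is in a long segment of one state.
-/

set_option autoImplicit false

namespace Vale.Agent.P167.N.ID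

open Finset

open Vale.Agent.P167

open Vale.Agent.P167.BR hiding dv

open Vale.Agent.P167.XDL (bS mem_bS lp_disj)

open Vale.Agent.P167.FK

open Vale.Agent.P167.H199 (strand ret mem_strand Returns ret_le ret_min strand_unique loop_iter
  loop_nx self_mem_strand strand_sub)

open Vale.Agent.P167.H685 (LE mem_LE)

open Vale.Agent.P167.H825.Q (Row)

open Vale.Agent.P167.H825 (epos dv)

open Vale.Agent.P167.H680.T (sq_mem sq_inj mem_I uI mem_uI et et_pos et_mem nm_ht nm_sq sq_hb WCG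
  WallG)

open Vale.Agent.P167.H945.Q (exists_sq nm_sub_le nm_comm)

open Vale.Agent.P167.QX

variable {ι : Type} {ω : Cfg} {θ κ R B : ℝ} {n : ℕ} {g : ι → Row} {W : WCG ι} {r : Row}
  {p q : ℤ × ℤ} {w : ℤ} {i j : ι} {b : Bool}

/-- Every square of the row `r` is in a segment of one state which is at least `w` long. -/
def Cols (r : Row) (w : ℤ) (ω : Cfg) : Prop :=
  ∀ k < r.L, ∃ lo hi : ℕ, lo ≤ k ∧ k < hi ∧ hi ≤ r.L ∧ (lo : ℤ) + w ≤ hi ∧
    ∀ m, lo ≤ m → m < hi → ω (r.sq m) = ω (r.sq k)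

theorem Cols.mono {w' : ℤ} (h : Cols r w ω) (hw : w' ≤ w) : Cols r w' ω := by
  intro k hk
  obtain ⟨lo, hi, h1, h2, h3, h4, h5⟩ := h k hk
  exact ⟨lo, hi, h1, h2, h3, by omega, h5⟩

/-- **The squares of a row are connected to the outside of a small box.** -/
theorem esc_cols (hc : Cols r w ω) (h1 : q.1 ≤ p.1 + w) (h2 : q.2 ≤ p.2 + w) :
    Esc r.I ω b p q := by
  have key : ∀ v ∈ r.I, ω v = b → ∀ z : ℤ × ℤ, (v.1 = z.1 ∨ v.1 = z.1 - 1) →
      (v.2 = z.2 ∨ v.2 = z.2 - 1) →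
      ∃ z', Relation.ReflTransGen (Chn r.I ω b) z z' ∧ ¬ Ins p q z' := by
    intro v hv hvb z hz1 hz2
    obtain ⟨k, hk, rfl⟩ := exists_sq hv
    obtain ⟨lo, hi, g1, g2, g3, g4, g5⟩ := hc k hk
    obtain ⟨h, m, hh, m1, m2, rfl⟩ : ∃ (h : ℤ) (m : ℕ), (h = 0 ∨ h = 1) ∧ lo ≤ m ∧ m ≤ hi ∧
        z = sd r h m := by
      unfold Row.sq at hz1 hz2
      unfold sd
      cases ho : r.o
      · rw [ho] at hz1 hz2
        simp only [Bool.false_eq_true, if_false] at hz1 hz2 ⊢
        refine ⟨z.1 - r.x.1, (z.2 - r.x.2).toNat, by omega, by omega, by omega, ?_⟩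
        ext
        · simp
        · simp only
          omega
      · rw [ho] at hz1 hz2
        simp only [if_true] at hz1 hz2 ⊢
        refine ⟨z.2 - r.x.2, (z.1 - r.x.1).toNat, by omega, by omega, by omega, ?_⟩
        ext
        · simp only
          omega
        · simp
    obtain ⟨p1, p2⟩ := path_ends (ρ := Chn r.I ω b) (f := sd r h) (lo := lo) (hi := hi)
      (fun j j1 j2 => sd_chn r hh (by omega) (by rw [g5 j j1 j2, hvb])) m1 m2
    by_cases hins : Ins p q (sd r h lo)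
    · refine ⟨_, p2, fun hins' => ?_⟩
      obtain ⟨⟨a1, a2⟩, a3, a4⟩ := hins
      obtain ⟨⟨b1, b2⟩, b3, b4⟩ := hins'
      unfold sd at a1 a2 a3 a4 b1 b2 b3 b4
      cases ho : r.o
      · rw [ho] at a1 a2 a3 a4 b1 b2 b3 b4
        simp only [Bool.false_eq_true, if_false] at a1 a2 a3 a4 b1 b2 b3 b4
        omega
      · rw [ho] at a1 a2 a3 a4 b1 b2 b3 b4
        simp only [if_true] at a1 a2 a3 a4 b1 b2 b3 b4
        omega
    · exact ⟨_, p1, hins⟩
  intro y hy hyb
  obtain ⟨⟨c1, c2⟩, -, ⟨c3, c4⟩, -⟩ := corners y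
  exact ⟨key _ hy hyb _ c1 c2, key _ hy hyb _ c3 c4⟩

/-! ### distances -/

theorem sep_g (hA : W.Adm κ R B n) (hS : ∀ i, (W.w i).S = bS (g i).I) (hij : i ≠ j) {u v : ℤ × ℤ}
    (hu : u ∈ (g i).I) (hv : v ∈ (g j).I) : κ * n ≤ (nm (u - v) : ℝ) := by
  have h1 := hA.sep i j hij (et (g i) u) (by rw [hS]; exact et_mem hu) (et (g j) v)
    (by rw [hS]; exact et_mem hv)
  rwa [et_pos, et_pos] at h1

theorem box_g (hA : W.Adm κ R B n) (hS : ∀ i, (W.w i).S = bS (g i).I) {u : ℤ × ℤ}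
    (hu : u ∈ (g i).I) : (nm u : ℝ) ≤ R * n := by
  have h1 := hA.box i (et (g i) u) (by rw [hS]; exact et_mem hu)
  rwa [et_pos] at h1

theorem flow_g (hA : W.Adm κ R B n) (hS : ∀ i, (W.w i).S = bS (g i).I) {e : Ed} (he : W.c e ≠ 0) :
    (nm (epos e) : ℝ) ≤ R * n ∧ ∀ i, ∀ u ∈ (g i).I, κ * n ≤ (nm (epos e - u) : ℝ) := by
  obtain ⟨h1, h2⟩ := hA.csup e he
  refine ⟨h1, fun i u hu => ?_⟩
  have h3 := h2 i (et (g i) u) (by rw [hS]; exact et_mem hu)
  rwa [et_pos] at h3

theorem nm_zero' : nm (0 : ℤ × ℤ) = 0 := by simp [nm]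

theorem dis_g (hA : W.Adm κ R B n) (hS : ∀ i, (W.w i).S = bS (g i).I) (hn : 1 < κ * n)
    {v : ℤ × ℤ} (h1 : v ∈ (g i).I) (h2 : v ∈ (g j).I) : i = j := by
  by_contra hij
  have h3 := sep_g hA hS hij h1 h2
  rw [sub_self, nm_zero'] at h3
  norm_num at h3
  linarith

/-! ### the family of rows -/

theorem rowFamG [Fintype ι] (hg : Good ω) (hA : W.Adm κ R B n)
    (hS : ∀ i, (W.w i).S = bS (g i).I) (hn : 1 < κ * n) (hcol : ∀ i, Cols (g i) w ω)
    (hw : (w : ℝ) ≤ κ * n) : RowFam (uI g) (fun i => (g i).I) (AbR g w) ω := by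
  refine ⟨hg, fun v => mem_uI, fun i j v h1 h2 => dis_g hA hS hn h1 h2, fun i j y h1 h2 => ?_,
    fun i => thin_row _, fun i => conn_row _, fun i p q hab v hv hvK => ?_, fun i p q hab b => ?_⟩
  · by_contra hij
    have h3 := sep_g hA hS hij h1 h2
    have h4 : (nm (hdv y - tlv y) : ℝ) ≤ 1 := by exact_mod_cast nm_ht y
    linarith
  · obtain ⟨⟨v0, g1, g2⟩, g3, g4⟩ := hab
    obtain ⟨j, hj⟩ := mem_uI.1 hvK
    by_cases hij : j = i
    · subst hij
      exact hj
    · have h3 := sep_g hA hS hij hj g1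
      have h4 : (nm (v - v0) : ℝ) ≤ w - 1 := by exact_mod_cast nm_Bx hv g2 g3 g4
      linarith
  · exact esc_cols (hcol i) hab.2.1 hab.2.2

/-- Near a row only its wall has a phase. -/
theorem ph_g [Fintype ι] (hA : W.Adm κ R B n) (hS : ∀ i, (W.w i).S = bS (g i).I)
    (hw : (w : ℝ) < κ * n) (hab : AbR g w i p q) {y : Ed} (hy : hdv y ∈ Bx p q) :
    W.ph y = (W.w i).a y := by
  obtain ⟨⟨v0, g1, g2⟩, g3, g4⟩ := hab
  have h4 : (nm (hdv y - v0) : ℝ) ≤ w - 1 := by exact_mod_cast nm_Bx hy g2 g3 g4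
  have h5 : (nm (epos y - v0) : ℝ) ≤ w := by
    have h6 : (nm (epos y - v0) : ℝ) ≤ nm (epos y - hdv y) + nm (hdv y - v0) := by
      exact_mod_cast nm_sub_le _ _ _
    have h7 : (nm (epos y - hdv y) : ℝ) ≤ 1 := by exact_mod_cast (nm_pos y).1
    linarith
  have hc : W.c y = 0 := by
    by_contra hne
    have := (flow_g hA hS hne).2 i v0 g1
    linarith
  have hk : ∀ k, k ≠ i → (W.w k).a y = 0 := by
    intro k hki
    apply (W.w k).off
    intro hS'
    have h8 := hA.sep k i hki y hS' (et (g i) v0) (by rw [hS]; exact et_mem g1)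
    rw [et_pos] at h8
    linarith
  funext b
  show ∑ k, (W.w k).a y b + W.c y / 2 = _
  rw [hc, zero_div, add_zero]
  exact sum_eq_single i (fun k _ hki => by rw [hk k hki]; rfl) (by simp)

/-- Off the cut edges the phase is the flow. -/
theorem ph_off_g [Fintype ι] (hS : ∀ i, (W.w i).S = bS (g i).I) (hA : W.Adm κ R B n)
    (hn : 1 < κ * n) {e : Ed} (he : e ∉ bS (uI g)) : W.ph e false + W.ph e true = W.c e := by
  have hno : ∀ k, e ∉ bS (g k).I := by
    intro k hk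
    apply he
    rw [mem_bS] at hk ⊢
    rcases hk with ⟨h1, h2⟩ | ⟨h1, h2⟩
    · refine Or.inl ⟨mem_uI.2 ⟨k, h1⟩, fun h => ?_⟩
      obtain ⟨j, hj⟩ := mem_uI.1 h
      by_cases hjk : j = k
      · subst hjk
        exact h2 hj
      · have h3 := sep_g hA hS hjk hj h1
        have h4 : (nm (tlv e - hdv e) : ℝ) ≤ 1 := by
          rw [nm_comm]
          exact_mod_cast nm_ht e
        linarith
    · refine Or.inr ⟨fun h => ?_, mem_uI.2 ⟨k, h2⟩⟩
      obtain ⟨j, hj⟩ := mem_uI.1 h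
      by_cases hjk : j = k
      · subst hjk
        exact h1 hj
      · have h3 := sep_g hA hS hjk hj h2
        have h4 : (nm (hdv e - tlv e) : ℝ) ≤ 1 := by exact_mod_cast nm_ht e
        linarith
  have hz : ∀ k, (W.w k).a e = 0 := fun k => (W.w k).off _ (by rw [hS]; exact hno k)
  show (∑ k, (W.w k).a e false + W.c e / 2) + (∑ k, (W.w k).a e true + W.c e / 2) = W.c e
  rw [sum_eq_zero fun k _ => by rw [hz k]; rfl, sum_eq_zero fun k _ => by rw [hz k]; rfl]
  ring

/-- The exits of the rows. -/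
theorem exits_g [Fintype ι] [DecidableEq Ed] (hA : W.Adm κ R B n)
    (hS : ∀ i, (W.w i).S = bS (g i).I) (hn : 1 < κ * n) :
    (bS (uI g)).filter (fun e => hdv e ∉ uI g) =
      univ.biUnion fun i => (bS (g i).I).filter fun e => hdv e ∉ (g i).I := by
  ext e
  simp only [mem_filter, mem_biUnion, mem_univ, true_and]
  constructor
  · rintro ⟨h1, h2⟩
    rw [mem_bS] at h1
    rcases h1 with ⟨h1, -⟩ | ⟨-, h1⟩
    · exact absurd h1 h2
    · obtain ⟨i, hi⟩ := mem_uI.1 h1
      have h3 : hdv e ∉ (g i).I := fun h => h2 (mem_uI.2 ⟨i, h⟩)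
      exact ⟨i, mem_bS.2 (Or.inr ⟨h3, hi⟩), h3⟩
  · rintro ⟨i, h1, h2⟩
    have h3 : tlv e ∈ (g i).I := by
      rw [mem_bS] at h1
      rcases h1 with ⟨h1, -⟩ | ⟨-, h1⟩
      · exact absurd h1 h2
      · exact h1
    have h4 : hdv e ∉ uI g := by
      intro h
      obtain ⟨j, hj⟩ := mem_uI.1 h
      by_cases hij : j = i
      · subst hij
        exact h2 hj
      · have h5 := sep_g hA hS hij hj h3
        have h6 : (nm (hdv e - tlv e) : ℝ) ≤ 1 := by exact_mod_cast nm_ht e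
        linarith
    exact ⟨mem_bS.2 (Or.inr ⟨h4, mem_uI.2 ⟨i, h3⟩⟩), h4⟩

/-- The number of the exits. -/
theorem card_exits_g [Fintype ι] (hA : W.Adm κ R B n) (hS : ∀ i, (W.w i).S = bS (g i).I)
    (hn : 1 < κ * n) (hL : ∀ i, 1 ≤ (g i).L) :
    ((bS (uI g)).filter fun e => hdv e ∉ uI g).card = ∑ i, ((g i).L + 1) := by
  classical
  rw [exits_g hA hS hn, card_biUnion]
  · exact sum_congr rfl fun i _ => card_exits (hL i)
  · intro i _ j _ hij
    rw [Function.onFun, Finset.disjoint_left]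
    intro e he he'
    have tl : ∀ i, e ∈ (bS (g i).I).filter (fun e => hdv e ∉ (g i).I) → tlv e ∈ (g i).I := by
      intro i he
      obtain ⟨g1, g2⟩ := mem_filter.1 he
      rw [mem_bS] at g1
      rcases g1 with ⟨g1, -⟩ | ⟨-, g1⟩
      · exact absurd g1 g2
      · exact g1
    exact hij (dis_g hA hS hn (tl i he) (tl j he'))

end Vale.Agent.P167.N.ID
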