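import Vale.Agent.P167.N.ID.L2G
import Vale.Agent.P167.N.ID.HoleX

/-!
# P167, `q < 1`, START: the loops at the holes

`FrS.l2d_of`: if the loops near the holes live in windows, then the product over the loops at the
holes is nonnegative, and it is bounded from below if it is not zero.
-/

set_option autoImplicit false

namespace Vale.Agent.P167.N.ID

open Finset Filter Topology
open Vale.Agent.P167 Vale.Agent.P167.N
open Vale.Agent.P167.FK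
open Vale.Agent.P167.XDL (bS)
open Vale.Agent.P167.H685 (LE mem_LE)
open Vale.Agent.P167.QX (fLp VisL)
open Vale.Agent.P167.H562.QM (MajA)
open Vale.Agent.P167.E6 (IsPolygon Encloses)
open Vale.Agent.P167.H825 (Box)
open Vale.Agent.P167.H825.Q (Bc)
open Vale.Agent.P167.H199 (mks mks_ok Gap exists_Gap)
open Vale.Agent.P167.Enl (BGap exists_BGap)

variable {θ : ℝ} {Φ : FrS Row}

/-- **(d)** from the windows. -/
theorem FrS.l2d_of (hc : 0 ≤ Real.cos θ) (h0 : 0 < θ) (h1 : θ < Real.pi / 2) {κ₁ δ₀ : ℝ}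
    (hκ : 0 < κ₁) (hδ₀ : 0 < δ₀)
    (H : ∀ δ : ℝ, 0 < δ → δ < δ₀ → ∀ᶠ n : ℕ in atTop, ∀ x, Φ.InH θ δ n ⌊κ₁ * n⌋ x) :
    Φ.L2d (rowS θ) (rowF hc) {true} θ := by
  classical
  refine ⟨κ₁, 2 ^ Fintype.card Φ.ι, δ₀, hκ, one_le_pow₀ (by norm_num), hδ₀, fun δ hδ hδ' => ?_⟩
  filter_upwards [H δ hδ hδ'] with n hn ω hg hf hcnf
  set EE : Finset Ed := univ.image fun i => (Φ.r δ n i).es (!(Φ.r δ n i).p) with hEE
  have hE : (EE : Set Ed) = esS (Φ.r δ n) := by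
    ext g
    rw [hEE]
    simp only [coe_image, coe_univ, Set.image_univ, Set.mem_range]
    constructor
    · rintro ⟨i, hi⟩
      exact ⟨i, hi.symm⟩
    · rintro ⟨i, hi⟩
      exact ⟨i, hi.symm⟩
  have hcard : EE.card ≤ Fintype.card Φ.ι := by
    rw [hEE]
    exact card_image_le
  have hT : ∀ ℓ ∈ (LE ω (bS (Φ.U (rowS θ) δ n))).filter (VisL (Φ.hB δ n ⌊4 * δ * n⌋)),
      InWin0 θ (Φ.U (rowS θ) δ n) (EE : Set Ed) (Φ.ph (rowS θ) δ n 0) ω ℓ := by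
    intro ℓ hℓ
    obtain ⟨k1, k2⟩ := mem_filter.1 hℓ
    obtain ⟨k3, e, k4, k5⟩ := mem_LE.1 k1
    obtain ⟨x, hx⟩ := hcnf ℓ k3 k2
    rw [hE]
    refine hn x ω hg hf ℓ k3 (fun y hy => hx _ (mem_image_of_mem _ hy)) ?_
    exact ⟨e, by assumption, by assumption⟩
  obtain ⟨p1, p2, -⟩ := prod_win h0 h1 hT
  have e1 : Φ.TB (rowS θ) θ δ n ⌊4 * δ * n⌋ ω =
      ∏ ℓ ∈ (LE ω (bS (Φ.U (rowS θ) δ n))).filter (VisL (Φ.hB δ n ⌊4 * δ * n⌋)),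
        fLp θ (Φ.U (rowS θ) δ n) (Φ.ph (rowS θ) δ n 0) ω ℓ := by
    unfold FrS.TB QX.TB
    rfl
  rw [e1]
  refine ⟨p1, fun N₁ _ hne => ?_⟩
  have p3 := p2 hne
  have hTt : Φ.Tt (rowS θ) (rowF hc) {true} δ n ⌊δ * n / 16⌋ ω ≤ 1 := by
    unfold FrS.Tt
    refine prod_le_one (fun i _ => ?_) fun i _ => ?_
    · rw [prod_singleton]
      exact TK_nonneg _ _ _ _
    · rw [prod_singleton]
      exact TK_le_one _ _ _ _
  refine hTt.trans ?_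
  have p4 : (1 / 2 : ℝ) ^ Fintype.card Φ.ι ≤
      ∏ ℓ ∈ (LE ω (bS (Φ.U (rowS θ) δ n))).filter (VisL (Φ.hB δ n ⌊4 * δ * n⌋)),
        fLp θ (Φ.U (rowS θ) δ n) (Φ.ph (rowS θ) δ n 0) ω ℓ :=
    (pow_le_pow_of_le_one (by norm_num) (by norm_num) hcard).trans p3
  have h2 : (1 : ℝ) = 2 ^ Fintype.card Φ.ι * (1 / 2) ^ Fintype.card Φ.ι := by
    rw [← mul_pow]
    norm_num
  have h3 : (1 : ℝ) ≤ 2 ^ Fintype.card Φ.ι := one_le_pow₀ (by norm_num)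
  calc (1 : ℝ) ≤ 2 ^ Fintype.card Φ.ι * ∏ ℓ ∈ (LE ω (bS (Φ.U (rowS θ) δ n))).filter
        (VisL (Φ.hB δ n ⌊4 * δ * n⌋)), fLp θ (Φ.U (rowS θ) δ n) (Φ.ph (rowS θ) δ n 0) ω ℓ := by
        rw [h2]
        exact mul_le_mul_of_nonneg_left p4 (by linarith)
    _ ≤ _ := by
        refine mul_le_mul_of_nonneg_right ?_ p1
        calc (2 : ℝ) ^ Fintype.card Φ.ι = (2 ^ Fintype.card Φ.ι) ^ 1 := (pow_one _).symm
          _ ≤ (2 ^ Fintype.card Φ.ι) ^ (N₁ + 1) := pow_le_pow_right₀ h3 (by omega)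

/-! ### the scales -/

/-- The radii of the windows. -/
theorem scales {g δ : ℝ} (hg : 0 < g) (hδ : 0 < δ) (hδg : δ < g / 64) : ∀ᶠ n : ℕ in atTop,
    16 ≤ δ * n ∧ ⌊δ * n⌋₊ + 12 ≤ ⌊g / 32 * n⌋₊ ∧ (⌊g / 32 * n⌋₊ : ℝ) + 2 < g / 16 * n ∧
      (⌊g / 32 * (n : ℝ)⌋ : ℤ) = (⌊g / 32 * n⌋₊ : ℕ) := by
  have ev : ∀ᶠ n : ℕ in atTop, 16 ≤ δ * n :=
    (tendsto_natCast_atTop_atTop.const_mul_atTop hδ).eventually_ge_atTop 16
  have ev2 : ∀ᶠ n : ℕ in atTop, (16 : ℝ) ≤ g / 64 * n :=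
    (tendsto_natCast_atTop_atTop.const_mul_atTop (by positivity)).eventually_ge_atTop 16
  filter_upwards [ev, ev2, ((tendsto_natCast_atTop_atTop.const_mul_atTop
    (show (0 : ℝ) < g / 32 - δ by linarith)).eventually_ge_atTop (16 : ℝ))] with n hn h2 h4
  have hn0 : (0 : ℝ) ≤ n := Nat.cast_nonneg n
  have e1 := Nat.floor_le (show 0 ≤ δ * n by positivity)
  have e2 := Nat.floor_le (show 0 ≤ g / 32 * n by positivity)
  have e3 := Nat.lt_floor_add_one (g / 32 * n)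
  refine ⟨hn, ?_, by linarith, ?_⟩
  · have h5 : ((⌊δ * n⌋₊ + 12 : ℕ) : ℝ) ≤ (⌊g / 32 * n⌋₊ : ℝ) := by
      push_cast
      nlinarith
    exact_mod_cast h5
  · exact (Int.natCast_floor_eq_floor (by positivity)).symm

section frames

variable {l : ℕ} {β : ℝ} {p : ZMod l → ℤ × ℤ} {S₀ : Finset (ℤ × ℤ)} {b : Box} {tp : ℝ} {bc : Bc}
  {ia : ℕ} {ta : ℝ}

/-- **The windows of the free and wired frames**, all scales. -/
theorem frP_inH [NeZero l] (hp : IsPolygon p) (hD : Encloses p S₀) (hN : Nrm p) (hb : b.Ok S₀)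
    (h0 : 0 < tp) (h1 : tp < 1)
    (ht : ∀ i : ℤ, ∀ y ∈ ({b.xl, b.xr, b.yb, b.yt} : Set ℝ), y ≠ i + tp ∧ y ≠ i - tp)
    (hbc : bc.Ok l (mks p b tp)) (hbc' : bc = .free ∨ bc = .wired) :
    ∃ κ₁ δ₀ : ℝ, 0 < κ₁ ∧ 0 < δ₀ ∧ ∀ δ : ℝ, 0 < δ → δ < δ₀ → ∀ᶠ n : ℕ in atTop,
      ∀ x, (frP θ β p S₀ b tp bc).InH θ δ n ⌊κ₁ * n⌋ x := by
  have hgen : H199.Gen b := ⟨hb.gx, hb.gy⟩
  have hQ := mks_ok p hgen h0 h1 ht
  obtain ⟨g1, hg1, hG⟩ := exists_Gap hQ l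
  obtain ⟨g2, hg2, hB⟩ := exists_BGap hbc
  set g := min g1 g2 with hgdef
  have hg0 : 0 < g := lt_min hg1 hg2
  have hG' : Gap (mks p b tp) l g := hG.mono (min_le_left _ _)
  have hB' : BGap l (mks p b tp) g bc := hB.mono (min_le_right _ _)
  refine ⟨g / 32, g / 64, by positivity, by positivity, fun δ hδ hδ' => ?_⟩
  filter_upwards [scales hg0 hδ hδ'] with n hn x
  obtain ⟨n1, n2, n3, n4⟩ := hn
  rw [n4]
  exact inhP hp hD hN hQ hbc' hB' hG' hδ (by linarith) n1 (by omega) n3 x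

/-- **(d) for the free and wired frames.** -/
theorem frP_l2d [NeZero l] (hc : 0 ≤ Real.cos θ) (hθ : 0 < θ) (hθ' : θ < Real.pi / 2)
    (hp : IsPolygon p) (hD : Encloses p S₀) (hN : Nrm p) (hb : b.Ok S₀)
    (h0 : 0 < tp) (h1 : tp < 1)
    (ht : ∀ i : ℤ, ∀ y ∈ ({b.xl, b.xr, b.yb, b.yt} : Set ℝ), y ≠ i + tp ∧ y ≠ i - tp)
    (hbc : bc.Ok l (mks p b tp)) (hbc' : bc = .free ∨ bc = .wired) :
    (frP θ β p S₀ b tp bc).L2d (rowS θ) (rowF hc) {true} θ := by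
  obtain ⟨κ₁, δ₀, h2, h3, h4⟩ := frP_inH (θ := θ) (β := β) hp hD hN hb h0 h1 ht hbc hbc'
  exact FrS.l2d_of hc hθ hθ' h2 h3 h4

end frames

end Vale.Agent.P167.N.ID
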