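import Vale.Agent.P167.N.ID.HoleOne
import Vale.Agent.P167.N.ID.L2D

/-!
# P167, `q < 1`, START: the loops near the holes which do not visit them

`FrS.OneH`: the loops near the hole `x` which meet the domain and do not visit the holes have the
factor one; `FrS.l2b_of`: (b) of `L2Sg`; `oneP`, `oneD`, `oneB`: the holes with two rows; `frP_l2b`.
-/

set_option autoImplicit false

namespace Vale.Agent.P167.N.ID

open Finset Filter Topology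
open Vale.Agent.P167 Vale.Agent.P167.N
open Vale.Agent.P167.FK
open Vale.Agent.P167.Top
open Vale.Agent.P167.XDL (bS)
open Vale.Agent.P167.H685 (LE mem_LE)
open Vale.Agent.P167.QX (fLp VisL)
open Vale.Agent.P167.E6 (IsPolygon Encloses)
open Vale.Agent.P167.H825 (Box Marks)
open Vale.Agent.P167.H825.Q (Bc)
open Vale.Agent.P167.H199 (mks mks_ok Gap exists_Gap)
open Vale.Agent.P167.Enl
open Vale.Agent.P167.H680.T (mem_uI)

/-- **The loops near the hole `x` which do not visit the holes have the factor one.** -/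
def FrS.OneH (Φ : FrS Row) (θ δ : ℝ) (n : ℕ) (R : ℤ) (x : Φ.H) : Prop :=
  ∀ ω : Cfg, Good ω → Φ.Frz (rowS θ) δ n ω → ∀ ℓ, IsLoop ω ℓ →
    (∀ y ∈ ℓ, hdv y ∈ Bq (Φ.h δ n x) R) → (∃ e ∈ bS (Φ.U (rowS θ) δ n), e ∈ ℓ) →
    (∀ y ∈ ℓ, hdv y ∉ Bq (Φ.h δ n x) ((⌊δ * (n : ℝ)⌋₊ : ℤ) + 4)) →
    fLp θ (Φ.U (rowS θ) δ n) (Φ.ph (rowS θ) δ n 0) ω ℓ = 1

/-- **(b)** from the holes. -/
theorem FrS.l2b_of {Φ : FrS Row} {θ κ₁ δ₀ : ℝ} (hκ : 0 < κ₁) (hδ₀ : 0 < δ₀)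
    (H : ∀ δ : ℝ, 0 < δ → δ < δ₀ → ∀ᶠ n : ℕ in atTop, ∀ x, Φ.OneH θ δ n ⌊κ₁ * n⌋ x) :
    Φ.L2b (rowS θ) θ := by
  refine ⟨κ₁, δ₀, hκ, hδ₀, fun δ hδ hδ' => ?_⟩
  filter_upwards [H δ hδ hδ'] with n hn ω hg hf ℓ hℓ hv hx
  obtain ⟨x, hx⟩ := hx
  obtain ⟨k1, e, k2, k3⟩ := mem_LE.1 hℓ
  refine hn x ω hg hf ℓ k1 (fun y hy => hx _ (mem_image_of_mem _ hy))
    ⟨e, by assumption, by assumption⟩ fun y hy h => hv ⟨y, hy, ?_⟩
  exact mem_coe.2 (mem_biUnion.2 ⟨x, mem_univ _, h⟩)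

/-- A hole with two rows: the loops which do not visit it have the factor one. -/
theorem FrS.OneH.of_holeN {Φ : FrS Row} {θ δ : ℝ} {n : ℕ} {x : Φ.H} {c : ℝ} {τ d κ : ℤ}
    {A B R : ℕ} {mA mB : Bool} (h0 : 0 < θ) (h1 : θ < Real.pi / 2)
    (h : HoleN θ c τ (Φ.h δ n x) d κ A B R mA mB (Φ.U (rowS θ) δ n) (esS (Φ.r δ n))
      (Φ.ph (rowS θ) δ n 0)) (hm : ¬ (mA = false ∧ mB = true))
    (hA : (R : ℤ) - A ≤ (⌊δ * (n : ℝ)⌋₊ : ℤ) + 4) (hB : (R : ℤ) - B ≤ (⌊δ * (n : ℝ)⌋₊ : ℤ) + 4)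
    (hc : ∀ ω, Φ.Frz (rowS θ) δ n ω → ∀ v ∈ Φ.U (rowS θ) δ n, v ∈ Bq (Φ.h δ n x) R →
      ω v = decide (τ = -1)) : Φ.OneH θ δ n R x := by
  intro ω _ hf ℓ hl h2 h3 h4
  exact h.one h0 h1 hm hA hB (by omega) hl h2 h4 (hc ω hf) h3

/-- The signs of the rows at a mark of the Dobrushin domain which is not the spoke. -/
theorem JD_mark {l : ℕ} {p : ZMod l → ℤ × ℤ} (hp : IsPolygon p) {Q : Marks} {ia : ℕ}
    (x : Fin l × Fin (Q.m + 1)) (hx : x ≠ xT hp Q) :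
    ¬ (JD p ia (iB l x) = false ∧ JD p ia x.1 = true) := by
  rintro ⟨h1, h2⟩
  obtain ⟨⟨i, hi⟩, ⟨j, hj⟩⟩ := x
  have hlt := (lowV_iT hp).lt
  have h3 : ¬ (i = iT p ∧ j = 0) := by
    rintro ⟨rfl, rfl⟩
    exact hx rfl
  unfold iB at h1
  unfold JD at h1 h2
  simp only at h1 h2
  by_cases hj0 : j = 0
  · rw [if_pos hj0] at h1
    by_cases hi0 : i = 0
    · rw [if_pos hi0] at h1
      split_ifs at h1 h2 <;> simp at h1 h2 <;> omega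
    · rw [if_neg hi0] at h1
      split_ifs at h1 h2 <;> simp at h1 h2 <;> omega
  · rw [if_neg hj0] at h1
    rw [h1] at h2
    exact absurd h2 (by decide)

section poly

variable {l : ℕ} {θ β : ℝ} {p : ZMod l → ℤ × ℤ} {S₀ : Finset (ℤ × ℤ)} {b : Box} {tp : ℝ} {bc : Bc}
  {n : ℕ} {g δ : ℝ} {ia : ℕ} {ta : ℝ}

/-- **The holes of the free and wired frames.** -/
theorem oneP [NeZero l] (h0 : 0 < θ) (h1 : θ < Real.pi / 2) (hp : IsPolygon p)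
    (hD : Encloses p S₀) (hN : Nrm p)
    (hQ : (mks p b tp).Ok) (hbc : bc = .free ∨ bc = .wired) (hbg : BGap l (mks p b tp) g bc)
    (hg : Gap (mks p b tp) l g) (hδ : 0 < δ) (hδg : 4 * δ ≤ g) (hn : 16 ≤ δ * n) {R : ℕ}
    (hR1 : ⌊δ * n⌋₊ + 3 ≤ R) (hR2 : (R : ℝ) + 2 < g / 16 * n) (x : Fin l × Fin 3) :
    (frP θ β p S₀ b tp bc).OneH θ δ n R x := by
  have hl : 0 < l := Nat.pos_of_ne_zero (NeZero.ne l)
  obtain ⟨b1, b2, b3, b4, b5⟩ := gn_big hQ hg hδg hn hl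
  have e16 : g / 16 * n = g * n / 16 := by ring
  obtain ⟨⟨p1, p2, p3⟩, ⟨p4, p5, p6⟩⟩ := Enl.row_pos (p := p) hQ hg hδ hδg hn x
  refine FrS.OneH.of_holeN h0 h1 (holeP hp hD hN hQ hbc (bc_ok (by linarith) hbg) hg hδ hδg hn hR1
    (by linarith) x) (by simp) (by omega) (by omega) ?_
  intro ω hf v hv hvB
  obtain ⟨i, hi⟩ := mem_uI.1 hv
  rw [hf i v hi, colP hp hD hQ hg hbg hδ hδg hn x i v hi ?_]
  · exact wcJ_tz (Q := mks p b tp) x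
  · have h1 : (nm (v - (frP θ β p S₀ b tp bc).h δ n x) : ℝ) ≤ R := by exact_mod_cast mem_Bq' hvB
    linarith

/-- **The marks of the domain of the Dobrushin frames**, except the one at the spoke. -/
theorem oneD [NeZero l] (h0 : 0 < θ) (h1 : θ < Real.pi / 2) (H : DobN p S₀ b tp g δ n)
    (hbg : BGap l (mks p b tp) g (.dob ia ta))
    {R : ℕ} (hR1 : ⌊δ * n⌋₊ + 3 ≤ R) (hR2 : (R : ℝ) + 2 < g / 16 * n) (x : Fin l × Fin 3)
    (hx : x ≠ xT H.hp (mks p b tp)) :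
    (frD θ β p S₀ b tp ia ta).OneH θ δ n R (.inl x) := by
  obtain ⟨⟨p1, p2, p3⟩, ⟨p4, p5, p6⟩⟩ := Enl.row_pos (p := p) H.hQ H.hg H.hδ H.hδg H.hn x
  refine FrS.OneH.of_holeN h0 h1 (holeD H hbg hR1 hR2 x hx) (JD_mark H.hp (Q := mks p b tp) x hx)
    (by omega) (by omega) ?_
  intro ω hf v hv hvB
  obtain ⟨i, hi⟩ := mem_uI.1 hv
  rw [hf i v hi, colD H hbg (.inl x) i v hi ?_]
  · exact wcJ_tz (Q := mks p b tp) x
  · have h1 : (nm (v - (frD θ β p S₀ b tp ia ta).h δ n (.inl x)) : ℝ) ≤ R := by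
      exact_mod_cast mem_Bq' hvB
    linarith

/-- **The marks of the box of the Dobrushin frames.** -/
theorem oneB [NeZero l] (h0 : 0 < θ) (h1 : θ < Real.pi / 2) (H : DobN p S₀ b tp g δ n)
    (hbg : BGap l (mks p b tp) g (.dob ia ta))
    {R : ℕ} (hR1 : ⌊δ * n⌋₊ + 3 ≤ R) (hR2 : (R : ℝ) + 2 < g / 16 * n) (x : Fin 4 × Fin 3) :
    (frD θ β p S₀ b tp ia ta).OneH θ δ n R (.inr (.inl x)) := by
  obtain ⟨b1, b3, b5, b6, b7⟩ := H.basic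
  obtain ⟨c1, c2, c3, c4⟩ := H.box
  have hNn : 0 < bM p * n := Nat.mul_pos (DobN.hM (p := p)) b5
  obtain ⟨⟨p1, p2, p3⟩, ⟨p4, p5, p6⟩⟩ := Enl.row_pos (p := pQ) H.hQ' H.hg' c1 c2 c3 x
  rw [c4] at p1 p2 p3 p4 p5 p6
  refine FrS.OneH.of_holeN h0 h1 (holeB H hR1 hR2 x) (by simp) (by omega) (by omega) ?_
  intro ω hf v hv hvB
  obtain ⟨i, hi⟩ := mem_uI.1 hv
  rw [hf i v hi, colD H hbg (.inr (.inl x)) i v hi ?_]
  · show decide (cT p ia = -1) = _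
    have ht : tG pQ (bM p * n) (tqB (bQ b (bM p))) (cT p ia) < bM p * n :=
      t_lt H.hQ' H.hg' c2 c3 (tG_le pQ (bM p * n) (tqB (bQ b (bM p))) (cT p ia)).2
    have h1 := kOf_lt x.1.2 (pA_lt H.hQ' hNn x) ht
    have h2 : H825.Q.stτ (Bc.free.ka 4 (bM p * n)
        (tG pQ (bM p * n) (tqB (bQ b (bM p))) (cT p ia)))
        (kOf 4 (bM p * n) (tG pQ (bM p * n) (tqB (bQ b (bM p))) (cT p ia)) x.1
          (pA (bM p * n) (mksQ p b) x)) = 1 := if_pos h1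
    rw [h2, mul_one]
    rcases cT_or p ia with h | h <;> rw [h] <;> unfold tz
    · rw [if_pos rfl]
      norm_num
    · rw [if_neg (by norm_num)]
      norm_num
  · have h1 : (nm (v - (frD θ β p S₀ b tp ia ta).h δ n (.inr (.inl x))) : ℝ) ≤ R := by
      exact_mod_cast mem_Bq' hvB
    linarith

/-- **(b) for the free and wired frames.** -/
theorem frP_l2b [NeZero l] (hθ : 0 < θ) (hθ' : θ < Real.pi / 2)
    (hp : IsPolygon p) (hD : Encloses p S₀) (hN : Nrm p) (hb : b.Ok S₀)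
    (h0 : 0 < tp) (h1 : tp < 1)
    (ht : ∀ i : ℤ, ∀ y ∈ ({b.xl, b.xr, b.yb, b.yt} : Set ℝ), y ≠ i + tp ∧ y ≠ i - tp)
    (hbc : bc.Ok l (mks p b tp)) (hbc' : bc = .free ∨ bc = .wired) :
    (frP θ β p S₀ b tp bc).L2b (rowS θ) θ := by
  have hgen : H199.Gen b := ⟨hb.gx, hb.gy⟩
  have hQ := mks_ok p hgen h0 h1 ht
  obtain ⟨g1, hg1, hG⟩ := exists_Gap hQ l
  obtain ⟨g2, hg2, hB⟩ := exists_BGap hbc
  set g := min g1 g2 with hgdef
  have hg0 : 0 < g := lt_min hg1 hg2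
  have hG' : Gap (mks p b tp) l g := hG.mono (min_le_left _ _)
  have hB' : BGap l (mks p b tp) g bc := hB.mono (min_le_right _ _)
  refine FrS.l2b_of (κ₁ := g / 32) (δ₀ := g / 64) (by positivity) (by positivity)
    fun δ hδ hδ' => ?_
  filter_upwards [scales hg0 hδ hδ'] with n hn x
  obtain ⟨n1, n2, n3, n4⟩ := hn
  rw [n4]
  exact oneP hθ hθ' hp hD hN hQ hbc' hB' hG' hδ (by linarith) n1 (by omega) n3 x

end poly

end Vale.Agent.P167.N.ID
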