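import Vale.Agent.P167.N.ID.L2G

/-!
# P167, `q < 1`, START: `L2Sg` from two parts

* `FrS.L2ace`: (a), (c), (e) of `L2Sg` for every small `κ₁`.
* `FrS.L2bd`: (b), (d) of `L2Sg` for every small `κ₁`.
* `FrS.l2_of : L2ace → L2bd → L2Sg`.
-/

set_option autoImplicit false

namespace Vale.Agent.P167.N.ID

open Finset Filter Topology

open Vale.Agent.P167 Vale.Agent.P167.N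

open Vale.Agent.P167.FK

open Vale.Agent.P167.XDL (bS)

open Vale.Agent.P167.H825 (enl)

open Vale.Agent.P167.H685 (LE mem_LE)

open Vale.Agent.P167.QX (fLp VisL)

open Vale.Agent.P167.H562.QM (MajA)

variable {X : Type} (RS : RSys X) {Kx : Type} [Fintype Kx] [DecidableEq Kx] (F : Fct RS Kx)
  (Kt : Finset Kx) (Φ : FrS X) (θ : ℝ) (S₀ : Finset (ℤ × ℤ))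

/-- (a), (c), (e). -/
def FrS.L2ace : Prop :=
  ∃ k₀ : ℝ, 0 < k₀ ∧ ∀ κ₁ : ℝ, 0 < κ₁ → κ₁ ≤ k₀ → ∀ κ' : ℝ, 0 < κ' → κ' < κ₁ →
  ∃ A δ₀ : ℝ, 1 ≤ A ∧ 0 < δ₀ ∧
  ∀ δ : ℝ, 0 < δ → δ < δ₀ → ∀ᶠ n : ℕ in atTop, ∀ ω : Cfg, Good ω → Φ.Frz RS δ n ω →
  -- (a)
  (∀ ℓ ∈ LE ω (bS (Φ.U RS δ n)), ¬ VisL (Φ.hB δ n ((⌊δ * (n : ℝ)⌋₊ : ℤ) + 4)) ℓ →
    0 ≤ fLp θ (Φ.U RS δ n) (Φ.ph RS δ n 0) ω ℓ) ∧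
  -- (c)
  (∀ (R₃ : ℤ) (ω' : Cfg), (⌊δ * (n : ℝ)⌋₊ : ℤ) + 4 ≤ R₃ → Good ω' → Φ.Frz RS δ n ω' →
    Φ.Cnf δ n R₃ ⌊κ₁ * n⌋ ω → Φ.Cnf δ n R₃ ⌊κ₁ * n⌋ ω' →
    (∀ v ∉ enl S₀ n, v ∉ Φ.hB δ n R₃ → ω v = ω' v) →
    Φ.TO RS θ δ n R₃ ω = Φ.TO RS θ δ n R₃ ω') ∧
  -- (e)
  (∀ (R₃ : ℤ) (Z : Finset (ℤ × ℤ)) (N₂ : ℕ), (⌊δ * (n : ℝ)⌋₊ : ℤ) + 4 ≤ R₃ →
    Φ.Cnf δ n R₃ ⌊κ₁ * n⌋ ω → (∀ v : ℤ × ℤ, (nm v : ℝ) ≤ (Φ.R + 1) * n → v ∈ Z) →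
    MajA Z (κ' * n) ω N₂ → Φ.TO RS θ δ n R₃ ω ≠ 0 →
    Φ.Tj RS F Kt δ n ⌊4 * κ' * n⌋ ω ≤ A ^ (N₂ + 1) * Φ.TO RS θ δ n R₃ ω)

/-- (b), (d). -/
def FrS.L2bd : Prop :=
  ∃ k₀ : ℝ, 0 < k₀ ∧ ∀ κ₁ : ℝ, 0 < κ₁ → κ₁ ≤ k₀ → ∀ κ' : ℝ, 0 < κ' → κ' < κ₁ →
  ∃ A δ₀ : ℝ, 1 ≤ A ∧ 0 < δ₀ ∧
  ∀ δ : ℝ, 0 < δ → δ < δ₀ → ∀ᶠ n : ℕ in atTop, ∀ ω : Cfg, Good ω → Φ.Frz RS δ n ω →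
  -- (b)
  (∀ ℓ ∈ LE ω (bS (Φ.U RS δ n)), ¬ VisL (Φ.hB δ n ((⌊δ * (n : ℝ)⌋₊ : ℤ) + 4)) ℓ →
    (∃ x, ∀ v ∈ vs ℓ, v ∈ Bq (Φ.h δ n x) ⌊κ₁ * n⌋) →
      fLp θ (Φ.U RS δ n) (Φ.ph RS δ n 0) ω ℓ = 1) ∧
  -- (d)
  (Φ.Cnf δ n ⌊4 * δ * n⌋ ⌊κ₁ * n⌋ ω → 0 ≤ Φ.TB RS θ δ n ⌊4 * δ * n⌋ ω ∧
    ∀ N₁ : ℕ, MajA (Φ.hB δ n ⌊4 * δ * n⌋) (δ * n / 64) ω N₁ →
    Φ.TB RS θ δ n ⌊4 * δ * n⌋ ω ≠ 0 →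
    Φ.Tt RS F Kt δ n ⌊δ * n / 16⌋ ω ≤ A ^ (N₁ + 1) * Φ.TB RS θ δ n ⌊4 * δ * n⌋ ω)

variable {RS F Kt Φ θ S₀}

theorem FrS.L2ace.a (h : Φ.L2ace RS F Kt θ S₀) : Φ.L2a RS θ := by
  obtain ⟨k, hk, H⟩ := h
  obtain ⟨A, δ₀, -, hδ₀, H⟩ := H k hk le_rfl (k / 2) (half_pos hk) (half_lt_self hk)
  refine ⟨δ₀, hδ₀, fun δ hδ hδ' => ?_⟩
  filter_upwards [H δ hδ hδ'] with n Hn ω hg hF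
  exact (Hn ω hg hF).1

theorem FrS.L2ace.c (h : Φ.L2ace RS F Kt θ S₀) : Φ.L2c RS θ S₀ := by
  obtain ⟨k, hk, H⟩ := h
  obtain ⟨A, δ₀, -, hδ₀, H⟩ := H k hk le_rfl (k / 2) (half_pos hk) (half_lt_self hk)
  refine ⟨k, δ₀, hk, hδ₀, fun δ hδ hδ' => ?_⟩
  filter_upwards [H δ hδ hδ'] with n Hn ω hg hF
  exact (Hn ω hg hF).2.1

theorem FrS.L2ace.e (h : Φ.L2ace RS F Kt θ S₀) : Φ.L2e RS F Kt θ := by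
  obtain ⟨k, hk, H⟩ := h
  refine ⟨k, hk, fun κ' hκ hκ' => ?_⟩
  obtain ⟨A, δ₀, hA, hδ₀, H⟩ := H k hk le_rfl κ' hκ hκ'
  refine ⟨A, δ₀, hA, hδ₀, fun δ hδ hδ' => ?_⟩
  filter_upwards [H δ hδ hδ'] with n Hn ω hg hF
  exact (Hn ω hg hF).2.2

theorem FrS.L2bd.b (h : Φ.L2bd RS F Kt θ) : Φ.L2b RS θ := by
  obtain ⟨k, hk, H⟩ := h
  obtain ⟨A, δ₀, -, hδ₀, H⟩ := H k hk le_rfl (k / 2) (half_pos hk) (half_lt_self hk)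
  refine ⟨k, δ₀, hk, hδ₀, fun δ hδ hδ' => ?_⟩
  filter_upwards [H δ hδ hδ'] with n Hn ω hg hF
  exact (Hn ω hg hF).1

theorem FrS.L2bd.d (h : Φ.L2bd RS F Kt θ) : Φ.L2d RS F Kt θ := by
  obtain ⟨k, hk, H⟩ := h
  obtain ⟨A, δ₀, hA, hδ₀, H⟩ := H k hk le_rfl (k / 2) (half_pos hk) (half_lt_self hk)
  refine ⟨k, A, δ₀, hk, hA, hδ₀, fun δ hδ hδ' => ?_⟩
  filter_upwards [H δ hδ hδ'] with n Hn ω hg hF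
  exact (Hn ω hg hF).2

/-- **`L2Sg` from two parts.** -/
theorem FrS.l2_of (h : Φ.L2ace RS F Kt θ S₀) (h' : Φ.L2bd RS F Kt θ) : Φ.L2Sg RS F Kt θ S₀ :=
  FrS.l2sg_of h.a h'.b h.c h'.d h.e

end Vale.Agent.P167.N.ID
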