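import Vale.Agent.P167.N.ID.HoleX
import Vale.Agent.P167.N.ID.WinHd

/-!
# P167, `q < 1`, START: windows at the holes, from the data of the holes

* `HolW.of_holeN`: the holes with two rows.
* `FrS.InH.of_holW`: the loops at a hole with `HolW` live in windows.
-/

set_option autoImplicit false

namespace Vale.Agent.P167.N.ID

open Finset Filter
open Vale.Agent.P167.FK
open Vale.Agent.P167.BR
open Vale.Agent.P167.Top
open Vale.Agent.P167.XDL (bS mem_bS)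
open Vale.Agent.P167.H871
open Vale.Agent.P167.H871.Q

/-- The windows of a hole with two rows. -/
theorem HolW.of_holeN {θ c : ℝ} {τ : ℤ} {z : ℤ × ℤ} {d κ : ℤ} {A B R : ℕ} {mA mB : Bool}
    {K : Finset (ℤ × ℤ)} {EE : Set Ed} {a : Ed → Bool → ℝ} {b : Bool} {ρ : ℤ}
    (h : HoleN θ c τ z d κ A B R mA mB K EE a) (hb : τ = if b then -1 else 1) (hρ : ρ = R) :
    HolW θ K EE a z ρ b := by
  subst hρ
  obtain ⟨P, U, hbd, hW⟩ := exists_win h.kap h.posA h.posB h.ltA h.ltB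
  intro v hv hvB
  refine ⟨wH θ c τ z d κ A B R mA mB P U, h.ok hbd hW, ?_, fun u hu => mem_coe.2 hu,
    fun u _ _ => trivial, hb, fun _ => id⟩
  by_contra h1
  exact hv (h.kb v hvB h1)

/-- **The loops at a hole live in windows.** -/
theorem FrS.InH.of_holW {Φ : FrS Row} {θ δ : ℝ} {n : ℕ} {x : Φ.H} {R : ℤ}
    (h : HolW θ (Φ.U (rowS θ) δ n) (EEr (Φ.r δ n)) (Φ.ph (rowS θ) δ n 0) (Φ.h δ n x) R (Φ.b δ n x))
    (hc : ∀ ω, Φ.Frz (rowS θ) δ n ω → ∀ v ∈ Φ.U (rowS θ) δ n, v ∈ Bq (Φ.h δ n x) R →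
      ω v = Φ.b δ n x) : Φ.InH θ δ n R x := by
  intro ω _ hf ℓ hl h1 h2
  obtain ⟨e, he, hel⟩ := h2
  -- an unfrozen square of the loop
  obtain ⟨y, hy, hyK⟩ : ∃ y ∈ ℓ, hdv y ∉ Φ.U (rowS θ) δ n := by
    rcases mem_bS.1 he with ⟨-, h4⟩ | ⟨h4, -⟩
    · have hxi : e ∈ ℓ.image (nx ω) := by rw [hl.image]; exact hel
      obtain ⟨y, hy, rfl⟩ := mem_image.1 hxi
      exact ⟨y, hy, by rwa [tlv_nx] at h4⟩
    · exact ⟨e, hel, h4⟩
  obtain ⟨w, hw, hD, hV, hC, hσ, hZ⟩ := h _ hyK (h1 y hy)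
  refine ⟨w, hw, ⟨hl, fun y hy => hV _ (h1 y hy), fun y hy hK => ⟨hC _ hK (h1 y hy), ?_⟩,
    ⟨e, he, hel⟩, ⟨y, hy, hD⟩⟩, hZ⟩
  rw [hc ω hf _ hK (h1 y hy), hσ]
  cases Φ.b δ n x <;> simp

end Vale.Agent.P167.N.ID
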