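import Vale.Agent.P167.N.ID.WinFoot
import Vale.Agent.P167.N.ID.WinHc
import Vale.Agent.P167.N.ID.L2D

/-!
# P167, block ID: the windows at the holes of the two families of frames

* `holW_T`, `holW_F`: the holes of the Dobrushin frames at the spoke.
* `frP_holG`, `frD_holG`: `FrS.HolG`.
* `frD_inH`: the loops at the holes of the Dobrushin frames live in windows.
* `frD_l2d`: the product over the loops at the holes.
-/

set_option autoImplicit false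

namespace Vale.Agent.P167.N.ID

open Finset Filter Topology
open Vale.Agent.P167 Vale.Agent.P167.N
open Vale.Agent.P167.FK (Bq Good)
open Vale.Agent.P167.A (plane)
open Vale.Agent.P167.E6 (IsPolygon Encloses dir)
open Vale.Agent.P167.H825 (pdir ptau enl Box Marks)
open Vale.Agent.P167.H825.Q (Bc)
open Vale.Agent.P167.H662 (hsite)
open Vale.Agent.P167.H199 (mks mks_ok Gap exists_Gap c0)
open Vale.Agent.P167.XDL (bS mem_bS)
open Vale.Agent.P167.H680.T (uI mem_uI WCG)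
open Vale.Agent.P167.Enl (BGap exists_BGap kOf uN vp mem_Bq' pA pA_lt)

/-- The window of a hole with two rows. -/
theorem HoleN.holW {θ c : ℝ} {τ : ℤ} {z : ℤ × ℤ} {d κ : ℤ} {A B R : ℕ} {mA mB : Bool}
    {K : Finset (ℤ × ℤ)} {EE : Set Ed} {a : Ed → Bool → ℝ} {b : Bool}
    (h : HoleN θ c τ z d κ A B R mA mB K EE a) (hb : b = decide (τ = -1)) :
    HolW θ K EE a z R b := by
  refine HolW.of_holeN h ?_ rfl
  subst hb
  rcases h.sg with rfl | rfl <;> simp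

variable {l : ℕ} {θ β : ℝ} {p : ZMod l → ℤ × ℤ} {S₀ : Finset (ℤ × ℤ)} {b : Box} {tp : ℝ} {bc : Bc}
  {n : ℕ} {g δ : ℝ} {ia : ℕ} {ta : ℝ}

theorem Bq_subW {z v : ℤ × ℤ} {r s : ℤ} (h : r ≤ s) (hv : v ∈ Bq z r) : v ∈ Bq z s := by
  rw [mem_bq'] at hv ⊢
  omega

/-- The sign of the windows at the spoke. -/
theorem sgn_T99 (p : ZMod l → ℤ × ℤ) (ia : ℕ) :
    (if clT p ia then 1 else -1 : ℤ) = if decide (cT p ia = -1) then -1 else 1 := by
  unfold cT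
  by_cases h : clT p ia
  · rw [if_pos h, if_pos h, if_neg]
    simp
    norm_num
  · rw [if_neg h, if_neg h, if_pos]
    simp

/-- **The window at the vertex with the spoke.** -/
theorem holW_T [NeZero l] (H : DobN p S₀ b tp g δ n)
    (hbg : BGap l (mks p b tp) g (.dob ia ta)) {ρ : ℤ} (h1 : (⌊δ * n⌋₊ : ℤ) + 3 ≤ ρ)
    (h2 : (ρ : ℝ) + 2 ≤ g / 16 * n) :
    HolW θ ((frD θ β p S₀ b tp ia ta).U (rowS θ) δ n) (EEr ((frD θ β p S₀ b tp ia ta).r δ n))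
      ((frD θ β p S₀ b tp ia ta).ph (rowS θ) δ n 0)
      ((frD θ β p S₀ b tp ia ta).h δ n (.inl (xT H.hp (mks p b tp)))) ρ
      ((frD θ β p S₀ b tp ia ta).b δ n (.inl (xT H.hp (mks p b tp)))) := by
  lift ρ to ℕ using by omega with r
  obtain ⟨w, w1, w2, w3, w4, w5, w6⟩ := H.winT (θ := θ) (β := β) (ia := ia) (ta := ta) hbg
    (R := r + 1) (by push_cast at h2 ⊢; linarith) (by omega)
  have eh : (frD θ β p S₀ b tp ia ta).h δ n (.inl (xT H.hp (mks p b tp))) =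
      ((n : ℤ) * (p (iT p)).1, (n : ℤ) * (p (iT p)).2) := hsT H.hp H.hQ
  have eb : (frD θ β p S₀ b tp ia ta).b δ n (.inl (xT H.hp (mks p b tp))) =
      decide (cT p ia = -1) := wcJ_T H hbg
  rw [eh, eb]
  have e1 : (((r + 1 : ℕ) : ℤ) - 1) = (r : ℤ) := by push_cast; ring
  rw [e1] at w4 w5
  intro v hv hvB
  refine ⟨w, w1, w3 v hv (Bq_subW (by push_cast; omega) hvB), w4, fun u hu => w5 u hu, ?_, w6.1⟩
  rw [w2, sgn_T99]

/-- **The windows at the foot of the spoke.** -/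
theorem holW_F [NeZero l] (H : DobN p S₀ b tp g δ n) {ρ : ℤ} (h1 : (⌊δ * n⌋₊ : ℤ) + 3 ≤ ρ)
    (h2 : (ρ : ℝ) + 3 ≤ g / 16 * n) :
    HolW θ ((frD θ β p S₀ b tp ia ta).U (rowS θ) δ n) (EEr ((frD θ β p S₀ b tp ia ta).r δ n))
      ((frD θ β p S₀ b tp ia ta).ph (rowS θ) δ n 0)
      ((frD θ β p S₀ b tp ia ta).h δ n (.inr (.inr ()))) ρ
      ((frD θ β p S₀ b tp ia ta).b δ n (.inr (.inr ()))) := by
  lift ρ to ℕ using by omega with r
  intro v hv hvB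
  change v ∈ Bq (ftD p n) r at hvB
  show ∃ w : WinD, _ ∧ v ∈ w.D ∧ (∀ u ∈ Bq (ftD p n) r, u ∈ w.V) ∧ (∀ u ∈ _, u ∈ Bq (ftD p n) r →
    u ∈ w.C) ∧ w.σ = (if decide (cT p ia = -1) then -1 else 1) ∧ _
  push_cast at h2
  rcases lt_or_ge v.2 (-1) with h3 | h3
  · obtain ⟨w, w1, w2, w3, w4, w5, w6⟩ := H.winFb (θ := θ) (β := β) (ia := ia) (ta := ta)
      (R := r + 1) (by push_cast; linarith) (by omega)
    have e1 : (((r + 1 : ℕ) : ℤ) - 1) = (r : ℤ) := by push_cast; ring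
    rw [e1] at w4 w5
    refine ⟨w, w1, w3 v h3 (Bq_subW (by push_cast; omega) hvB), w4, fun u hu => w5 u hu, ?_, w6.1⟩
    rw [w2, sgn_T99]
  · have h4 : v.2 ≠ -1 := fun h5 =>
      hv ((H.mem_F (R := r) (by linarith) hvB).2 (Or.inl h5))
    obtain ⟨w, w1, w2, w3, w4, w5, w6⟩ := H.winF (θ := θ) (β := β) (ia := ia) (ta := ta)
      (R := r) (by push_cast; linarith) (by omega)
    refine ⟨w, w1, w3 v hv (by omega) hvB, w4, fun u hu => w5 u hu, ?_, w6.1⟩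
    rw [w2, sgn_T99]

/-- **The windows at the holes of the Dobrushin frames**, one scale. -/
theorem holW_D [NeZero l] (H : DobN p S₀ b tp g δ n)
    (hbg : BGap l (mks p b tp) g (.dob ia ta)) {R : ℕ} (h1 : ⌊δ * n⌋₊ + 3 ≤ R)
    (h2 : (R : ℝ) + 3 ≤ g / 16 * n) (x : (frD θ β p S₀ b tp ia ta).H) :
    HolW θ ((frD θ β p S₀ b tp ia ta).U (rowS θ) δ n) (EEr ((frD θ β p S₀ b tp ia ta).r δ n))
      ((frD θ β p S₀ b tp ia ta).ph (rowS θ) δ n 0) ((frD θ β p S₀ b tp ia ta).h δ n x) R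
      ((frD θ β p S₀ b tp ia ta).b δ n x) := by
  rcases x with x | x | ⟨⟩
  · by_cases hx : x = xT H.hp (mks p b tp)
    · subst hx
      exact holW_T H hbg (by exact_mod_cast h1) (by push_cast; linarith)
    · exact (holeD H hbg h1 (by linarith) x hx).holW (wcJ_tz (Q := mks p b tp) x)
  · refine (holeB H h1 (by linarith) x).holW ?_
    show decide (cT p ia = -1) = _
    obtain ⟨b1, b3, b5, b6, b7⟩ := H.basic
    obtain ⟨c1, c2, c3, c4⟩ := H.box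
    have hNn : 0 < bM p * n := Nat.mul_pos (DobN.hM (p := p)) b5
    have ht : tG pQ (bM p * n) (tqB (bQ b (bM p))) (cT p ia) < bM p * n :=
      t_lt H.hQ' H.hg' c2 c3 (tG_le pQ (bM p * n) (tqB (bQ b (bM p))) (cT p ia)).2
    have h1 := Enl.kOf_lt x.1.2 (pA_lt H.hQ' hNn x) ht
    have h2 : H825.Q.stτ (Bc.free.ka 4 (bM p * n)
        (tG pQ (bM p * n) (tqB (bQ b (bM p))) (cT p ia)))
        (kOf 4 (bM p * n) (tG pQ (bM p * n) (tqB (bQ b (bM p))) (cT p ia)) x.1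
          (pA (bM p * n) (mksQ p b) x)) = 1 := if_pos h1
    rw [h2, mul_one]
    rcases cT_or p ia with h | h <;> rw [h] <;> unfold tz
    · rw [if_pos rfl]
      norm_num
    · rw [if_neg (by norm_num)]
      norm_num
  · exact holW_F H (by exact_mod_cast h1) (by push_cast; linarith)

/-- **The windows at the holes of the free and wired frames**, one scale. -/
theorem holW_P [NeZero l] (hp : IsPolygon p) (hD : Encloses p S₀) (hN : Nrm p)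
    (hQ : (mks p b tp).Ok) (hbc : bc = .free ∨ bc = .wired) (hbg : BGap l (mks p b tp) g bc)
    (hg : Gap (mks p b tp) l g) (hδ : 0 < δ) (hδg : 4 * δ ≤ g) (hn : 16 ≤ δ * n) {R : ℕ}
    (hR1 : ⌊δ * n⌋₊ + 3 ≤ R) (hR2 : (R : ℝ) + 2 < g / 16 * n)
    (x : (frP θ β p S₀ b tp bc).H) :
    HolW θ ((frP θ β p S₀ b tp bc).U (rowS θ) δ n) (EEr ((frP θ β p S₀ b tp bc).r δ n))
      ((frP θ β p S₀ b tp bc).ph (rowS θ) δ n 0) ((frP θ β p S₀ b tp bc).h δ n x) R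
      ((frP θ β p S₀ b tp bc).b δ n x) := by
  have hl : 0 < l := Nat.pos_of_ne_zero (NeZero.ne l)
  obtain ⟨b1, b2, b3, b4, b5⟩ := Enl.gn_big hQ hg hδg hn hl
  have e16 : g / 16 * n = g * n / 16 := by ring
  exact (holeP hp hD hN hQ hbc (bc_ok (by linarith) hbg) hg hδ hδg hn hR1 (by linarith) x).holW
    (wcJ_tz (Q := mks p b tp) x)

/-! ### all scales -/

/-- **The windows at the holes of the free and wired frames.** -/
theorem frP_holG [NeZero l] (hp : IsPolygon p) (hD : Encloses p S₀) (hN : Nrm p) (hb : b.Ok S₀)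
    (h0 : 0 < tp) (h1 : tp < 1)
    (ht : ∀ i : ℤ, ∀ y ∈ ({b.xl, b.xr, b.yb, b.yt} : Set ℝ), y ≠ i + tp ∧ y ≠ i - tp)
    (hbc : bc.Ok l (mks p b tp)) (hbc' : bc = .free ∨ bc = .wired) :
    (frP θ β p S₀ b tp bc).HolG θ := by
  have hgen : H199.Gen b := ⟨hb.gx, hb.gy⟩
  have hQ := mks_ok p hgen h0 h1 ht
  obtain ⟨g1, hg1, hG⟩ := exists_Gap hQ l
  obtain ⟨g2, hg2, hB⟩ := exists_BGap hbc
  set g := min g1 g2 with hgdef
  have hg0 : 0 < g := lt_min hg1 hg2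
  have hG' : Gap (mks p b tp) l g := hG.mono (min_le_left _ _)
  have hB' : BGap l (mks p b tp) g bc := hB.mono (min_le_right _ _)
  refine ⟨g / 32, g / 64, by positivity, by positivity, fun δ hδ hδ' => ?_⟩
  filter_upwards [scales hg0 hδ hδ'] with n hn x
  obtain ⟨n1, n2, n3, n4⟩ := hn
  rw [n4]
  exact holW_P hp hD hN hQ hbc' hB' hG' hδ (by linarith) n1 (by omega) n3 x

/-- The scales of the Dobrushin frames. -/
theorem scales_D (hp : IsPolygon p) (hD : Encloses p S₀) (hN : Nrm p)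
    (hb : b.Ok S₀) (h0 : 0 < tp) (h1 : tp < 1)
    (ht : ∀ i : ℤ, ∀ y ∈ ({b.xl, b.xr, b.yb, b.yt} : Set ℝ), y ≠ i + tp ∧ y ≠ i - tp)
    (hbc : (Bc.dob ia ta).Ok l (mks p b tp)) :
    ∃ g : ℝ, 0 < g ∧ BGap l (mks p b tp) g (.dob ia ta) ∧ ∀ δ : ℝ, 0 < δ → δ < g / 64 →
      ∀ᶠ n : ℕ in atTop, DobN p S₀ b tp g δ n ∧ ⌊δ * n⌋₊ + 12 ≤ ⌊g / 32 * n⌋₊ ∧
        (⌊g / 32 * n⌋₊ : ℝ) + 3 ≤ g / 16 * n ∧
        (⌊g / 32 * (n : ℝ)⌋ : ℤ) = (⌊g / 32 * n⌋₊ : ℕ) := by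
  obtain ⟨g1, hg1, hG, -, hH⟩ := exists_dobN hp hD hN hb h0 h1 ht
  obtain ⟨g2, hg2, hB⟩ := exists_BGap hbc
  set g := min g1 g2 with hgdef
  have hg0 : 0 < g := lt_min hg1 hg2
  have hgg : g ≤ g1 := min_le_left _ _
  refine ⟨g, hg0, hB.mono (min_le_right _ _), fun δ hδ hδ' => ?_⟩
  filter_upwards [hH g hg0 hgg δ hδ (by linarith), scales hg0 hδ hδ'] with n hn hs
  obtain ⟨n1, n2, n3, n4⟩ := hs
  refine ⟨hn, n2, ?_, n4⟩
  have e2 := Nat.floor_le (show 0 ≤ g / 32 * n by positivity)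
  have e3 : ((⌊δ * n⌋₊ + 12 : ℕ) : ℝ) ≤ (⌊g / 32 * n⌋₊ : ℝ) := by exact_mod_cast n2
  push_cast at e3
  have e4 : (0 : ℝ) ≤ ⌊δ * n⌋₊ := Nat.cast_nonneg _
  have e5 : g / 16 * n = 2 * (g / 32 * n) := by ring
  linarith

/-- **The windows at the holes of the Dobrushin frames.** -/
theorem frD_holG [NeZero l] (hp : IsPolygon p) (hD : Encloses p S₀) (hN : Nrm p) (hb : b.Ok S₀)
    (h0 : 0 < tp) (h1 : tp < 1)
    (ht : ∀ i : ℤ, ∀ y ∈ ({b.xl, b.xr, b.yb, b.yt} : Set ℝ), y ≠ i + tp ∧ y ≠ i - tp)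
    (hbc : (Bc.dob ia ta).Ok l (mks p b tp)) : (frD θ β p S₀ b tp ia ta).HolG θ := by
  obtain ⟨g, hg, hB, hH⟩ := scales_D hp hD hN hb h0 h1 ht hbc
  refine ⟨g / 32, g / 64, by positivity, by positivity, fun δ hδ hδ' => ?_⟩
  filter_upwards [hH δ hδ hδ'] with n hn x
  obtain ⟨n1, n2, n3, n4⟩ := hn
  rw [n4]
  exact holW_D n1 hB (by omega) n3 x

/-- **The loops at the holes of the Dobrushin frames live in windows.** -/
theorem frD_inH [NeZero l] (hp : IsPolygon p) (hD : Encloses p S₀) (hN : Nrm p) (hb : b.Ok S₀)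
    (h0 : 0 < tp) (h1 : tp < 1)
    (ht : ∀ i : ℤ, ∀ y ∈ ({b.xl, b.xr, b.yb, b.yt} : Set ℝ), y ≠ i + tp ∧ y ≠ i - tp)
    (hbc : (Bc.dob ia ta).Ok l (mks p b tp)) :
    ∃ κ₁ δ₀ : ℝ, 0 < κ₁ ∧ 0 < δ₀ ∧ ∀ δ : ℝ, 0 < δ → δ < δ₀ → ∀ᶠ n : ℕ in atTop,
      ∀ x, (frD θ β p S₀ b tp ia ta).InH θ δ n ⌊κ₁ * n⌋ x := by
  obtain ⟨g, hg, hB, hH⟩ := scales_D hp hD hN hb h0 h1 ht hbc
  refine ⟨g / 32, g / 64, by positivity, by positivity, fun δ hδ hδ' => ?_⟩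
  filter_upwards [hH δ hδ hδ'] with n hn x
  obtain ⟨n1, n2, n3, n4⟩ := hn
  rw [n4]
  refine FrS.InH.of_holW (holW_D n1 hB (by omega) n3 x) ?_
  intro ω hf v hv hvB
  obtain ⟨i, hi⟩ := mem_uI.1 hv
  rw [hf i v hi]
  refine colD n1 hB x i v hi ?_
  have h1 : (nm (v - (frD θ β p S₀ b tp ia ta).h δ n x) : ℝ) ≤ ⌊g / 32 * n⌋₊ := by
    exact_mod_cast mem_Bq' hvB
  linarith

/-- **(d) for the Dobrushin frames.** -/
theorem frD_l2d [NeZero l] (hc : 0 ≤ Real.cos θ) (hθ : 0 < θ) (hθ' : θ < Real.pi / 2)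
    (hp : IsPolygon p) (hD : Encloses p S₀) (hN : Nrm p) (hb : b.Ok S₀)
    (h0 : 0 < tp) (h1 : tp < 1)
    (ht : ∀ i : ℤ, ∀ y ∈ ({b.xl, b.xr, b.yb, b.yt} : Set ℝ), y ≠ i + tp ∧ y ≠ i - tp)
    (hbc : (Bc.dob ia ta).Ok l (mks p b tp)) :
    (frD θ β p S₀ b tp ia ta).L2d (rowS θ) (rowF hc) {true} θ := by
  obtain ⟨κ₁, δ₀, h2, h3, h4⟩ := frD_inH (θ := θ) (β := β) hp hD hN hb h0 h1 ht hbc
  exact FrS.l2d_of hc hθ hθ' h2 h3 h4

end Vale.Agent.P167.N.ID
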