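import Vale.Agent.P167.N.ID.WinNat
import Vale.Agent.P167.N.ID.WinS
import Vale.Agent.P167.N.ID.L2B

/-!
# P167, `q < 1`, START: the loops near the spoke which do not visit the holes

`oneT`, `oneF`: the vertex with the spoke and its foot; `frD_l2b`: (b) of `L2Sg` for the Dobrushin
frames.
-/

set_option autoImplicit false

namespace Vale.Agent.P167.N.ID

open Finset Filter Topology
open Vale.Agent.P167 Vale.Agent.P167.N
open Vale.Agent.P167.FK (Bq Good)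
open Vale.Agent.P167.A (plane)
open Vale.Agent.P167.E6 (IsPolygon Encloses dir)
open Vale.Agent.P167.H825 (pdir ptau enl Box Marks)
open Vale.Agent.P167.H825.Q (Bc stΦ stτ)
open Vale.Agent.P167.H662 (hsite)
open Vale.Agent.P167.H199 (mks mks_ok Gap exists_Gap c0)
open Vale.Agent.P167.XDL (bS mem_bS)
open Vale.Agent.P167.H680.T (uI mem_uI WCG)
open Vale.Agent.P167.H871.Q (Ls Lq)
open Vale.Agent.P167.H871 (sqL)
open Vale.Agent.P167.QX (returns_loop fLp)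
open Vale.Agent.P167.H680.S (nxt nxt_mem)
open Vale.Agent.P167.Enl (sW eW tB kOf uN uA uB uN_before uN_after uA_mod uB_mod turn_mark vp oz vz
  vz_eq oz_eq fin4_cases frmQ mem_frmQ iB jB pA pB gA gB iB_lt jB_le vp_pA vp_pB pB_zero pB_pos
  pA_zero row_pos rows_long frm_box mem_Bq' Bq_of op_near nm_tri nm_sub_comm pA_lt pB_le BGap Two
  two_inl two_inr ends_bd exists_BGap)

variable {l : ℕ} {θ β : ℝ} {p : ZMod l → ℤ × ℤ} {S₀ : Finset (ℤ × ℤ)} {b : Box} {tp : ℝ} {n : ℕ}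
  {g δ : ℝ} {ia : ℕ} {ta : ℝ}

namespace DobN

variable [NeZero l]

/-- **The window at the vertex with the spoke.** -/
theorem winT' (H : DobN p S₀ b tp g δ n) (hbg : BGap l (mks p b tp) g (.dob ia ta)) {R : ℕ}
    (hR : (R : ℝ) ≤ g / 16 * n) (hRd : ⌊δ * n⌋₊ + 3 ≤ R) {ρ : ℤ}
    (hρ : (⌊δ * n⌋₊ : ℤ) + 1 ≤ ρ) :
    ∃ w : WinD, w.Ok θ ((frD θ β p S₀ b tp ia ta).U (rowS θ) δ n)
        (EEr fun x : IxD l => rD θ β p b tp ia ta n ⌊δ * n⌋₊ x)
        ((frD θ β p S₀ b tp ia ta).ph (rowS θ) δ n 0) ∧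
      w.σ = (if clT p ia then 1 else -1) ∧
      w.D = {v | v - ((n : ℤ) * (p (iT p)).1, (n : ℤ) * (p (iT p)).2) ∈
        wTR (R - gB p n (mks p b tp) ⌊δ * n⌋₊ (xT H.hp (mks p b tp)))
          (R - gA p n (mks p b tp) ⌊δ * n⌋₊ (xT H.hp (mks p b tp))) (R - ⌊δ * n⌋₊) R} ∧
      w.V = {v | v - ((n : ℤ) * (p (iT p)).1, (n : ℤ) * (p (iT p)).2) ∈ wTU R} ∧
      w.C = {v | v ∈ (frD θ β p S₀ b tp ia ta).U (rowS θ) δ n ∧
        v - ((n : ℤ) * (p (iT p)).1, (n : ℤ) * (p (iT p)).2) ∈ wTU R} ∧ (∀ j, ¬ w.Z j) ∧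
      NatO w (Bq ((n : ℤ) * (p (iT p)).1, (n : ℤ) * (p (iT p)).2) ρ)
        (cl3 ((n : ℤ) * (p (iT p)).1, (n : ℤ) * (p (iT p)).2)) ∧
      (∀ v, v ∉ (frD θ β p S₀ b tp ia ta).U (rowS θ) δ n →
        v ∈ Bq ((n : ℤ) * (p (iT p)).1, (n : ℤ) * (p (iT p)).2) R → v ∈ w.D) := by
  obtain ⟨b1, b3, b5, b6, b7⟩ := H.basic
  obtain ⟨⟨p1, p2, p3⟩, ⟨p4, p5, p6⟩⟩ := row_pos (p := p) H.hQ H.hg H.hδ H.hδg H.hn
    (xT H.hp (mks p b tp))
  have hd16 : 16 ≤ ⌊δ * n⌋₊ := Nat.le_floor (by push_cast; linarith [H.hn])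
  have hph := H.phT (θ := θ) (β := β) hbg hR hRd
  have hmem := fun v hv => H.mem_T (θ := θ) (β := β) (ia := ia) (ta := ta) hR (v := v) hv
  set gb := gB p n (mks p b tp) ⌊δ * n⌋₊ (xT H.hp (mks p b tp)) with hgb
  set ga := gA p n (mks p b tp) ⌊δ * n⌋₊ (xT H.hp (mks p b tp)) with hga
  have hA : (R : ℤ) - ((R - gb : ℕ) : ℤ) = gb := by omega
  have hB : (R : ℤ) - ((R - ga : ℕ) : ℤ) = ga := by omega
  have hS : -(R : ℤ) + ((R - ⌊δ * n⌋₊ : ℕ) : ℤ) = -(⌊δ * n⌋₊ : ℤ) := by omega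
  set X : ℤ := (n : ℤ) * (p (iT p)).1 with hX
  set Y : ℤ := (n : ℤ) * (p (iT p)).2 with hY
  have hQ : ∀ v, v ∈ Bq (X, Y) R → (v ∈ (frD θ β p S₀ b tp ia ta).U (rowS θ) δ n ↔
      v - (X, Y) ∈ wTQ (R - gb) (R - ga) (R - ⌊δ * n⌋₊) R) := by
    intro v hv
    rw [hmem v hv]
    unfold wTQ
    simp only [Set.mem_ofPred_eq, Prod.fst_sub, Prod.snd_sub]
    rw [hA, hB, hS]
    constructor
    · rintro (⟨h1, h2⟩ | ⟨h1, h2⟩ | ⟨h1, h2⟩)
      · left; omega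
      · right; left; omega
      · right; right; omega
    · rintro (⟨h1, h2⟩ | ⟨h1, h2⟩ | ⟨h1, h2⟩)
      · left; omega
      · right; left; omega
      · right; right; omega
  obtain ⟨w, w1, w2, w3, w4, w5, w6, w7⟩ := winT_ok' (θ := θ) (z := (X, Y))
    (K := (frD θ β p S₀ b tp ia ta).U (rowS θ) δ n)
    (σ := if clT p ia then 1 else -1) (by split_ifs <;> simp) (by omega) (by omega) (by omega)
    (by omega) (by omega) (by omega)
    (fun v hv => hQ v (by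
      obtain ⟨h1, h2, h3, h4⟩ := hv
      simp only [Prod.fst_sub, Prod.snd_sub] at h1 h2 h3 h4
      rw [mem_bq']
      simp only
      omega))
    (fun v hv h => by
      obtain ⟨h1, h2, h3, h4, h5, h6, h7⟩ := h
      simp only [Prod.fst_sub, Prod.snd_sub] at h1 h2 h3 h4
      have h8 := (hQ v (by
        rw [mem_bq']
        simp only
        omega)).1 hv
      rcases h8 with h8 | h8 | h8
      · exact h5 h8
      · exact h6 h8
      · exact h7 h8)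
    (fun g hg _ => by
      rw [ph_D, phr_off (fun v => mem_U v) H.rsep hg, phr_off (fun v => mem_U v) H.rsep hg,
        add_zero])
    hph (ρ := ρ) (by omega) (by omega) (by omega) (by omega)
  refine ⟨w, w1, w2, w3, w4, w5, w6, w7, fun v hv hv2 => ?_⟩
  · rw [w3]
    have h1 := mem_bq'.1 hv2
    simp only at h1
    have h2 := fun h => hv ((hQ v hv2).2 h)
    unfold wTQ at h2
    simp only [Set.mem_ofPred_eq, Prod.fst_sub, Prod.snd_sub] at h2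
    show _ ∧ _ ∧ _ ∧ _ ∧ _ ∧ _ ∧ _
    simp only [Prod.fst_sub, Prod.snd_sub]
    refine ⟨by omega, by omega, by omega, by omega, fun h => h2 (Or.inl h),
      fun h => h2 (Or.inr (Or.inl h)), fun h => h2 (Or.inr (Or.inr h))⟩

section foot

variable {R : ℕ} {x : ℤ}

/-- **The window above the row of the box at the foot of the spoke.** -/
theorem winF' (H : DobN p S₀ b tp g δ n) (hR : ((R + 1 : ℕ) : ℝ) ≤ g / 16 * n)
    (hRd : ⌊δ * n⌋₊ + 3 ≤ R) {ρ : ℤ} (hρ : (⌊δ * n⌋₊ : ℤ) + 1 ≤ ρ) :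
    ∃ w : WinD, w.Ok θ ((frD θ β p S₀ b tp ia ta).U (rowS θ) δ n)
        (EEr fun x : IxD l => rD θ β p b tp ia ta n ⌊δ * n⌋₊ x)
        ((frD θ β p S₀ b tp ia ta).ph (rowS θ) δ n 0) ∧
      w.σ = (if clT p ia then 1 else -1) ∧
      w.D = {v | v - ftD p n ∈ wFR (R + 1 - ⌊δ * n⌋₊) R} ∧ w.V = {v | v - ftD p n ∈ wFU R} ∧
      w.C = {v | v ∈ (frD θ β p S₀ b tp ia ta).U (rowS θ) δ n ∧ v - ftD p n ∈ wFU R} ∧
      (∀ j, ¬ w.Z j) ∧ NatO w (Bq (ftD p n) ρ) (cl2 (ftD p n)) ∧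
      (∀ v, v ∉ (frD θ β p S₀ b tp ia ta).U (rowS θ) δ n → 0 ≤ v.2 →
        v ∈ Bq (ftD p n) R → v ∈ w.D) := by
  have hR' : (R : ℝ) ≤ g / 16 * n := by push_cast at hR; linarith
  have hd16 : 16 ≤ ⌊δ * n⌋₊ := Nat.le_floor (by push_cast; linarith [H.hn])
  have hph := H.phF (θ := θ) (β := β) (b := b) (ia := ia) (ta := ta) hR' hRd
  have hmem := fun v hv => H.mem_F (θ := θ) (β := β) (ia := ia) (ta := ta) hR (v := v) hv
  have hS : (R : ℤ) + 1 - ((R + 1 - ⌊δ * n⌋₊ : ℕ) : ℤ) = ⌊δ * n⌋₊ := by omega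
  have hft : (ftD p n).1 = n * (p (iT p)).1 := rfl
  have hft2 : (ftD p n).2 = 0 := rfl
  have hQ : ∀ v, v ∈ Bq (ftD p n) ((R + 1 : ℕ) : ℤ) →
      (v ∈ (frD θ β p S₀ b tp ia ta).U (rowS θ) δ n ↔
        v - ftD p n ∈ wFQ (R + 1 - ⌊δ * n⌋₊) R) := by
    intro v hv
    rw [hmem v hv]
    unfold wFQ
    simp only [Set.mem_ofPred_eq, Prod.fst_sub, Prod.snd_sub]
    rw [hS, hft, hft2]
    constructor
    · rintro (h1 | ⟨h1, h2⟩)
      · left; omega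
      · right; omega
    · rintro (h1 | ⟨h1, h2⟩)
      · left; omega
      · right; omega
  obtain ⟨w, w1, w2, w3, w4, w5, w6, w7⟩ := winF_ok' (θ := θ) (z := ftD p n)
    (K := (frD θ β p S₀ b tp ia ta).U (rowS θ) δ n)
    (σ := if clT p ia then 1 else -1) (by split_ifs <;> simp) (by omega) (by omega)
    (fun v hv => hQ v (by
      obtain ⟨h1, h2, h3, h4⟩ := hv
      simp only [Prod.fst_sub, Prod.snd_sub] at h1 h2 h3 h4
      rw [mem_bq']
      push_cast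
      omega))
    (fun v hv h => by
      obtain ⟨h1, h2, h3, h4, h5⟩ := h
      simp only [Prod.fst_sub, Prod.snd_sub] at h1 h2 h3 h4 h5
      have h8 := (hQ v (by
        rw [mem_bq']
        push_cast
        omega)).1 hv
      unfold wFQ at h8
      simp only [Set.mem_ofPred_eq, Prod.fst_sub, Prod.snd_sub] at h8
      rcases h8 with h8 | h8
      · omega
      · exact h5 h8)
    (fun g hg _ => by
      rw [ph_D, phr_off (fun v => mem_U v) H.rsep hg, phr_off (fun v => mem_U v) H.rsep hg,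
        add_zero])
    hph (ρ := ρ) (by omega) (by omega)
  refine ⟨w, w1, w2, w3, w4, w5, w6, w7, fun v hv hv0 hv2 => ?_⟩
  · rw [w3]
    have h1 := mem_bq'.1 hv2
    have h2 := fun h => hv ((hQ v (by rw [mem_bq']; push_cast; omega)).2 h)
    unfold wFQ at h2
    simp only [Set.mem_ofPred_eq, Prod.fst_sub, Prod.snd_sub] at h2
    show _ ∧ _ ∧ _ ∧ _ ∧ _
    simp only [Prod.fst_sub, Prod.snd_sub]
    refine ⟨by omega, by omega, by omega, by omega, fun h => h2 (Or.inr h)⟩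

/-- **The window below the row of the box at the foot of the spoke.** -/
theorem winFb' (H : DobN p S₀ b tp g δ n) (hR : ((R + 2 : ℕ) : ℝ) ≤ g / 16 * n)
    (hRd : ⌊δ * n⌋₊ + 3 ≤ R) :
    ∃ w : WinD, w.Ok θ ((frD θ β p S₀ b tp ia ta).U (rowS θ) δ n)
        (EEr fun x : IxD l => rD θ β p b tp ia ta n ⌊δ * n⌋₊ x)
        ((frD θ β p S₀ b tp ia ta).ph (rowS θ) δ n 0) ∧
      w.σ = (if clT p ia then 1 else -1) ∧
      (∀ v, v.2 < -1 → v ∈ Bq (ftD p n) R → v ∈ w.D) ∧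
      (∀ v, v ∈ Bq (ftD p n) (R - 1) → v ∈ w.V) ∧
      (∀ v ∈ (frD θ β p S₀ b tp ia ta).U (rowS θ) δ n, v ∈ Bq (ftD p n) (R - 1) → v ∈ w.C) ∧
      (∀ j, ¬ w.Z j) ∧ (∀ j, w.s j = 0) ∧
      ∀ v ∈ w.D, v.2 < -1 := by
  have hR' : ((R : ℕ) : ℝ) ≤ g / 16 * n := by push_cast at hR; linarith
  have hmem := fun v hv => H.mem_F (θ := θ) (β := β) (ia := ia) (ta := ta) hR (v := v) hv
  have hft : (ftD p n).1 = n * (p (iT p)).1 := rfl
  have hft2 : (ftD p n).2 = 0 := rfl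
  obtain ⟨w, w1, w2, w3, w4, w5, w6, -, w8⟩ := winR_ok (θ := θ)
    (a := (frD θ β p S₀ b tp ia ta).ph (rowS θ) δ n 0)
    (EE := EEr fun x : IxD l => rD θ β p b tp ia ta n ⌊δ * n⌋₊ x)
    (z := ((n : ℤ) * (p (iT p)).1, -1)) (R := R)
    (K := (frD θ β p S₀ b tp ia ta).U (rowS θ) δ n) (c := ET θ β p ia - 3 * θ / 4) (e := 2)
    (X₀ := Set.univ) (x₀ := 0) (δ := 0)
    (σ := if clT p ia then 1 else -1) (by split_ifs <;> simp) (by omega)
    (fun v hv hv2 => by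
      rw [Lq2] at hv hv2 ⊢
      obtain ⟨h1, h2, h3, h4⟩ := hv
      simp only at h1 h2 h3 h4 hv2 ⊢
      rw [hmem v (by rw [mem_bq', hft, hft2]; push_cast; omega)]
      constructor
      · rintro (h | h)
        · omega
        · omega
      · intro h
        left
        omega)
    (fun v hv h => by
      rw [Lq2] at h
      obtain ⟨h1, h2, h3, h4⟩ := h
      simp only at h1 h2 h3 h4
      have h5 := (hmem v (by rw [mem_bq', hft, hft2]; push_cast; omega)).1 hv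
      omega)
    (fun g hg _ => by
      rw [ph_D, phr_off (fun v => mem_U v) H.rsep hg, phr_off (fun v => mem_U v) H.rsep hg,
        add_zero])
    (fun x h1 h2 _ => by
      rw [Ls2]
      refine (H.rowQ_face (x := -x - 1) hR' (by omega) (by omega) false).cast' ?_ ?_ ?_
        (by rw [sgT_cast]) Iff.rfl
      · rw [show (2 : ℤ) - 1 = 1 by norm_num, (sqL_e _ _).2.1]
        refine Prod.ext ?_ ?_
        · show (n : ℤ) * (p (iT p)).1 + (-x - 1) = (n : ℤ) * (p (iT p)).1 - x - 1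
          ring
        · show (-1 : ℤ) = -1 - 0
          norm_num
      · rw [(sqL_e _ _).2.2.1]
        refine Prod.ext ?_ ?_
        · show (n : ℤ) * (p (iT p)).1 + (-x - 1) = (n : ℤ) * (p (iT p)).1 - x - 1
          ring
        · show -(if false = true then (0 : ℤ) else 2) = -1 - 0 - 1
          norm_num
      · rw [ite_self]
        simp only [Bool.false_eq_true, if_false]
        push_cast
        ring)
    (Or.inl rfl)
  refine ⟨w, w1, w2, fun v hv hv2 => ?_, fun v hv => ?_, fun v hv hv2 => ?_,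
    w6 (by norm_num), w8 rfl, fun v hv => ?_⟩
  · rw [w3]
    have h1 := mem_bq'.1 hv2
    show Lq _ 2 v ∈ wRR R
    rw [Lq2]
    show _ ∧ _ ∧ _ ∧ _
    simp only
    rw [hft, hft2] at h1
    omega
  · rw [w4]
    have h1 := mem_bq'.1 hv
    show Lq _ 2 v ∈ wFU R
    rw [Lq2]
    show _ ∧ _ ∧ _ ∧ _
    simp only
    rw [hft, hft2] at h1
    omega
  · rw [w5]
    have h1 := mem_bq'.1 hv2
    refine ⟨hv, ?_, Set.mem_univ _⟩
    show Lq _ 2 v ∈ wFU R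
    rw [Lq2]
    show _ ∧ _ ∧ _ ∧ _
    simp only
    rw [hft, hft2] at h1
    omega
  · rw [w3] at hv
    change Lq _ 2 v ∈ wRR R at hv
    rw [Lq2] at hv
    obtain ⟨h2, h3, h4, h5⟩ := hv
    simp only at h2 h3 h4 h5
    omega

end foot

end DobN

/-- Adjacent squares. -/
theorem nb_sq (g : Ed) : ((hdv g).1 = (tlv g).1 ∧ (hdv g).2 ≤ (tlv g).2 + 1 ∧
      (tlv g).2 ≤ (hdv g).2 + 1) ∨
    ((hdv g).2 = (tlv g).2 ∧ (hdv g).1 ≤ (tlv g).1 + 1 ∧ (tlv g).1 ≤ (hdv g).1 + 1) := by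
  have h := Lq_nb 0 0 g
  rw [Lq0, Lq0, sub_zero, sub_zero] at h
  exact h

/-- The squares at an exit of a loop and at the entry behind it. -/
theorem exs_sq {K : Finset (ℤ × ℤ)} {ω : Cfg} {ℓ : Finset Ed} (hl : IsLoop ω ℓ) {e : Ed}
    (he : e ∈ exs K ℓ) : (tlv e ∈ K ∧ hdv e ∉ K ∧ (∃ y ∈ ℓ, hdv y = tlv e) ∧ e ∈ ℓ) ∧
      hdv (nxt (bS K) ω e) ∈ K ∧ tlv (nxt (bS K) ω e) ∉ K ∧ nxt (bS K) ω e ∈ ℓ ∧
      ∃ y ∈ ℓ, hdv y = tlv (nxt (bS K) ω e) := by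
  have pre : ∀ x ∈ ℓ, ∃ y ∈ ℓ, hdv y = tlv x := fun x hx => by
    have hxi : x ∈ ℓ.image (nx ω) := by rw [hl.image]; exact hx
    obtain ⟨y, hy, rfl⟩ := mem_image.1 hxi
    exact ⟨y, hy, (tlv_nx _ _).symm⟩
  obtain ⟨g1, g2, g3⟩ := mem_exs.1 he
  have hr := returns_loop hl g3 g1
  have n1 := nxt_mem (S := bS K) hl g1 g3
  have h1 := QX.exc_last g2 hr
  refine ⟨⟨?_, g2, pre e g3, g3⟩, h1.1, ?_, n1.2, pre _ n1.2⟩
  · rcases mem_bS.1 g1 with ⟨h1, -⟩ | ⟨-, h1⟩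
    · exact absurd h1 g2
    · exact h1
  · have h2 := n1.1
    rcases mem_bS.1 h2 with ⟨-, h3⟩ | ⟨h3, -⟩
    · exact h3
    · exact absurd h1.1 h3

/-- The components at a corner do not change off the hole. -/
theorem cl3_nb {z : ℤ × ℤ} {A B S R : ℕ} {ρ : ℤ} (hA : (R : ℤ) - A ≤ ρ) (hB : (R : ℤ) - B ≤ ρ)
    (hS : (R : ℤ) - S ≤ ρ) {g : Ed} (h5 : tlv g - z ∈ wTR A B S R) (h6 : hdv g - z ∈ wTR A B S R)
    (h7 : tlv g ∉ Bq z ρ) (h8 : hdv g ∉ Bq z ρ) : cl3 z (tlv g) = cl3 z (hdv g) := by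
  have h9 := nb_sq g
  obtain ⟨a1, a2, a3, a4, a5, a6, a7⟩ := h5
  obtain ⟨b1, b2, b3, b4, b5, b6, b7⟩ := h6
  rw [mem_bq'] at h7 h8
  simp only [Prod.fst_sub, Prod.snd_sub] at a1 a2 a3 a4 a5 a6 a7 b1 b2 b3 b4 b5 b6 b7
  unfold cl3
  generalize tlv g = v at *
  generalize hdv g = w at *
  obtain ⟨v1, v2⟩ := v
  obtain ⟨w1, w2⟩ := w
  obtain ⟨z1, z2⟩ := z
  simp only at *
  split_ifs <;> omega

/-- The components at the foot do not change off the hole. -/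
theorem cl2_nb {z : ℤ × ℤ} {S R : ℕ} {ρ : ℤ} (hS : (R : ℤ) + 1 - S ≤ ρ) {g : Ed}
    (h5 : tlv g - z ∈ wFR S R) (h6 : hdv g - z ∈ wFR S R)
    (h7 : tlv g ∉ Bq z ρ) (h8 : hdv g ∉ Bq z ρ) : cl2 z (tlv g) = cl2 z (hdv g) := by
  have h9 := nb_sq g
  obtain ⟨a1, a2, a3, a4, a5⟩ := h5
  obtain ⟨b1, b2, b3, b4, b5⟩ := h6
  rw [mem_bq'] at h7 h8
  simp only [Prod.fst_sub, Prod.snd_sub] at a1 a2 a3 a4 a5 b1 b2 b3 b4 b5
  unfold cl2
  refine decide_eq_decide.2 ?_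
  generalize tlv g = v at *
  generalize hdv g = w at *
  obtain ⟨v1, v2⟩ := v
  obtain ⟨w1, w2⟩ := w
  obtain ⟨z1, z2⟩ := z
  simp only at *
  omega

section one

variable [NeZero l] {R : ℕ}

/-- **The vertex with the spoke.** -/
theorem oneT (h0 : 0 < θ) (h1 : θ < Real.pi / 2) (H : DobN p S₀ b tp g δ n)
    (hbg : BGap l (mks p b tp) g (.dob ia ta)) (hR1 : ⌊δ * n⌋₊ + 3 ≤ R)
    (hR2 : (R : ℝ) + 2 < g / 16 * n) :
    (frD θ β p S₀ b tp ia ta).OneH θ δ n R (.inl (xT H.hp (mks p b tp))) := by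
  obtain ⟨w, w1, w2, w3, w4, w5, w6, w7, w8⟩ := H.winT' (θ := θ) (β := β) (ia := ia) (ta := ta) hbg
    (R := R + 1) (by push_cast; linarith) (by omega) (ρ := (⌊δ * (n : ℝ)⌋₊ : ℤ) + 4) (by omega)
  have eh : (frD θ β p S₀ b tp ia ta).h δ n (.inl (xT H.hp (mks p b tp))) =
      ((n : ℤ) * (p (iT p)).1, (n : ℤ) * (p (iT p)).2) := hsT H.hp H.hQ
  have eb : (frD θ β p S₀ b tp ia ta).b δ n (.inl (xT H.hp (mks p b tp))) =
      decide (cT p ia = -1) := wcJ_T H hbg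
  obtain ⟨⟨p1, p2, p3⟩, ⟨p4, p5, p6⟩⟩ := row_pos (p := p) H.hQ H.hg H.hδ H.hδg H.hn
    (xT H.hp (mks p b tp))
  have hRg : (R + 1 - (R + 1 - gB p n (mks p b tp) ⌊δ * n⌋₊ (xT H.hp (mks p b tp))) : ℤ) =
      gB p n (mks p b tp) ⌊δ * n⌋₊ (xT H.hp (mks p b tp)) := by ring
  intro ω hg hf ℓ hl h2 h3 h4
  rw [eh] at h2 h4
  set X : ℤ := (n : ℤ) * (p (iT p)).1 with hX
  set Y : ℤ := (n : ℤ) * (p (iT p)).2 with hY
  have hVl : ∀ y ∈ ℓ, hdv y ∈ w.V := fun y hy => by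
    have := mem_bq'.1 (h2 y hy)
    rw [w4]
    show _ ∧ _ ∧ _ ∧ _
    simp only [Prod.fst_sub, Prod.snd_sub] at this ⊢
    push_cast
    omega
  have hv : w.Lv ((frD θ β p S₀ b tp ia ta).U (rowS θ) δ n) ω ℓ := by
    refine ⟨hl, hVl, fun y hy hK => ⟨?_, ?_⟩, h3, ?_⟩
    · rw [w5]
      refine ⟨hK, ?_⟩
      have := hVl y hy
      rw [w4] at this
      exact this
    · obtain ⟨i, hi⟩ := mem_uI.1 hK
      rw [hf i _ hi, w2, colD H hbg (.inl (xT H.hp (mks p b tp))) i _ hi ?_, eb]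
      · have h5 := sgn_T99 p ia
        rw [h5]
        by_cases h6 : cT p ia = -1
        · simp [h6]
        · simp [h6]
      · rw [eh]
        have h1 : (nm (hdv y - (X, Y)) : ℝ) ≤ R := by exact_mod_cast mem_Bq' (h2 y hy)
        linarith
    · refine vis_of (V := (Bq (X, Y) (R + 1 : ℕ) : Set (ℤ × ℤ))) hl (fun y hy => ?_)
        (fun v hv hK => w8 v hK (mem_coe.1 hv)) h3
      exact mem_coe.2 (Bq_subW (by push_cast; omega) (h2 y hy))
  refine w1.one h0 h1 hv w6 (B := (Bq (X, Y) ((⌊δ * (n : ℝ)⌋₊ : ℤ) + 4) : Set (ℤ × ℤ)))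
    (fun y hy h => h4 y hy (mem_coe.1 h)) (cl3 (X, Y)) ?_ w7.1 w7.2
  intro e h5 h6 h7 h8
  rw [w3] at h5 h6
  exact cl3_nb (ρ := (⌊δ * (n : ℝ)⌋₊ : ℤ) + 4) (by omega) (by omega) (by omega) h5 h6
    (fun h => h7 (mem_coe.2 h)) fun h => h8 (mem_coe.2 h)

/-- **The foot of the spoke.** -/
theorem oneF (h0 : 0 < θ) (h1 : θ < Real.pi / 2) (H : DobN p S₀ b tp g δ n)
    (hbg : BGap l (mks p b tp) g (.dob ia ta)) (hR1 : ⌊δ * n⌋₊ + 3 ≤ R)
    (hR2 : (R : ℝ) + 3 ≤ g / 16 * n) :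
    (frD θ β p S₀ b tp ia ta).OneH θ δ n R (.inr (.inr ())) := by
  have eh : (frD θ β p S₀ b tp ia ta).h δ n (.inr (.inr ())) = ftD p n := rfl
  have eb : (frD θ β p S₀ b tp ia ta).b δ n (.inr (.inr ())) = decide (cT p ia = -1) := rfl
  have hft : (ftD p n).1 = n * (p (iT p)).1 := rfl
  have hft2 : (ftD p n).2 = 0 := rfl
  intro ω hg hf ℓ hl h2 h3 h4
  rw [eh] at h2 h4
  have hcol : ∀ y ∈ ℓ, hdv y ∈ (frD θ β p S₀ b tp ia ta).U (rowS θ) δ n →
      ω (hdv y) = decide ((if clT p ia then 1 else -1 : ℤ) = -1) := by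
    intro y hy hK
    obtain ⟨i, hi⟩ := mem_uI.1 hK
    rw [hf i _ hi, colD H hbg (.inr (.inr ())) i _ hi ?_, eb]
    · have h5 := sgn_T99 p ia
      rw [h5]
      by_cases h6 : cT p ia = -1
      · simp [h6]
      · simp [h6]
    · rw [eh]
      have h1 : (nm (hdv y - ftD p n) : ℝ) ≤ R := by exact_mod_cast mem_Bq' (h2 y hy)
      linarith
  by_cases hb : ∃ y ∈ ℓ, hdv y ∉ (frD θ β p S₀ b tp ia ta).U (rowS θ) δ n ∧ (hdv y).2 < -1
  · -- below the row of the box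
    obtain ⟨w, w1, w2, w3, w4, w5, w6, w7, w8⟩ := H.winFb' (θ := θ) (β := β) (ia := ia) (ta := ta)
      (R := R + 1) (by push_cast; linarith) (by omega)
    have e1 : (((R + 1 : ℕ) : ℤ) - 1) = (R : ℤ) := by push_cast; ring
    rw [e1] at w4 w5
    have hv : w.Lv ((frD θ β p S₀ b tp ia ta).U (rowS θ) δ n) ω ℓ := by
      refine ⟨hl, fun y hy => w4 _ (h2 y hy), fun y hy hK => ⟨w5 _ hK (h2 y hy), ?_⟩, h3, ?_⟩
      · rw [w2]
        exact hcol y hy hK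
      · obtain ⟨y, hy, -, hy2⟩ := hb
        exact ⟨y, hy, w3 _ hy2 (Bq_subW (by push_cast; omega) (h2 y hy))⟩
    refine w1.one' h0 h1 hv w6 (B := ∅) (fun y hy h => h) (fun _ => ()) (fun _ _ _ _ _ => rfl) ?_
      fun i j _ _ _ _ _ _ => by rw [w7, w7]; omega
    intro e he
    obtain ⟨⟨a1, a2, ⟨y, hy, hy'⟩, a4⟩, a5, a6, a7, ⟨y', hy1, hy1'⟩⟩ := exs_sq hl he
    have hst := w1.stay hv
    have m1 := w8 _ (hst e a4 a2)
    have m2 : (tlv (nxt (bS ((frD θ β p S₀ b tp ia ta).U (rowS θ) δ n)) ω e)).2 < -1 := by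
      rw [← hy1']
      exact w8 _ (hst y' hy1 (by rw [hy1']; exact a6))
    have hmem := fun v hv => H.mem_F (θ := θ) (β := β) (ia := ia) (ta := ta) (R := R + 1)
      (by push_cast; linarith) (v := v) hv
    have c1 := h2 e a4
    have c2 := h2 y hy
    rw [hy'] at c2
    have c3 := h2 _ a7
    have c4 := h2 y' hy1
    rw [hy1'] at c4
    have d2 := (hmem _ (Bq_subW (by push_cast; omega) c2)).1 a1
    have d3 := (hmem _ (Bq_subW (by push_cast; omega) c3)).1 a5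
    have n1 := nb_sq e
    have n2 := nb_sq (nxt (bS ((frD θ β p S₀ b tp ia ta).U (rowS θ) δ n)) ω e)
    rw [mem_bq'] at c1 c2 c3 c4
    rw [hft, hft2] at c1 c2 c3 c4
    constructor
    · intro hE
      have hS := H.rowQ_face (θ := θ) (β := β) (b := b) (ia := ia) (ta := ta) (R := R)
        (x := (tlv e).1 - n * (p (iT p)).1) (by linarith) (by omega) (by omega) false
      refine ((hS e).1 ?_ ?_).2.1 hE
      · refine Prod.ext ?_ ?_ <;> simp only <;> omega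
      · refine Prod.ext ?_ ?_ <;> simp only [Bool.false_eq_true, if_false] <;> omega
    · intro hE
      have hS := H.rowQ_face (θ := θ) (β := β) (b := b) (ia := ia) (ta := ta) (R := R)
        (x := (hdv (nxt (bS ((frD θ β p S₀ b tp ia ta).U (rowS θ) δ n)) ω e)).1 -
          n * (p (iT p)).1) (by linarith) (by omega) (by omega) false
      refine ((hS _).2 ?_ ?_).2.1 hE
      · refine Prod.ext ?_ ?_ <;> simp only <;> omega
      · refine Prod.ext ?_ ?_ <;> simp only [Bool.false_eq_true, if_false] <;> omega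
  · -- above the row of the box
    push Not at hb
    obtain ⟨w, w1, w2, w3, w4, w5, w6, w7, w8⟩ := H.winF' (θ := θ) (β := β) (ia := ia) (ta := ta)
      (R := R) (by push_cast; linarith) (by omega) (ρ := (⌊δ * (n : ℝ)⌋₊ : ℤ) + 4) (by omega)
    have hmem := fun v hv => H.mem_F (θ := θ) (β := β) (ia := ia) (ta := ta) (R := R)
      (by linarith) (v := v) hv
    have hVl : ∀ y ∈ ℓ, hdv y ∈ w.V := fun y hy => by
      have := mem_bq'.1 (h2 y hy)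
      rw [w4]
      show _ ∧ _ ∧ _ ∧ _
      simp only [Prod.fst_sub, Prod.snd_sub]
      omega
    have hv : w.Lv ((frD θ β p S₀ b tp ia ta).U (rowS θ) δ n) ω ℓ := by
      refine ⟨hl, hVl, fun y hy hK => ⟨?_, ?_⟩, h3, ?_⟩
      · rw [w5]
        refine ⟨hK, ?_⟩
        have := hVl y hy
        rw [w4] at this
        exact this
      · rw [w2]
        exact hcol y hy hK
      · refine vis_of (V := {v | v ∈ Bq (ftD p n) R ∧
          (v ∉ (frD θ β p S₀ b tp ia ta).U (rowS θ) δ n → -1 ≤ v.2)}) hl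
          (fun y hy => ⟨h2 y hy, fun h => hb y hy h⟩) ?_ h3
        rintro v ⟨hv, hv'⟩ hK
        refine w8 v hK ?_ hv
        have h5 := hv' hK
        by_contra h6
        exact hK ((hmem v hv).2 (Or.inl (by omega)))
    refine w1.one h0 h1 hv w6 (B := (Bq (ftD p n) ((⌊δ * (n : ℝ)⌋₊ : ℤ) + 4) : Set (ℤ × ℤ)))
      (fun y hy h => h4 y hy (mem_coe.1 h)) (cl2 (ftD p n)) ?_ w7.1 w7.2
    intro e h5 h6 h7 h8
    rw [w3] at h5 h6
    exact cl2_nb (ρ := (⌊δ * (n : ℝ)⌋₊ : ℤ) + 4) (by omega) h5 h6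
      (fun h => h7 (mem_coe.2 h)) fun h => h8 (mem_coe.2 h)

/-- **The loops near the holes of the Dobrushin frames which do not visit them**, one scale. -/
theorem oneD_all (h0 : 0 < θ) (h1 : θ < Real.pi / 2) (H : DobN p S₀ b tp g δ n)
    (hbg : BGap l (mks p b tp) g (.dob ia ta)) (hR1 : ⌊δ * n⌋₊ + 3 ≤ R)
    (hR2 : (R : ℝ) + 3 ≤ g / 16 * n) (x : (frD θ β p S₀ b tp ia ta).H) :
    (frD θ β p S₀ b tp ia ta).OneH θ δ n R x := by
  rcases x with x | x | ⟨⟩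
  · by_cases hx : x = xT H.hp (mks p b tp)
    · subst hx
      exact oneT h0 h1 H hbg hR1 (by linarith)
    · exact oneD h0 h1 H hbg hR1 (by linarith) x hx
  · exact oneB h0 h1 H hbg hR1 (by linarith) x
  · exact oneF h0 h1 H hbg hR1 hR2

/-- **(b) for the Dobrushin frames.** -/
theorem frD_l2b (hθ : 0 < θ) (hθ' : θ < Real.pi / 2) (hp : IsPolygon p) (hD : Encloses p S₀)
    (hN : Nrm p) (hb : b.Ok S₀) (h0 : 0 < tp) (h1 : tp < 1)
    (ht : ∀ i : ℤ, ∀ y ∈ ({b.xl, b.xr, b.yb, b.yt} : Set ℝ), y ≠ i + tp ∧ y ≠ i - tp)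
    (hbc : (Bc.dob ia ta).Ok l (mks p b tp)) :
    (frD θ β p S₀ b tp ia ta).L2b (rowS θ) θ := by
  obtain ⟨g, hg, hB, hH⟩ := scales_D hp hD hN hb h0 h1 ht hbc
  refine FrS.l2b_of (κ₁ := g / 32) (δ₀ := g / 64) (by positivity) (by positivity)
    fun δ hδ hδ' => ?_
  filter_upwards [hH δ hδ hδ'] with n hn x
  obtain ⟨n1, n2, n3, n4⟩ := hn
  rw [n4]
  exact oneD_all hθ hθ' n1 hB (by omega) n3 x

end one

end Vale.Agent.P167.N.ID
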