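import Vale.Agent.P167.N.ID.MixT
import Vale.Agent.P167.N.ID.MixW
import Vale.Agent.P167.H192.TA.Str

/-!
# P167, `q < 1`, START (P2T): loops of factor zero at the hole with three rows and at the foot

* `wT_row`, `wF_row`: the wall steps of the windows, by rows.
* `kilT_of`: at the hole with three rows, if a corner of the end side of the row `B` of the colour of
  the rows is joined to the spoke by squares of its colour, a loop with the factor zero has a strand
  of weight zero with both ends on the same row.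
* `kilF_of`: the same at the foot, without condition.
-/

set_option autoImplicit false
set_option linter.unusedSimpArgs false

namespace Vale.Agent.P167.N.ID

open Finset
open Vale.Agent.P167
open Vale.Agent.P145.FB (PStep)
open Vale.Agent.P167.A (plane)
open Vale.Agent.P167.BR (Run)
open Vale.Agent.P167.Top
open Vale.Agent.P167.FK
open Vale.Agent.P167.H871
open Vale.Agent.P167.H871.Q
open Vale.Agent.P167.H632 (cs pr pr_or pr_not)
open Vale.Agent.P167.H192.TA (Pw sc run_sc sc_par)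
open Vale.Agent.P167.XDL (bS mem_bS)
open Vale.Agent.P167.H199 (strand ret Returns)
open Vale.Agent.P167.H680.S (nxt nxt_mem)
open Vale.Agent.P167.QX (returns_loop fLp wS out_stays exc_last)

/-! ### paths -/

/-- The end of a path is a corner of one of its squares. -/
theorem pw_last {F : Set (ℤ × ℤ)} {u s : ℤ × ℤ} (h : Pw F u s) : s = u ∨ ∃ v ∈ F, IsC v s := by
  rcases Relation.ReflTransGen.cases_tail h with h1 | ⟨y, -, h1, h2, h3⟩
  · exact Or.inl h1
  · right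
    refine ⟨_, h3, ?_⟩
    unfold IsC
    dsimp only
    rcases h1 with h1 | h1 <;> rcases h2 with h2 | h2 <;> rw [h1, h2] <;>
      rcases min_choice y.1 s.1 with h4 | h4 <;> omega

/-! ### the wall steps -/

section steps

variable {A B S R k : ℕ} {x y u : ℤ}

/-- **The wall steps of the window at the hole with three rows.** -/
theorem wT_row (hk : wTV A B S R k x y u) (hw : sqL (x, y) (u - 1) ∈ wTU R) :
    k ≤ R + 2 * S ∨
    (3 * R + 2 * S - 1 ≤ k ∧ k < 3 * R + 2 * S + 2 * B ∧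
      (sqL (x, y) (u - 1)).2 = -1 ∧ (R : ℤ) - B ≤ (sqL (x, y) (u - 1)).1) ∨
    (5 * R + 2 * S + 2 * B ≤ k ∧ k < 5 * R + 2 * S + 2 * B + 2 * A + 1 ∧
      (sqL (x, y) (u - 1)).1 = -1 ∧ (R : ℤ) - A ≤ (sqL (x, y) (u - 1)).2) := by
  obtain ⟨a1, a2, a3, a4⟩ := hw
  unfold wTV at hk
  rcases hk with h1 | h1 | h1 | h1 | h1 | h1 | h1 | h1 | h1 | h1 | h1 | h1 | h1 | h1 | h1 | h1 <;>
    obtain ⟨h2, h3, h4, h5, rfl⟩ := h1 <;>
    simp only [show (0 : ℤ) - 1 = -1 by norm_num, show (1 : ℤ) - 1 = 0 by norm_num,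
      show (2 : ℤ) - 1 = 1 by norm_num, show (3 : ℤ) - 1 = 2 by norm_num,
      show (-1 : ℤ) - 1 = -2 by norm_num, (sqL_e x y).1, (sqL_e x y).2.1, (sqL_e x y).2.2.1,
      (sqL_e x y).2.2.2.1, (sqL_e x y).2.2.2.2.1, (sqL_e x y).2.2.2.2.2] at a1 a2 a3 a4 ⊢ <;>
    omega

/-- **The wall steps of the window at the foot.** -/
theorem wF_row (hk : wFV S R k x y u) (hw : sqL (x, y) (u - 1) ∈ wFU R) :
    k < 4 * R + 3 ∨
    (4 * R + 3 ≤ k ∧ k < 4 * R + 2 * S + 4 ∧
      (sqL (x, y) (u - 1)).1 = 0 ∧ (R : ℤ) + 1 - S ≤ (sqL (x, y) (u - 1)).2) := by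
  obtain ⟨a1, a2, a3, a4⟩ := hw
  unfold wFV at hk
  rcases hk with h1 | h1 | h1 | h1 | h1 | h1 | h1 | h1 <;>
    obtain ⟨h2, h3, h4, h5, rfl⟩ := h1 <;>
    simp only [show (0 : ℤ) - 1 = -1 by norm_num, show (1 : ℤ) - 1 = 0 by norm_num,
      show (2 : ℤ) - 1 = 1 by norm_num, show (3 : ℤ) - 1 = 2 by norm_num,
      show (-1 : ℤ) - 1 = -2 by norm_num, (sqL_e x y).1, (sqL_e x y).2.1, (sqL_e x y).2.2.1,
      (sqL_e x y).2.2.2.1, (sqL_e x y).2.2.2.2.1, (sqL_e x y).2.2.2.2.2] at a1 a2 a3 a4 ⊢ <;>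
    omega

end steps

/-! ### loops in windows -/

section loops

variable {θ : ℝ} {a : Ed → Bool → ℝ} {EE : Set Ed} {σ : ℤ} {c : ℝ} {z : ℤ × ℤ} {K : Finset (ℤ × ℤ)}
  {A B S R : ℕ} {ω : Cfg} {ℓ : Finset Ed} {w : WinD}

/-- A loop with the factor zero has a killed strand, or a strand which joins two regular ends. -/
theorem WinD.Ok.zero (h : w.Ok θ K EE a) (h0 : 0 < θ) (h1 : θ < Real.pi / 2) (hv : w.Lv K ω ℓ)
    (hf : fLp θ K a ω ℓ = 0) : ∃ e ∈ exs K ℓ, wS θ K a ω e = 0 ∧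
      ∃ i j : ℕ, w.W i ∧ w.W j ∧ hdv e ∈ w.D ∧ tlv e = sqL (w.P i) (w.u i - 1) ∧
        hdv (nxt (bS K) ω e) = sqL (w.P j) (w.u j - 1) ∧ ls e = w.P i ∧ rs e = w.P (i + 1) ∧
        ls (nxt (bS K) ω e) = w.P (j + 1) ∧ rs (nxt (bS K) ω e) = w.P j ∧
        (∀ k < ret (nx ω) (bS K) e, hdv ((nx ω)^[k] e) ∈ w.D) ∧
        (4 * (w.s i - w.s j) + (if i < j then -2 else 2) = -6 * w.σ ∨
          (i ≠ j ∧ w.E i ∧ w.E j)) := by
  have hc : 0 < Real.cos θ := Real.cos_pos_of_mem_Ioo ⟨by linarith, h1⟩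
  have hl := hv.loop
  rcases h.loop h0 h1 hv with ⟨-, e, he, hw, hk⟩ | ⟨r, p, hf', hp, hr⟩
  · refine ⟨e, he, hw, ?_⟩
    obtain ⟨g1, g2, g3⟩ := mem_exs.1 he
    have hret := returns_loop hl g3 g1
    obtain ⟨c1, c2⟩ := hv.ends he
    have hst : ∀ k < ret (nx ω) (bS K) e, hdv ((nx ω)^[k] e) ∈ w.D := fun k hk =>
      h.stay hv _ (H199.loop_iter hl g3 k) (out_stays g2 hk)
    have hD : hdv e ∈ w.D := by
      have := hst 0 (by have := hret.spec.1; omega)
      rwa [Function.iterate_zero, id] at this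
    have hD' : hdv (nxt (bS K) ω e) ∉ w.D := h.kd _ (exc_last g2 hret).1
    have fin : ∀ i j : ℕ, w.W i → w.W j → P4 e = M4 (w.P i) (w.u i) →
        P4 (nxt (bS K) ω e) = M4 (w.P j) (w.u j) →
        (4 * (w.s i - w.s j) + (if i < j then -2 else 2) = -6 * w.σ ∨ (i ≠ j ∧ w.E i ∧ w.E j)) →
        ∃ i j : ℕ, w.W i ∧ w.W j ∧ hdv e ∈ w.D ∧ tlv e = sqL (w.P i) (w.u i - 1) ∧
        hdv (nxt (bS K) ω e) = sqL (w.P j) (w.u j - 1) ∧ ls e = w.P i ∧ rs e = w.P (i + 1) ∧
        ls (nxt (bS K) ω e) = w.P (j + 1) ∧ rs (nxt (bS K) ω e) = w.P j ∧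
        (∀ k < ret (nx ω) (bS K) e, hdv ((nx ω)^[k] e) ∈ w.D) ∧
        (4 * (w.s i - w.s j) + (if i < j then -2 else 2) = -6 * w.σ ∨
          (i ≠ j ∧ w.E i ∧ w.E j)) := by
      intro i j i1 j1 i2 j2 hk
      obtain ⟨d1, d2, -, -, d5⟩ := cross_in h.bd i2 hD
      obtain ⟨e1, e2, -, e4, -⟩ := cross_out h.bd j2 hD'
      exact ⟨i, j, i1, j1, hD, d5, e4, d1, d2, e1, e2, hst, hk⟩
    rcases hk with ⟨i, j, i1, j1, i2, j2, hk⟩ | ⟨k1, k2⟩
    · exact fin i j i1 j1 i2 j2 (Or.inl hk)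
    · obtain ⟨i, j, i1, j1, i0, i2, j2, i3, j3, -⟩ := h.exit g1 hret hst c1 c2
      exact fin i j i1 j1 i3 j3 (Or.inr ⟨i0, i2 k1, j2 k2⟩)
  · exfalso
    have hpos : 0 < ∏ e ∈ exs K ℓ, r e := prod_pos fun e he => by
      have := (hr e he).1
      linarith
    have hp0 : 0 < p := by
      rcases hp with rfl | ⟨rfl, -⟩
      · exact one_pos
      · positivity
    rw [hf'] at hf
    exact (mul_pos hp0 hpos).ne' hf

/-- A loop in the region of a window lives in the window. -/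
theorem lv_of (hl : IsLoop ω ℓ) (hlV : ∀ y ∈ ℓ, hdv y ∈ w.V)
    (hC : ∀ v ∈ K, v ∈ w.V → v ∈ w.C) (hD : ∀ v ∈ w.V, v ∉ K → v ∈ w.D)
    (hcol : ∀ v ∈ K, v ∈ w.V → ω v = decide (w.σ = -1)) (hm : ∃ e ∈ bS K, e ∈ ℓ) :
    w.Lv K ω ℓ := by
  refine ⟨hl, hlV, fun y hy hK => ⟨hC _ hK (hlV y hy), hcol _ hK (hlV y hy)⟩, hm, ?_⟩
  obtain ⟨e, he, hel⟩ := hm
  rcases mem_bS.1 he with ⟨-, h4⟩ | ⟨h4, -⟩
  · have hxi : e ∈ ℓ.image (nx ω) := by rw [hl.image]; exact hel
    obtain ⟨y, hy, rfl⟩ := mem_image.1 hxi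
    exact ⟨y, hy, hD _ (hlV y hy) (by rwa [tlv_nx] at h4)⟩
  · exact ⟨e, hel, hD _ (hlV e hel) h4⟩

/-- **Loops at the hole with three rows**: a loop with the factor zero has a strand of weight zero
with both ends on the row `A` or both on the row `B`. -/
theorem kilT_of (hσ : σ = 1 ∨ σ = -1) (hA : 1 ≤ A) (hB : 1 ≤ B) (hS : 1 ≤ S) (hAR : A < R)
    (hBR : B + 1 < R) (hSR : S < R) (hKV : ∀ v, v - z ∈ wTU R → (v ∈ K ↔ v - z ∈ wTQ A B S R))
    (hKD : ∀ v ∈ K, v - z ∉ wTR A B S R)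
    (hoff : ∀ g, g ∉ bS K → hdv g - z ∈ wTR A B S R → a g false + a g true = 0)
    (h : PhT θ a EE σ c z A B S R) (h0 : 0 < θ) (h1 : θ < Real.pi / 2)
    (hl : IsLoop ω ℓ) (hlV : ∀ y ∈ ℓ, hdv y - z ∈ wTU R)
    (hcol : ∀ v ∈ K, v - z ∈ wTU R → ω v = decide (σ = -1)) (hm : ∃ e ∈ bS K, e ∈ ℓ)
    (hf : fLp θ K a ω ℓ = 0) {t s : ℤ × ℤ}
    (ht : t = z + ((R : ℤ) - B, -1) ∨ t = z + ((R : ℤ) - B, 0))
    (htc : (t.1 + t.2) % 2 = pr (decide (σ = -1)))
    (hs : s.1 = z.1 ∨ s.1 = z.1 + 1) (hs1 : z.2 - R ≤ s.2) (hs2 : s.2 ≤ z.2 - R + S)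
    (hst : Pw (cs (decide (σ = -1)) ω ∩ {v | v - z ∈ wTR A B S R}) t s) :
    ∃ e ∈ exs K ℓ, wS θ K a ω e = 0 ∧
      (((tlv e - z).2 = -1 ∧ (R : ℤ) - B ≤ (tlv e - z).1 ∧ (tlv e - z).1 < R ∧
        (hdv (nxt (bS K) ω e) - z).2 = -1 ∧ (R : ℤ) - B ≤ (hdv (nxt (bS K) ω e) - z).1 ∧
        (hdv (nxt (bS K) ω e) - z).1 < R) ∨
      ((tlv e - z).1 = -1 ∧ (R : ℤ) - A ≤ (tlv e - z).2 ∧ (tlv e - z).2 < R ∧
        (hdv (nxt (bS K) ω e) - z).1 = -1 ∧ (R : ℤ) - A ≤ (hdv (nxt (bS K) ω e) - z).2 ∧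
        (hdv (nxt (bS K) ω e) - z).2 < R)) := by
  obtain ⟨w, w1, w2, w3, w4, w5, w6, w7, w8, w9, w10, w11, w12⟩ :=
    winT_full hσ hA hB hS hAR hBR hSR hKV hKD hoff h
  have hDV : ∀ v, v - z ∈ wTU R → v ∉ K → v - z ∈ wTR A B S R := fun v hv hK => wTU_R hKV hv hK
  have hv : w.Lv K ω ℓ := by
    refine lv_of hl (fun y hy => by rw [w4]; exact hlV y hy) ?_ ?_ ?_ hm
    · intro v hK hV
      rw [w5]
      rw [w4] at hV
      exact ⟨hK, hV⟩
    · intro v hV hK
      rw [w3]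
      rw [w4] at hV
      exact hDV v hV hK
    · intro v hK hV
      rw [w4] at hV
      rw [w2]
      exact hcol v hK hV
  obtain ⟨e, he, hw, i, j, i1, j1, hD, p1, p2, q1, q2, q3, q4, hrun, hk⟩ := w1.zero h0 h1 hv hf
  refine ⟨e, he, hw, ?_⟩
  have hk' : 4 * (w.s i - w.s j) + (if i < j then -2 else 2) = -6 * σ := by
    rcases hk with hk | ⟨k1, k2, k3⟩
    · rw [w2] at hk
      exact hk
    · exact absurd ((w12 i k2).trans (w12 j k3).symm) k1
  -- the squares of the ends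
  have hsq : ∀ m, sqL (w.P m) (w.u m - 1) - z = sqL ((w.P m - z).1, (w.P m - z).2) (w.u m - 1) := by
    intro m
    have := sqL_add z (w.P m - z) (w.u m - 1)
    rw [add_sub_cancel] at this
    rw [this]
    show _ = sqL (w.P m - z) _
    abel
  obtain ⟨hi, hiV⟩ := w11 i i1
  obtain ⟨hj, hjV⟩ := w11 j j1
  have ri := wT_row (w7 i hi) hiV
  have rj := wT_row (w7 j hj) hjV
  have si := w8 i
  have sj := w8 j
  rw [p1, p2, hsq i, hsq j]
  have ub : ∀ {v : ℤ × ℤ}, v ∈ wTU R → v.1 < R ∧ v.2 < R := fun hv => by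
    obtain ⟨-, g2, -, g4⟩ := hv
    constructor <;> omega
  have ui := ub hiV
  have uj := ub hjV
  rw [show sqL (w.P i - z) (w.u i - 1) = sqL ((w.P i - z).1, (w.P i - z).2) (w.u i - 1) from rfl]
    at ui
  rw [show sqL (w.P j - z) (w.u j - 1) = sqL ((w.P j - z).1, (w.P j - z).2) (w.u j - 1) from rfl]
    at uj
  -- the exclusion
  have excl : ∀ m₁ m₂ : ℕ, m₁ < 8 * R + 2 * S + 2 * B + 2 * A →
      3 * R + 2 * S - 1 ≤ m₁ → m₁ ≤ 3 * R + 2 * S + B - 1 → 5 * R + 2 * S + 2 * B ≤ m₂ →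
      m₂ < 5 * R + 2 * S + 2 * B + 2 * A + 1 →
      Pw (cs (!decide (σ = -1)) ω ∩ {v | v - z ∈ wTR A B S R}) (w.P m₁) (w.P (m₂ + 1)) →
      ((w.P m₁).1 + (w.P m₁).2) % 2 = pr (!decide (σ = -1)) → False := by
    intro m₁ m₂ b0 b1 b2 b3 b4 b5 b6
    obtain ⟨is, us, c1, c2⟩ : ∃ (i : ℕ) (u : ℤ), i ≤ R + 2 * S + 1 ∧
        wTV A B S R i (s - z).1 (s - z).2 u := by
      rw [Prod.fst_sub, Prod.snd_sub]
      rcases hs with hs | hs
      · rcases Int.lt_or_le s.2 (z.2 - R + S) with h | h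
        · exact ⟨(s.2 - z.2 + 2 * R).toNat, _, by omega, Or.inr (Or.inl
            ⟨by omega, by omega, by omega, by omega, rfl⟩)⟩
        · exact ⟨R + S, _, by omega, Or.inr (Or.inr (Or.inl
            ⟨by omega, by omega, by omega, by omega, rfl⟩))⟩
      · rcases Int.lt_or_le (z.2 - R) s.2 with h | h
        · exact ⟨(2 * S + 1 - (s.2 - z.2)).toNat, _, by omega, Or.inr (Or.inr (Or.inr
            (Or.inl ⟨by omega, by omega, by omega, by omega, rfl⟩)))⟩
        · exact ⟨R + 2 * S + 1, _, by omega, Or.inr (Or.inr (Or.inr (Or.inr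
            (Or.inl ⟨by omega, by omega, by omega, by omega, rfl⟩))))⟩
    obtain ⟨it, ut, d1, d2, d3⟩ : ∃ (i : ℕ) (u : ℤ), 3 * R + 2 * S + B - 1 ≤ i ∧
        i ≤ 3 * R + 2 * S + B ∧ wTV A B S R i (t - z).1 (t - z).2 u := by
      rcases ht with rfl | rfl <;> rw [add_sub_cancel_left]
      · exact ⟨3 * R + 2 * S + B - 1, _, by omega, by omega,
          Or.inr (Or.inr (Or.inr (Or.inr (Or.inr (Or.inr (Or.inr (Or.inl
            ⟨by omega, by omega, by simp only, by simp only; omega, rfl⟩)))))))⟩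
      · exact ⟨3 * R + 2 * S + B, _, by omega, by omega,
          Or.inr (Or.inr (Or.inr (Or.inr (Or.inr (Or.inr (Or.inr (Or.inr (Or.inl
            ⟨by omega, by omega, by simp only; omega, by simp only, rfl⟩))))))))⟩
    exact mixT_pos hA hB hS hAR hBR hSR z (G := {v | v - z ∈ wTR A B S R}) (fun v hv => hv)
      (i := is) (j := m₁) (k := it) (l := m₂ + 1) (by omega) (by omega) (by omega) (by omega) c2
      (w7 m₁ b0) d3 (w7 (m₂ + 1) (by omega)) htc b6 hst.symm b5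
  -- the path along the strand
  have hret := returns_loop hl (mem_exs.1 he).2.2 (mem_exs.1 he).1
  have hpath : ∀ c : Bool, Pw (cs c ω ∩ {v | v - z ∈ wTR A B S R}) (sc c e)
      (sc c (nxt (bS K) ω e)) := by
    intro c
    have hfin : {v : ℤ × ℤ | v - z ∈ wTR A B S R}.Finite := wTR_fin z
    have hR : Run ω hfin.toFinset e (ret (nx ω) (bS K) e) (nxt (bS K) ω e) :=
      ⟨rfl, fun k hk => by
        rw [hfin.mem_toFinset]
        have := hrun k hk
        rw [w3] at this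
        exact this⟩
    have := run_sc c hR
    rw [hfin.coe_toFinset] at this
    exact this
  rcases hσ with hσ | hσ
  · -- closed loops
    subst hσ
    rw [show (decide ((1 : ℤ) = -1)) = false by decide] at *
    split_ifs at hk' with hij
    · -- i < j
      have a1 : w.s i = -1 := by omega
      have a2 : w.s j = 0 := by omega
      have a3 := w9 i a1
      have a4 := w10 j a2
      rcases a3 with a3 | a3
      · rcases rj with r | ⟨r1, r2, r3, r4⟩ | ⟨r1, r2, r3, r4⟩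
        · omega
        · left
          rcases ri with r' | ⟨r1', r2', r3', r4'⟩ | ⟨r1', r2', r3', r4'⟩
          · omega
          · exact ⟨r3', r4', ui.1, r3, r4, uj.1⟩
          · omega
        · exfalso
          refine excl i j hi a3.1 a3.2 r1 r2 ?_ ?_
          · have := hpath true
            simp only [sc, if_true] at this
            rw [q1, q3] at this
            exact this
          · rw [← q1]
            exact sc_par true e
      · right
        rcases rj with r | ⟨r1, r2, r3, r4⟩ | ⟨r1, r2, r3, r4⟩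
        · omega
        · omega
        · rcases ri with r' | ⟨r1', r2', r3', r4'⟩ | ⟨r1', r2', r3', r4'⟩
          · omega
          · omega
          · exact ⟨r3', r4', ui.2, r3, r4, uj.2⟩
    · omega
  · subst hσ
    rw [show (decide ((-1 : ℤ) = -1)) = true by decide] at *
    split_ifs at hk' with hij
    · omega
    · have hij' : j < i := by
        rcases Nat.lt_or_ge j i with h2 | h2
        · exact h2
        · exfalso
          obtain rfl : i = j := by omega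
          omega
      have a1 : w.s j = -1 := by omega
      have a2 : w.s i = 0 := by omega
      have a3 := w9 j a1
      have a4 := w10 i a2
      rcases a3 with a3 | a3
      · rcases ri with r | ⟨r1, r2, r3, r4⟩ | ⟨r1, r2, r3, r4⟩
        · omega
        · left
          rcases rj with r' | ⟨r1', r2', r3', r4'⟩ | ⟨r1', r2', r3', r4'⟩
          · omega
          · exact ⟨r3, r4, ui.1, r3', r4', uj.1⟩
          · omega
        · exfalso
          refine excl j i hj a3.1 a3.2 r1 r2 ?_ ?_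
          · have := (hpath false).symm
            simp only [sc, Bool.false_eq_true, if_false] at this
            rw [q2, q4] at this
            exact this
          · rw [← q4]
            exact sc_par false _
      · right
        rcases ri with r | ⟨r1, r2, r3, r4⟩ | ⟨r1, r2, r3, r4⟩
        · omega
        · omega
        · rcases rj with r' | ⟨r1', r2', r3', r4'⟩ | ⟨r1', r2', r3', r4'⟩
          · omega
          · omega
          · exact ⟨r3, r4, ui.2, r3', r4', uj.2⟩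

end loops

end Vale.Agent.P167.N.ID
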