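import Vale.Agent.P167.N.ID.SymP
import Vale.Agent.P167.N.ID.ArmDef

/-!
# P167, `0 < q < 1`: the arms of killed sites under the lattice isometries
-/

set_option autoImplicit false

namespace Vale.Agent.P167.N.ID

open Finset MeasureTheory
open Vale.Agent.P167.FK (Bq)
open Vale.Agent.P167.H519 (IsLim)
open Vale.Agent.P167.H506.Q (fz)
open Vale.Agent.P167.H135 (fx rl)
open Vale.Agent.P167.H680.T (fx_fx)
open Vale.Agent.P167.H192.TA (Pw)
open Vale.Agent.P167.H632 (cs)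

namespace Isom

variable {g : Isom} {I : Finset (ℤ × ℤ)} {z : ℤ × ℤ} {R : ℤ} {e : Bool} {ω : Cfg}

theorem Bq_sdiff (I : Finset (ℤ × ℤ)) (z : ℤ × ℤ) (R : ℤ) :
    Bq (g.S z) R \ I.image g.V = (Bq z R \ I).image g.V := by
  rw [← Bq_V, image_sdiff _ _ g.V.injective]

theorem cs_inter (e : Bool) (ω : Cfg) (G : Finset (ℤ × ℤ)) :
    cs (fx g.b e) (g.mv ω) ∩ ↑(G.image g.V) = g.V '' (cs e ω ∩ ↑G) := by
  rw [cs_mv, coe_image, image_inter]

/-- **Arms of killed sites.** -/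
theorem AZ_mv : g.mv ω ∈ AZ (fx g.b e) (I.image g.V) (g.S z) R ↔ ω ∈ AZ e I z R := by
  unfold AZ
  rw [Set.mem_ofPred_eq, Set.mem_ofPred_eq, Bq_sdiff, cs_inter]
  constructor
  · rintro ⟨s, h1, h2⟩
    obtain ⟨s, rfl⟩ := g.S.surjective s
    rw [nm_S] at h1
    exact ⟨s, h1, pw_iff.1 h2⟩
  · rintro ⟨s, h1, h2⟩
    exact ⟨g.S s, by rwa [nm_S], pw_iff.2 h2⟩

/-- The expectation of frozen squares and a factor. -/
theorem fz_integral (g : Isom) {P : Measure Cfg} {Q : ℝ} (hQ : 0 < Q) (hP : IsLim Q P)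
    {I : Finset (ℤ × ℤ)} {f f' : ℤ × ℤ → Bool} {T T' : Cfg → ℝ}
    (hf : ∀ v ∈ I, f' (g.V v) = fx g.b (f v)) (hT : ∀ ω, T' (g.mv ω) = T ω) :
    ∫ ω, fz (I.image g.V) f' ω * T' ω ∂P = ∫ ω, fz I f ω * T ω ∂P := by
  rw [← g.integral hQ hP]
  congr 1
  funext ω
  rw [fz_mv hf, hT]

/-- The probability of an arm given frozen squares. -/
theorem AZ_integral (g : Isom) {P : Measure Cfg} {Q : ℝ} (hQ : 0 < Q) (hP : IsLim Q P)
    {J I : Finset (ℤ × ℤ)} {f f' : ℤ × ℤ → Bool} {z : ℤ × ℤ} {R : ℤ} {e : Bool}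
    (hf : ∀ v ∈ J, f' (g.V v) = fx g.b (f v)) :
    ∫ ω, fz (J.image g.V) f' ω *
        (AZ (fx g.b e) (I.image g.V) (g.S z) R).indicator (1 : Cfg → ℝ) ω ∂P =
      ∫ ω, fz J f ω * (AZ e I z R).indicator (1 : Cfg → ℝ) ω ∂P := by
  refine g.fz_integral hQ hP hf fun ω => ?_
  by_cases h : ω ∈ AZ e I z R
  · rw [Set.indicator_of_mem h, Set.indicator_of_mem (AZ_mv.2 h)]
    rfl
  · rw [Set.indicator_of_notMem h, Set.indicator_of_notMem fun h1 => h (AZ_mv.1 h1)]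

end Isom

end Vale.Agent.P167.N.ID
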