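import Vale.Agent.P167.N.ID.RowCut
import Vale.Agent.P167.N.ID.SymArm

/-!
# P167, `0 < q < 1`: all special points of a kind are images of each other

`tI l`, `mI l`: the squares of the reference tip, of the reference middle point (site `(0, 1)`).
`EF_tip`, `EF_base`, `EF_K1`, `EF_K2`: the one-point quantities of the special points are those of the
reference points.
-/

set_option autoImplicit false

namespace Vale.Agent.P167.N.ID

open Finset MeasureTheory

open Vale.Agent.P167 Vale.Agent.P167.N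

open Vale.Agent.P167.FK

open Vale.Agent.P167.H519 (IsLim)

open Vale.Agent.P167.H506.Q (fz EF)

open Vale.Agent.P167.H135 (fx)

open Vale.Agent.P167.H680.T (par par_cases mem_img fx_fx)

open Vale.Agent.P167.H945.Q (face faces lrs)

variable {P : Measure Cfg} {Q θ : ℝ} {r : Row} {R : ℤ}

/-- `EF` under an isometry. -/
theorem EF_mv (g : Isom) (hQ : 0 < Q) (hP : IsLim Q P) {I : Finset (ℤ × ℤ)}
    {f f' : ℤ × ℤ → Bool} {T T' : Cfg → ℝ} (hf : ∀ v ∈ I, f' (g.V v) = fx g.b (f v))
    (hT : ∀ ω, T' (g.mv ω) = T ω) : EF P (I.image g.V) f' T' = EF P I f T := by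
  unfold EF
  rw [g.fz_integral hQ hP hf hT]
  have h := g.fz_integral hQ hP hf (T := fun _ => 1) (T' := fun _ => 1) (fun _ => rfl)
  simp only [mul_one] at h
  rw [h]

theorem cz_S (g : Isom) (z : ℤ × ℤ) : cz (g.S z) = fx g.b (cz z) := by
  unfold cz
  have h := Isom.even_S (g := g) z
  cases hb : g.b
  · rw [hb] at h
    simp only [iff_true] at h
    show _ = decide (Even (z.1 + z.2))
    exact decide_eq_decide.2 h
  · rw [hb] at h
    simp only [Bool.true_eq_false, iff_false] at h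
    show _ = !decide (Even (z.1 + z.2))
    by_cases h1 : Even (z.1 + z.2)
    · rw [decide_eq_true h1, decide_eq_false fun h2 => h.1 h2 h1]
      rfl
    · rw [decide_eq_false h1, decide_eq_true (h.2 h1)]
      rfl

theorem TK_mv (g : Isom) (I : Finset (ℤ × ℤ)) (z : ℤ × ℤ) (R : ℤ) (ω : Cfg) :
    TK (I.image g.V) (g.S z) R (g.mv ω) = TK I z R ω := by
  unfold TK
  rw [cz_S]
  by_cases h : ω ∈ AZ (cz z) I z R
  · rw [Set.indicator_of_mem h, Set.indicator_of_mem (Isom.AZ_mv.2 h)]
    rfl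
  · rw [Set.indicator_of_notMem h, Set.indicator_of_notMem fun h1 => h (Isom.AZ_mv.1 h1)]

/-! ### the isometries -/

/-- The squares `a ≤ i < b` of the line `0`. -/
noncomputable def lI (a b : ℤ) : Finset (ℤ × ℤ) := Ico a b ×ˢ {0}

theorem mem_lI {a b : ℤ} {v : ℤ × ℤ} : v ∈ lI a b ↔ (a ≤ v.1 ∧ v.1 < b) ∧ v.2 = 0 := by
  unfold lI
  rw [mem_product, mem_Ico, mem_singleton]

/-- The isometry which maps the line `0` to the line of a row and the site `(0, 1)` to the site
before the column `k` on the face `b`; the direction is kept if `f` is false. -/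
def gI (o : Bool) (x : ℤ × ℤ) (k : ℤ) (f b : Bool) : Isom :=
  if o then ⟨false, f, !b, (x.1 + k, x.2 + if b then 0 else 1)⟩
  else ⟨true, !b, f, (x.1 + (if b then 0 else 1), x.2 + k)⟩

theorem gI_S (o : Bool) (x : ℤ × ℤ) (k : ℤ) (f b : Bool) : (gI o x k f b).S (0, 1) =
    if o then (x.1 + k, x.2 + if b then 1 else 0) else (x.1 + (if b then 1 else 0), x.2 + k) := by
  rw [Isom.S_apply]
  unfold gI
  cases o <;> cases f <;> cases b <;> refine Prod.ext ?_ ?_ <;>
    simp only [Bool.false_eq_true, if_false, if_true, Bool.not_false, Bool.not_true] <;> ring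

theorem gI_V (o : Bool) (x : ℤ × ℤ) (k : ℤ) (f b : Bool) (v : ℤ × ℤ) :
    (gI o x k f b).V v =
    if o then (x.1 + k + (if f then -1 - v.1 else v.1), x.2 + if b then v.2 else -v.2)
    else (x.1 + (if b then v.2 else -v.2), x.2 + k + (if f then -1 - v.1 else v.1)) := by
  rw [Isom.V_apply]
  unfold gI
  cases o <;> cases f <;> cases b <;> refine Prod.ext ?_ ?_ <;>
    simp only [Bool.false_eq_true, if_false, if_true, Bool.not_false, Bool.not_true] <;> ring

theorem gI_st (r : Row) (k : ℕ) (f b : Bool) : (gI r.o r.x k f b).S (0, 1) = r.st b k :=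
  gI_S _ _ _ _ _

/-- The colours are exchanged iff the image of the site `(0, 1)` is even. -/
theorem gI_b (r : Row) (k : ℕ) (f b : Bool) : (gI r.o r.x k f b).b = cz (r.st b k) := by
  rw [← gI_st r k f b, cz_S]
  show _ = fx _ (decide (Even ((0 : ℤ) + 1)))
  have h : decide (Even ((0 : ℤ) + 1)) = false := by decide
  rw [h]
  cases (gI r.o r.x k f b).b <;> rfl

theorem cz_par {z : ℤ × ℤ} {s : ℝ} (h : par z * s = -1) :
    cz z = decide (s = -1) := by
  unfold cz
  unfold par at h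
  by_cases h1 : Even (z.1 + z.2)
  · rw [if_pos h1] at h
    rw [decide_eq_true h1, decide_eq_true (by linarith)]
  · rw [if_neg h1] at h
    have h2 : s = 1 := by linarith
    rw [decide_eq_false h1, h2, decide_eq_false (by norm_num)]

/-- The tip: squares. -/
theorem tip_I (r : Row) (b : Bool) :
    r.I = (lI 0 r.L).image (gI r.o r.x (r.ke r.p) r.p b).V := by
  ext u
  obtain ⟨v, rfl⟩ := (gI r.o r.x (r.ke r.p) r.p b).V.surjective u
  rw [mem_img, mem_lI, gI_V, Row.mem_I]
  unfold Row.ke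
  cases r.o <;> cases r.p <;> cases b <;>
    simp only [Bool.false_eq_true, if_false, if_true] <;> push_cast <;> omega

/-- The middle point: squares. -/
theorem mid_I (r : Row) (f b : Bool) {l : ℕ} (h0 : r.k0 = l) (hL : r.L = 2 * l) :
    r.I = (lI (-l) l).image (gI r.o r.x r.k0 f b).V := by
  ext u
  obtain ⟨v, rfl⟩ := (gI r.o r.x r.k0 f b).V.surjective u
  rw [mem_img, mem_lI, gI_V, Row.mem_I, h0, hL]
  cases r.o <;> cases f <;> cases b <;>
    simp only [Bool.false_eq_true, if_false, if_true] <;> push_cast <;> omega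

/-- **All tips are images of each other.** -/
theorem EF_tip (hQ : 0 < Q) (hP : IsLim Q P) (hv : r.Val θ) (hp : r.Plain) :
    EF P r.I r.fr (r.T θ r.I true R) =
      EF P (lI 0 r.L) (fun _ => false) (TK (lI 0 r.L) (0, 1) R) := by
  have h1 := tip_I r (r.gc r.p)
  have hz : r.zt = (gI r.o r.x (r.ke r.p) r.p (r.gc r.p)).S (0, 1) := (gI_st r _ _ _).symm
  have e : r.T θ r.I true R = TK r.I r.zt R := rfl
  rw [e, hz]
  have hse : r.se r.p = r.s := by
    unfold Row.se
    rw [hp.2, mul_one, ite_self]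
  have hb : (gI r.o r.x (r.ke r.p) r.p (r.gc r.p)).b = decide (r.s = -1) := by
    rw [gI_b]
    have h2 := Row.good_zt hv
    rw [hse] at h2
    exact cz_par h2
  have hfr : ∀ v ∈ r.I, r.fr v = decide (r.s = -1) := by
    intro v hv
    rw [Row.fr_mem hv, ← Row.c0_of hp.2, ite_self]
    rfl
  generalize gI r.o r.x (r.ke r.p) r.p (r.gc r.p) = g at h1 hb ⊢
  rw [h1] at hfr ⊢
  refine EF_mv g hQ hP (fun v hv => ?_) fun ω => TK_mv g _ _ _ _
  rw [hfr _ (mem_image_of_mem _ hv), ← hb]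
  show _ = fx g.b false
  cases g.b <;> rfl

/-- **All base points are images of each other.** -/
theorem EF_base (hQ : 0 < Q) (hP : IsLim Q P) (hv : r.Val θ) (hη : r.η = 1) (hj : r.j ≠ 0)
    {l : ℕ} (h0 : r.k0 = l) (hL : r.L = 2 * l) :
    EF P r.I r.fr (r.T θ r.I false R) =
      EF P (lI (-l) l) (fun _ => false) (TK (lI (-l) l) (0, 1) R) := by
  have h1 := mid_I r false r.kf h0 hL
  have hz : r.zm = (gI r.o r.x r.k0 false r.kf).S (0, 1) := (gI_st r _ _ _).symm
  have e : r.T θ r.I false R = TK r.I r.zm R := by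
    funext ω
    unfold Row.T
    have h2 : ¬ r.Plain := fun h => hj h.1
    have h3 : ¬ r.K2 θ := fun h => by
      have h4 := h.1
      rw [hη] at h4
      norm_num at h4
    rw [if_neg Bool.false_ne_true, if_neg h2, if_neg h3]
  rw [e, hz]
  have hb : (gI r.o r.x r.k0 false r.kf).b = decide (r.s = -1) := by
    rw [gI_b]
    exact cz_par (hv.gd hη hj)
  have hfr : ∀ v ∈ r.I, r.fr v = decide (r.s = -1) := by
    intro v hv
    rw [Row.fr_mem hv, ← Row.c0_of hη, ite_self]
    rfl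
  generalize gI r.o r.x r.k0 false r.kf = g at h1 hb ⊢
  rw [h1] at hfr ⊢
  refine EF_mv g hQ hP (fun v hv => ?_) fun ω => TK_mv g _ _ _ _
  rw [hfr _ (mem_image_of_mem _ hv), ← hb]
  show _ = fx g.b false
  cases g.b <;> rfl

/-- The flip of a junction. -/
noncomputable def Row.fl (r : Row) : Bool := xor r.c0 (cz r.zm)

/-- The colours of a junction. -/
theorem fr_jun (hs : r.s = 1 ∨ r.s = -1) (hη : r.η = -1) {l : ℕ} (h0 : r.k0 = l)
    (hL : r.L = 2 * l) {v : ℤ × ℤ} (hv : v ∈ lI (-l) l) :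
    r.fr ((gI r.o r.x r.k0 r.fl r.kf).V v) =
      fx (gI r.o r.x r.k0 r.fl r.kf).b (decide (0 ≤ v.1)) := by
  have h1 : (gI r.o r.x r.k0 r.fl r.kf).V v ∈ r.I := by
    rw [mid_I r r.fl r.kf h0 hL]
    exact mem_image_of_mem _ hv
  have hc : r.c1 = !r.c0 := by
    unfold Row.c1 Row.c0
    rcases hs with h | h <;> rw [h, hη] <;> norm_num
  have hb : (gI r.o r.x r.k0 r.fl r.kf).b = cz r.zm := gI_b r _ _ _
  have h2 : (if r.o then ((gI r.o r.x r.k0 r.fl r.kf).V v).1 - r.x.1 else
      ((gI r.o r.x r.k0 r.fl r.kf).V v).2 - r.x.2) = r.k0 + (if r.fl then -1 - v.1 else v.1) := by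
    rw [gI_V]
    cases r.o
    · simp only [Bool.false_eq_true, if_false]
      ring
    · simp only [if_true]
      ring
  rw [Row.fr_mem h1, h2, hb, hc]
  unfold Row.fl
  by_cases h3 : 0 ≤ v.1
  · rw [decide_eq_true h3]
    cases r.c0 <;> cases cz r.zm <;> simp [fx] <;> omega
  · rw [decide_eq_false h3]
    cases r.c0 <;> cases cz r.zm <;> simp [fx] <;> omega

/-- **All junctions with a killed site are images of each other.** -/
theorem EF_K1 (hQ : 0 < Q) (hP : IsLim Q P) (hv : r.Val θ) (hη : r.η = -1) (hK : ¬ r.K2 θ)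
    {l : ℕ} (h0 : r.k0 = l) (hL : r.L = 2 * l) :
    EF P r.I r.fr (r.T θ r.I false R) =
      EF P (lI (-l) l) (fun v => decide (0 ≤ v.1)) (TK (lI (-l) l) (0, 1) R) := by
  have h1 := mid_I r r.fl r.kf h0 hL
  have hz : r.zm = (gI r.o r.x r.k0 r.fl r.kf).S (0, 1) := (gI_st r _ _ _).symm
  have e : r.T θ r.I false R = TK r.I r.zm R := by
    funext ω
    unfold Row.T
    have h2 : ¬ r.Plain := fun h => by
      have h4 := h.2
      rw [hη] at h4
      norm_num at h4
    rw [if_neg Bool.false_ne_true, if_neg h2, if_neg hK]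
  have hfr := fun v (h : v ∈ lI (-l) l) => fr_jun hv.s hη h0 hL h
  rw [e, hz]
  generalize gI r.o r.x r.k0 r.fl r.kf = g at h1 hfr ⊢
  rw [h1]
  exact EF_mv g hQ hP hfr fun ω => TK_mv g _ _ _ _

/-- The sides of the reference line: upper sides of the squares `a ≤ i < b`. -/
noncomputable def lA (a b : ℤ) : Finset Ed := (Ico a b).image fun i => Sum.inr (i, 0)

theorem mem_lA {a b : ℤ} {e : Ed} : e ∈ lA a b ↔ ∃ i, (a ≤ i ∧ i < b) ∧ Sum.inr (i, 0) = e := by
  unfold lA
  rw [mem_image]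
  simp only [mem_Ico]

/-- The factor of the reference power junction. -/
noncomputable def T2r (θ : ℝ) (l : ℤ) (R : ℤ) (ω : Cfg) : ℝ :=
  (2 * Real.cos θ) ^
    ((lrs (lI (-l) l) (lA (-l) 0) (lA 0 l) (Bq (0, 1) R) ω).card +
      (lrs (lI (-l) l) (lA 0 l) (lA (-l) 0) (Bq (0, 1) R) ω).card)

theorem gI_E (r : Row) (f b : Bool) (i : ℤ) (hi : 0 ≤ r.k0 + (if f then -1 - i else i)) :
    (gI r.o r.x r.k0 f b).E (Sum.inr (i, 0)) =
      face r.toRow b (r.k0 + (if f then -1 - i else i)).toNat := by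
  rw [Isom.E_inr]
  unfold gI face H825.Q.Row.sq
  have h1 : (((r.k0 + (if f then -1 - i else i)).toNat : ℕ) : ℤ) =
      r.k0 + (if f then -1 - i else i) := Int.toNat_of_nonneg hi
  cases r.o <;> cases f <;> cases b <;>
    simp only [Bool.false_eq_true, if_false, if_true, Bool.not_false, Bool.not_true] <;>
    (congr 1; refine Prod.ext ?_ ?_) <;> simp only [Bool.false_eq_true, if_false, if_true] at h1 ⊢ <;>
    (try rw [h1]) <;> (try ring)

theorem faces_img (r : Row) (f b : Bool) (lo hi : ℕ) :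
    faces r.toRow b lo hi = (lA (if f then (r.k0 : ℤ) - hi else lo - r.k0)
      (if f then (r.k0 : ℤ) - lo else hi - r.k0)).image (gI r.o r.x r.k0 f b).E := by
  ext e
  unfold faces
  rw [mem_image, mem_image]
  constructor
  · rintro ⟨k, hk, rfl⟩
    rw [mem_Ico] at hk
    refine ⟨Sum.inr (if f then -1 - ((k : ℤ) - r.k0) else (k : ℤ) - r.k0, 0),
      mem_lA.2 ⟨_, ?_, rfl⟩, ?_⟩
    · cases f <;> simp only [Bool.false_eq_true, if_false, if_true] <;> omega
    · have h1 : (r.k0 : ℤ) + (if f then -1 - (if f then -1 - ((k : ℤ) - r.k0) else (k : ℤ) - r.k0)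
          else (if f then -1 - ((k : ℤ) - r.k0) else (k : ℤ) - r.k0)) = k := by
        cases f <;> simp only [Bool.false_eq_true, if_false, if_true] <;> ring
      rw [gI_E r f b _ (by rw [h1]; omega), h1, Int.toNat_natCast]
  · rintro ⟨d, hd, rfl⟩
    obtain ⟨i, hi', rfl⟩ := mem_lA.1 hd
    have h2 : 0 ≤ (r.k0 : ℤ) + (if f then -1 - i else i) := by
      cases f <;> simp only [Bool.false_eq_true, if_false, if_true] at hi' ⊢ <;> omega
    refine ⟨((r.k0 : ℤ) + (if f then -1 - i else i)).toNat, ?_, (gI_E r f b i h2).symm⟩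
    rw [mem_Ico]
    cases f <;> simp only [Bool.false_eq_true, if_false, if_true] at hi' h2 ⊢ <;> omega

theorem T2_mv (hQ : 0 < Q) (hP : IsLim Q P) {l : ℕ} (h0 : r.k0 = l) (hL : r.L = 2 * l) (ω : Cfg) :
    r.T2 θ r.I R ((gI r.o r.x r.k0 r.fl r.kf).mv ω) = T2r θ l R ω := by
  unfold Row.T2 T2r
  have h1 := mid_I r r.fl r.kf h0 hL
  have h2 : Bq r.zm R = (Bq (0, 1) R).image (gI r.o r.x r.k0 r.fl r.kf).V := by
    rw [Isom.Bq_V, gI_st]
    rfl
  have h3 := faces_img r r.fl r.kf 0 r.k0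
  have h4 := faces_img r r.fl r.kf r.k0 r.L
  have h5 := (gI r.o r.x r.k0 r.fl r.kf).lrs_mv hQ hP ω (lI (-l) l) (Bq (0, 1) R)
  generalize gI r.o r.x r.k0 r.fl r.kf = g at h1 h2 h3 h4 h5 ⊢
  rw [h1, h2, h3, h4, h5, h5, h0, hL]
  congr 1
  cases r.fl <;> simp only [Bool.false_eq_true, if_false, if_true] <;>
    (try push_cast) <;> (try simp only [sub_self, sub_zero, zero_sub])
  · have e1 : (2 * (l : ℤ) - l) = l := by ring
    rw [e1]
    split_ifs
    · exact add_comm _ _
    · rfl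
  · have e1 : ((l : ℤ) - 2 * l) = -l := by ring
    rw [e1]
    split_ifs
    · rfl
    · exact add_comm _ _

/-- **All power junctions are images of each other.** -/
theorem EF_K2 (hQ : 0 < Q) (hP : IsLim Q P) (hv : r.Val θ) (hK : r.K2 θ)
    {l : ℕ} (h0 : r.k0 = l) (hL : r.L = 2 * l) :
    EF P r.I r.fr (r.T θ r.I false R) =
      EF P (lI (-l) l) (fun v => decide (0 ≤ v.1)) (T2r θ l R) := by
  have hη := hK.1
  have h1 := mid_I r r.fl r.kf h0 hL
  have e : r.T θ r.I false R = r.T2 θ r.I R := by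
    funext ω
    unfold Row.T
    have h2 : ¬ r.Plain := fun h => by
      have h4 := h.2
      rw [hη] at h4
      norm_num at h4
    rw [if_neg Bool.false_ne_true, if_neg h2, if_pos hK]
  have hfr := fun v (h : v ∈ lI (-l) l) => fr_jun hv.s hη h0 hL h
  have hT := fun ω => T2_mv (θ := θ) (R := R) hQ hP h0 hL ω
  rw [e]
  generalize gI r.o r.x r.k0 r.fl r.kf = g at h1 hfr hT ⊢
  have h3 := EF_mv g hQ hP hfr hT
  rwa [← h1] at h3

end Vale.Agent.P167.N.ID
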