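import Vale.Agent.P167.N.ID.PicsG
import Vale.Agent.P167.N.ID.RowIso

/-!
# P167, `q < 1`: the colour of a row near its killed tip

`Row.fr_zt`: near the killed corner `zt` the frozen squares of the row have the colour `cz zt`.
-/

set_option autoImplicit false

namespace Vale.Agent.P167.N.ID

open Vale.Agent.P167.H680.T (par)

variable {θ : ℝ} {r : Row}

/-- **Near the killed corner the squares of the row have the colour of the corner.** -/
theorem Row.fr_zt (h : r.Val θ) {v : ℤ × ℤ} (hv : v ∈ r.I) (hm : nm (v - r.zt) < r.mg) :
    r.fr v = cz r.zt := by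
  rw [cz_par (Row.good_zt h), Row.fr_mem hv]
  unfold Row.c0 Row.c1 Row.se
  rw [Row.mem_I] at hv
  by_cases hp : r.Plain
  · rw [hp.2, mul_one]
    split_ifs <;> rfl
  · have hk0 := h.k0_le hp
    rw [Row.mg_not hp] at hm
    have h1 : |(if r.o then v.1 - r.x.1 else v.2 - r.x.2) - (r.ke r.p : ℤ)| ≤
        nm (v - r.zt) := by
      unfold Row.zt Row.st
      cases ho : r.o
      · simp only [Bool.false_eq_true, if_false]
        refine le_trans (le_of_eq ?_) (le_max_right _ _)
        simp only [Prod.snd_sub]
        congr 1
        ring
      · simp only [if_true]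
        refine le_trans (le_of_eq ?_) (le_max_left _ _)
        simp only [Prod.fst_sub]
        congr 1
        ring
    have h2 := lt_of_le_of_lt h1 hm
    rw [abs_lt] at h2
    unfold Row.ke at h2
    cases hpp : r.p
    · rw [hpp] at h2
      simp only [Bool.false_eq_true, if_false] at h2 ⊢
      rw [if_neg]
      omega
    · rw [hpp] at h2
      simp only [if_true] at h2 ⊢
      rw [if_pos]
      omega

end Vale.Agent.P167.N.ID
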