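import Vale.Agent.P167.N.ID.MixA
import Vale.Agent.P167.N.ID.WinS
import Vale.Agent.P167.N.ID.PicsH

/-!
# P167, `q < 1`, START (P2T): the killed strands at the vertex of the Dobrushin frame with the spoke

* `rowB_I`, `rowA_I`: the rows at the vertex.
* `rowB_zt`, `rowA_zt`: their killed corners.
* `kil_T`: if the killed corner of the row behind the vertex is joined to the spoke, then a loop with
  the factor zero at the vertex has a strand of weight zero with both ends on the same row.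
-/

set_option autoImplicit false
set_option linter.unusedSimpArgs false

namespace Vale.Agent.P167.N.ID

open Finset
open Vale.Agent.P167
open Vale.Agent.P167.FK
open Vale.Agent.P167.H871 (IsC)
open Vale.Agent.P167.E6 (IsPolygon Encloses dir)
open Vale.Agent.P167.H825 (pdir ptau enl Box Marks)
open Vale.Agent.P167.H825.Q (Bc stΦ stτ)
open Vale.Agent.P167.H662 (hsite)
open Vale.Agent.P167.H199 (mks Gap c0)
open Vale.Agent.P167.H632 (cs pr)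
open Vale.Agent.P167.H192.TA (Pw)
open Vale.Agent.P167.XDL (bS mem_bS)
open Vale.Agent.P167.H680.T (uI mem_uI WCG par)
open Vale.Agent.P167.H680.S (nxt nxt_mem)
open Vale.Agent.P167.QX (fLp wS)
open Vale.Agent.P167.Enl (sW eW tB kOf uN uA uB vp oz vz vz_eq oz_eq iB jB pA pB gA gB iB_lt jB_le
  pB_zero pA_zero row_pos rows_long mem_Bq' nm_tri nm_sub_comm pA_lt pB_le BGap vp_pB)

variable {l : ℕ} {θ β : ℝ} {p : ZMod l → ℤ × ℤ} {S₀ : Finset (ℤ × ℤ)} {b : Box} {tp : ℝ} {n : ℕ}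
  {g δ : ℝ} {ia : ℕ} {ta : ℝ}

/-! ### the killed corners of the rows along a side -/

/-- The corner of the killed end is good. -/
theorem Row.good_zt' {r : Row} (hs : r.se r.p = 1 ∨ r.se r.p = -1) : par r.zt * r.se r.p = -1 := by
  unfold Row.zt Row.gc
  by_cases h1 : par (r.st true (r.ke r.p)) * r.se r.p = -1
  · rw [decide_eq_true h1]
    exact h1
  · rw [decide_eq_false h1]
    have h2 := Row.par_not r true (r.ke r.p)
    rw [Bool.not_true] at h2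
    rw [h2]
    rcases H680.T.par_cases (r.st true (r.ke r.p)) with h3 | h3 <;> rcases hs with h4 | h4
    · rw [h3, h4]
      norm_num
    · exact absurd (by rw [h3, h4]; norm_num) h1
    · exact absurd (by rw [h3, h4]; norm_num) h1
    · rw [h3, h4]
      norm_num

section side

variable {z : ℤ × ℤ} {s e jp : ℕ} {F T : ℕ → ℝ}

/-- The killed corner: sides to the right, the first end. -/
theorem srowJ_zt0 : (srowJ θ true z 0 s e jp F T).zt = (z.1 + s, z.2 - 1) ∨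
    (srowJ θ true z 0 s e jp F T).zt = (z.1 + s, z.2) := by
  have h : (srowJ θ true z 0 s e jp F T).o = true := rfl
  unfold Row.zt Row.st
  rw [if_pos h]
  change (z.1 + s + ((0 : ℕ) : ℤ), z.2 - 1 + _) = _ ∨ (z.1 + s + ((0 : ℕ) : ℤ), z.2 - 1 + _) = _
  cases (srowJ θ true z 0 s e jp F T).gc (srowJ θ true z 0 s e jp F T).p
  · left
    simp
  · right
    simp

/-- The killed corner: sides downwards, the last end. -/
theorem srowJ_zt3 : (srowJ θ false z 3 s e jp F T).zt = (z.1 - 1, z.2 - e) ∨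
    (srowJ θ false z 3 s e jp F T).zt = (z.1, z.2 - e) := by
  have h : ¬ (srowJ θ false z 3 s e jp F T).o = true := Bool.false_ne_true
  unfold Row.zt Row.st
  rw [if_neg h]
  change (z.1 - 1 + _, z.2 - e + ((0 : ℕ) : ℤ)) = _ ∨ (z.1 - 1 + _, z.2 - e + ((0 : ℕ) : ℤ)) = _
  cases (srowJ θ false z 3 s e jp F T).gc (srowJ θ false z 3 s e jp F T).p
  · left
    simp
  · right
    simp

end side

namespace DobN

/-- The index of the row before the vertex with the spoke. -/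
noncomputable def iA (hp : IsPolygon p) (b : Box) (tp : ℝ) : IxD l :=
  .inl (⟨iB l (xT hp (mks p b tp)), iB_lt _⟩, ⟨jB (xT hp (mks p b tp)),
    Nat.lt_succ_of_le (jB_le _)⟩)

/-- The row behind the vertex with the spoke. -/
theorem rowB_I (H : DobN p S₀ b tp g δ n) {R : ℕ} (hR : (R : ℝ) ≤ g / 16 * n) {v : ℤ × ℤ}
    (h1 : v.2 = n * (p (iT p)).2 - 1)
    (h2 : n * (p (iT p)).1 + gA p n (mks p b tp) ⌊δ * n⌋₊ (xT H.hp (mks p b tp)) ≤ v.1)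
    (h3 : v.1 < n * (p (iT p)).1 + R) :
    v ∈ (rD θ β p b tp ia ta n ⌊δ * n⌋₊ (.inl (xT H.hp (mks p b tp)))).I := by
  obtain ⟨b1, b3, b5, b6, b7⟩ := H.basic
  obtain ⟨k1, k2⟩ := H.szR hR
  obtain ⟨e1, e2⟩ := dirT H.hp H.hD (mks p b tp)
  have hs := hsT (n := n) H.hp H.hQ
  rw [rowD_I]
  set x := xT H.hp (mks p b tp) with hx
  have hpA : pA n (mks p b tp) x = 0 := pA_zero H.hQ rfl
  obtain ⟨⟨p1, p2, p3⟩, ⟨p4, p5, p6⟩⟩ := row_pos (p := p) H.hQ H.hg H.hδ H.hδg H.hn x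
  have hrl := rows_long (p := p) (R := R + 2) H.hQ H.hg H.hδ H.hδg H.hn k2 x
  show v ∈ (shp p (mks p b tp) n ⌊δ * n⌋₊ x.1 x.2).I
  rw [shp_I, Enl.mem_rowP]
  refine ⟨(v.1 - n * (p (iT p)).1).toNat, ?_, ?_, ?_⟩
  · rw [hpA] at p4
    omega
  · have := hrl.2
    rw [hpA] at this
    omega
  · have := op_after (p := p) (n := n) x (v.1 - n * (p (iT p)).1)
    rw [hs, e2, (oz_eq _ _).1, hpA] at this
    rw [show (((v.1 - n * (p (iT p)).1).toNat : ℕ) : ℤ) =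
      ((0 : ℕ) : ℤ) + (v.1 - n * (p (iT p)).1) by omega, this]
    ext
    · simp only
      ring
    · exact h1

/-- The row before the vertex with the spoke. -/
theorem rowA_I (H : DobN p S₀ b tp g δ n) {R : ℕ} (hR : (R : ℝ) ≤ g / 16 * n) {v : ℤ × ℤ}
    (h1 : v.1 = n * (p (iT p)).1 - 1)
    (h2 : n * (p (iT p)).2 + gB p n (mks p b tp) ⌊δ * n⌋₊ (xT H.hp (mks p b tp)) ≤ v.2)
    (h3 : v.2 < n * (p (iT p)).2 + R) :
    v ∈ (rD θ β p b tp ia ta n ⌊δ * n⌋₊ (iA H.hp b tp)).I := by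
  obtain ⟨b1, b3, b5, b6, b7⟩ := H.basic
  obtain ⟨k1, k2⟩ := H.szR hR
  obtain ⟨e1, e2⟩ := dirT H.hp H.hD (mks p b tp)
  have hs := hsT (n := n) H.hp H.hQ
  have hop := H.op_T
  rw [rowD_I]
  unfold iA
  set x := xT H.hp (mks p b tp) with hx
  have hpB : pB n (mks p b tp) x = n := pB_zero H.hQ rfl
  obtain ⟨⟨p1, p2, p3⟩, ⟨p4, p5, p6⟩⟩ := row_pos (p := p) H.hQ H.hg H.hδ H.hδg H.hn x
  have hrl := rows_long (p := p) (R := R + 2) H.hQ H.hg H.hδ H.hδg H.hn k2 x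
  show v ∈ (shp p (mks p b tp) n ⌊δ * n⌋₊ (iB l x) (jB x)).I
  rw [shp_I, Enl.mem_rowP]
  refine ⟨(n + n * (p (iT p)).2 - 1 - v.2).toNat, ?_, ?_, ?_⟩
  · have := hrl.1
    rw [hpB] at this
    omega
  · rw [hpB] at p1
    omega
  · rw [(hop _).1]
    ext
    · exact h1
    · simp only
      omega

/-- **The killed corner of the row behind the vertex with the spoke.** -/
theorem rowB_zt (H : DobN p S₀ b tp g δ n) (hia : 1 ≤ ia) :
    ((rD θ β p b tp ia ta n ⌊δ * n⌋₊ (.inl (xT H.hp (mks p b tp)))).zt =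
      ((n : ℤ) * (p (iT p)).1 + gA p n (mks p b tp) ⌊δ * n⌋₊ (xT H.hp (mks p b tp)),
        (n : ℤ) * (p (iT p)).2 - 1) ∨
    (rD θ β p b tp ia ta n ⌊δ * n⌋₊ (.inl (xT H.hp (mks p b tp)))).zt =
      ((n : ℤ) * (p (iT p)).1 + gA p n (mks p b tp) ⌊δ * n⌋₊ (xT H.hp (mks p b tp)),
        (n : ℤ) * (p (iT p)).2)) ∧
    (rD θ β p b tp ia ta n ⌊δ * n⌋₊ (.inl (xT H.hp (mks p b tp)))).p = false := by
  obtain ⟨e1, e2⟩ := dirT H.hp H.hD (mks p b tp)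
  have hJD : JD p ia (iT p) = true := (H.JD_T hia).2
  have hpA : pA n (mks p b tp) (xT H.hp (mks p b tp)) = 0 := pA_zero H.hQ rfl
  have p4 := (row_pos (p := p) H.hQ H.hg H.hδ H.hδg H.hn (xT H.hp (mks p b tp))).2.1
  rw [hpA, add_zero] at p4
  have hs4 : sW p n (mks p b tp) ⌊δ * n⌋₊ (iT p) 0 =
      gA p n (mks p b tp) ⌊δ * n⌋₊ (xT H.hp (mks p b tp)) := p4.symm
  have e2' : pdir p (iT p) = 0 := e2
  change ((frowJ θ β p (mks p b tp) n ⌊δ * n⌋₊ ⌊tp * n⌋₊ (.dob ia ta) (JD p ia) 0 1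
    (iT p) 0).zt = _ ∨ (frowJ θ β p (mks p b tp) n ⌊δ * n⌋₊ ⌊tp * n⌋₊ (.dob ia ta) (JD p ia) 0 1
    (iT p) 0).zt = _) ∧ (frowJ θ β p (mks p b tp) n ⌊δ * n⌋₊ ⌊tp * n⌋₊ (.dob ia ta) (JD p ia) 0 1
    (iT p) 0).p = false
  unfold frowJ
  rw [hJD, e2', hs4]
  refine ⟨?_, rfl⟩
  have h := srowJ_zt0 (θ := θ) (z := (n : ℤ) • p (iT p : ℕ))
    (s := gA p n (mks p b tp) ⌊δ * n⌋₊ (xT H.hp (mks p b tp)))
    (e := eW p n (mks p b tp) ⌊δ * n⌋₊ (iT p) 0)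
    (jp := H825.Q.jpos n ⌊tp * n⌋₊ (Bc.dob ia ta) (iT p))
    (F := fun σ => 0 + stΦ θ β (uN p n ⌊tp * n⌋₊) ((Bc.dob ia ta).ka l n ⌊tp * n⌋₊)
      (kOf l n ⌊tp * n⌋₊ (iT p) σ))
    (T := fun σ => 1 * stτ ((Bc.dob ia ta).ka l n ⌊tp * n⌋₊) (kOf l n ⌊tp * n⌋₊ (iT p) σ))
  simpa only [Prod.smul_fst, Prod.smul_snd, smul_eq_mul] using h

/-- **The killed corner of the row before the vertex with the spoke.** -/
theorem rowA_zt (H : DobN p S₀ b tp g δ n) (hia : 1 ≤ ia) :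
    (rD θ β p b tp ia ta n ⌊δ * n⌋₊ (iA H.hp b tp)).zt =
      ((n : ℤ) * (p (iT p)).1 - 1, (n : ℤ) * (p (iT p)).2 +
        gB p n (mks p b tp) ⌊δ * n⌋₊ (xT H.hp (mks p b tp))) ∨
    (rD θ β p b tp ia ta n ⌊δ * n⌋₊ (iA H.hp b tp)).zt =
      ((n : ℤ) * (p (iT p)).1, (n : ℤ) * (p (iT p)).2 +
        gB p n (mks p b tp) ⌊δ * n⌋₊ (xT H.hp (mks p b tp))) := by
  obtain ⟨e1, e2⟩ := dirT H.hp H.hD (mks p b tp)
  have hJD := (H.JD_T hia).1
  have hpB : pB n (mks p b tp) (xT H.hp (mks p b tp)) = n := pB_zero H.hQ rfl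
  have p1 := (row_pos (p := p) H.hQ H.hg H.hδ H.hδg H.hn (xT H.hp (mks p b tp))).1.1
  rw [hpB] at p1
  have hz := (H.op_T 0).2
  unfold vp at hz
  rw [e1, (vz_eq _ _).2.2.2, sub_zero, sub_zero] at hz
  change (frowJ θ β p (mks p b tp) n ⌊δ * n⌋₊ ⌊tp * n⌋₊ (.dob ia ta) (JD p ia) 0 1
    (iB l (xT H.hp (mks p b tp))) (jB (xT H.hp (mks p b tp)))).zt = _ ∨
    (frowJ θ β p (mks p b tp) n ⌊δ * n⌋₊ ⌊tp * n⌋₊ (.dob ia ta) (JD p ia) 0 1
    (iB l (xT H.hp (mks p b tp))) (jB (xT H.hp (mks p b tp)))).zt = _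
  unfold frowJ
  rw [hJD, e1]
  have h := srowJ_zt3 (θ := θ) (z := (n : ℤ) • p (iB l (xT H.hp (mks p b tp)) : ℕ))
    (s := sW p n (mks p b tp) ⌊δ * n⌋₊ (iB l (xT H.hp (mks p b tp))) (jB (xT H.hp (mks p b tp))))
    (e := eW p n (mks p b tp) ⌊δ * n⌋₊ (iB l (xT H.hp (mks p b tp))) (jB (xT H.hp (mks p b tp))))
    (jp := H825.Q.jpos n ⌊tp * n⌋₊ (Bc.dob ia ta) (iB l (xT H.hp (mks p b tp))))
    (F := fun σ => 0 + stΦ θ β (uN p n ⌊tp * n⌋₊) ((Bc.dob ia ta).ka l n ⌊tp * n⌋₊)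
      (kOf l n ⌊tp * n⌋₊ (iB l (xT H.hp (mks p b tp))) σ))
    (T := fun σ => 1 * stτ ((Bc.dob ia ta).ka l n ⌊tp * n⌋₊)
      (kOf l n ⌊tp * n⌋₊ (iB l (xT H.hp (mks p b tp))) σ))
  rw [Prod.ext_iff] at hz
  simp only at hz
  have e3 : ((n : ℤ) • p (iB l (xT H.hp (mks p b tp)) : ℕ)).2 -
      (eW p n (mks p b tp) ⌊δ * n⌋₊ (iB l (xT H.hp (mks p b tp)))
        (jB (xT H.hp (mks p b tp))) : ℤ) = (n : ℤ) * (p (iT p)).2 +
        gB p n (mks p b tp) ⌊δ * n⌋₊ (xT H.hp (mks p b tp)) := by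
    rw [hz.2]
    omega
  rw [e3, hz.1] at h
  exact h

/-- The vertex. -/
theorem h_T [NeZero l] (H : DobN p S₀ b tp g δ n) :
    (frD θ β p S₀ b tp ia ta).h δ n (.inl (xT H.hp (mks p b tp))) =
      ((n : ℤ) * (p (iT p)).1, (n : ℤ) * (p (iT p)).2) := hsT H.hp H.hQ

/-- The colour of the row behind the vertex, at the vertex. -/
theorem rowB_s (H : DobN p S₀ b tp g δ n) (hbg : BGap l (mks p b tp) g (.dob ia ta)) :
    (rD θ β p b tp ia ta n ⌊δ * n⌋₊ (.inl (xT H.hp (mks p b tp)))).s = cT p ia := by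
  obtain ⟨b1, b3, b5, b6, b7⟩ := H.basic
  obtain ⟨e1, e2⟩ := dirT H.hp H.hD (mks p b tp)
  have hJD : JD p ia (iT p) = true := (H.JD_T hbg.1).2
  have hs := hsT (n := n) H.hp H.hQ
  set x := xT H.hp (mks p b tp) with hx
  have hpA : pA n (mks p b tp) x = 0 := pA_zero H.hQ rfl
  obtain ⟨⟨p1, p2, p3⟩, ⟨p4, p5, p6⟩⟩ := row_pos (p := p) H.hQ H.hg H.hδ H.hδg H.hn x
  rw [hpA, add_zero] at p4
  have hs4 : sW p n (mks p b tp) ⌊δ * n⌋₊ (iT p) 0 =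
      gA p n (mks p b tp) ⌊δ * n⌋₊ x := p4.symm
  have hd16 : 16 ≤ ⌊δ * n⌋₊ := Nat.le_floor (by push_cast; linarith [H.hn])
  have hδ4 : (⌊δ * n⌋₊ : ℝ) ≤ δ * n := Nat.floor_le (by have := H.hδ; positivity)
  have hn0 : (0 : ℝ) ≤ n := Nat.cast_nonneg n
  have h4 : 4 * δ * n ≤ g * n := mul_le_mul_of_nonneg_right H.hδg hn0
  have hgn : g * n ≤ 1 * n := mul_le_mul_of_nonneg_right b3 hn0
  have hm : (2 * ((⌊δ * n⌋₊ + 1 : ℕ) : ℤ) : ℝ) + 2 < g * n := by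
    push_cast
    have := H.hn
    linarith
  have hσn : gA p n (mks p b tp) ⌊δ * n⌋₊ x < n := by
    have h5 : ((⌊δ * n⌋₊ + 1 : ℕ) : ℝ) < n := by
      push_cast
      have := H.hn
      linarith
    have h6 : ⌊δ * n⌋₊ + 1 < n := by exact_mod_cast h5
    omega
  have hvp : nm (vp p n x.1 (gA p n (mks p b tp) ⌊δ * n⌋₊ x : ℕ) - hsite p (mks p b tp) n x) ≤
      ((⌊δ * n⌋₊ + 1 : ℕ) : ℤ) := by
    rw [← Enl.vp_pA, Enl.vp_same, hpA]
    have : |((gA p n (mks p b tp) ⌊δ * n⌋₊ x : ℕ) : ℤ) - ((0 : ℕ) : ℤ)| =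
        (gA p n (mks p b tp) ⌊δ * n⌋₊ x : ℕ) := by
      rw [Nat.cast_zero, sub_zero, abs_of_nonneg (by omega)]
    rw [this]
    omega
  have hst := (H.st_T (θ := θ) (β := β) hbg hm x.1.2 hσn hvp rfl).2
  change stτ ((Bc.dob ia ta).ka l n ⌊tp * n⌋₊)
    (kOf l n ⌊tp * n⌋₊ (iT p) (gA p n (mks p b tp) ⌊δ * n⌋₊ x)) = cT p ia at hst
  have e2' : pdir p (iT p) = 0 := e2
  change (frowJ θ β p (mks p b tp) n ⌊δ * n⌋₊ ⌊tp * n⌋₊ (.dob ia ta) (JD p ia) 0 1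
    (iT p) 0).s = _
  unfold frowJ
  rw [hJD, e2', hs4]
  change (1 : ℝ) * stτ ((Bc.dob ia ta).ka l n ⌊tp * n⌋₊)
    (kOf l n ⌊tp * n⌋₊ (iT p) (gA p n (mks p b tp) ⌊δ * n⌋₊ x)) = _
  rw [hst, one_mul]

/-- The colour of the killed corner of the row behind the vertex. -/
theorem rowB_cz (H : DobN p S₀ b tp g δ n) (hbg : BGap l (mks p b tp) g (.dob ia ta)) :
    cz ((rD θ β p b tp ia ta n ⌊δ * n⌋₊ (.inl (xT H.hp (mks p b tp)))).zt) =
      decide (cT p ia = -1) := by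
  have h1 := H.rowB_s (θ := θ) (β := β) (ta := ta) hbg
  have h2 := (H.rowB_zt (θ := θ) (β := β) (ta := ta) hbg.1).2
  have h3 : (rD θ β p b tp ia ta n ⌊δ * n⌋₊ (.inl (xT H.hp (mks p b tp)))).se
      (rD θ β p b tp ia ta n ⌊δ * n⌋₊ (.inl (xT H.hp (mks p b tp)))).p = cT p ia := by
    rw [h2, ← h1]
    rfl
  rw [← h3]
  refine cz_par (Row.good_zt' ?_)
  rw [h3]
  exact cT_or p ia

/-- **The killed strands at the vertex with the spoke.** If the killed corner of the row behind the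
vertex is joined to the spoke by squares of its colour in the box of the vertex, then every loop with
the factor zero in the box has a strand of weight zero with both ends on one row; the killed corner
of this row is at the vertex. -/
theorem kil_T0 [NeZero l] (h0 : 0 < θ) (h1 : θ < Real.pi / 2) (H : DobN p S₀ b tp g δ n)
    (hbg : BGap l (mks p b tp) g (.dob ia ta)) {R : ℕ} (hR1 : ⌊δ * n⌋₊ + 3 ≤ R)
    (hR2 : (R : ℝ) + 2 ≤ g / 16 * n) {ω : Cfg}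
    (hf : (frD θ β p S₀ b tp ia ta).Frz (rowS θ) δ n ω) {G : Set (ℤ × ℤ)}
    (hG : ∀ v ∈ G, v ∉ (frD θ β p S₀ b tp ia ta).U (rowS θ) δ n ∧
      v ∈ Bq ((frD θ β p S₀ b tp ia ta).h δ n (.inl (xT H.hp (mks p b tp)))) R)
    (hj : ∃ s, (∃ v ∈ ((frD θ β p S₀ b tp ia ta).r δ n (.inr (.inr ()))).I, IsC v s) ∧
      Pw (cs (cz ((frD θ β p S₀ b tp ia ta).r δ n (.inl (xT H.hp (mks p b tp)))).zt) ω ∩ G)
        ((frD θ β p S₀ b tp ia ta).r δ n (.inl (xT H.hp (mks p b tp)))).zt s)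
    {ℓ : Finset Ed} (hl : IsLoop ω ℓ)
    (hlB : ∀ y ∈ ℓ, hdv y ∈ Bq ((frD θ β p S₀ b tp ia ta).h δ n (.inl (xT H.hp (mks p b tp)))) R)
    (hm : ∃ e ∈ bS ((frD θ β p S₀ b tp ia ta).U (rowS θ) δ n), e ∈ ℓ)
    (hf0 : fLp θ ((frD θ β p S₀ b tp ia ta).U (rowS θ) δ n)
      ((frD θ β p S₀ b tp ia ta).ph (rowS θ) δ n 0) ω ℓ = 0) :
    ∃ e ∈ exs ((frD θ β p S₀ b tp ia ta).U (rowS θ) δ n) ℓ,
      wS θ ((frD θ β p S₀ b tp ia ta).U (rowS θ) δ n)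
        ((frD θ β p S₀ b tp ia ta).ph (rowS θ) δ n 0) ω e = 0 ∧
      ∃ i, (nm (((frD θ β p S₀ b tp ia ta).r δ n i).zt -
          (frD θ β p S₀ b tp ia ta).h δ n (.inl (xT H.hp (mks p b tp)))) : ℝ) ≤ 2 * δ * n ∧
        tlv e ∈ ((frD θ β p S₀ b tp ia ta).r δ n i).I ∧
        hdv (nxt (bS ((frD θ β p S₀ b tp ia ta).U (rowS θ) δ n)) ω e) ∈
          ((frD θ β p S₀ b tp ia ta).r δ n i).I := by
  obtain ⟨b1, b3, b5, b6, b7⟩ := H.basic
  obtain ⟨⟨p1, p2, p3⟩, ⟨p4, p5, p6⟩⟩ := row_pos (p := p) H.hQ H.hg H.hδ H.hδg H.hn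
    (xT H.hp (mks p b tp))
  have hd16 : 16 ≤ ⌊δ * n⌋₊ := Nat.le_floor (by push_cast; linarith [H.hn])
  have hδ4 : (⌊δ * n⌋₊ : ℝ) ≤ δ * n := Nat.floor_le (by have := H.hδ; positivity)
  obtain ⟨R', hR'⟩ : ∃ R' : ℕ, R' = R + 1 := ⟨_, rfl⟩
  have hRR : (R' : ℝ) ≤ g / 16 * n := by
    rw [hR']
    push_cast
    linarith
  have hph := H.phT (θ := θ) (β := β) (ia := ia) (ta := ta) hbg hRR (by omega)
  have hmem := fun v hv => H.mem_T (θ := θ) (β := β) (ia := ia) (ta := ta) hRR (v := v) hv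
  have hrB := fun v => H.rowB_I (θ := θ) (β := β) (ia := ia) (ta := ta) hRR (v := v)
  have hrA := fun v => H.rowA_I (θ := θ) (β := β) (ia := ia) (ta := ta) hRR (v := v)
  have hzB := (H.rowB_zt (θ := θ) (β := β) (ta := ta) hbg.1).1
  have hzA := H.rowA_zt (θ := θ) (β := β) (ta := ta) hbg.1
  have hcz := H.rowB_cz (θ := θ) (β := β) (ia := ia) (ta := ta) hbg
  have hh := H.h_T (θ := θ) (β := β) (ia := ia) (ta := ta)
  set gb := gB p n (mks p b tp) ⌊δ * n⌋₊ (xT H.hp (mks p b tp)) with hgb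
  set ga := gA p n (mks p b tp) ⌊δ * n⌋₊ (xT H.hp (mks p b tp)) with hga
  have hA : (R' : ℤ) - ((R' - gb : ℕ) : ℤ) = gb := by omega
  have hB : (R' : ℤ) - ((R' - ga : ℕ) : ℤ) = ga := by omega
  have hS : -(R' : ℤ) + ((R' - ⌊δ * n⌋₊ : ℕ) : ℤ) = -(⌊δ * n⌋₊ : ℤ) := by omega
  rw [hh] at hG hlB
  set X : ℤ := (n : ℤ) * (p (iT p)).1 with hX
  set Y : ℤ := (n : ℤ) * (p (iT p)).2 with hY
  set σ : ℤ := if clT p ia then 1 else -1 with hσ
  have hσb : decide (σ = -1) = decide (cT p ia = -1) := by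
    rw [hσ]
    unfold cT
    split_ifs <;> norm_num
  have hQ : ∀ v, v ∈ Bq (X, Y) R' → (v ∈ (frD θ β p S₀ b tp ia ta).U (rowS θ) δ n ↔
      v - (X, Y) ∈ wTQ (R' - gb) (R' - ga) (R' - ⌊δ * n⌋₊) R') := by
    intro v hv
    rw [hmem v hv]
    unfold wTQ
    simp only [Set.mem_ofPred_eq, Prod.fst_sub, Prod.snd_sub]
    rw [hA, hB, hS]
    constructor
    · rintro (⟨h1, h2⟩ | ⟨h1, h2⟩ | ⟨h1, h2⟩)
      · left; omega
      · right; left; omega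
      · right; right; omega
    · rintro (⟨h1, h2⟩ | ⟨h1, h2⟩ | ⟨h1, h2⟩)
      · left; omega
      · right; left; omega
      · right; right; omega
  have hUB : ∀ v : ℤ × ℤ, v - (X, Y) ∈ wTU R' → v ∈ Bq (X, Y) R' := by
    intro v hv
    obtain ⟨h1, h2, h3, h4⟩ := hv
    simp only [Prod.fst_sub, Prod.snd_sub] at h1 h2 h3 h4
    rw [mem_bq']
    simp only
    omega
  have hBU : ∀ v : ℤ × ℤ, v ∈ Bq (X, Y) R → v - (X, Y) ∈ wTU R' := by
    intro v hv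
    have h1 := mem_bq'.1 hv
    simp only at h1
    show _ ∧ _ ∧ _ ∧ _
    simp only [Prod.fst_sub, Prod.snd_sub]
    omega
  have hKV := fun v (hv : v - (X, Y) ∈ wTU R') => hQ v (hUB v hv)
  obtain ⟨s, ⟨vs, hvs, hcs⟩, hps⟩ := hj
  change vs ∈ (rD θ β p b tp ia ta n ⌊δ * n⌋₊ (.inr (.inr ()))).I at hvs
  rw [rowD_I] at hvs
  obtain ⟨s1, s2, s3⟩ := mem_spk.1 hvs
  change Pw (cs (cz (rD θ β p b tp ia ta n ⌊δ * n⌋₊ (.inl (xT H.hp (mks p b tp)))).zt) ω ∩ G)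
    (rD θ β p b tp ia ta n ⌊δ * n⌋₊ (.inl (xT H.hp (mks p b tp)))).zt s at hps
  rw [hcz, ← hσb] at hps
  have hcz' : ((rD θ β p b tp ia ta n ⌊δ * n⌋₊ (.inl (xT H.hp (mks p b tp)))).zt.1 +
      (rD θ β p b tp ia ta n ⌊δ * n⌋₊ (.inl (xT H.hp (mks p b tp)))).zt.2) % 2 =
      pr (decide (σ = -1)) := by
    rw [hσb, ← hcz]
    unfold cz pr
    by_cases he : Even ((rD θ β p b tp ia ta n ⌊δ * n⌋₊ (.inl (xT H.hp (mks p b tp)))).zt.1 +
      (rD θ β p b tp ia ta n ⌊δ * n⌋₊ (.inl (xT H.hp (mks p b tp)))).zt.2)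
    · rw [decide_eq_true he, if_pos rfl]
      exact Int.even_iff.1 he
    · rw [decide_eq_false he, if_neg (by decide)]
      exact Int.not_even_iff.1 he
  have hdist : ∀ i, (rD θ β p b tp ia ta n ⌊δ * n⌋₊ i).zt.1 = X - 1 ∨
      (rD θ β p b tp ia ta n ⌊δ * n⌋₊ i).zt.1 = X ∨
      (rD θ β p b tp ia ta n ⌊δ * n⌋₊ i).zt.1 = X + ga →
      (rD θ β p b tp ia ta n ⌊δ * n⌋₊ i).zt.2 = Y - 1 ∨
      (rD θ β p b tp ia ta n ⌊δ * n⌋₊ i).zt.2 = Y ∨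
      (rD θ β p b tp ia ta n ⌊δ * n⌋₊ i).zt.2 = Y + gb →
      (nm (((frD θ β p S₀ b tp ia ta).r δ n i).zt -
          (frD θ β p S₀ b tp ia ta).h δ n (.inl (xT H.hp (mks p b tp)))) : ℝ) ≤ 2 * δ * n := by
    intro i g1 g2
    rw [hh]
    change (nm ((rD θ β p b tp ia ta n ⌊δ * n⌋₊ i).zt - (X, Y)) : ℝ) ≤ 2 * δ * n
    have h3 : nm ((rD θ β p b tp ia ta n ⌊δ * n⌋₊ i).zt - (X, Y)) ≤ ((⌊δ * n⌋₊ + 1 : ℕ) : ℤ) := by
      rw [nm_le_iff]
      simp only [Prod.fst_sub, Prod.snd_sub]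
      omega
    have h4 : (nm ((rD θ β p b tp ia ta n ⌊δ * n⌋₊ i).zt - (X, Y)) : ℝ) ≤
        ((⌊δ * n⌋₊ + 1 : ℕ) : ℝ) := by exact_mod_cast h3
    push_cast at h4
    have := H.hn
    linarith
  have hdB := hdist (.inl (xT H.hp (mks p b tp)))
    (by rcases hzB with h | h <;> rw [h] <;> simp)
    (by rcases hzB with h | h <;> rw [h] <;> simp)
  have hdA := hdist (iA H.hp b tp)
    (by rcases hzA with h | h <;> rw [h] <;> simp)
    (by rcases hzA with h | h <;> rw [h] <;> simp)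
  clear hdist hzA
  generalize (rD θ β p b tp ia ta n ⌊δ * n⌋₊ (.inl (xT H.hp (mks p b tp)))).zt = t at hzB hps hcz'
  -- the colour of the frozen squares
  have hcol : ∀ v ∈ (frD θ β p S₀ b tp ia ta).U (rowS θ) δ n, v - (X, Y) ∈ wTU R' →
      ω v = decide (σ = -1) := by
    intro v hvU hv
    obtain ⟨i, hi⟩ := mem_uI.1 hvU
    rw [hf i v hi]
    have hvB : nm (v - (X, Y)) ≤ R' := mem_Bq' (hUB v hv)
    have hlt : (nm (v - (X, Y)) : ℝ) < g / 16 * n := by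
      have : (nm (v - (X, Y)) : ℝ) ≤ R' := by exact_mod_cast hvB
      rw [hR'] at this
      push_cast at this
      linarith
    have h2 := colD (θ := θ) (β := β) (ta := ta) H hbg (.inl (xT H.hp (mks p b tp))) i v hi
      (by rw [hh]; exact hlt)
    have hb : (frD θ β p S₀ b tp ia ta).b δ n (.inl (xT H.hp (mks p b tp))) =
      decide (cT p ia = -1) := wcJ_T H hbg
    rw [hb, ← hσb] at h2
    exact h2
  -- the corner of the spoke
  have hs1 : s.1 = X ∨ s.1 = X + 1 := by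
    obtain ⟨h2, -⟩ := hcs
    omega
  have hs2 : s.2 ≤ Y - ⌊δ * n⌋₊ := by
    obtain ⟨-, h2⟩ := hcs
    omega
  have hs3 : Y - R' ≤ s.2 := by
    rcases pw_last hps with h2 | ⟨u, hu, hu2⟩
    · exfalso
      rcases hzB with h3 | h3 <;> rw [h2, h3] at hs2 <;> simp only at hs2 <;> omega
    · have h3 := mem_bq'.1 (hG u hu.2).2
      simp only at h3
      obtain ⟨-, h4⟩ := hu2
      omega
  have hst : Pw (cs (decide (σ = -1)) ω ∩ {v | v - (X, Y) ∈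
      wTR (R' - gb) (R' - ga) (R' - ⌊δ * n⌋₊) R'}) t s :=
    Pw.mono (F := cs (decide (σ = -1)) ω ∩ G)
      (fun v hv => And.intro hv.1 (wTU_R hKV (hBU v (hG v hv.2).2) (hG v hv.2).1)) hps
  have ht : t = (X, Y) + ((R' : ℤ) - ((R' - ga : ℕ) : ℤ), -1) ∨
      t = (X, Y) + ((R' : ℤ) - ((R' - ga : ℕ) : ℤ), 0) := by
    rw [hB, Prod.mk_add_mk, Prod.mk_add_mk, add_zero, ← sub_eq_add_neg]
    exact hzB
  obtain ⟨e, he, hw, hk⟩ := kilT_of (t := t) (s := s) (z := (X, Y)) (A := R' - gb) (B := R' - ga)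
    (S := R' - ⌊δ * n⌋₊) (R := R')
    (by rw [hσ]; split_ifs <;> simp) (by omega) (by omega) (by omega) (by omega) (by omega)
    (by omega) hKV
    (fun v hv h => by
      obtain ⟨h1, h2, h3, h4, h5, h6, h7⟩ := h
      simp only [Prod.fst_sub, Prod.snd_sub] at h1 h2 h3 h4
      have h8 := (hQ v (by
        rw [mem_bq']
        simp only
        omega)).1 hv
      rcases h8 with h8 | h8 | h8
      · exact h5 h8
      · exact h6 h8
      · exact h7 h8)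
    (fun g hg _ => by
      rw [ph_D, phr_off (fun v => mem_U v) H.rsep hg, phr_off (fun v => mem_U v) H.rsep hg,
        add_zero])
    hph h0 h1 hl (fun y hy => hBU _ (hlB y hy)) hcol hm hf0 ht hcz' hs1 hs3
    (by simp only; omega) hst
  rw [hA, hB] at hk
  simp only [Prod.fst_sub, Prod.snd_sub] at hk
  refine ⟨e, he, hw, ?_⟩
  rcases hk with ⟨k1, k2, k3, k4, k5, k6⟩ | ⟨k1, k2, k3, k4, k5, k6⟩
  · exact ⟨.inl (xT H.hp (mks p b tp)), hdB, hrB _ (by omega) (by omega) (by omega),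
      hrB _ (by omega) (by omega) (by omega)⟩
  · exact ⟨iA H.hp b tp, hdA, hrA _ (by omega) (by omega) (by omega),
      hrA _ (by omega) (by omega) (by omega)⟩

/-- `kil_T0` with the hypotheses on the gauge. -/
theorem kil_T [NeZero l] (_hc : 0 ≤ Real.cos θ) (h0 : 0 < θ) (h1 : θ < Real.pi / 2)
    (_hβ : β = (θ - Real.pi) / 2 ∨ β = (Real.pi - 3 * θ) / 2) (H : DobN p S₀ b tp g δ n)
    (hbg : BGap l (mks p b tp) g (.dob ia ta)) {R : ℕ} (hR1 : ⌊δ * n⌋₊ + 3 ≤ R)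
    (hR2 : (R : ℝ) + 2 ≤ g / 16 * n) {ω : Cfg}
    (hf : (frD θ β p S₀ b tp ia ta).Frz (rowS θ) δ n ω) {G : Set (ℤ × ℤ)}
    (hG : ∀ v ∈ G, v ∉ (frD θ β p S₀ b tp ia ta).U (rowS θ) δ n ∧
      v ∈ Bq ((frD θ β p S₀ b tp ia ta).h δ n (.inl (xT H.hp (mks p b tp)))) R)
    (hj : ∃ s, (∃ v ∈ ((frD θ β p S₀ b tp ia ta).r δ n (.inr (.inr ()))).I, IsC v s) ∧
      Pw (cs (cz ((frD θ β p S₀ b tp ia ta).r δ n (.inl (xT H.hp (mks p b tp)))).zt) ω ∩ G)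
        ((frD θ β p S₀ b tp ia ta).r δ n (.inl (xT H.hp (mks p b tp)))).zt s)
    {ℓ : Finset Ed} (hl : IsLoop ω ℓ)
    (hlB : ∀ y ∈ ℓ, hdv y ∈ Bq ((frD θ β p S₀ b tp ia ta).h δ n (.inl (xT H.hp (mks p b tp)))) R)
    (hm : ∃ e ∈ bS ((frD θ β p S₀ b tp ia ta).U (rowS θ) δ n), e ∈ ℓ)
    (hf0 : fLp θ ((frD θ β p S₀ b tp ia ta).U (rowS θ) δ n)
      ((frD θ β p S₀ b tp ia ta).ph (rowS θ) δ n 0) ω ℓ = 0) :
    ∃ e ∈ exs ((frD θ β p S₀ b tp ia ta).U (rowS θ) δ n) ℓ,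
      wS θ ((frD θ β p S₀ b tp ia ta).U (rowS θ) δ n)
        ((frD θ β p S₀ b tp ia ta).ph (rowS θ) δ n 0) ω e = 0 ∧
      ∃ i, (nm (((frD θ β p S₀ b tp ia ta).r δ n i).zt -
          (frD θ β p S₀ b tp ia ta).h δ n (.inl (xT H.hp (mks p b tp)))) : ℝ) ≤ 2 * δ * n ∧
        tlv e ∈ ((frD θ β p S₀ b tp ia ta).r δ n i).I ∧
        hdv (nxt (bS ((frD θ β p S₀ b tp ia ta).U (rowS θ) δ n)) ω e) ∈
          ((frD θ β p S₀ b tp ia ta).r δ n i).I :=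
  H.kil_T0 h0 h1 hbg hR1 hR2 hf hG hj hl hlB hm hf0

end DobN

end Vale.Agent.P167.N.ID
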