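import Vale.Agent.P167.N.ID.WinI
import Vale.Agent.P167.N.NET.QuadG

/-!
# P167, `q < 1`, START (P2T): the mixed pair at the hole with three rows

The window of the hole with three rows: the row `A` goes up (column `-1`, `y ≥ R - A`), the row `B`
goes right (line `-1`, `x ≥ R - B`), the spoke goes down (column `0`, `y < -R + S`).

* `bd_pol`: a boundary curve which goes through all the sides is a polygon around its domain.
* `wT_pol`: the boundary curve of the window.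
* `mixT`: if a corner of the spoke is joined to a tip corner of `A` or of `B` of the colour `e` by
  squares of the colour `e` in the window, the lower face of `B` is not joined to the left face of
  `A` by squares of the other colour.
-/

set_option autoImplicit false

namespace Vale.Agent.P167.N.ID

open Finset
open Vale.Agent.P145.FB Vale.Agent.P167.H632 Vale.Agent.P167.H192.TA
open Vale.Agent.P167.Top
open Vale.Agent.P167.H871
open Vale.Agent.P167.H871.Q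
open Vale.Agent.P167.N.NET
open Vale.Agent.P167.E6 (dir face IsPolygon Encloses)

/-! ### boundary curves and polygons -/

theorem vec_dir (r : Fin 4) : vec ((r : ℕ) : ℤ) = dir r := by
  fin_cases r <;> rfl

theorem sqL_face (s : ℤ × ℤ) (r : Fin 4) : sqL s ((r : ℕ) : ℤ) = face s r := by
  obtain ⟨x, y⟩ := s
  fin_cases r <;> simp [sqL, face]

theorem sqL_face' (s : ℤ × ℤ) (r : Fin 4) : sqL s (((r : ℕ) : ℤ) - 1) = face s (r - 1) := by
  obtain ⟨x, y⟩ := s
  fin_cases r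
  · simp [sqL, face, show (0 : Fin 4) - 1 = 3 from rfl]
  · simp [sqL, face]
  · simp [sqL, face, show (2 : Fin 4) - 1 = 1 from rfl]
  · simp [sqL, face, show (3 : Fin 4) - 1 = 2 from rfl]

theorem ex_fin4 (d : ℤ) : ∃ r : Fin 4, d % 4 = (((r : ℕ) : ℤ)) % 4 := by
  rcases (by omega : d % 4 = 0 ∨ d % 4 = 1 ∨ d % 4 = 2 ∨ d % 4 = 3) with h | h | h | h
  · exact ⟨0, by simpa using h⟩
  · exact ⟨1, by simpa using h⟩
  · exact ⟨2, by simpa using h⟩
  · exact ⟨3, by simpa using h⟩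

theorem vec_inj {d d' : ℤ} (h : vec d = vec d') : d % 4 = d' % 4 := by
  obtain ⟨r, hr⟩ := ex_fin4 d
  obtain ⟨r', hr'⟩ := ex_fin4 d'
  rw [vec_congr hr, vec_congr hr', vec_dir, vec_dir] at h
  rw [hr, hr']
  have : r = r' := by
    revert h
    fin_cases r <;> fin_cases r' <;> simp [dir]
  rw [this]

theorem bd_val {D : Set (ℤ × ℤ)} {n : ℕ} {P : ℕ → ℤ × ℤ} {U : ℕ → ℤ} {σ : ℤ} [NeZero n]
    (hb : Bd D n P U σ) (k : ZMod n) : P (k + 1 : ZMod n).val = P (k.val + 1) := by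
  have h0 : k.val < n := ZMod.val_lt k
  have h2 : ((k.val + 1 : ℕ) : ZMod n) = k + 1 := by
    push_cast
    rw [ZMod.natCast_zmod_val]
  rcases Nat.lt_or_ge (k.val + 1) n with h | h
  · rw [← h2, ZMod.val_natCast_of_lt h]
  · have h1 : k.val + 1 = n := by omega
    rw [← h2, h1, ZMod.natCast_self, ZMod.val_zero]
    have := hb.perP 0
    rw [Nat.zero_add] at this
    exact this.symm

/-- **A boundary curve through all the sides is a polygon around the domain.** -/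
theorem bd_pol {D : Set (ℤ × ℤ)} {n : ℕ} {P : ℕ → ℤ × ℤ} {U : ℕ → ℤ} {σ : ℤ} (hn : 2 < n)
    (hb : Bd D n P U σ)
    (cov : ∀ s d, sqL s d ∈ D → sqL s (d - 1) ∉ D → ∃ i < n, P i = s ∧ U i % 4 = d % 4)
    {G : Finset (ℤ × ℤ)} (hG : ∀ v, v ∈ G ↔ v ∈ D) :
    IsPolygon (fun k : ZMod n => P k.val) ∧ Encloses (fun k : ZMod n => P k.val) G := by
  have : NeZero n := ⟨by omega⟩
  have hinj : ∀ i j, i < n → j < n → P i = P j → i = j := by
    intro i j hi hj h
    rcases lt_trichotomy i j with h1 | h1 | h1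
    · exact absurd h (hb.inj i j h1 (by omega))
    · exact h1
    · exact absurd h.symm (hb.inj j i h1 (by omega))
  refine ⟨⟨hn, ?_, ?_⟩, ?_⟩
  · intro k l h
    exact ZMod.val_injective n (hinj _ _ (ZMod.val_lt k) (ZMod.val_lt l) h)
  · intro k
    obtain ⟨r, hr⟩ := ex_fin4 (U k.val)
    refine ⟨r, ?_⟩
    beta_reduce
    rw [bd_val hb, hb.step, vec_congr hr, vec_dir]
  · intro v r
    rw [hG, hG]
    constructor
    · rintro ⟨k, rfl, h2⟩
      beta_reduce at h2 ⊢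
      rw [bd_val hb, hb.step, ← vec_dir] at h2
      have h3 := vec_inj (add_left_cancel h2)
      have h4 := hb.left k.val
      have h5 := hb.right k.val
      rw [sqL_congr h3, sqL_face] at h4
      rw [sqL_congr (show (U k.val - 1) % 4 = (((r : ℕ) : ℤ) - 1) % 4 by omega), sqL_face'] at h5
      exact ⟨h4, h5⟩
    · rintro ⟨h1, h2⟩
      rw [← sqL_face] at h1
      rw [← sqL_face'] at h2
      obtain ⟨i, hi, h3, h4⟩ := cov _ _ h1 h2
      refine ⟨(i : ZMod n), ?_, ?_⟩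
      · beta_reduce
        rw [ZMod.val_natCast_of_lt hi, h3]
      · beta_reduce
        rw [bd_val hb, ZMod.val_natCast_of_lt hi, hb.step, h3, vec_congr h4, vec_dir]

/-! ### the window -/

variable {A B S R : ℕ}

/-- The window as a finite set. -/
noncomputable def wTG (A B S R : ℕ) : Finset (ℤ × ℤ) := by
  classical
  exact ((Ico (-(R : ℤ)) R) ×ˢ (Ico (-(R : ℤ)) R)).filter fun v => v ∈ wTR A B S R

theorem mem_wTG {v : ℤ × ℤ} : v ∈ wTG A B S R ↔ v ∈ wTR A B S R := by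
  classical
  unfold wTG
  rw [mem_filter, mem_product, mem_Ico, mem_Ico]
  exact ⟨fun h => h.2, fun h => ⟨⟨⟨h.1, h.2.1⟩, h.2.2.1, h.2.2.2.1⟩, h⟩⟩

/-- The boundary curve goes through all the sides. -/
theorem wT_covA (hA : 1 ≤ A) (hB : 1 ≤ B) (hS : 1 ≤ S) (hAR : A < R) (hBR : B + 1 < R) (hSR : S < R)
    {x y d : ℤ} (h1 : sqL (x, y) d ∈ wTR A B S R) (h2 : sqL (x, y) (d - 1) ∉ wTR A B S R) :
    ∃ k u, k < 8 * R + 2 * S + 2 * B + 2 * A ∧ wTV A B S R k x y u ∧ u % 4 = d % 4 := by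
  rcases (by omega : d % 4 = 0 ∨ d % 4 = 1 ∨ d % 4 = 2 ∨ d % 4 = 3) with h | h | h | h
  · rw [sqL_congr (d' := 0) (by omega)] at h1
    rw [sqL_congr (d' := -1) (by omega)] at h2
    simp only [sqL, wTR, Set.mem_ofPred_eq] at h1 h2
    norm_num at h1 h2
    rcases (by omega : (y = -R ∧ x < 0) ∨ (y = -R ∧ 0 < x) ∨ (y = 0 ∧ R - B ≤ x) ∨
      (x = 0 ∧ y = -R + S)) with h3 | h3 | h3 | h3
    · exact ⟨(x + R).toNat, 0, by omega, Or.inl ⟨by omega, by omega, by omega, by omega, rfl⟩,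
        by omega⟩
    · exact ⟨(x + R + 2 * S).toNat, 0, by omega, Or.inr (Or.inr (Or.inr (Or.inr (Or.inl
        ⟨by omega, by omega, by omega, by omega, rfl⟩)))), by omega⟩
    · exact ⟨(x + 2 * R + 2 * B + 2 * S).toNat, 0, by omega, Or.inr (Or.inr (Or.inr (Or.inr (Or.inr
        (Or.inr (Or.inr (Or.inr (Or.inl ⟨by omega, by omega, by omega, by omega, rfl⟩)))))))),
        by omega⟩
    · exact ⟨R + S, 0, by omega, Or.inr (Or.inr (Or.inl ⟨by omega, by omega, by omega, by omega,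
        rfl⟩)), by omega⟩
  · rw [sqL_congr (d' := 1) (by omega)] at h1
    rw [sqL_congr (d' := 0) (by omega)] at h2
    simp only [sqL, wTR, Set.mem_ofPred_eq] at h1 h2
    norm_num at h1 h2
    rcases (by omega : (x = R ∧ y < -1) ∨ (x = R ∧ 0 ≤ y) ∨ (x = -1 ∧ R - A ≤ y) ∨
      (x = R - B ∧ y = -1) ∨ (x = 0 ∧ y < -R + S)) with h3 | h3 | h3 | h3 | h3
    · exact ⟨(y + 3 * R + 2 * S).toNat, 1, by omega, Or.inr (Or.inr (Or.inr (Or.inr (Or.inr (Or.inl
        ⟨by omega, by omega, by omega, by omega, rfl⟩))))), by omega⟩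
    · exact ⟨(y + 3 * R + 2 * S + 2 * B).toNat, 1, by omega, Or.inr (Or.inr (Or.inr (Or.inr (Or.inr
        (Or.inr (Or.inr (Or.inr (Or.inr (Or.inl
        ⟨by omega, by omega, by omega, by omega, rfl⟩))))))))), by omega⟩
    · exact ⟨(y + 4 * R + 2 * A + 2 * S + 2 * B + 1).toNat, 1, by omega, Or.inr (Or.inr (Or.inr
        (Or.inr (Or.inr (Or.inr (Or.inr (Or.inr (Or.inr (Or.inr (Or.inr (Or.inr (Or.inr
        (Or.inl ⟨by omega, by omega, by omega, by omega, rfl⟩))))))))))))), by omega⟩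
    · exact ⟨3 * R + 2 * S + B - 1, 1, by omega, Or.inr (Or.inr (Or.inr (Or.inr (Or.inr (Or.inr
        (Or.inr (Or.inl ⟨by omega, by omega, by omega, by omega, rfl⟩))))))), by omega⟩
    · exact ⟨(y + 2 * R).toNat, 1, by omega, Or.inr (Or.inl ⟨by omega, by omega, by omega,
        by omega, rfl⟩), by omega⟩
  · rw [sqL_congr (d' := 2) (by omega)] at h1
    rw [sqL_congr (d' := 1) (by omega)] at h2
    simp only [sqL, wTR, Set.mem_ofPred_eq] at h1 h2
    norm_num at h1 h2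
    rcases (by omega : (y = R ∧ 0 < x) ∨ (y = R ∧ x < 0) ∨ (x = 0 ∧ y = R - A) ∨
      (y = -1 ∧ R - B < x)) with h3 | h3 | h3 | h3
    · exact ⟨(5 * R + 2 * S + 2 * B - x).toNat, 2, by omega, Or.inr (Or.inr (Or.inr (Or.inr (Or.inr
        (Or.inr (Or.inr (Or.inr (Or.inr (Or.inr (Or.inl
        ⟨by omega, by omega, by omega, by omega, rfl⟩)))))))))), by omega⟩
    · exact ⟨(5 * R + 2 * S + 2 * B + 2 * A - x).toNat, 2, by omega, Or.inr (Or.inr (Or.inr (Or.inr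
        (Or.inr (Or.inr (Or.inr (Or.inr (Or.inr (Or.inr (Or.inr (Or.inr (Or.inr (Or.inr (Or.inl
        ⟨by omega, by omega, by omega, by omega, rfl⟩)))))))))))))), by omega⟩
    · exact ⟨5 * R + 2 * S + 2 * B + A, 2, by omega, Or.inr (Or.inr (Or.inr (Or.inr (Or.inr (Or.inr
        (Or.inr (Or.inr (Or.inr (Or.inr (Or.inr (Or.inr (Or.inl
        ⟨by omega, by omega, by omega, by omega, rfl⟩)))))))))))), by omega⟩
    · exact ⟨(4 * R + 2 * S - 1 - x).toNat, 2, by omega, Or.inr (Or.inr (Or.inr (Or.inr (Or.inr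
        (Or.inr (Or.inl ⟨by omega, by omega, by omega, by omega, rfl⟩)))))), by omega⟩
  · rw [sqL_congr (d' := 3) (by omega)] at h1
    rw [sqL_congr (d' := 2) (by omega)] at h2
    simp only [sqL, wTR, Set.mem_ofPred_eq] at h1 h2
    norm_num at h1 h2
    rcases (by omega : x = -R ∨ (x = 0 ∧ R - A < y) ∨ (x = 1 ∧ y < -R + S + 1)) with h3 | h3 | h3
    · exact ⟨(7 * R + 2 * S + 2 * B + 2 * A - y).toNat, 3, by omega, Or.inr (Or.inr (Or.inr (Or.inr
        (Or.inr (Or.inr (Or.inr (Or.inr (Or.inr (Or.inr (Or.inr (Or.inr (Or.inr (Or.inr (Or.inr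
        ⟨by omega, by omega, by omega, by omega, rfl⟩)))))))))))))), by omega⟩
    · exact ⟨(6 * R + 2 * S + 2 * B - y).toNat, 3, by omega, Or.inr (Or.inr (Or.inr (Or.inr (Or.inr
        (Or.inr (Or.inr (Or.inr (Or.inr (Or.inr (Or.inr (Or.inl
        ⟨by omega, by omega, by omega, by omega, rfl⟩))))))))))), by omega⟩
    · exact ⟨(2 * S + 1 - y).toNat, -1, by omega, Or.inr (Or.inr (Or.inr (Or.inl
        ⟨by omega, by omega, by omega, by omega, rfl⟩))), by omega⟩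

/-- **Exclusion**: paths of the two colours between four positions of a boundary curve. -/
theorem bd_excl {D : Set (ℤ × ℤ)} {n : ℕ} {P : ℕ → ℤ × ℤ} {U : ℕ → ℤ} {σ : ℤ} (hn : 2 < n)
    (hb : Bd D n P U σ)
    (cov : ∀ s d, sqL s d ∈ D → sqL s (d - 1) ∉ D → ∃ i < n, P i = s ∧ U i % 4 = d % 4)
    (hf : D.Finite) {e : Bool} {ω : Cfg} {G : Set (ℤ × ℤ)} (hG : G ⊆ D) {i j k l : ℕ}
    (hij : i ≤ j) (hjk : j ≤ k) (hkl : k ≤ l) (hl : l ≤ n)
    (hk : ((P k).1 + (P k).2) % 2 = pr e) (hj : ((P j).1 + (P j).2) % 2 = pr (!e))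
    (h1 : Pw (cs e ω ∩ G) (P i) (P k)) (h2 : Pw (cs (!e) ω ∩ G) (P j) (P l)) : False := by
  have : NeZero n := ⟨by omega⟩
  obtain ⟨hq, hE⟩ := bd_pol (G := hf.toFinset) hn hb cov (fun v => hf.mem_toFinset)
  have hP : ∀ m : ℕ, m ≤ n → P (m : ZMod n).val = P m := by
    intro m hm
    rcases Nat.lt_or_ge m n with h | h
    · rw [ZMod.val_natCast_of_lt h]
    · obtain rfl : m = n := by omega
      rw [ZMod.natCast_self, ZMod.val_zero]
      have := hb.perP 0
      rw [Nat.zero_add] at this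
      exact this.symm
  have hQ := quad_pol (c := e) hq hE (a := i) (b := k) (m := k) (d := l) (by omega) le_rfl hkl hl
  have hGG : G ⊆ ↑hf.toFinset := fun v hv => by
    rw [Finset.mem_coe, hf.mem_toFinset]
    exact hG hv
  have hi : ((P i).1 + (P i).2) % 2 = pr e := by
    rw [h1.parity]
    exact hk
  have hlc : ((P l).1 + (P l).2) % 2 = pr (!e) := by
    rw [← h2.parity]
    exact hj
  refine (hQ.iff ω).1 ⟨P k, ⟨hk, k, le_rfl, le_rfl, hP k (by omega)⟩, P i,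
    Or.inl ⟨hi, i, Nat.zero_le _, le_rfl, hP i (by omega)⟩,
    h1.symm.mono (Set.inter_subset_inter_right _ hGG)⟩ ?_
  exact ⟨P j, ⟨hj, j, hij, hjk, hP j (by omega)⟩, P l, ⟨hlc, l, hkl, le_rfl, hP l hl⟩,
    h2.mono (Set.inter_subset_inter_right _ hGG)⟩

theorem wTR_fin (z : ℤ × ℤ) : {v : ℤ × ℤ | v - z ∈ wTR A B S R}.Finite := by
  refine Set.Finite.subset ((Ico (z.1 - R) (z.1 + R)) ×ˢ (Ico (z.2 - R) (z.2 + R))).finite_toSet ?_
  rintro v ⟨h1, h2, h3, h4, -⟩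
  rw [Finset.mem_coe, mem_product, mem_Ico, mem_Ico]
  simp only [Prod.fst_sub, Prod.snd_sub] at h1 h2 h3 h4
  omega

/-- **The mixed pair is excluded**, in positions of the curve. -/
theorem mixT_pos (hA : 1 ≤ A) (hB : 1 ≤ B) (hS : 1 ≤ S) (hAR : A < R) (hBR : B + 1 < R)
    (hSR : S < R) (z : ℤ × ℤ) {e : Bool} {ω : Cfg} {G : Set (ℤ × ℤ)}
    (hG : ∀ v ∈ G, v - z ∈ wTR A B S R) {i j k l : ℕ}
    (hij : i ≤ j) (hjk : j ≤ k) (hkl : k ≤ l) (hl : l < 8 * R + 2 * S + 2 * B + 2 * A)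
    {s x t y : ℤ × ℤ} {us ux ut uy : ℤ} (hs : wTV A B S R i (s - z).1 (s - z).2 us)
    (hx : wTV A B S R j (x - z).1 (x - z).2 ux) (ht : wTV A B S R k (t - z).1 (t - z).2 ut)
    (hy : wTV A B S R l (y - z).1 (y - z).2 uy)
    (htc : (t.1 + t.2) % 2 = pr e) (hxc : (x.1 + x.2) % 2 = pr (!e))
    (h1 : Pw (cs e ω ∩ G) s t) (h2 : Pw (cs (!e) ω ∩ G) x y) : False := by
  obtain ⟨P, U, hb, hV⟩ := wT_bd hA hB hS hAR hBR hSR
  have e0 : {v : ℤ × ℤ | Lq z 0 v ∈ wTR A B S R} = {v | v - z ∈ wTR A B S R} := by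
    ext v
    show Lq z 0 v ∈ wTR A B S R ↔ _
    rw [Lq0]
    rfl
  have hb' := Bd.frame hb z 0
  rw [e0] at hb'
  have hat : ∀ {m : ℕ} {v : ℤ × ℤ} {u : ℤ}, m < 8 * R + 2 * S + 2 * B + 2 * A →
      wTV A B S R m (v - z).1 (v - z).2 u → Ls z 0 (P m) = v := by
    intro m v u hm h
    obtain ⟨e1, e2, -⟩ := wT_uniq hA hB hS hAR hBR hSR (hV m hm) h
    rw [Ls0, show P m = v - z from Prod.ext e1 e2]
    abel
  have a1 := hat (by omega) hs
  have a2 := hat (by omega) hx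
  have a3 := hat (by omega) ht
  have a4 := hat hl hy
  refine bd_excl (by omega) hb' ?_ (wTR_fin z) hG hij hjk hkl hl.le (e := e) (ω := ω) ?_ ?_ ?_ ?_
  · intro v d g1 g2
    have c1 : ∀ d, sqL v d - z = sqL (v - z) d := fun d => by
      have := sqL_add z (v - z) d
      rw [add_sub_cancel] at this
      rw [this]
      abel
    change sqL v d - z ∈ wTR A B S R at g1
    change ¬ sqL v (d - 1) - z ∈ wTR A B S R at g2
    rw [c1] at g1 g2
    obtain ⟨m, u, hm, h4, h5⟩ := wT_covA hA hB hS hAR hBR hSR (x := (v - z).1) (y := (v - z).2)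
      g1 g2
    obtain ⟨e1, e2, e3⟩ := wT_uniq hA hB hS hAR hBR hSR (hV m hm) h4
    refine ⟨m, hm, hat hm h4, ?_⟩
    rw [add_zero, e3]
    exact h5
  · rw [a3]; exact htc
  · rw [a2]; exact hxc
  · rw [a1, a3]; exact h1
  · rw [a2, a4]; exact h2

/-- **The mixed pair is excluded**: `s` a corner of the spoke, `t` a corner of the colour `e` of the
end side of `A` or of `B`, `x` a corner of the lower face of `B`, `y` a corner of the left face of
`A`. -/
theorem mixT (hA : 1 ≤ A) (hB : 1 ≤ B) (hS : 1 ≤ S) (hAR : A < R) (hBR : B + 1 < R)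
    (hSR : S < R) (z : ℤ × ℤ) {e : Bool} {ω : Cfg} {G : Set (ℤ × ℤ)}
    (hG : ∀ v ∈ G, v - z ∈ wTR A B S R)
    {s t x y : ℤ × ℤ} (hs : s.1 = z.1 ∨ s.1 = z.1 + 1) (hs1 : z.2 - R ≤ s.2)
    (hs2 : s.2 ≤ z.2 - R + S)
    (ht : t = z + (0, (R : ℤ) - A) ∨ t = z + (-1, (R : ℤ) - A) ∨ t = z + ((R : ℤ) - B, -1) ∨
      t = z + ((R : ℤ) - B, 0)) (htc : (t.1 + t.2) % 2 = pr e) (hst : Pw (cs e ω ∩ G) s t)
    (hx : x.2 = z.2 - 1) (hx1 : z.1 + R - B ≤ x.1) (hx2 : x.1 ≤ z.1 + R)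
    (hxc : (x.1 + x.2) % 2 = pr (!e))
    (hy : y.1 = z.1 - 1) (hy1 : z.2 + R - A ≤ y.2) (hy2 : y.2 ≤ z.2 + R)
    (hxy : Pw (cs (!e) ω ∩ G) x y) : False := by
  have hyc : (y.1 + y.2) % 2 = pr (!e) := by
    rw [← hxy.parity]
    exact hxc
  have hp := pr_not e
  have hp2 := pr_or e
  -- the positions
  obtain ⟨is, us, i1, i2⟩ : ∃ (i : ℕ) (u : ℤ), i ≤ R + 2 * S + 1 ∧
      wTV A B S R i (s - z).1 (s - z).2 u := by
    rw [Prod.fst_sub, Prod.snd_sub]
    rcases hs with hs | hs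
    · rcases Int.lt_or_le s.2 (z.2 - R + S) with h | h
      · exact ⟨(s.2 - z.2 + 2 * R).toNat, _, by omega, Or.inr (Or.inl
          ⟨by omega, by omega, by omega, by omega, rfl⟩)⟩
      · exact ⟨R + S, _, by omega, Or.inr (Or.inr (Or.inl
          ⟨by omega, by omega, by omega, by omega, rfl⟩))⟩
    · rcases Int.lt_or_le (z.2 - R) s.2 with h | h
      · exact ⟨(2 * S + 1 - (s.2 - z.2)).toNat, _, by omega, Or.inr (Or.inr (Or.inr
          (Or.inl ⟨by omega, by omega, by omega, by omega, rfl⟩)))⟩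
      · exact ⟨R + 2 * S + 1, _, by omega, Or.inr (Or.inr (Or.inr (Or.inr
          (Or.inl ⟨by omega, by omega, by omega, by omega, rfl⟩))))⟩
  obtain ⟨ix, ux, j1, j2, j3⟩ : ∃ (i : ℕ) (u : ℤ), R + 2 * S + 1 ≤ i ∧
      i + (x.1 - z.1) = 4 * R + 2 * S - 1 ∧ wTV A B S R i (x - z).1 (x - z).2 u := by
    rw [Prod.fst_sub, Prod.snd_sub]
    rcases Int.lt_or_le (z.1 + R - B) x.1 with h | h
    · exact ⟨(4 * R + 2 * S - 1 - (x.1 - z.1)).toNat, _, by omega, by omega, Or.inr (Or.inr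
        (Or.inr (Or.inr (Or.inr (Or.inr (Or.inl
          ⟨by omega, by omega, by omega, by omega, rfl⟩))))))⟩
    · exact ⟨3 * R + 2 * S + B - 1, _, by omega, by omega, Or.inr (Or.inr
        (Or.inr (Or.inr (Or.inr (Or.inr (Or.inr (Or.inl
          ⟨by omega, by omega, by omega, by omega, rfl⟩)))))))⟩
  obtain ⟨iy, uy, k1, k2, k3⟩ : ∃ (i : ℕ) (u : ℤ), i ≤ 5 * R + 2 * S + 2 * B + 2 * A + 1 ∧
      (i : ℤ) = y.2 - z.2 + (4 * R + 2 * A + 2 * S + 2 * B + 1) ∧
      wTV A B S R i (y - z).1 (y - z).2 u := by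
    rw [Prod.fst_sub, Prod.snd_sub]
    rcases Int.lt_or_le y.2 (z.2 + R) with h | h
    · exact ⟨(y.2 - z.2 + (4 * R + 2 * A + 2 * S + 2 * B + 1)).toNat, _, by omega, by omega,
        Or.inr (Or.inr (Or.inr (Or.inr (Or.inr (Or.inr (Or.inr (Or.inr (Or.inr
        (Or.inr (Or.inr (Or.inr (Or.inr (Or.inl
          ⟨by omega, by omega, by omega, by omega, rfl⟩)))))))))))))⟩
    · exact ⟨5 * R + 2 * S + 2 * B + 2 * A + 1, _, by omega, by omega,
        Or.inr (Or.inr (Or.inr (Or.inr (Or.inr (Or.inr (Or.inr (Or.inr (Or.inr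
        (Or.inr (Or.inr (Or.inr (Or.inr (Or.inr (Or.inl
          ⟨by omega, by omega, by omega, by omega, rfl⟩))))))))))))))⟩
  obtain ⟨it, ut, l1, l2, l3⟩ : ∃ (i : ℕ) (u : ℤ), ix ≤ i ∧ i ≤ iy ∧
      wTV A B S R i (t - z).1 (t - z).2 u := by
    rcases ht with rfl | rfl | rfl | rfl <;> rw [add_sub_cancel_left] <;>
      simp only [Prod.fst_add, Prod.snd_add] at htc ⊢
    · exact ⟨5 * R + 2 * S + 2 * B + A, _, by omega, by omega,
        Or.inr (Or.inr (Or.inr (Or.inr (Or.inr (Or.inr (Or.inr (Or.inr (Or.inr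
        (Or.inr (Or.inr (Or.inr (Or.inl
          ⟨by omega, by omega, by omega, by omega, rfl⟩))))))))))))⟩
    · exact ⟨5 * R + 2 * S + 2 * B + A + 1, _, by omega, by omega,
        Or.inr (Or.inr (Or.inr (Or.inr (Or.inr (Or.inr (Or.inr (Or.inr (Or.inr
        (Or.inr (Or.inr (Or.inr (Or.inr (Or.inl
          ⟨by omega, by omega, by omega, by omega, rfl⟩)))))))))))))⟩
    · exact ⟨3 * R + 2 * S + B - 1, _, by omega, by omega,
        Or.inr (Or.inr (Or.inr (Or.inr (Or.inr (Or.inr (Or.inr (Or.inl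
          ⟨by omega, by omega, by omega, by omega, rfl⟩)))))))⟩
    · exact ⟨3 * R + 2 * S + B, _, by omega, by omega,
        Or.inr (Or.inr (Or.inr (Or.inr (Or.inr (Or.inr (Or.inr (Or.inr (Or.inl
          ⟨by omega, by omega, by omega, by omega, rfl⟩))))))))⟩
  exact mixT_pos hA hB hS hAR hBR hSR z hG (by omega) l1 l2 (by omega) i2 j3 l3 k3 htc hxc hst hxy

/-- The squares of the region which are not frozen are in the window. -/
theorem wTU_R {z : ℤ × ℤ} {K : Finset (ℤ × ℤ)}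
    (hKV : ∀ v, v - z ∈ wTU R → (v ∈ K ↔ v - z ∈ wTQ A B S R)) {v : ℤ × ℤ}
    (h1 : v - z ∈ wTU R) (h2 : v ∉ K) : v - z ∈ wTR A B S R := by
  have h3 : v - z ∉ wTQ A B S R := fun h => h2 ((hKV v h1).2 h)
  obtain ⟨a1, a2, a3, a4⟩ := h1
  exact ⟨by omega, by omega, by omega, by omega, fun h => h3 (Or.inl h),
    fun h => h3 (Or.inr (Or.inl h)), fun h => h3 (Or.inr (Or.inr h))⟩

end Vale.Agent.P167.N.ID
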