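import Vale.Agent.P167.N.ID.FrmJ
import Vale.Agent.P167.N.ID.CellL
import Vale.Agent.P167.N.ID.CellW

/-!
# P167, `q < 1`, START: the phases of the steps of the cells, general facts

* `Sys`: the phases of a system of rows; `sys_of`: separate rows.
* `phs_rows`: `Phs` from the values of the rows at the steps.
* `frowJ_val`: the values of the rows of a polygon on inner and outer faces.
* `BP`: the path around the rows, `BP.pos`: the position of the outer faces.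
* `Cell.add`: more frozen squares.
-/

set_option autoImplicit false

namespace Vale.Agent.P167.N.ID

open Finset
open Vale.Agent.P167.Top
open Vale.Agent.P167.H871
open Vale.Agent.P167.H871.Q
open Vale.Agent.P167.A (plane)
open Vale.Agent.P167.H199 (Gap ah at')
open Vale.Agent.P167.H825.Q (Bc stΦ stτ)
open Vale.Agent.P167.H680.T (WallG WCG sgb sq)
open Vale.Agent.P167.E6 (IsPolygon Encloses dir face)
open Vale.Agent.P167.H825 (pdir enl ptau Marks)
open Vale.Agent.P167.XDL (bS mem_bS)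
open Vale.Agent.P167.BR (ce)
open Vale.Agent.P167.Enl (sW eW tB kOf uN)

/-! ### systems of rows -/

/-- The phases of a system of rows. -/
structure Sys (θ : ℝ) {ι : Type} (r : ι → Row) (K : Finset (ℤ × ℤ)) (a : Ed → Bool → ℝ) :
    Prop where
  ex : ∀ i g, tlv g ∈ (r i).I → hdv g ∉ K → ah plane a g = (r i).Φ θ g + (r i).σ θ g
  en : ∀ i g, hdv g ∈ (r i).I → tlv g ∉ K → at' plane a g = -(r i).Φ θ g + (r i).σ θ g
  off : ∀ e ∉ bS K, ∀ b, a e b = 0

/-- **Separate rows.** -/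
theorem sys_of {θ : ℝ} {ι : Type} [Fintype ι] {r : ι → Row} {z : ι → ℝ} {K : Finset (ℤ × ℤ)}
    (hK : ∀ v, v ∈ K ↔ ∃ i, v ∈ (r i).I)
    (hs : ∀ i j, i ≠ j → ∀ u ∈ (r i).I, ∀ v ∈ (r j).I, 1 < nm (u - v)) :
    Sys θ r K (⟨fun i => (r i).wall θ (z i), 0⟩ : WCG ι).ph := by
  have hnb : ∀ g, nm (tlv g - hdv g) ≤ 1 := fun g => by
    rw [hdv_tlv g]
    have : tlv g - (tlv g + vec (hd4 g)) = -vec (hd4 g) := by abel
    rw [this]
    have h1 : |dx (hd4 g)| ≤ 1 ∧ |dy (hd4 g)| ≤ 1 := by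
      rcases head_cases (hd4 g) with ⟨-, b, c⟩ | ⟨-, b, c⟩ | ⟨-, b, c⟩ | ⟨-, b, c⟩ <;>
        rw [b, c] <;> norm_num
    unfold nm vec
    simp only [Prod.fst_neg, Prod.snd_neg, abs_neg]
    exact max_le h1.1 h1.2
  have hself : ∀ v : ℤ × ℤ, nm (v - v) = 0 := fun v => by rw [sub_self]; simp [nm]
  refine ⟨fun i g h1 h2 => ?_, fun i g h1 h2 => ?_, fun e he b => ?_⟩
  · have h3 : hdv g ∉ (r i).I := fun h => h2 ((hK _).2 ⟨i, h⟩)
    refine ah_row (mem_bS.2 (Or.inr ⟨h3, h1⟩)) (fun k hk h4 => ?_) h3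
    rw [mem_bS] at h4
    rcases h4 with ⟨h4, -⟩ | ⟨-, h4⟩
    · exact h2 ((hK _).2 ⟨k, h4⟩)
    · have := hs k i hk _ h4 _ h1
      rw [hself] at this
      omega
  · have h3 : tlv g ∉ (r i).I := fun h => h2 ((hK _).2 ⟨i, h⟩)
    refine at_row (mem_bS.2 (Or.inl ⟨h1, h3⟩)) (fun k hk h4 => ?_) h3
    rw [mem_bS] at h4
    rcases h4 with ⟨h4, -⟩ | ⟨-, h4⟩
    · have := hs k i hk _ h4 _ h1
      rw [hself] at this
      omega
    · exact h2 ((hK _).2 ⟨k, h4⟩)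
  · show ∑ y, ((r y).wall θ (z y)).a e b + (0 : ℝ) / 2 = 0
    rw [zero_div, add_zero]
    refine sum_eq_zero fun y _ => ?_
    have h3 : e ∉ ((r y).wall θ (z y)).S := by
      intro h4
      change e ∈ bS (r y).I at h4
      apply he
      rw [mem_bS] at h4 ⊢
      rcases h4 with ⟨h4, h5⟩ | ⟨h4, h5⟩
      · refine Or.inl ⟨(hK _).2 ⟨y, h4⟩, fun h6 => ?_⟩
        obtain ⟨k, hk⟩ := (hK _).1 h6
        have h7 : k ≠ y := by rintro rfl; exact h5 hk
        have := hs k y h7 _ hk _ h4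
        have := hnb e
        omega
      · refine Or.inr ⟨fun h6 => ?_, (hK _).2 ⟨y, h5⟩⟩
        obtain ⟨k, hk⟩ := (hK _).1 h6
        have h7 : k ≠ y := by rintro rfl; exact h4 hk
        have := hs y k h7.symm _ h5 _ hk
        have := hnb e
        omega
    rw [((r y).wall θ (z y)).off e h3]
    rfl

/-! ### the phases of the steps from the values of the rows -/

section phs

variable {θ β C0 : ℝ} {ι : Type} {r : ι → Row} {K : Finset (ℤ × ℤ)} {a : Ed → Bool → ℝ}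
  {B E : Set (ℤ × ℤ)} {n k₀ zc zo : ℕ} {P : ℕ → ℤ × ℤ} {u : ℕ → ℤ} {τ : ℤ}

/-- **The phases of the steps.** -/
theorem phs_rows (S : Sys θ r K a) (hb : Bd E n P u τ) (hd : ∀ v ∈ K, v ∉ E)
    (h : ∀ k < n, ∀ x, At P u x k → oq P u k ∈ K → oq P u k ∉ B → ∃ i, oq P u k ∈ (r i).I ∧
      (r i).Φ θ x = psi θ β C0 u τ k₀ zc zo k ∧
      (r i).σ θ x = sgr (decide (¬ k < k₀)) * ((3 * θ - Real.pi) / 4)) :
    Phs θ β C0 K B E n P u τ k₀ zc zo a := by
  refine ⟨fun k hk x hx h1 h2 h3 h4 => ?_, fun k hk x hx h1 h2 h3 h4 => ?_, S.off⟩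
  · rcases at_sq hb hx with ⟨g1, g2, g3, -, -⟩ | ⟨g1, g2, g3, -, -⟩
    · rw [g3] at h2 h4
      obtain ⟨i, e1, e2, e3⟩ := h k hk x hx h2 h4
      rw [S.ex i x (g3 ▸ e1) (fun h => hd _ h h1), e2, e3]
    · exact absurd g1 (hd _ h2)
  · rcases at_sq hb hx with ⟨g1, g2, g3, -, -⟩ | ⟨g1, g2, g3, -, -⟩
    · exact absurd g1 (hd _ h2)
    · rw [g3] at h2 h3
      obtain ⟨i, e1, e2, e3⟩ := h k hk x hx h2 h3
      rw [S.en i x (g3 ▸ e1) (fun h => hd _ h h1), e2, e3]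

end phs

/-! ### the faces of the rows of a polygon -/

/-- The position of an edge across a lattice edge. -/
theorem P4_ceN (v : ℤ × ℤ) (r : Fin 4) : P4 (ce v r) = M4 v ((r.val : ℕ) : ℤ) := by
  obtain ⟨x, y⟩ := v
  rw [M4_eq]
  rcases Enl.fin4_cases r with rfl | rfl | rfl | rfl
  · rw [BR.ce0]
    have h1 : ((((0 : Fin 4)).val : ℕ) : ℤ) = 0 := rfl
    have h2 : dx 0 = 1 := by simp [dx]
    have h3 : dy 0 = 0 := by simp [dy]
    rw [h1, h2, h3]
    unfold P4 me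
    ext <;> simp only <;> ring
  · rw [BR.ce1]
    have h1 : ((((1 : Fin 4)).val : ℕ) : ℤ) = 1 := rfl
    have h2 : dx 1 = 0 := by simp [dx]
    have h3 : dy 1 = 1 := by simp [dy]
    rw [h1, h2, h3]
    unfold P4 me
    ext <;> simp only <;> ring
  · rw [BR.ce2]
    have h1 : ((((2 : Fin 4)).val : ℕ) : ℤ) = 2 := rfl
    have h2 : dx 2 = -1 := by simp [dx]
    have h3 : dy 2 = 0 := by simp [dy]
    rw [h1, h2, h3]
    unfold P4 me
    ext <;> simp only <;> ring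
  · rw [BR.ce3]
    have h1 : ((((3 : Fin 4)).val : ℕ) : ℤ) = 3 := rfl
    have h2 : dx 3 = 0 := by simp [dx]
    have h3 : dy 3 = -1 := by simp [dy]
    rw [h1, h2, h3]
    unfold P4 me
    ext <;> simp only <;> ring


section poly

variable {l : ℕ} {θ β : ℝ} {p : ZMod l → ℤ × ℤ} {S₀ : Finset (ℤ × ℤ)} {Q : Marks} {n d t : ℕ}
  {bc : Bc} {J : ℕ → Bool} {C c : ℝ} {i j σ : ℕ}

/-- **The values of the rows of a polygon** at an edge across the inner (`b`) or outer face. -/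
theorem frowJ_val (hp : IsPolygon p) (hD : Encloses p S₀) (hQ : Q.Ok) (hb : bc.Ok l Q) (hd : 1 ≤ d)
    (ht : t < n) (hc : c = 1 ∨ c = -1) (hi : i < l) (hj : j ≤ Q.m) (h1 : sW p n Q d i j ≤ σ)
    (h2 : σ < eW p n Q d i j) (b : Bool) {x : Ed}
    (hx : P4 x = M4 (Enl.vp p n i σ + if b then (0, 0) else dir (pdir p i - 1))
      (((pdir p i).val : ℕ) : ℤ)) :
    (frowJ θ β p Q n d t bc J C c i j).Φ θ x = C + stΦ θ β (uN p n t) (bc.ka l n t)
      (kOf l n t i σ) - hJ θ (J i) + (if b then hJ θ (J i) else -hJ θ (J i)) ∧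
    (frowJ θ β p Q n d t bc J C c i j).σ θ x =
      c * stτ (bc.ka l n t) (kOf l n t i σ) * ((3 * θ - Real.pi) / 4) := by
  have e1 : x = ce (sdv ((n : ℤ) • p i) (pdir p i) b σ) (pdir p i) := by
    apply P4_inj
    rw [P4_ceN, hx]
    rfl
  rw [e1]
  exact ⟨frowJ_Φ hp hD hQ hb hd ht hi hj h1 h2 b, frowJ_σ hp hD hQ hb hd ht hc hi hj h1 h2 b⟩

end poly

/-! ### the path around the rows -/

/-- The path around the rows, `ι` the position of the steps. -/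
structure BP (D : Set (ℤ × ℤ)) (n : ℕ) (P : ℕ → ℤ × ℤ) (u : ℕ → ℤ) (N : ℕ) (s e : ℕ → ℕ) (n' : ℕ)
    (P' : ℕ → ℤ × ℤ) (u' : ℕ → ℤ) (ι : ℕ → ℕ) : Prop where
  bd : Bd (D ∪ rws P u N s e) n' P' u' 1
  cov : Cov (D ∪ rws P u N s e) P' u'
  le : n ≤ n'
  mono : ∀ k l, k < l → l < n → ι k < ι l
  lt : ∀ k < n, ι k < n'
  far : ∀ k < n, InR N s e k → P' (ι k) = P k + vec (u k - 1)
  near : ∀ k < n, ¬ InR N s e k → P' (ι k) = P k
  dir : ∀ k < n, u' (ι k) = u k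

theorem exists_BP {D : Set (ℤ × ℤ)} {n N : ℕ} {P : ℕ → ℤ × ℤ} {u : ℕ → ℤ} {s e : ℕ → ℕ}
    (h : Rws D n P u N s e) : ∃ n' P' u' ι, BP D n P u N s e n' P' u' ι := by
  obtain ⟨n', P', u', ι, h1, h2, h3, h4, h5, h6, h7, h8⟩ := exists_bumps h
  exact ⟨n', P', u', ι, h1, h2, h3, h4, h5, h6, h7, h8⟩

/-- **The position of the outer faces**, first step `ι j₀`. -/
theorem BP.pos {D B : Set (ℤ × ℤ)} {K : Finset (ℤ × ℤ)} {n N n' : ℕ} {P P' : ℕ → ℤ × ℤ}
    {u u' : ℕ → ℤ} {s e ι : ℕ → ℕ} (hP : BP D n P u N s e n' P' u' ι) (h : RB D n P u N s e K B)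
    {j₀ i : ℕ} (hj₀ : j₀ < n) (hi : i < n') (h1 : iq P' u' (i + ι j₀) ∈ K)
    (h2 : iq P' u' (i + ι j₀) ∉ B) :
    ∃ j < n, InR N s e j ∧ iq P' u' (i + ι j₀) = oq P u j ∧
      P' (i + ι j₀) = P j + vec (u j - 1) ∧
      ((j₀ ≤ j ∧ i + ι j₀ = ι j ∧ u' (i + ι j₀) = u j) ∨
        (j < j₀ ∧ i + ι j₀ = ι j + n' ∧ u' (i + ι j₀) = u j + 4)) := by
  have hn' : 0 < n' := by have := hP.le; omega
  obtain ⟨a, ha, j, g1, g2, g3, g4, g5⟩ := h.at_row hP.bd h1 h2
  have a3 := h.hR.h3 a ha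
  have hj : j < n := by omega
  have hin : InR N s e j := ⟨a, ha, by omega, by omega⟩
  have hu : u j = u (s a) := h.hR.str a ha j (by omega) (by omega)
  have e1 : P' (i + ι j₀) = P' (ι j) := by rw [g4, hP.far j hj hin, hu]
  have hl := hP.lt j hj
  have hl0 := hP.lt j₀ hj₀
  have m1 := hP.mono j j₀
  have m2 := hP.mono j₀ j
  have e2 : i + ι j₀ = ι j ∨ i + ι j₀ = ι j + n' := by
    rcases Nat.lt_or_ge (i + ι j₀) n' with g | g
    · left
      rcases lt_trichotomy (i + ι j₀) (ι j) with g' | g' | g'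
      · exact absurd e1 (hP.bd.inj _ _ g' (by omega))
      · exact g'
      · exact absurd e1.symm (hP.bd.inj _ _ g' (by omega))
    · right
      have e3 := hP.bd.perP (i + ι j₀ - n')
      rw [Nat.sub_add_cancel g, e1] at e3
      rcases lt_trichotomy (i + ι j₀ - n') (ι j) with g' | g' | g'
      · exact absurd e3.symm (hP.bd.inj _ _ g' (by omega))
      · omega
      · exact absurd e3 (hP.bd.inj _ _ g' (by omega))
  refine ⟨j, hj, hin, ?_, by rw [g4, hu], ?_⟩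
  · rw [g3]
    unfold oq
    rw [hu]
  · rcases e2 with g | g
    · left
      refine ⟨?_, g, by rw [g, hP.dir j hj]⟩
      by_contra hc
      have := m1 (by omega) hj₀
      omega
    · right
      refine ⟨?_, g, by rw [g, hP.bd.per, hP.dir j hj]; ring⟩
      by_contra hc
      rcases Nat.lt_or_ge j₀ j with g' | g'
      · have := m2 g' hj
        omega
      · have : j = j₀ := by omega
        subst this
        omega

/-! ### more frozen squares -/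

/-- **More frozen squares.** -/
theorem Cell.add {K K' : Finset (ℤ × ℤ)} {B E : Set (ℤ × ℤ)} {n : ℕ} {P : ℕ → ℤ × ℤ}
    {u : ℕ → ℤ} {τ : ℤ} (h : Cell K B E n P u τ) (d1 : ∀ v ∈ K', v ∉ E)
    (d2 : ∀ k, oq P u k ∉ K') (d3 : ∀ v ∈ K, ∀ t, v + vec t ∉ K') :
    Cell (K ∪ K') B E n P u τ := by
  have key : ∀ k, oq P u k ∈ K ∪ K' ↔ oq P u k ∈ K := fun k => by
    rw [mem_union]
    exact ⟨fun g => g.resolve_right (d2 k), Or.inl⟩
  refine ⟨h.hn, h.bd, h.cov, fun v hv => ?_, fun k hk => ?_, fun k h1 h2 h3 => ?_,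
    fun k h1 h2 h3 => ?_, fun k hk h1 h2 h3 => ?_⟩
  · rcases mem_union.1 hv with g | g
    · exact h.dis v g
    · exact d1 v g
  · rw [key]
    exact h.sid k hk
  · rw [key] at h1 ⊢
    exact h.fwd k h1 h2 h3
  · rw [key] at h1 ⊢
    exact h.bwd k h1 h2 h3
  · rw [key] at h1
    rcases mem_union.1 h3 with g | g
    · exact h.thin k hk h1 h2 g
    · exact d3 _ h1 _ g

end Vale.Agent.P167.N.ID
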