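import Vale.Agent.P167.N.ID.WtG
import Vale.Agent.P167.N.ID.PhA

/-!
# P167, `q < 1`, START (P2T): a strand of weight `0` at a killed tip goes over the killed corner

`W.over_end`: a strand of one row with the weight `0`, in a box without the far end and without the
column `k0`, goes over the good corner of the killed end. `ret_row`, `wS_row`: the strands of a system
of rows which leave a row and return to it. `ovr`: the same for the strands of the system.
-/

set_option autoImplicit false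

namespace Vale.Agent.P167.N.ID.W

open Finset
open Vale.Agent.P167 Vale.Agent.P167.N.ID
open Vale.Agent.P167.Top
open Vale.Agent.P167.E6 (IsPolygon Encloses dir)
open Vale.Agent.P167.BR (be be_even be_odd)
open Vale.Agent.P167.XDL (bS mem_bS)
open Vale.Agent.P167.FK
open Vale.Agent.P167.H199 (strand ret Returns mem_strand ret_min ret_le)
open Vale.Agent.P167.QX (exc mem_exc exc_last ExtPot out_stays returns_good rS natS ClT lst wS)
open Vale.Agent.P167.H945.Q (face faces natw relw Plain tj jn lrs)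
open Vale.Agent.P167.H871 (IsC)
open Vale.Agent.P167.H871.Q hiding ah_thk at_thk thk_off cang_thk rS_eq

variable {r : H825.Q.Row} {b g : Bool} {ω : Cfg} {B : Finset (ℤ × ℤ)} {e : Ed} {i j t : ℕ}
  {θ z : ℝ} {Φ sa : Ed → ℝ}

theorem natw_pos (hθ : 0 < Real.sin θ) (hθ2 : 0 < Real.sin (2 * θ)) (t d d' : ℝ) :
    0 < natw θ t d d' := by
  unfold natw
  split_ifs
  · exact hθ2
  · exact hθ

/-- **A strand of weight `0` goes over the good corner `t` of the killed end.** -/
theorem over_end (hP : Ph r θ g Φ sa) (hθ : 0 < Real.sin θ) (hθ2 : 0 < Real.sin (2 * θ))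
    (hL : 1 ≤ r.L) (hR : Rays r.I (B : Set (ℤ × ℤ))) (h0 : w0 r g ∉ B) (hf : Frz r ω)
    (hk0 : Plain r ∨ r.sq r.k0 ∉ B) (hs : Str r.I ω e) (hst : Stays r.I (B : Set (ℤ × ℤ)) ω e)
    (ht : t = r.L ∨ t = r.L + 1)
    (hp : (r.τ (r.sq (te r g)) = 1 ∧ ¬ Even ((rqr r g (t : ZMod (2 * r.L + 2))).1 +
        (rqr r g (t : ZMod (2 * r.L + 2))).2)) ∨
      (r.τ (r.sq (te r g)) = -1 ∧ Even ((rqr r g (t : ZMod (2 * r.L + 2))).1 +
        (rqr r g (t : ZMod (2 * r.L + 2))).2)))
    (hz : rS θ r.I (thk r.I Φ sa z).a ω e = 0) :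
    ∃ i j, Foot (rqr r g) r.I ω e i j ∧ min i j < t ∧ t ≤ max i j := by
  have hfar : Plain r ∨ (0 < r.k0 → r.k0 < r.L → ¬ (r.sq r.k0 ∈ B ∧ r.sq (r.k0 - 1) ∈ B)) :=
    hk0.imp_right fun h _ _ h' => h h'.1
  rcases outs (z := z) hP hθ hθ2 hL hR h0 hf hs hst (fun _ => hfar) with h1 |
    ⟨b', -, -, -, hp', hB⟩ | ⟨b', -, -, -, hp', hB⟩ | ⟨i, j, -, F, h1, h2, -⟩ | hfin
  · rw [h1] at hz
    norm_num at hz
  · exact absurd hB (hk0.resolve_left hp')
  · exact absurd hB (hk0.resolve_left hp')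
  · exact ⟨i, j, F, by omega, by omega⟩
  · obtain ⟨i, j, F, hi, hj, htr, hB⟩ := row_cls (b := g) hL hR h0 hs.out hs.tl hs.rt hst
    have hq := rqr_polygon (r := r) (b := g) hL
    have hI := rqr_encloses (r := r) (b := g) hL
    have hend : i = r.L ∨ j = r.L := by
      rcases hfin with h1 | h1
      · left
        by_contra hne
        exact XDL.be_ne hq F.hi (show r.L < 2 * r.L + 2 by omega) hne (F.e1.symm.trans h1)
      · right
        by_contra hne
        have h2 : be (rqr r g) (j : ZMod (2 * r.L + 2)) = ee r g := F.e2.symm.trans h1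
        exact XDL.be_ne hq F.hj (show r.L < 2 * r.L + 2 by omega) hne h2
    refine ⟨i, j, F, ?_⟩
    by_contra hcon
    have hodd := F.odd hq hI
    have hev := F.even hq hI
    have hne := F.ne hq hI
    have hlo : min i j ≤ r.L := by omega
    have hhi : r.L ≤ max i j := by omega
    have s1 := side_te hL hfar hB hlo hhi (min_le_left _ _) (le_max_left _ _) hi
    have s2 := side_te hL hfar hB hlo hhi (min_le_right _ _) (le_max_right _ _) hj
    obtain ⟨e1, e2⟩ := side_eq (r := r) s1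
    obtain ⟨e3, e4⟩ := side_eq (r := r) s2
    rw [rS_idx (z := z) hP hθ hL hR h0 hf F hst hi hj, e1, e2, e3, e4, htr] at hz
    have hnz : ∀ x y : ℝ, 0 < y → (Real.cos x = Real.sin (2 * θ)) → ¬ |Real.cos x| / y = 0 := by
      intro x y hy hx h
      rw [hx, abs_of_pos hθ2, div_eq_zero_iff] at h
      rcases h with h | h
      · exact hθ2.ne' h
      · exact hy.ne' h
    refine hnz _ _ (natw_pos hθ hθ2 _ _ _) ?_ hz
    have hJ : sJ θ g g = θ / 4 := if_pos rfl
    have hnext : (¬ Even ((rqr r g ((r.L + 1 : ℕ) : ZMod (2 * r.L + 2))).1 +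
        (rqr r g ((r.L + 1 : ℕ) : ZMod (2 * r.L + 2))).2)) ↔
        Even ((rqr r g ((r.L : ℕ) : ZMod (2 * r.L + 2))).1 +
        (rqr r g ((r.L : ℕ) : ZMod (2 * r.L + 2))).2) := by
      obtain ⟨u, hu⟩ := hq.2.2 ((r.L : ℕ) : ZMod (2 * r.L + 2))
      rw [Nat.cast_succ, hu, Int.not_even_iff_odd, Int.odd_iff, Int.even_iff]
      fin_cases u <;> simp [dir] <;> omega
    have c1 : Real.cos (2 * θ - Real.pi / 2) = Real.sin (2 * θ) := Real.cos_sub_pi_div_two _
    have c2 : Real.cos (-(2 * θ - Real.pi / 2)) = Real.sin (2 * θ) := by rw [Real.cos_neg, c1]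
    unfold offi kapi
    rw [hJ]
    rcases hend with rfl | rfl
    · -- the exit is on the end side
      rcases lt_or_gt_of_ne hne with h5 | h5
      · -- `L < j`
        have htL : t = r.L := by omega
        subst htL
        have hτ : r.τ (r.sq (te r g)) = 1 := (hp.resolve_right fun h => hodd h.2).1
        refine (congrArg Real.cos ?_).trans c1
        rw [hτ, U1_gt (i := j) (by omega) hj, if_neg (lt_irrefl _), if_pos rfl, if_pos rfl,
          if_pos (by omega), if_neg (by omega), if_neg (by omega), if_neg (by omega),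
          U1_eq (by omega), U0, if_neg (lt_irrefl _), if_pos rfl]
        push_cast
        ring
      · -- `j < L`
        have htL : t = r.L + 1 := by omega
        subst htL
        have hτ : r.τ (r.sq (te r g)) = -1 :=
          (hp.resolve_left fun h => hodd (hnext.1 h.2)).1
        refine (congrArg Real.cos ?_).trans c2
        rw [hτ, U1_lt h5, if_neg (lt_irrefl _), if_pos rfl, if_pos rfl,
          if_neg (by omega), if_pos (by omega), if_neg (by omega),
          U1_eq (by omega), U0, if_neg (lt_irrefl _), if_pos rfl]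
        push_cast
        ring
    · rcases lt_or_gt_of_ne hne with h5 | h5
      · -- `i < L`, `j = L`
        have htL : t = r.L + 1 := by omega
        subst htL
        have hτ : r.τ (r.sq (te r g)) = 1 :=
          (hp.resolve_right fun h => (hnext.2 hev) h.2).1
        refine (congrArg Real.cos ?_).trans c1
        rw [hτ, U1_lt h5, if_pos h5, if_pos h5, if_neg (lt_irrefl _), if_pos rfl, if_neg h5.ne,
          if_pos rfl, U1_eq (by omega), U0, if_neg (lt_irrefl _), if_pos rfl]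
        push_cast
        ring
      · have htL : t = r.L := by omega
        subst htL
        have hτ : r.τ (r.sq (te r g)) = -1 := (hp.resolve_left fun h => h.2 hev).1
        refine (congrArg Real.cos ?_).trans c2
        rw [hτ, U1_gt (i := i) (by omega) hi, if_neg (by omega), if_neg (by omega),
          if_neg (by omega), if_neg (lt_irrefl _), if_pos rfl, if_neg (by omega), if_pos rfl,
          U1_eq (by omega), U0, if_neg (lt_irrefl _), if_pos rfl]
        push_cast
        ring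

end Vale.Agent.P167.N.ID.W

namespace Vale.Agent.P167.N.ID

open Finset
open Vale.Agent.P167
open Vale.Agent.P167.Top
open Vale.Agent.P167.A (plane)
open Vale.Agent.P167.XDL (bS mem_bS)
open Vale.Agent.P167.FK
open Vale.Agent.P167.H199 (strand ret Returns ret_min ret_le cang ah at')
open Vale.Agent.P167.H680.S (nxt)
open Vale.Agent.P167.H680.T (par)
open Vale.Agent.P167.QX (exc_last out_stays rS natS wS)
open Vale.Agent.P167.H871.Q (Foot rqr w0 Stays Rays Frz te cang_strand)
open Vale.Agent.P167.N.ID.W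

variable {U I : Finset (ℤ × ℤ)} {ω : Cfg} {e : Ed} {θ z κ : ℝ} {n : ℕ} {ι : Type} {r : ι → Row}
  {a : Ed → Bool → ℝ} {B : Finset (ℤ × ℤ)} {i : ι}

/-- A strand of the system which leaves a row and returns to the row is a strand of the row. -/
theorem ret_row (hIU : I ⊆ U) (h1 : hdv e ∉ U) (hr : Returns (nx ω) (bS U) e)
    (hl : hdv (nxt (bS U) ω e) ∈ I) :
    Returns (nx ω) (bS I) e ∧ ret (nx ω) (bS I) e = ret (nx ω) (bS U) e := by
  obtain ⟨m1, -⟩ := hr.spec
  have hlast := exc_last h1 hr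
  have hm : (nx ω)^[ret (nx ω) (bS U) e] e ∈ bS I :=
    mem_bS.2 (Or.inl ⟨hl, fun h => hlast.2 (hIU h)⟩)
  have hR : Returns (nx ω) (bS I) e := ⟨_, m1, hm⟩
  refine ⟨hR, le_antisymm (ret_le m1 hm) ?_⟩
  by_contra hcon
  push Not at hcon
  obtain ⟨k1, k2⟩ := hR.spec
  have h3 := out_stays h1 hcon
  rcases mem_bS.1 k2 with h4 | h4
  · exact h3 (hIU h4.1)
  · exact ret_min k1 hcon (mem_bS.2 (Or.inr ⟨h3, hIU h4.2⟩))

/-- **The weights of these strands.** -/
theorem wS_row (S : Sys θ r U a) (hU : ∀ i, (r i).I ⊆ U) (h2 : tlv e ∈ (r i).I) (h1 : hdv e ∉ U)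
    (hr : Returns (nx ω) (bS U) e) (hl : hdv (nxt (bS U) ω e) ∈ (r i).I) :
    wS θ U a ω e = wS θ (r i).I ((r i).wall θ z).a ω e := by
  obtain ⟨hR, hret⟩ := ret_row (hU i) h1 hr hl
  have h1' : hdv e ∉ (r i).I := fun h => h1 (hU i h)
  have hlast := exc_last h1 hr
  have hlast' := exc_last h1' hR
  have e1 := cang_strand (θ := θ) (a := a) (mem_bS.2 (Or.inr ⟨h1, hU i h2⟩)) hr
    fun k k1 k2 => by
      have h5 := S.off _ (ret_min k1 k2)
      unfold ah at'
      rw [h5, h5, zero_mul, add_zero]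
  have e2 := cang_strand (θ := θ) (a := ((r i).wall θ z).a) (mem_bS.2 (Or.inr ⟨h1', h2⟩)) hR
    fun k k1 k2 => thk_off (ret_min k1 k2)
  have e3 : ah plane ((r i).wall θ z).a e = (r i).Φ θ e + (r i).σ θ e := ah_thk h1' h2
  have e4 : at' plane ((r i).wall θ z).a ((nx ω)^[ret (nx ω) (bS (r i).I) e] e) =
      -(r i).Φ θ ((nx ω)^[ret (nx ω) (bS (r i).I) e] e) +
        (r i).σ θ ((nx ω)^[ret (nx ω) (bS (r i).I) e] e) := at_thk hlast'.1 hlast'.2
  have e5 := S.ex i e h2 h1
  have e6 := S.en i _ hl hlast.2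
  unfold wS
  unfold nxt at e6
  rw [e1, e2, e3, e4, e5, hret, e6]

/-- **A strand of weight `0` of a system, which leaves a row near its killed end and returns to it,
goes over the killed corner.** -/
theorem ovr (S : Sys θ r U a) (hU : ∀ i, (r i).I ⊆ U) (h13 : Real.pi / 3 ≤ θ)
    (h12 : θ < Real.pi / 2) (h : (r i).Ok θ κ n) (hκ : 0 < κ * n)
    (hfr : ∀ v ∈ (r i).I, ω v = (r i).toRow.fr v) (hR : Rays (r i).I (B : Set (ℤ × ℤ)))
    (hw : w0 (r i).toRow (r i).g ∉ B) (hk0 : (r i).Plain ∨ (r i).sq (r i).k0 ∉ B)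
    (h2 : tlv e ∈ (r i).I) (h1 : hdv e ∉ U) (hr : Returns (nx ω) (bS U) e)
    (hl : hdv (nxt (bS U) ω e) ∈ (r i).I)
    (hst : ∀ k < ret (nx ω) (bS U) e, hdv ((nx ω)^[k] e) ∈ B) (hz : wS θ U a ω e = 0) :
    Stays (r i).I (B : Set (ℤ × ℤ)) ω e ∧
    ∃ t : ℕ, (t = (r i).L ∨ t = (r i).L + 1) ∧
      (r i).zt = rqr (r i).toRow (r i).g (t : ZMod (2 * (r i).L + 2)) ∧
      ∃ x y, Foot (rqr (r i).toRow (r i).g) (r i).I ω e x y ∧ min x y < t ∧ t ≤ max x y := by
  have hpi := Real.pi_pos
  have hs : 0 < Real.sin θ := Real.sin_pos_of_pos_of_lt_pi (by linarith) (by linarith)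
  have hc : 0 < Real.cos θ := Real.cos_pos_of_mem_Ioo ⟨by linarith, h12⟩
  have hs2 : 0 < Real.sin (2 * θ) := by rw [Real.sin_two_mul]; positivity
  have hL : 1 ≤ (r i).L := by
    have h3 := hκ.trans_le h.len
    have : 0 < (r i).L := by exact_mod_cast h3
    omega
  have hk : (r i).Plain ∨ (0 < (r i).k0 ∧ (r i).k0 < (r i).L) := by
    rcases h.kind with h3 | ⟨-, h3, h4⟩
    · exact Or.inl h3
    · right
      have h5 := hκ.trans_le h3
      have h6 : ((r i).k0 : ℝ) < (r i).L := by linarith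
      exact ⟨by exact_mod_cast h5, by exact_mod_cast h6⟩
  have hP : Ph (r i).toRow θ (r i).g ((r i).Φ θ) ((r i).σ θ) := ph_rowW hL hk
  have hη : (r i).η = 1 ∨ (r i).η = -1 := h.eta
  have hf : Frz (r i).toRow ω := ⟨h.s, hη, hfr⟩
  obtain ⟨hR', hret⟩ := ret_row (hU i) h1 hr hl
  have h1' : hdv e ∉ (r i).I := fun h => h1 (hU i h)
  have hst' : Stays (r i).I (B : Set (ℤ × ℤ)) ω e := fun k hk => hst k (by rw [← hret]; exact hk)
  refine ⟨hst', ?_⟩
  obtain ⟨t, ht, hzt⟩ := Row.zt_rqr (r := r i) hL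
  refine ⟨t, ht, hzt, ?_⟩
  have hrS : rS θ (r i).I ((r i).wall θ 0).a ω e = 0 := by
    unfold rS
    rw [← wS_row (z := 0) S hU h2 h1 hr hl, hz, abs_zero, zero_div]
  have hτ := se_te hL hk
  have hpar := Row.par_zt (r := r i) h.s hη
  refine over_end hP hs hs2 hL hR hw hf hk0 ⟨h1', h2, hR'⟩ hst' ht ?_ hrS
  show ((r i).τ ((r i).sq (te (r i).toRow (r i).g)) = 1 ∧ _) ∨
    ((r i).τ ((r i).sq (te (r i).toRow (r i).g)) = -1 ∧ _)
  rw [← hzt, hτ]
  rcases hf.col ((r i).sq (te (r i).toRow (r i).g)) with h5 | h5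
  · have h5' : (r i).se (r i).p = 1 := by rw [← hτ]; exact h5
    left
    refine ⟨h5', fun h6 => ?_⟩
    rw [h5', mul_one] at hpar
    unfold par at hpar
    rw [if_pos h6] at hpar
    norm_num at hpar
  · have h5' : (r i).se (r i).p = -1 := by rw [← hτ]; exact h5
    right
    refine ⟨h5', ?_⟩
    by_contra h6
    rw [h5', mul_neg, mul_one, neg_inj] at hpar
    unfold par at hpar
    rw [if_neg h6] at hpar
    norm_num at hpar

end Vale.Agent.P167.N.ID
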