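import Vale.Agent.P167.N.ID.TipX
import Vale.Agent.P167.N.ID.ArmC

/-!
# P167, `q < 1`, START (P2T): the killed tips are joined to the other rows, given the arms

* `EF_cmp`: comparison of two local functions, given the frozen squares.
* `EF_iter`: the same for products over disjoint sets.
-/

set_option autoImplicit false

namespace Vale.Agent.P167.N.ID

open Finset MeasureTheory

open Vale.Agent.P167 Vale.Agent.P167.N

open Vale.Agent.P167.FK Vale.Agent.P167.FKA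

open Vale.Agent.P167.H519 (IsLim)

open Vale.Agent.P167.QX (QL dlr ql_Ex)

open Vale.Agent.P167.H398.Q (CB)

open Vale.Agent.P167.H506.Q (EF fz fz_loc fz_nonneg fz_one fz_zero fz_le_one fz_int)

open Vale.Agent.P167.H506.Q (dlr_fz loc_bdd)

variable {Q : ℝ} {K : Finset (ℤ × ℤ)} {κ : Cfg} {P : Measure Cfg} {ι : Type}

/-- **Comparison of two local functions, given the frozen squares.** -/
theorem EF_cmp (hQ : Kit Q) (hP : IsLim Q P) (hg : ∀ᵐ ω ∂P, Good ω) {A B₁ B₂ : Finset (ℤ × ℤ)}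
    (hAK : Disjoint A K) {T₁ T₂ : Cfg → ℝ} (hT₁ : Loc B₁ T₁) (hT₂ : Loc B₂ T₂) {c : ℝ}
    (ht : ∀ ξ, Good ξ → (∀ v ∈ K, ξ v = κ v) → c * Ex Q A ξ T₁ ≤ Ex Q A ξ T₂)
    {G : Cfg → ℝ} (hG0 : ∀ ω, 0 ≤ G ω) (cG : CB G) (hG : Ind A G) :
    c * EF P K κ (fun ω => G ω * T₁ ω) ≤ EF P K κ (fun ω => G ω * T₂ ω) := by
  obtain ⟨hGq, M, hM⟩ := cG
  have hPp : IsProbabilityMeasure P := hP.1
  have hQ0 : 0 < Q := hQ.pos
  obtain ⟨M₁, hM₁⟩ := loc_bdd hT₁
  obtain ⟨M₂, hM₂⟩ := loc_bdd hT₂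
  have hfzq : QL (fz K κ) := QL.of_loc (fz_loc K κ)
  have hfM : ∀ ω, |fz K κ ω| ≤ 1 := fun ω => by
    rw [abs_of_nonneg (fz_nonneg _ _ _)]
    exact fz_le_one _ _ _
  have hint : ∀ (T : Cfg → ℝ) (B : Finset (ℤ × ℤ)) (MT : ℝ), Loc B T → (∀ ω, |T ω| ≤ MT) →
      Integrable (fun ω => fz K κ ω * (G ω * Ex Q A ω T)) P := by
    intro T B MT hT hMT
    refine (hfzq.mul (hGq.mul (ql_Ex A (QL.of_loc hT)))).int hg (M := 1 * (M * MT)) fun ω hω => ?_
    have hEM : |Ex Q A ω T| ≤ MT := by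
      rw [abs_le]
      constructor
      · rw [← Ex_const (D := A) (η := ω) hQ0 (-MT)]
        exact Ex_mono hQ0 fun S _ => (abs_le.1 (hMT _)).1
      · rw [← Ex_const (D := A) (η := ω) hQ0 MT]
        exact Ex_mono hQ0 fun S _ => (abs_le.1 (hMT _)).2
    rw [abs_mul, abs_mul]
    have := hfM ω
    have := hM ω hω
    have h0 : 0 ≤ M := (abs_nonneg _).trans this
    gcongr
  unfold EF
  rw [dlr_fz (κ := κ) hQ0 hAK hP hg (QL.of_loc hT₁) (fun ω _ => hM₁ ω) hGq hM hG,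
    dlr_fz (κ := κ) hQ0 hAK hP hg (QL.of_loc hT₂) (fun ω _ => hM₂ ω) hGq hM hG, ← mul_div_assoc]
  refine div_le_div_of_nonneg_right ?_ (integral_nonneg fun ω => fz_nonneg _ _ _)
  rw [← integral_const_mul]
  refine integral_mono_ae ((hint T₁ B₁ M₁ hT₁ hM₁).const_mul c) (hint T₂ B₂ M₂ hT₂ hM₂) ?_
  filter_upwards [hg] with ω hω
  show c * (fz K κ ω * (G ω * Ex Q A ω T₁)) ≤ fz K κ ω * (G ω * Ex Q A ω T₂)
  by_cases hk : ∀ v ∈ K, ω v = κ v
  · rw [fz_one hk, one_mul, one_mul]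
    have h1 := mul_le_mul_of_nonneg_left (ht ω hω hk) (hG0 ω)
    calc _ = G ω * (c * Ex Q A ω T₁) := by ring
      _ ≤ _ := h1
  · rw [fz_zero hk, zero_mul, zero_mul, mul_zero]

/-- **Comparison of products over disjoint sets.** -/
theorem EF_iter [DecidableEq ι] (hQ : Kit Q) (hP : IsLim Q P) (hg : ∀ᵐ ω ∂P, Good ω)
    {W : ι → Finset (ℤ × ℤ)} {a b : ι → Cfg → ℝ} {c : ℝ} (hc : 0 ≤ c) (s : Finset ι)
    (hdis : ∀ i ∈ s, ∀ j ∈ s, i ≠ j → Disjoint (W i) (W j)) (hWK : ∀ i ∈ s, Disjoint (W i) K)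
    (ha : ∀ i ∈ s, Loc (W i) (a i)) (hb : ∀ i ∈ s, Loc (W i) (b i))
    (ha0 : ∀ i ω, 0 ≤ a i ω) (hb0 : ∀ i ω, 0 ≤ b i ω)
    (ht : ∀ i ∈ s, ∀ ξ, Good ξ → (∀ v ∈ K, ξ v = κ v) →
      c * Ex Q (W i) ξ (a i) ≤ Ex Q (W i) ξ (b i)) :
    ∀ {G : Cfg → ℝ}, (∀ ω, 0 ≤ G ω) → CB G → (∀ i ∈ s, Ind (W i) G) →
    c ^ s.card * EF P K κ (fun ω => G ω * ∏ i ∈ s, a i ω) ≤
      EF P K κ (fun ω => G ω * ∏ i ∈ s, b i ω) := by
  have cp : ∀ (f : ι → Cfg → ℝ) (s' : Finset ι), (∀ i ∈ s', Loc (W i) (f i)) →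
      Loc (s'.biUnion W) fun ω => ∏ i ∈ s', f i ω := by
    intro f s' hf ω ω' h
    exact prod_congr rfl fun i hi => hf i hi ω ω' fun v hv => h v (mem_biUnion.2 ⟨i, hi, hv⟩)
  induction s using Finset.induction_on with
  | empty =>
    intro G hG0 cG hG
    simp
  | insert i s his ih =>
    intro G hG0 cG hG
    have ih' := @ih (fun i hi j hj => hdis i (mem_insert_of_mem hi) j (mem_insert_of_mem hj))
      (fun i hi => hWK i (mem_insert_of_mem hi)) (fun i hi => ha i (mem_insert_of_mem hi))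
      (fun i hi => hb i (mem_insert_of_mem hi)) (fun i hi => ht i (mem_insert_of_mem hi))
      (fun ω => G ω * b i ω) (fun ω => mul_nonneg (hG0 ω) (hb0 i ω))
      (cG.mul (CB.of_loc (hb i (mem_insert_self i s)))) (fun j hj => by
        have hne : i ≠ j := fun h => his (h ▸ hj)
        have h1 := hG j (mem_insert_of_mem hj)
        have h2 : Ind (W j) (b i) := (hb i (mem_insert_self i s)).ind
          (hdis i (mem_insert_self i s) j (mem_insert_of_mem hj) hne)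
        intro ω ω' h
        show G ω * b i ω = G ω' * b i ω'
        rw [h1 ω ω' h, h2 ω ω' h])
    have hloc := cp a s fun j hj => ha j (mem_insert_of_mem hj)
    have h1 := EF_cmp hQ hP hg (κ := κ) (hWK i (mem_insert_self i s)) (ha i (mem_insert_self i s))
      (hb i (mem_insert_self i s)) (ht i (mem_insert_self i s))
      (G := fun ω => G ω * ∏ j ∈ s, a j ω)
      (fun ω => mul_nonneg (hG0 ω) (prod_nonneg fun j _ => ha0 j ω))
      (cG.mul (CB.of_loc hloc)) (by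
        have h1 := hG i (mem_insert_self i s)
        have h2 : Ind (W i) (fun ω => ∏ j ∈ s, a j ω) := hloc.ind (by
          rw [Finset.disjoint_left]
          intro v hv hv'
          obtain ⟨j, hj, hv''⟩ := mem_biUnion.1 hv
          have hne : i ≠ j := fun h => his (h ▸ hj)
          exact Finset.disjoint_left.1 (hdis i (mem_insert_self i s) j (mem_insert_of_mem hj) hne)
            hv' hv'')
        intro ω ω' h
        have e1 := h1 ω ω' h
        have e2 : ∏ j ∈ s, a j ω = ∏ j ∈ s, a j ω' := h2 ω ω' h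
        show G ω * ∏ j ∈ s, a j ω = G ω' * ∏ j ∈ s, a j ω'
        rw [e1, e2])
    rw [card_insert_of_notMem his]
    have e1 : EF P K κ (fun ω => G ω * ∏ j ∈ insert i s, a j ω) =
        EF P K κ (fun ω => G ω * (∏ j ∈ s, a j ω) * a i ω) := by
      congr 1
      funext ω
      rw [prod_insert his]
      ring
    have e2 : EF P K κ (fun ω => G ω * (∏ j ∈ s, a j ω) * b i ω) =
        EF P K κ (fun ω => G ω * b i ω * ∏ j ∈ s, a j ω) := by
      congr 1
      funext ω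
      ring
    have e3 : EF P K κ (fun ω => G ω * b i ω * ∏ j ∈ s, b j ω) =
        EF P K κ (fun ω => G ω * ∏ j ∈ insert i s, b j ω) := by
      congr 1
      funext ω
      rw [prod_insert his]
      ring
    rw [e2] at h1
    rw [← e3, e1, pow_succ]
    calc c ^ s.card * c * EF P K κ (fun ω => G ω * (∏ j ∈ s, a j ω) * a i ω) =
        c ^ s.card * (c * EF P K κ (fun ω => G ω * (∏ j ∈ s, a j ω) * a i ω)) := by ring
      _ ≤ c ^ s.card * EF P K κ (fun ω => G ω * b i ω * ∏ j ∈ s, a j ω) :=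
        mul_le_mul_of_nonneg_left h1 (pow_nonneg hc _)
      _ ≤ _ := ih'

end Vale.Agent.P167.N.ID
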