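import Vale.Agent.P167.N.ID.RowF
import Vale.Agent.P167.N.ID.RowShp
import Vale.Agent.P167.H945.Q.TLoc

/-!
# P167, `0 < q < 1`: the rows near their special points

* `r.cutT l`: the plain row of the last `l` squares at the killed tip of `r`.
* `r.cutJ l`: the `2 l` squares around the middle point of `r`.
* shapes of the complement of a row around its special points.
-/

set_option autoImplicit false

namespace Vale.Agent.P167.N.ID

open Finset

open Vale.Agent.P167 Vale.Agent.P167.N

open Vale.Agent.P167.BR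

open Vale.Agent.P167.FK

open Vale.Agent.P167.H680.T (par)

open Vale.Agent.P167.H635 (Ann mem_Bq bq_mono)

variable {r : Row} {l : ℕ} {θ κ : ℝ} {n : ℕ}

/-- The row of the last `l` squares at the killed tip. -/
noncomputable def Row.cutT (r : Row) (l : ℕ) : Row where
  o := r.o
  x := if r.p then r.sq (r.L - l) else r.x
  L := l
  c := r.me r.p
  j := 0
  s := r.se r.p
  η := 1
  k0 := 0
  g := r.g

/-- The `2 l` squares around the middle point. -/
noncomputable def Row.cutJ (r : Row) (l : ℕ) : Row :=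
  { r with x := r.sq (r.k0 - l), L := 2 * l, k0 := l }

theorem Row.p_cutT : (r.cutT l).p = r.p := rfl

theorem Row.se_cutT (e : Bool) : (r.cutT l).se e = r.se r.p := by
  show (if e then r.se r.p * 1 else r.se r.p) = _
  rw [mul_one, ite_self]

theorem Row.st_cutT (hl : l ≤ r.L) (b : Bool) :
    (r.cutT l).st b ((r.cutT l).ke r.p) = r.st b (r.ke r.p) := by
  unfold Row.st Row.ke
  show (if r.o then ((if r.p then r.sq (r.L - l) else r.x).1 + ((if r.p then l else 0 : ℕ) : ℤ),
    (if r.p then r.sq (r.L - l) else r.x).2 + if b then 1 else 0)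
    else ((if r.p then r.sq (r.L - l) else r.x).1 + (if b then 1 else 0),
      (if r.p then r.sq (r.L - l) else r.x).2 + ((if r.p then l else 0 : ℕ) : ℤ)) : ℤ × ℤ) = _
  cases hp : r.p
  · simp only [Bool.false_eq_true, if_false]
  · simp only [if_true]
    have h1 : ((r.L - l : ℕ) : ℤ) = r.L - l := by omega
    cases ho : r.o
    · simp only [Bool.false_eq_true, if_false]
      have h2 : r.sq (r.L - l) = (r.x.1, r.x.2 + ((r.L - l : ℕ) : ℤ)) := by
        unfold H825.Q.Row.sq
        rw [ho]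
        rfl
      rw [h2, h1]
      refine Prod.ext rfl ?_
      show r.x.2 + (r.L - l) + l = r.x.2 + r.L
      ring
    · simp only [if_true]
      have h2 : r.sq (r.L - l) = (r.x.1 + ((r.L - l : ℕ) : ℤ), r.x.2) := by
        unfold H825.Q.Row.sq
        rw [ho]
        rfl
      rw [h2, h1]
      refine Prod.ext ?_ rfl
      show r.x.1 + (r.L - l) + l = r.x.1 + r.L
      ring

theorem Row.zt_cutT (hl : l ≤ r.L) : (r.cutT l).zt = r.zt := by
  unfold Row.zt Row.gc
  rw [Row.p_cutT, Row.st_cutT hl, Row.st_cutT hl, Row.se_cutT]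

theorem Row.st_cutJ (hl : l ≤ r.k0) (b : Bool) :
    (r.cutJ l).st b (r.cutJ l).k0 = r.st b r.k0 := by
  have h1 : ((r.k0 - l : ℕ) : ℤ) = r.k0 - l := by omega
  unfold Row.st
  show (if r.o then ((r.sq (r.k0 - l)).1 + (l : ℤ), (r.sq (r.k0 - l)).2 + if b then 1 else 0)
    else ((r.sq (r.k0 - l)).1 + (if b then 1 else 0), (r.sq (r.k0 - l)).2 + (l : ℤ)) : ℤ × ℤ) = _
  cases ho : r.o
  · simp only [Bool.false_eq_true, if_false]
    have h2 : r.sq (r.k0 - l) = (r.x.1, r.x.2 + ((r.k0 - l : ℕ) : ℤ)) := by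
      unfold H825.Q.Row.sq
      rw [ho]
      rfl
    rw [h2, h1]
    refine Prod.ext rfl ?_
    show r.x.2 + (r.k0 - l) + l = r.x.2 + r.k0
    ring
  · simp only [if_true]
    have h2 : r.sq (r.k0 - l) = (r.x.1 + ((r.k0 - l : ℕ) : ℤ), r.x.2) := by
      unfold H825.Q.Row.sq
      rw [ho]
      rfl
    rw [h2, h1]
    refine Prod.ext ?_ rfl
    show r.x.1 + (r.k0 - l) + l = r.x.1 + r.k0
    ring

theorem Row.kf_cutJ : (r.cutJ l).kf = r.kf := rfl

theorem Row.zb_cutJ (hl : l ≤ r.k0) : (r.cutJ l).zb = r.zb := Row.st_cutJ hl _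

/-! ### shapes -/

/-- The complement of a row around the site before the column `k`. -/
theorem Row.shp_st {b : Bool} {k : ℕ} {s R : ℤ} (hs : 1 ≤ s) (hk : k ≤ r.L)
    (h0 : (k : ℤ) ≤ s ∨ R ≤ k) (h1 : (r.L : ℤ) ≤ k + s ∨ k + R ≤ r.L) :
    H635.Shp (Bq (r.st b k) R \ r.I) (r.st b k) s R := by
  have hb : ((if b then 1 else 0 : ℤ) = 0) ∨ ((if b then 1 else 0 : ℤ) = 1) := by
    cases b <;> simp
  cases ho : r.o
  · have e : r.st b k = (r.x.1 + (if b then 1 else 0), r.x.2 + (k : ℤ)) := by
      unfold Row.st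
      rw [ho]
      rfl
    rw [e]
    refine shp_v (a := r.x.2) (b := r.x.2 + r.L) (y := r.x.1) ?_ ?_ ?_ ?_ ?_ ?_ ?_
    · intro v _
      rw [Row.mem_I, ho]
      simp only [Bool.false_eq_true, if_false]
      tauto
    all_goals dsimp only
    all_goals omega
  · have e : r.st b k = (r.x.1 + (k : ℤ), r.x.2 + (if b then 1 else 0)) := by
      unfold Row.st
      rw [ho]
      rfl
    rw [e]
    refine shp_h (a := r.x.1) (b := r.x.1 + r.L) (y := r.x.2) ?_ ?_ ?_ ?_ ?_ ?_ ?_
    · intro v _
      rw [Row.mem_I, ho]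
      simp only [if_true]
      tauto
    all_goals dsimp only
    all_goals omega

/-- The colour before the jump. -/
noncomputable def Row.c0 (r : Row) : Bool := decide (r.s = -1)

/-- The colour after the jump. -/
noncomputable def Row.c1 (r : Row) : Bool := decide (r.s * r.η = -1)

/-- The colour of a square, by its distance from the first square. -/
theorem Row.fr_mem {v : ℤ × ℤ} (hv : v ∈ r.I) :
    r.fr v = if (r.k0 : ℤ) ≤ (if r.o then v.1 - r.x.1 else v.2 - r.x.2) then r.c1 else r.c0 := by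
  rw [Row.mem_I] at hv
  have key : (r.k0 ≤ r.ix v) ↔ (r.k0 : ℤ) ≤ (if r.o then v.1 - r.x.1 else v.2 - r.x.2) := by
    unfold H825.Q.Row.ix
    cases ho : r.o <;> rw [ho] at hv <;>
      simp only [Bool.false_eq_true, if_false, if_true] at hv ⊢ <;> omega
  unfold H825.Q.Row.fr H825.Q.Row.τ Row.c0 Row.c1
  by_cases h : r.k0 ≤ r.ix v
  · rw [if_pos h, if_pos (key.1 h)]
  · rw [if_neg h, if_neg fun h1 => h (key.2 h1), mul_one]

theorem Row.arc_st {b : Bool} {k : ℕ} {R : ℤ}
    (h : ((k : ℤ) + R ≤ r.L ∧ (r.c1 = true ∨ (r.c0 = true ∧ (k : ℤ) + R ≤ r.k0))) ∨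
      (R ≤ k ∧ (r.c0 = true ∨ (r.c1 = true ∧ (r.k0 : ℤ) ≤ k - R))) ∨
      (∀ v ∈ Bq (r.st b k) R, v ∈ r.I → r.fr v = false)) (hc : r.c0 = r.c1 ∨ r.k0 ≤ r.L) :
    H440.OneArc (r.st b k) R (Bq (r.st b k) R \ r.I) r.fr := by
  have hkey : ∀ v ∈ r.I, (r.fr v = true ↔
      (if r.c0 then 0 else (r.k0 : ℤ)) ≤ (if r.o then v.1 - r.x.1 else v.2 - r.x.2) ∧
      (if r.o then v.1 - r.x.1 else v.2 - r.x.2) < (if r.c1 then (r.L : ℤ) else r.k0)) := by
    intro v hv
    rw [Row.fr_mem hv]
    have h2 : 0 ≤ (if r.o then v.1 - r.x.1 else v.2 - r.x.2) ∧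
        (if r.o then v.1 - r.x.1 else v.2 - r.x.2) < r.L := by
      rw [Row.mem_I] at hv
      cases ho : r.o <;> rw [ho] at hv <;>
        simp only [Bool.false_eq_true, if_false, if_true] at hv ⊢ <;> omega
    generalize (if r.o then v.1 - r.x.1 else v.2 - r.x.2) = t at h2 ⊢
    rcases Bool.eq_false_or_eq_true r.c0 with h0 | h0 <;>
      rcases Bool.eq_false_or_eq_true r.c1 with h1 | h1 <;> rw [h0, h1] at * <;>
      simp only [if_true, if_false, Bool.false_eq_true, ite_self] at * <;>
      by_cases h3 : (r.k0 : ℤ) ≤ t <;> simp [h3] <;> omega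
  cases ho : r.o
  · have e : r.st b k = (r.x.1 + (if b then 1 else 0), r.x.2 + (k : ℤ)) := by
      unfold Row.st
      rw [ho]
      rfl
    simp only [ho, Bool.false_eq_true, if_false] at hkey
    rw [e] at h ⊢
    refine arc_v (a := r.x.2) (b := r.x.2 + r.L) (y := r.x.1)
      (p := r.x.2 + (if r.c0 then 0 else (r.k0 : ℤ)))
      (q := r.x.2 + (if r.c1 then (r.L : ℤ) else r.k0)) ?_ ?_ ?_
    · intro v _
      rw [Row.mem_I, ho]
      simp only [Bool.false_eq_true, if_false]
      tauto
    · intro v _ hv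
      rw [hkey v hv]
      omega
    · dsimp only
      rcases h with ⟨h1, h2⟩ | ⟨h1, h2⟩ | h
      · left
        rcases h2 with h2 | ⟨h2, h3⟩
        · rw [h2]
          simp only [if_true]
          omega
        · cases h4 : r.c1
          · simp only [Bool.false_eq_true, if_false]
            omega
          · simp only [if_true]
            omega
      · right; left
        rcases h2 with h2 | ⟨h2, h3⟩
        · rw [h2]
          simp only [if_true]
          omega
        · cases h4 : r.c0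
          · simp only [Bool.false_eq_true, if_false]
            omega
          · simp only [if_true]
            omega
      · right; right
        exact h
  · have e : r.st b k = (r.x.1 + (k : ℤ), r.x.2 + (if b then 1 else 0)) := by
      unfold Row.st
      rw [ho]
      rfl
    simp only [ho, if_true] at hkey
    rw [e] at h ⊢
    refine arc_h (a := r.x.1) (b := r.x.1 + r.L) (y := r.x.2)
      (p := r.x.1 + (if r.c0 then 0 else (r.k0 : ℤ)))
      (q := r.x.1 + (if r.c1 then (r.L : ℤ) else r.k0)) ?_ ?_ ?_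
    · intro v _
      rw [Row.mem_I, ho]
      simp only [if_true]
      tauto
    · intro v _ hv
      rw [hkey v hv]
      omega
    · dsimp only
      rcases h with ⟨h1, h2⟩ | ⟨h1, h2⟩ | h
      · left
        rcases h2 with h2 | ⟨h2, h3⟩
        · rw [h2]
          simp only [if_true]
          omega
        · cases h4 : r.c1
          · simp only [Bool.false_eq_true, if_false]
            omega
          · simp only [if_true]
            omega
      · right; left
        rcases h2 with h2 | ⟨h2, h3⟩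
        · rw [h2]
          simp only [if_true]
          omega
        · cases h4 : r.c0
          · simp only [Bool.false_eq_true, if_false]
            omega
          · simp only [if_true]
            omega
      · right; right
        exact h


/-- The squares of the row near the site before the column `k`. -/
theorem Row.box_st {b : Bool} {k : ℕ} {R : ℤ} {v : ℤ × ℤ} (hv : v ∈ Bq (r.st b k) R) :
    (k : ℤ) - R ≤ (if r.o then v.1 - r.x.1 else v.2 - r.x.2) ∧
      (if r.o then v.1 - r.x.1 else v.2 - r.x.2) < k + R := by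
  have h := mem_Bq.1 hv
  unfold Row.st at h
  cases ho : r.o <;> rw [ho] at h <;>
    simp only [Bool.false_eq_true, if_false, if_true] at h ⊢ <;> omega

theorem Row.c0_of (h : r.η = 1) : r.c0 = r.c1 := by
  unfold Row.c0 Row.c1
  rw [h, mul_one]

/-- One wired arc at the tips. -/
theorem Row.tip_arc {R : ℤ} (e b : Bool) (hL : R ≤ r.L)
    (h : r.c0 = r.c1 ∨ (R ≤ r.k0 ∧ (r.k0 : ℤ) + R ≤ r.L)) (hk : r.c0 = r.c1 ∨ r.k0 ≤ r.L) :
    H440.OneArc (r.st b (r.ke e)) R (Bq (r.st b (r.ke e)) R \ r.I) r.fr := by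
  refine Row.arc_st ?_ hk
  cases e
  · show (((0 : ℕ) : ℤ) + R ≤ r.L ∧ (r.c1 = true ∨ (r.c0 = true ∧ ((0 : ℕ) : ℤ) + R ≤ r.k0))) ∨
      (R ≤ ((0 : ℕ) : ℤ) ∧ (r.c0 = true ∨ (r.c1 = true ∧ (r.k0 : ℤ) ≤ ((0 : ℕ) : ℤ) - R))) ∨
      (∀ v ∈ Bq (r.st b 0) R, v ∈ r.I → r.fr v = false)
    cases h0 : r.c0
    · right; right
      intro v hv hI
      have h1 := (Row.box_st hv).2
      rw [Row.fr_mem hI]
      rcases h with h | h
      · rw [← h, h0, ite_self]
      · rw [if_neg (by push_cast at h1; omega), h0]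
    · left
      refine ⟨by push_cast; omega, ?_⟩
      rcases h with h | h
      · left
        rw [← h, h0]
      · right
        exact ⟨rfl, by push_cast; omega⟩
  · show ((r.L : ℤ) + R ≤ r.L ∧ (r.c1 = true ∨ (r.c0 = true ∧ (r.L : ℤ) + R ≤ r.k0))) ∨
      (R ≤ (r.L : ℤ) ∧ (r.c0 = true ∨ (r.c1 = true ∧ (r.k0 : ℤ) ≤ (r.L : ℤ) - R))) ∨
      (∀ v ∈ Bq (r.st b r.L) R, v ∈ r.I → r.fr v = false)
    cases h1 : r.c1
    · right; right
      intro v hv hI
      have h2 := (Row.box_st hv).1
      rw [Row.fr_mem hI]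
      rcases h with h | h
      · rw [h, h1, ite_self]
      · rw [if_pos (by omega), h1]
    · right; left
      refine ⟨hL, ?_⟩
      rcases h with h | h
      · left
        rw [h, h1]
      · right
        exact ⟨rfl, by omega⟩

/-- One wired arc at the middle point. -/
theorem Row.mid_arc {R : ℤ} (b : Bool) (h0 : R ≤ r.k0) (h1 : (r.k0 : ℤ) + R ≤ r.L) (hR : 0 ≤ R) :
    H440.OneArc (r.st b r.k0) R (Bq (r.st b r.k0) R \ r.I) r.fr := by
  refine Row.arc_st ?_ (Or.inr (by omega))
  cases h2 : r.c0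
  · cases h3 : r.c1
    · right; right
      intro v hv hI
      rw [Row.fr_mem hI, h2, h3, ite_self]
    · left
      exact ⟨h1, Or.inl rfl⟩
  · right; left
    exact ⟨h0, Or.inl rfl⟩

/-- The shape at the tips. -/
theorem Row.tip_shp {s R : ℤ} (e b : Bool) (hs : 1 ≤ s) (hL : R ≤ r.L) :
    H635.Shp (Bq (r.st b (r.ke e)) R \ r.I) (r.st b (r.ke e)) s R := by
  cases e
  · exact Row.shp_st (k := 0) hs (Nat.zero_le _) (by push_cast; omega) (by push_cast; omega)
  · exact Row.shp_st (k := r.L) hs le_rfl (Or.inr hL) (Or.inl (by omega))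

/-- The shape at the middle point. -/
theorem Row.mid_shp {s R : ℤ} (b : Bool) (hs : 1 ≤ s) (h0 : R ≤ r.k0)
    (h1 : (r.k0 : ℤ) + R ≤ r.L) (hR : 0 ≤ R) :
    H635.Shp (Bq (r.st b r.k0) R \ r.I) (r.st b r.k0) s R :=
  Row.shp_st hs (by omega) (Or.inr h0) (Or.inr h1)


end Vale.Agent.P167.N.ID
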