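import Vale.Agent.P167.N.ID.P2Ta
import Vale.Agent.P167.N.ID.RowCut
import Vale.Agent.P167.N.ID.H7S

/-!
# P167, `q < 1`, START (P2T): the events at the tips, the expectation

* `Row.shp_end`, `FrS.cR`, `FrS.bR`: the annuli around the regular tips.
* `tips_E`: all killed tips are joined to the other rows with positive probability, given the arms.
* `FrS.DetT`: the deterministic part; `FrS.p2t_of`: `P2Tg` from the deterministic part.
-/

set_option autoImplicit false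

namespace Vale.Agent.P167.N.ID

open Finset MeasureTheory Filter Relation

open Vale.Agent.P167 Vale.Agent.P167.N

open Vale.Agent.P167.FK Vale.Agent.P167.FKA

open Vale.Agent.P167.N.NET

open Vale.Agent.P167.H871 (IsC)

open Vale.Agent.P167.H632 (cs)

open Vale.Agent.P167.H192.TA (Pw)

open Vale.Agent.P167.H519 (IsLim)

open Vale.Agent.P167.H398.Q (CB NA Bq_mono' Arm)

open Vale.Agent.P167.H506.Q (EF EF_nonneg)

open Vale.Agent.P167.H262 (Rsq mem_Rsq)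

open Vale.Agent.P167.Enl (nm_tri nm_sub_comm mem_Bq')

variable {Q : ℝ} {K : Finset (ℤ × ℤ)} {κ : Cfg} {P : Measure Cfg} {x : ℤ × ℤ} {r R : ℤ}

/-! ### shapes -/

/-- Complements of the shapes. -/
theorem shp_compl (h : H635.Shp (Bq x R \ K) x r R) : Shp (K : Set (ℤ × ℤ)) x r R := by
  have hc : ∀ v ∈ Bq x R \ Bq x r, (v ∈ (K : Set (ℤ × ℤ)) ↔ ¬ v ∈ Bq x R \ K) := by
    intro v hv
    have h1 := (mem_sdiff.1 hv).1
    rw [mem_coe, mem_sdiff (s := Bq x R)]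
    constructor
    · exact fun h2 h3 => h3.2 h2
    · intro h2
      by_contra h3
      exact h2 ⟨h1, h3⟩
  have hp : ∀ H : ℤ × ℤ → Prop, H635.HP H → HalfPl {v | ¬ H v} := by
    rintro H ⟨c, h | h | h | h⟩
    · exact ⟨c, Or.inr (Or.inl (Set.ext fun v => by
        show ¬ H v ↔ c ≤ v.1
        rw [h v, not_lt]))⟩
    · exact ⟨c, Or.inl (Set.ext fun v => by
        show ¬ H v ↔ v.1 < c
        rw [h v, not_le])⟩
    · exact ⟨c, Or.inr (Or.inr (Or.inr (Set.ext fun v => by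
        show ¬ H v ↔ c ≤ v.2
        rw [h v, not_lt])))⟩
    · exact ⟨c, Or.inr (Or.inr (Or.inl (Set.ext fun v => by
        show ¬ H v ↔ v.2 < c
        rw [h v, not_le])))⟩
  rcases h with ⟨H₁, H₂, h1, h2, h⟩ | ⟨l, k, h1, h⟩
  · refine Or.inl ⟨_, _, hp H₁ h1, hp H₂ h2, ?_⟩
    rcases h with h | h
    · right
      intro v hv
      rw [hc v hv, h v hv]
      show ¬ (H₁ v ∧ H₂ v) ↔ ¬ H₁ v ∨ ¬ H₂ v
      tauto
    · left
      intro v hv
      rw [hc v hv, h v hv]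
      show ¬ (H₁ v ∨ H₂ v) ↔ ¬ H₁ v ∧ ¬ H₂ v
      tauto
  · refine Or.inr ⟨l, k, h1, fun v hv => ?_⟩
    rw [hc v hv, h v hv, not_not]

/-- The shape around an end of a row. -/
theorem Row.shp_end (w : Row) (b e : Bool) {s S : ℤ} (hs : 1 ≤ s) (hS : S ≤ w.L) :
    Shp (w.I : Set (ℤ × ℤ)) (w.st b (w.ke e)) s S := by
  refine shp_compl (Row.shp_st hs ?_ ?_ ?_)
  · unfold Row.ke
    split_ifs
    · exact le_rfl
    · exact Nat.zero_le _
  · unfold Row.ke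
    split_ifs
    · exact Or.inr hS
    · left
      push_cast
      omega
  · unfold Row.ke
    split_ifs
    · left
      omega
    · right
      push_cast
      omega

/-- The colour at an end. -/
noncomputable def Row.ce (w : Row) (e : Bool) : Bool := if e then w.c1 else w.c0

/-- The colour near an end. -/
theorem Row.fr_end {θ : ℝ} {w : Row} (hv : w.Val θ) {b e : Bool} {v : ℤ × ℤ} (h : v ∈ w.I)
    (hd : v ∈ Bq (w.st b (w.ke e)) R) (hR : R ≤ w.mg) : w.fr v = w.ce e := by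
  rw [Row.fr_mem h]
  by_cases hp : w.Plain
  · have h1 : w.c1 = w.c0 := by
      unfold Row.c0 Row.c1
      rw [hp.2, mul_one]
    unfold Row.ce
    rw [h1, ite_self, ite_self]
  · have hk := hv.k0_le hp
    rw [Row.mg_not hp] at hR
    have hm := mem_bq'.1 hd
    rw [Row.mem_I] at h
    unfold Row.ce
    unfold Row.st Row.ke at hm
    cases ho : w.o <;> cases e <;> rw [ho] at hm h <;>
      simp only [Bool.false_eq_true, if_false, if_true] at hm h ⊢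
    · rw [if_neg]
      push_cast at hm
      omega
    · rw [if_pos]
      omega
    · rw [if_neg]
      push_cast at hm
      omega
    · rw [if_pos]
      omega

/-! ### the events at the killed tips -/

/-- The first part of a path. -/
theorem pw_cut' {G : Set (ℤ × ℤ)} {z s : ℤ × ℤ} (h : Pw G z s) (hs : R ≤ nm (s - z)) :
    ∃ s', R ≤ nm (s' - z) ∧ Pw (G ∩ (Bq z R : Set (ℤ × ℤ))) z s' := by
  have key : ∀ t, Pw G z t →
      (∃ s', R ≤ nm (s' - z) ∧ Pw (G ∩ (Bq z R : Set (ℤ × ℤ))) z s') ∨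
        Pw (G ∩ (Bq z R : Set (ℤ × ℤ))) z t := by
    intro t ht
    induction ht with
    | refl => exact Or.inr ReflTransGen.refl
    | @tail a b _ hab ih =>
      rcases ih with h1 | h1
      · exact Or.inl h1
      · obtain ⟨h2, h3, h4⟩ := step_isC hab
        by_cases h5 : (min a.1 b.1, min a.2 b.2) ∈ Bq z R
        · exact Or.inr (h1.tail ⟨hab.1, hab.2.1, h2, h5⟩)
        · exact Or.inl ⟨a, far_of_isC h5 h3, h1⟩
  rcases key s h with h1 | h1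
  · exact h1
  · exact ⟨s, hs, h1⟩

theorem jn_loc {e : Bool} {W : Finset (ℤ × ℤ)} {A B : Set (ℤ × ℤ)} :
    Loc W ((Jn e (W : Set (ℤ × ℤ)) A B).indicator (1 : Cfg → ℝ)) := by
  have key : ∀ ω ω' : Cfg, (∀ v ∈ W, ω v = ω' v) → ω ∈ Jn e (W : Set (ℤ × ℤ)) A B →
      ω' ∈ Jn e (W : Set (ℤ × ℤ)) A B := by
    rintro ω ω' h ⟨u, hu, v, hv, hp⟩
    refine ⟨u, hu, v, hv, hp.mono ?_⟩
    rintro s ⟨hs1, hs2⟩
    exact ⟨by rw [← hs1]; exact (h s hs2).symm, hs2⟩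
  intro ω ω' h
  by_cases h1 : ω ∈ Jn e (W : Set (ℤ × ℤ)) A B
  · rw [Set.indicator_of_mem h1, Set.indicator_of_mem (key ω ω' h h1)]
    rfl
  · rw [Set.indicator_of_notMem h1,
      Set.indicator_of_notMem fun h2 => h1 (key ω' ω (fun v hv => (h v hv).symm) h2)]

variable {t : TipD} {U I J : Finset (ℤ × ℤ)} {z : ℤ × ℤ} {d ρ : ℤ}

/-- The box at the tip is in the set `W`. -/
theorem TipD.Ok.box (h : t.Ok U I J z d ρ) (hI : I ⊆ U) (hρ : 1 ≤ ρ) : Bq z ρ \ U ⊆ t.W d ρ := by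
  intro v hv
  obtain ⟨h1, h2⟩ := mem_sdiff.1 hv
  rw [h.zt, ← Isom.Bq_V] at h1
  obtain ⟨w, hw, rfl⟩ := mem_image.1 h1
  refine mem_image_of_mem _ (mem_union_left _ (mem_filter.2 ⟨?_, fun h3 => ?_⟩))
  · have h4 := mem_bq'.1 hw
    rw [mem_Rsq]
    dsimp only at h4
    omega
  · refine h2 (hI ((h.own w ?_).2 h3))
    have h4 := mem_bq'.1 hw
    rw [mem_Rsq]
    dsimp only at h4
    rcases h.ze with h5 | h5 <;> rw [h5] at h4 <;> omega

/-- The event at a killed tip. -/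
def TipD.Z (t : TipD) (J : Finset (ℤ × ℤ)) (z : ℤ × ℤ) (d ρ : ℤ) : Set Cfg :=
  Jn (cz z) (t.W d ρ : Set (ℤ × ℤ)) {z} {s | ∃ v ∈ J, IsC v s}

theorem TipD.Ok.sub (h : t.Ok U I J z d ρ) (hJ : ∀ v ∈ J, ∀ s, IsC v s → ρ ≤ nm (s - z)) :
    t.Z J z d ρ ⊆ AZ (cz z) U z ρ := by
  rintro ω ⟨u, rfl, s, ⟨v, hv, hs⟩, hp⟩
  obtain ⟨s', h1, h2⟩ := pw_cut' hp (hJ v hv s hs)
  refine ⟨s', h1, h2.mono ?_⟩
  rintro w ⟨⟨h3, h4⟩, h5⟩
  exact ⟨h3, mem_coe.2 (mem_sdiff.2 ⟨mem_coe.1 h5,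
    Finset.disjoint_left.1 h.free (mem_coe.1 h4)⟩)⟩

/-- **All killed tips are joined to the other rows**, given the arms. -/
theorem tips_E (hQ : Kit Q) (hP : IsLim Q P) (hg : ∀ᵐ ω ∂P, Good ω) :
    ∃ c : ℝ, 0 < c ∧ c ≤ 1 ∧ ∃ ρ₀ : ℤ, 1 ≤ ρ₀ ∧ ∀ {ι : Type} [Fintype ι] (t : ι → TipD)
      (U : Finset (ℤ × ℤ)) (κ : Cfg) (I J : ι → Finset (ℤ × ℤ)) (z : ι → ℤ × ℤ) (d ρ : ℤ),
      ρ₀ ≤ ρ → 16 * ρ ≤ d → d ≤ 16 * ρ + 16 → (∀ i, (t i).Ok U (I i) (J i) (z i) d ρ) →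
      (∀ i, I i ⊆ U) → (∀ i j, i ≠ j → Disjoint ((t i).W d ρ) ((t j).W d ρ)) →
      c ^ Fintype.card ι * EF P U κ (fun ω => ∏ i, TK U (z i) ρ ω) ≤
        EF P U κ (fun ω => ∏ i, ((t i).Z (J i) (z i) d ρ).indicator 1 ω) := by
  classical
  obtain ⟨c, hc0, hc1, ρ₀, key⟩ := tip_ext hQ
  refine ⟨c, hc0, hc1, max ρ₀ 1, le_max_right _ _, ?_⟩
  intro ι _ t U κ I J z d ρ hρ h1 h2 hOk hI hdis
  have hρ1 : 1 ≤ ρ := (le_max_right _ _).trans hρ
  have hρ0 : ρ₀ ≤ ρ := (le_max_left _ _).trans hρ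
  have := EF_iter (κ := κ) (K := U) hQ hP hg (W := fun i => (t i).W d ρ)
    (a := fun i => TK U (z i) ρ)
    (b := fun i => ((t i).Z (J i) (z i) d ρ).indicator 1) hc0.le univ
    (fun i _ j _ hij => hdis i j hij) (fun i _ => (hOk i).free)
    (fun i _ => fun ω ω' h => AZ_loc ω ω' fun v hv => h v ((hOk i).box (hI i) hρ1 hv))
    (fun i _ => jn_loc) (fun i ω => TK_nonneg _ _ _ _)
    (fun i ω => Set.indicator_nonneg (fun _ _ => zero_le_one) _)
    (fun i _ ξ hξ _ => key (t i) U (I i) (J i) _ (z i) d ρ ξ hρ0 h1 h2 (hOk i) (hI i)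
      (Finset.Subset.refl _) hξ)
    (G := fun _ => 1) (fun _ => zero_le_one) (CB.const 1) (fun i _ => fun _ _ _ => rfl)
  simp only [one_mul] at this
  exact this

end Vale.Agent.P167.N.ID
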