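import Vale.Agent.P167.N.ID.P2Tb

/-!
# P167, `q < 1`, START (P2T): `P2Tg` from the deterministic part

* `FrS.cR`, `FrS.bR`, `FrS.NAt`: no arms at the regular tips.
* `FrS.DetT`: the deterministic part; `FrS.p2t_of`: `P2Tg` from the deterministic part.
-/

set_option autoImplicit false

namespace Vale.Agent.P167.N.ID

open Finset MeasureTheory Filter

open Vale.Agent.P167 Vale.Agent.P167.N

open Vale.Agent.P167.FK Vale.Agent.P167.FKA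

open Vale.Agent.P167.H871 (IsC)

open Vale.Agent.P167.H519 (IsLim)

open Vale.Agent.P167.H398.Q (CB NA Bq_mono' cb_NA)

open Vale.Agent.P167.H506.Q (EF EF_nonneg)

open Vale.Agent.P167.H662.S6 (EF_cfg exists_good)

open Vale.Agent.P167.H825.S (small_pow Bq_shift)

open Vale.Agent.P167.Enl (nm_tri nm_sub_comm mem_Bq')

variable {θ β : ℝ} {Φ : FrS Row} {δ g M : ℝ} {n l : ℕ} {p : ZMod l → ℤ × ℤ}
  {S₀ : Finset (ℤ × ℤ)} {P : Measure Cfg}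

/-! ### the regular tips -/

/-- A corner of the regular end of a row. -/
noncomputable def FrS.cR (Φ : FrS Row) (δ : ℝ) (n : ℕ) (i : Φ.ι) : ℤ × ℤ :=
  (Φ.r δ n i).st false ((Φ.r δ n i).ke (!(Φ.r δ n i).p))

/-- The colour at the regular end of a row. -/
noncomputable def FrS.bR (Φ : FrS Row) (δ : ℝ) (n : ℕ) (i : Φ.ι) : Bool :=
  (Φ.r δ n i).ce (!(Φ.r δ n i).p)

/-- No arms at the regular ends. -/
noncomputable def FrS.NAt (Φ : FrS Row) (δ : ℝ) (n : ℕ) (r R : ℤ) : Set Cfg :=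
  NA univ (Φ.bR δ n) (Φ.cR δ n) r R

/-- **The deterministic part**: pictures of the killed tips such that the product over the loops at
the holes is not zero if all killed tips are joined to the other rows, off the arms. -/
def FrS.DetT (Φ : FrS Row) (θ δ M : ℝ) (n : ℕ) : Prop :=
  ∃ t : Φ.ι → TipD, ∃ J : Φ.ι → Φ.ι,
    (∀ i, J i ≠ i ∧ (t i).Ok (Φ.U (rowS θ) δ n) (Φ.r δ n i).I (Φ.r δ n (J i)).I
      (Φ.r δ n i).zt ⌊δ * n⌋₊ ⌊δ * n / 16⌋) ∧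
    (∀ i j, i ≠ j → Disjoint ((t i).W ⌊δ * n⌋₊ ⌊δ * n / 16⌋) ((t j).W ⌊δ * n⌋₊ ⌊δ * n / 16⌋)) ∧
    ∀ ω : Cfg, Good ω → Φ.Frz (rowS θ) δ n ω →
      (∀ i, ω ∈ (t i).Z (Φ.r δ n (J i)).I (Φ.r δ n i).zt ⌊δ * n⌋₊ ⌊δ * n / 16⌋) →
      ω ∈ Φ.NAh δ n (⌊4 * δ * n⌋ + 1) (⌊M * δ * n⌋ - 1) →
      ω ∈ Φ.NAt δ n (⌊δ * n / M⌋ + 1) (⌊δ * n / 8⌋ - 1) →
      Φ.TB (rowS θ) θ δ n ⌊4 * δ * n⌋ ω ≠ 0

/-- The ends are at the row. -/
theorem Row.near_end (w : Row) (hL : 1 ≤ w.L) (b e : Bool) :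
    ∃ u ∈ w.I, nm (w.st b (w.ke e) - u) ≤ 1 := by
  unfold Row.ke
  cases e
  · exact ⟨w.sq 0, H680.T.sq_mem.2 (show 0 < w.L by omega), w.near_st _ _⟩
  · exact ⟨w.sq (w.L - 1), H680.T.sq_mem.2 (show w.L - 1 < w.L by omega), w.near_st' _ hL⟩

section geo

variable {hθ : 0 ≤ Real.cos θ} (h : Φ.GeoN (rowS θ) (rowF hθ) {true} θ β p S₀ g δ n)

include h in
/-- Sites at different rows are far from each other. -/
theorem FrS.GeoN.far_end {i j : Φ.ι} (hij : i ≠ j) {s s' u v : ℤ × ℤ} (hu : u ∈ (Φ.r δ n i).I)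
    (hv : v ∈ (Φ.r δ n j).I) (h1 : nm (s - u) ≤ 1) (h2 : nm (s' - v) ≤ 1) :
    δ * n / 2 - 2 ≤ (nm (s - s') : ℝ) := by
  have h3 := h.sepr i j hij u hu v hv
  have h4 := nm_tri u s s'
  have h5 := nm_tri u s' v
  rw [nm_sub_comm u s] at h4
  have h6 : nm (u - v) ≤ nm (s - s') + 2 := by omega
  have h7 : (nm (u - v) : ℝ) ≤ nm (s - s') + 2 := by exact_mod_cast h6
  linarith

include h in
/-- Near an end of a row there is only this row. -/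
theorem FrS.GeoN.U_end {i : Φ.ι} {R : ℤ} (hL : 1 ≤ (Φ.r δ n i).L) (hR : R + 2 < δ * n / 2)
    {b e : Bool} {v : ℤ × ℤ} (hv : v ∈ Bq ((Φ.r δ n i).st b ((Φ.r δ n i).ke e)) R) :
    v ∈ Φ.U (rowS θ) δ n ↔ v ∈ (Φ.r δ n i).I := by
  constructor
  · intro h1
    obtain ⟨j, hj⟩ := mem_uIA.1 h1
    by_cases hij : i = j
    · subst hij
      exact hj
    · exfalso
      obtain ⟨u, hu, hu1⟩ := (Φ.r δ n i).near_end hL b e
      have h2 := h.sepr i j hij u hu v hj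
      have h3 := mem_Bq' hv
      have h4 := nm_tri u ((Φ.r δ n i).st b ((Φ.r δ n i).ke e)) v
      rw [nm_sub_comm u ((Φ.r δ n i).st b ((Φ.r δ n i).ke e)),
        nm_sub_comm ((Φ.r δ n i).st b ((Φ.r δ n i).ke e)) v] at h4
      have h5 : nm (u - v) ≤ R + 1 := by omega
      have h6 : (nm (u - v) : ℝ) ≤ R + 1 := by exact_mod_cast h5
      linarith
  · exact fun h1 => mem_uIA.2 ⟨i, h1⟩

end geo

theorem tt_eq {hθ : 0 ≤ Real.cos θ} (ρ : ℤ) (ω : Cfg) :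
    Φ.Tt (rowS θ) (rowF hθ) {true} δ n ρ ω =
      ∏ i, TK (Φ.U (rowS θ) δ n) (Φ.r δ n i).zt ρ ω := by
  unfold FrS.Tt
  refine prod_congr rfl fun i _ => ?_
  rw [prod_singleton]
  rfl

/-- The numbers at one size. -/
structure NumT (g δ M : ℝ) (n : ℕ) : Prop where
  d0 : 0 < δ
  n0 : (0 : ℝ) < n
  M32 : 32 ≤ M
  big : 32 * M ≤ δ * n
  sml : 2 * (M * δ) < g

/-- The radii. -/
theorem NumT.radii (N : NumT g δ M n) :
    ((16 : ℤ) * ⌊δ * n / 16⌋ ≤ (⌊δ * n⌋₊ : ℤ) ∧ (⌊δ * n⌋₊ : ℤ) ≤ 16 * ⌊δ * n / 16⌋ + 16) ∧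
    ((⌊δ * n⌋₊ : ℤ) + 4 ≤ ⌊4 * δ * n⌋ + 1 ∧ 1 ≤ ⌊4 * δ * n⌋ + 1 ∧
      2 * δ * n + ((⌊δ * n / 16⌋ : ℤ) : ℝ) ≤ ((⌊4 * δ * n⌋ + 1 : ℤ) : ℝ) ∧
      ⌊4 * δ * n⌋ + 1 ≤ ⌊M * δ * n⌋ - 1 ∧ (2 * ((⌊M * δ * n⌋ - 1 : ℤ) : ℝ)) < g * n ∧
      (((⌊4 * δ * n⌋ + 1 : ℤ) : ℝ) / ((⌊M * δ * n⌋ - 1 : ℤ) : ℝ)) ≤ 32 / M ∧
      0 ≤ (((⌊4 * δ * n⌋ + 1 : ℤ) : ℝ) / ((⌊M * δ * n⌋ - 1 : ℤ) : ℝ))) ∧
    (1 ≤ ⌊δ * n / M⌋ + 1 ∧ ⌊δ * n / M⌋ + 1 ≤ ⌊δ * n / 8⌋ - 1 ∧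
      (((⌊δ * n / 8⌋ - 1 : ℤ) : ℝ)) ≤ δ * n / 8 ∧ ((⌊δ * n / 16⌋ : ℤ) : ℝ) ≤ δ * n / 16 ∧
      (((⌊δ * n / M⌋ + 1 : ℤ) : ℝ) / ((⌊δ * n / 8⌋ - 1 : ℤ) : ℝ)) ≤ 32 / M ∧
      0 ≤ (((⌊δ * n / M⌋ + 1 : ℤ) : ℝ) / ((⌊δ * n / 8⌋ - 1 : ℤ) : ℝ))) := by
  obtain ⟨hd, hn, hM, hb, hs⟩ := N
  have fl : ∀ x : ℝ, (⌊x⌋ : ℝ) ≤ x := Int.floor_le
  have fl' : ∀ x : ℝ, x < (⌊x⌋ : ℝ) + 1 := Int.lt_floor_add_one
  have hD : 1024 ≤ δ * n := by linarith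
  have hM0 : 0 < M := by linarith
  have hDM : 32 ≤ δ * n / M := by rw [le_div_iff₀ hM0]; linarith
  have hMD : 32 * (δ * n) ≤ M * (δ * n) := mul_le_mul_of_nonneg_right hM (by linarith)
  have a1 : ((⌊δ * (n : ℝ)⌋₊ : ℤ) : ℝ) ≤ δ * n := by
    have := Nat.floor_le (by positivity : 0 ≤ δ * (n : ℝ))
    exact_mod_cast this
  have a2 : δ * n < ((⌊δ * (n : ℝ)⌋₊ : ℤ) : ℝ) + 1 := by
    have := Nat.lt_floor_add_one (δ * (n : ℝ))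
    exact_mod_cast this
  have b1 := fl (δ * n / 16)
  have b2 := fl' (δ * n / 16)
  have c1 := fl (4 * δ * n)
  have c2 := fl' (4 * δ * n)
  have d1 := fl (M * δ * n)
  have d2 := fl' (M * δ * n)
  have e1 := fl (δ * n / M)
  have e2 := fl' (δ * n / M)
  have f1 := fl (δ * n / 8)
  have f2 := fl' (δ * n / 8)
  have g1 : M * δ * n = M * (δ * n) := by ring
  have g2 : 4 * δ * n = 4 * (δ * n) := by ring
  rw [g1] at d1 d2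
  rw [g2] at c1 c2
  have g3 : 2 * (M * (δ * n)) < g * n := by
    have := mul_lt_mul_of_pos_right hs hn
    linarith
  have hDM' : δ * n / M ≤ δ * n / 32 := by
    rw [div_le_div_iff₀ hM0 (by norm_num)]
    linarith
  refine ⟨⟨?_, ?_⟩, ⟨?_, ?_, ?_, ?_, ?_, ?_, ?_⟩, ?_, ?_, ?_, b1, ?_, ?_⟩
  · have h : (((16 : ℤ) * ⌊δ * n / 16⌋ : ℤ) : ℝ) < (((⌊δ * n⌋₊ : ℤ) + 1 : ℤ) : ℝ) := by
      push_cast at a2 ⊢
      linarith
    have h' : (16 : ℤ) * ⌊δ * n / 16⌋ < (⌊δ * n⌋₊ : ℤ) + 1 := by exact_mod_cast h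
    omega
  · have h : ((⌊δ * n⌋₊ : ℤ) : ℝ) < ((16 * ⌊δ * n / 16⌋ + 16 : ℤ) : ℝ) := by
      push_cast at a1 ⊢
      linarith
    have h' : (⌊δ * n⌋₊ : ℤ) < 16 * ⌊δ * n / 16⌋ + 16 := by exact_mod_cast h
    omega
  · have h : (((⌊δ * n⌋₊ : ℤ) + 4 : ℤ) : ℝ) ≤ ((⌊4 * δ * n⌋ + 1 : ℤ) : ℝ) := by
      push_cast at a1 ⊢
      rw [g2]
      linarith
    exact_mod_cast h
  · have h : ((1 : ℤ) : ℝ) ≤ ((⌊4 * δ * n⌋ + 1 : ℤ) : ℝ) := by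
      push_cast
      rw [g2]
      linarith
    exact_mod_cast h
  · push_cast
    rw [g2]
    linarith
  · have h : ((⌊4 * δ * n⌋ + 1 : ℤ) : ℝ) ≤ ((⌊M * δ * n⌋ - 1 : ℤ) : ℝ) := by
      push_cast
      rw [g1, g2]
      linarith
    exact_mod_cast h
  · push_cast
    rw [g1]
    linarith
  · push_cast
    rw [g1, g2, div_le_div_iff₀ (by linarith) hM0]
    have h1 : ((⌊4 * (δ * n)⌋ : ℝ) + 1) * M ≤ 5 * (δ * n) * M :=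
      mul_le_mul_of_nonneg_right (by linarith) hM0.le
    nlinarith
  · push_cast
    rw [g1, g2]
    exact div_nonneg (by linarith) (by linarith)
  · have h : ((0 : ℤ) : ℝ) ≤ ((⌊δ * n / M⌋ : ℤ) : ℝ) := by
      push_cast
      linarith
    have h' : (0 : ℤ) ≤ ⌊δ * n / M⌋ := by exact_mod_cast h
    omega
  · have h : ((⌊δ * n / M⌋ + 1 : ℤ) : ℝ) ≤ ((⌊δ * n / 8⌋ - 1 : ℤ) : ℝ) := by
      push_cast
      linarith
    exact_mod_cast h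
  · push_cast
    linarith
  · push_cast
    rw [div_le_div_iff₀ (by linarith) hM0]
    have h1 : ((⌊δ * n / M⌋ : ℝ) + 1) * M ≤ (2 * (δ * n / M)) * M :=
      mul_le_mul_of_nonneg_right (by linarith) hM0.le
    have h2 : (2 * (δ * n / M)) * M = 2 * (δ * n) := by field_simp
    linarith
  · push_cast
    exact div_nonneg (by linarith) (by linarith)

/-- **(P2T) for one size.** -/
theorem FrS.p2t_one {hθ : 0 ≤ Real.cos θ} (hs : 0 < Real.sin θ) (hQ : Kit (2 * Real.cos θ))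
    (hP : IsLim (2 * Real.cos θ) P) (hg : ∀ᵐ ω ∂P, Good ω) {α C : ℝ}
    (hA : ArmS (2 * Real.cos θ) α C)
    (h : Φ.GeoN (rowS θ) (rowF hθ) {true} θ β p S₀ g δ n) (N : NumT g δ M n) (hgM : 1 ≤ g * n)
    {c : ℝ} {ρ₀ : ℤ} (hρ₀ : ρ₀ ≤ ⌊δ * n / 16⌋)
    (hE : ∀ {ι : Type} [Fintype ι] (t : ι → TipD)
      (U : Finset (ℤ × ℤ)) (κ : Cfg) (I J : ι → Finset (ℤ × ℤ)) (z : ι → ℤ × ℤ) (d ρ : ℤ),
      ρ₀ ≤ ρ → 16 * ρ ≤ d → d ≤ 16 * ρ + 16 → (∀ i, (t i).Ok U (I i) (J i) (z i) d ρ) →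
      (∀ i, I i ⊆ U) → (∀ i j, i ≠ j → Disjoint ((t i).W d ρ) ((t j).W d ρ)) →
      c ^ Fintype.card ι * EF P U κ (fun ω => ∏ i, TK U (z i) ρ ω) ≤
        EF P U κ (fun ω => ∏ i, ((t i).Z (J i) (z i) d ρ).indicator 1 ω))
    (hD : Φ.DetT θ δ M n) {σ : Cfg} (hσ : Φ.Frz (rowS θ) δ n σ) {ε : ℝ}
    (hε₁ : ∀ x : ℝ, 0 ≤ x → x ≤ 32 / M → (univ : Finset Φ.H).card * (C * x ^ α) ≤ ε)
    (hε₂ : ∀ x : ℝ, 0 ≤ x → x ≤ 32 / M → (univ : Finset Φ.ι).card * (C * x ^ α) ≤ ε) :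
    c ^ Fintype.card Φ.ι * Φ.E (rowS θ) δ n P σ
        (Φ.Tt (rowS θ) (rowF hθ) {true} δ n ⌊δ * n / 16⌋) ≤
      Φ.E (rowS θ) δ n P σ (fun ω => Φ.Tt (rowS θ) (rowF hθ) {true} δ n ⌊δ * n / 16⌋ ω *
        {ω | Φ.TB (rowS θ) θ δ n ⌊4 * δ * n⌋ ω ≠ 0}.indicator 1 ω) +
      2 * ε * Φ.E (rowS θ) δ n P σ (Φ.Tt (rowS θ) (rowF hθ) {true} δ n ⌊δ * n / 16⌋) := by
  classical
  have hPp : IsProbabilityMeasure P := hP.1
  obtain ⟨⟨r1, r2⟩, ⟨s1, s2, s3, s4, s5, s6, s7⟩, t1, t2, t3, t4, t5, t6⟩ := N.radii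
  obtain ⟨tt, J, hpic, hdis, hdet⟩ := hD
  have hdn : 1024 ≤ δ * n := by
    have h1 := N.big
    have h2 := N.M32
    linarith
  -- the rows are long
  have hlen : ∀ i, 1 ≤ (Φ.r δ n i).L := by
    intro i
    have h1 := (h.val i).2
    have h2 : (1 : ℝ) ≤ (Φ.r δ n i).mg := hgM.trans h1
    have h3 : 1 ≤ (Φ.r δ n i).mg := by exact_mod_cast h2
    exact h3.trans (Φ.r δ n i).mg_le
  have hIU : ∀ i, (Φ.r δ n i).I ⊆ Φ.U (rowS θ) δ n := fun i v hv => mem_uIA.2 ⟨i, hv⟩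
  have hgd : δ * n / 4 ≤ g * n := by
    have h1 := N.sml
    have h2 := N.M32
    have h3 := N.n0
    have h4 : 64 * δ < g := by
      have := mul_le_mul_of_nonneg_right h2 N.d0.le
      linarith
    have h5 := mul_lt_mul_of_pos_right h4 h3
    have : 0 ≤ δ * (n : ℝ) := by linarith
    linarith
  -- the indicators
  obtain ⟨a, ha⟩ : ∃ a : Φ.ι → Cfg → ℝ, a = fun i ω =>
    TK (Φ.U (rowS θ) δ n) (Φ.r δ n i).zt ⌊δ * n / 16⌋ ω := ⟨_, rfl⟩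
  obtain ⟨b, hb⟩ : ∃ b : Φ.ι → Cfg → ℝ, b = fun i =>
    ((tt i).Z (Φ.r δ n (J i)).I (Φ.r δ n i).zt ⌊δ * n⌋₊ ⌊δ * n / 16⌋).indicator 1 := ⟨_, rfl⟩
  have key := hE tt (Φ.U (rowS θ) δ n) σ (fun i => (Φ.r δ n i).I)
    (fun i => (Φ.r δ n (J i)).I) (fun i => (Φ.r δ n i).zt) (⌊δ * n⌋₊ : ℤ) ⌊δ * n / 16⌋ hρ₀ r1 r2
    (fun i => (hpic i).2) hIU hdis
  have ha0 : ∀ ω, 0 ≤ ∏ i, a i ω := fun ω => prod_nonneg fun i _ => by
    rw [ha]; exact TK_nonneg _ _ _ _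
  have hb01 : ∀ ω, 0 ≤ ∏ i, b i ω ∧ ∏ i, b i ω ≤ 1 := by
    intro ω
    have h0 : ∀ i ω, 0 ≤ b i ω ∧ b i ω ≤ 1 := fun i ω => by rw [hb]; exact i01 _ ω
    exact ⟨prod_nonneg fun i _ => (h0 i ω).1, prod_le_one (fun i _ => (h0 i ω).1)
      fun i _ => (h0 i ω).2⟩
  have hba : ∀ ω, ∏ i, b i ω ≤ (∏ i, a i ω) * ∏ i, b i ω := by
    intro ω
    rw [← prod_mul_distrib]
    refine prod_le_prod (fun i _ => by rw [hb]; exact (i01 _ ω).1) fun i _ => ?_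
    rw [ha, hb]
    show ((tt i).Z (Φ.r δ n (J i)).I (Φ.r δ n i).zt ⌊δ * n⌋₊ ⌊δ * n / 16⌋).indicator
      (1 : Cfg → ℝ) ω ≤ TK (Φ.U (rowS θ) δ n) (Φ.r δ n i).zt ⌊δ * n / 16⌋ ω *
      ((tt i).Z (Φ.r δ n (J i)).I (Φ.r δ n i).zt ⌊δ * n⌋₊ ⌊δ * n / 16⌋).indicator
      (1 : Cfg → ℝ) ω
    by_cases hz : ω ∈ (tt i).Z (Φ.r δ n (J i)).I (Φ.r δ n i).zt ⌊δ * n⌋₊ ⌊δ * n / 16⌋
    · have hz' := (hpic i).2.sub (fun v hv s hs => by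
        obtain ⟨u, hu, hu1⟩ := (Φ.r δ n i).near_end (hlen i)
          ((Φ.r δ n i).gc (Φ.r δ n i).p) (Φ.r δ n i).p
        have h1 : nm (s - v) ≤ 1 := by
          obtain ⟨k1, k2⟩ := hs
          unfold nm
          rw [max_le_iff, abs_le, abs_le]
          simp only [Prod.fst_sub, Prod.snd_sub]
          omega
        have h2 := h.far_end (hpic i).1 hv hu h1 hu1
        have h3 : ((⌊δ * n / 16⌋ : ℤ) : ℝ) ≤ nm (s - (Φ.r δ n i).zt) := by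
          refine le_trans ?_ h2
          linarith
        exact_mod_cast h3) hz
      unfold TK
      rw [Set.indicator_of_mem hz, Set.indicator_of_mem hz']
      simp
    · rw [Set.indicator_of_notMem hz, mul_zero]
  have cpa : CB fun ω => ∏ i, a i ω := by
    refine CB.of_loc (B := univ.biUnion fun i => Bq (Φ.r δ n i).zt ⌊δ * n / 16⌋)
      fun ω ω' hh => prod_congr rfl fun i _ => ?_
    rw [ha]
    exact TK_loc _ _ _ ω ω' fun v hv => hh v (mem_biUnion.2 ⟨i, mem_univ _, hv⟩)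
  have lpa : Loc (univ.biUnion fun i => Bq (Φ.r δ n i).zt ⌊δ * n / 16⌋)
      fun ω => ∏ i, a i ω := fun ω ω' hh => prod_congr rfl fun i _ => by
    rw [ha]
    exact TK_loc _ _ _ ω ω' fun v hv => hh v (mem_biUnion.2 ⟨i, mem_univ _, hv⟩)
  have cpb : CB fun ω => ∏ i, b i ω := by
    refine CB.of_loc (B := univ.biUnion fun i => (tt i).W ⌊δ * n⌋₊ ⌊δ * n / 16⌋)
      fun ω ω' hh => prod_congr rfl fun i _ => ?_
    rw [hb]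
    exact jn_loc ω ω' fun v hv => hh v (mem_biUnion.2 ⟨i, mem_univ _, hv⟩)
  have eTt : Φ.Tt (rowS θ) (rowF hθ) {true} δ n ⌊δ * n / 16⌋ = fun ω => ∏ i, a i ω := by
    funext ω
    rw [tt_eq, ha]
  -- the holes
  have hK : HolK univ (Φ.b δ n) (Φ.h δ n) (Φ.U (rowS θ) δ n) σ (⌊4 * δ * n⌋ + 1)
      (⌊M * δ * n⌋ - 1) := h.holK hσ s1 (by omega) s5
  have hTt : Loc (hBA univ (Φ.h δ n) (⌊4 * δ * n⌋ + 1)) fun ω => ∏ i, a i ω := by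
    rw [← eTt]
    exact h.Tt_loc s3
  have m1 := mean_NA (P := P) (K := Φ.U (rowS θ) δ n) (κ := σ) hg
    (harm_of hQ hP hg hA s2 s4 hK.col hK.shp) ha0 cpa
    (fun x hx => hTt.ind (by
      rw [Finset.disjoint_left]
      intro v hv hv'
      obtain ⟨hv1, -⟩ := mem_sdiff.1 hv'
      obtain ⟨hv1, hv2⟩ := mem_sdiff.1 hv1
      obtain ⟨j, hj, h3⟩ := mem_hBX.1 hv
      by_cases hij : x = j
      · subst hij
        exact hv2 h3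
      · exact Finset.disjoint_left.1 (hK.dis x hx j hj hij) hv1 (Bq_mono' (by omega) h3)))
    cpb hb01
  -- the regular ends
  have hgR : ∀ i, (((⌊δ * n / 8⌋ - 1 : ℤ) : ℝ)) ≤ (Φ.r δ n i).mg := by
    intro i
    have h1 : g * n ≤ (Φ.r δ n i).mg := (h.val i).2
    linarith
  have hharm : HArm P (Φ.U (rowS θ) δ n) σ univ (Φ.bR δ n) (Φ.cR δ n) (⌊δ * n / M⌋ + 1)
      (⌊δ * n / 8⌋ - 1) (C * (((⌊δ * n / M⌋ + 1 : ℤ) : ℝ) / ((⌊δ * n / 8⌋ - 1 : ℤ) : ℝ)) ^ α) := by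
    refine harm_of hQ hP hg hA t1 t2 (fun i _ v hv hx => ?_) (fun i _ => ?_)
    · have h1 := (h.U_end (hlen i) (by linarith) hx).1 hv
      rw [hσ i v h1]
      exact (Φ.r δ n i).fr_end (h.val i).1 h1 hx (by exact_mod_cast hgR i)
    · have h1 : ⌊δ * n / 8⌋ - 1 ≤ ((Φ.r δ n i).L : ℤ) := by
        have h2 : ⌊δ * n / 8⌋ - 1 ≤ ((Φ.r δ n i).mg : ℤ) := by exact_mod_cast hgR i
        exact h2.trans (by exact_mod_cast (Φ.r δ n i).mg_le)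
      refine Shp.congr ((Φ.r δ n i).shp_end false (!(Φ.r δ n i).p) t1 h1) fun v hv => ?_
      exact h.U_end (hlen i) (by linarith) (mem_sdiff.1 hv).1
  have m2 := mean_NA (P := P) (K := Φ.U (rowS θ) δ n) (κ := σ) hg hharm ha0 cpa
    (fun i _ => lpa.ind (by
      rw [Finset.disjoint_left]
      intro v hv hv'
      obtain ⟨hv1, -⟩ := mem_sdiff.1 hv'
      obtain ⟨hv1, -⟩ := mem_sdiff.1 hv1
      obtain ⟨j, -, h3⟩ := mem_biUnion.1 hv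
      have e1 := mem_Bq' hv1
      have e2 := mem_Bq' h3
      have e3 := nm_tri (Φ.r δ n j).zt v (Φ.cR δ n i)
      rw [nm_sub_comm (Φ.r δ n j).zt v] at e3
      have e4 : nm ((Φ.r δ n j).zt - Φ.cR δ n i) ≤ ⌊δ * n / 16⌋ + (⌊δ * n / 8⌋ - 1) := by omega
      have e5 : (nm ((Φ.r δ n j).zt - Φ.cR δ n i) : ℝ) ≤
          ((⌊δ * n / 16⌋ : ℤ) : ℝ) + ((⌊δ * n / 8⌋ - 1 : ℤ) : ℝ) := by exact_mod_cast e4
      by_cases hij : j = i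
      · subst hij
        have e6 := (Φ.r δ n j).sep_st ((Φ.r δ n j).gc (Φ.r δ n j).p) false
          ((Φ.r δ n j).ke (Φ.r δ n j).p) ((Φ.r δ n j).ke (!(Φ.r δ n j).p))
        have e7 : ((Φ.r δ n j).L : ℤ) ≤ |(((Φ.r δ n j).ke (Φ.r δ n j).p : ℕ) : ℤ) -
            ((Φ.r δ n j).ke (!(Φ.r δ n j).p) : ℕ)| := by
          unfold Row.ke
          cases (Φ.r δ n j).p <;> simp
        have e8 : (((Φ.r δ n j).L : ℤ) : ℝ) ≤ (nm ((Φ.r δ n j).zt - Φ.cR δ n j) : ℝ) := by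
          exact_mod_cast e7.trans e6
        have e9 : g * n ≤ (Φ.r δ n j).mg := (h.val j).2
        have e10 : (((Φ.r δ n j).mg : ℕ) : ℝ) ≤ (((Φ.r δ n j).L : ℤ) : ℝ) := by
          exact_mod_cast (Φ.r δ n j).mg_le
        linarith
      · obtain ⟨u, hu, hu1⟩ := (Φ.r δ n j).near_end (hlen j)
          ((Φ.r δ n j).gc (Φ.r δ n j).p) (Φ.r δ n j).p
        obtain ⟨u', hu', hu1'⟩ := (Φ.r δ n i).near_end (hlen i) false (!(Φ.r δ n i).p)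
        have e6 := h.far_end hij hu hu' hu1 hu1'
        change δ * n / 2 - 2 ≤ (nm ((Φ.r δ n j).zt - Φ.cR δ n i) : ℝ) at e6
        linarith))
    (cpb.mul cb_NA) (ψ := fun ω => (∏ i, b i ω) * (Φ.NAh δ n (⌊4 * δ * n⌋ + 1)
      (⌊M * δ * n⌋ - 1)).indicator 1 ω) (fun ω => by
      have h1 := hb01 ω
      have h2 := i01 (Φ.NAh δ n (⌊4 * δ * n⌋ + 1) (⌊M * δ * n⌋ - 1)) ω
      exact ⟨mul_nonneg h1.1 h2.1, mul_le_one₀ h1.2 h2.1 h2.2⟩)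
  have eE : ∀ f : Cfg → ℝ, Φ.E (rowS θ) δ n P σ f = EF P (Φ.U (rowS θ) δ n) σ f := fun f => rfl
  rw [eTt, eE, eE]
  have e0 : 0 ≤ EF P (Φ.U (rowS θ) δ n) σ fun ω => ∏ i, a i ω := EF_nonneg ha0
  have u1 := mul_le_mul_of_nonneg_right (hε₁ _ s7 s6) e0
  have u2 := mul_le_mul_of_nonneg_right (hε₂ _ t6 t5) e0
  have k1 : EF P (Φ.U (rowS θ) δ n) σ (fun ω => ∏ i, b i ω) ≤
      EF P (Φ.U (rowS θ) δ n) σ (fun ω => (∏ i, a i ω) * ∏ i, b i ω) :=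
    (Vale.Agent.P167.H398.Q.fn_EF hg).mono cpb (cpa.mul cpb) fun ω _ => hba ω
  have k2 : c ^ Fintype.card Φ.ι * EF P (Φ.U (rowS θ) δ n) σ (fun ω => ∏ i, a i ω) ≤
      EF P (Φ.U (rowS θ) δ n) σ (fun ω => ∏ i, b i ω) := by
    rw [ha, hb]
    exact key
  have k3 : EF P (Φ.U (rowS θ) δ n) σ (fun ω => (∏ i, a i ω) *
      (((∏ i, b i ω) * (Φ.NAh δ n (⌊4 * δ * n⌋ + 1) (⌊M * δ * n⌋ - 1)).indicator 1 ω) *
        (NA univ (Φ.bR δ n) (Φ.cR δ n) (⌊δ * n / M⌋ + 1) (⌊δ * n / 8⌋ - 1)).indicator 1 ω)) ≤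
      EF P (Φ.U (rowS θ) δ n) σ (fun ω => (∏ i, a i ω) *
        {ω | Φ.TB (rowS θ) θ δ n ⌊4 * δ * n⌋ ω ≠ 0}.indicator 1 ω) := by
    refine (Vale.Agent.P167.H398.Q.fn_EF hg).mono (cpa.mul ((cpb.mul cb_NA).mul cb_NA))
      (cpa.mul (cb_ne ?_)) fun ω hω => ?_
    · exact Vale.Agent.P167.N.H398.Q.cb_TB hs hQ
    · refine mul_le_mul_of_nonneg_left ?_ (ha0 ω)
      have hfr : Φ.Frz (rowS θ) δ n ω := (FrS.frz_iff hσ).2 hω.2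
      have i1 := i01 {ω | Φ.TB (rowS θ) θ δ n ⌊4 * δ * n⌋ ω ≠ 0} ω
      by_cases z1 : ω ∈ Φ.NAh δ n (⌊4 * δ * n⌋ + 1) (⌊M * δ * n⌋ - 1)
      · by_cases z2 : ω ∈ Φ.NAt δ n (⌊δ * n / M⌋ + 1) (⌊δ * n / 8⌋ - 1)
        · by_cases z3 : ∀ i, ω ∈
            (tt i).Z (Φ.r δ n (J i)).I (Φ.r δ n i).zt ⌊δ * n⌋₊ ⌊δ * n / 16⌋
          · have hne := hdet ω hω.1 hfr z3 z1 z2
            rw [Set.indicator_of_mem
              (show ω ∈ {ω | Φ.TB (rowS θ) θ δ n ⌊4 * δ * n⌋ ω ≠ 0} from hne)]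
            have j1 := hb01 ω
            have j2 := i01 (Φ.NAh δ n (⌊4 * δ * n⌋ + 1) (⌊M * δ * n⌋ - 1)) ω
            have j3 := i01 (NA univ (Φ.bR δ n) (Φ.cR δ n) (⌊δ * n / M⌋ + 1) (⌊δ * n / 8⌋ - 1)) ω
            exact mul_le_one₀ (mul_le_one₀ j1.2 j2.1 j2.2) j3.1 j3.2
          · push Not at z3
            obtain ⟨i, hi⟩ := z3
            have j0 : ∏ i, b i ω = 0 := prod_eq_zero (mem_univ i) (by
              rw [hb]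
              exact Set.indicator_of_notMem hi _)
            rw [j0, zero_mul, zero_mul]
            exact i1.1
        · rw [Set.indicator_of_notMem (show ω ∉ NA univ (Φ.bR δ n) (Φ.cR δ n)
            (⌊δ * n / M⌋ + 1) (⌊δ * n / 8⌋ - 1) from z2), mul_zero]
          exact i1.1
      · rw [Set.indicator_of_notMem z1, mul_zero, zero_mul]
        exact i1.1
  have m1' : EF P (Φ.U (rowS θ) δ n) σ (fun ω => (∏ i, a i ω) * ∏ i, b i ω) ≤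
      EF P (Φ.U (rowS θ) δ n) σ (fun ω => (∏ i, a i ω) * ((∏ i, b i ω) *
        (Φ.NAh δ n (⌊4 * δ * n⌋ + 1) (⌊M * δ * n⌋ - 1)).indicator 1 ω)) + _ := m1
  linarith

/-- **(P2T)** from the deterministic part. -/
theorem FrS.p2t_of {hθ : 0 ≤ Real.cos θ} (h0 : 0 < θ) (h1 : Ang θ)
    (hP : IsLim (2 * Real.cos θ) P) (hg : ∀ᵐ ω ∂P, Good ω)
    (hGeo : Φ.Geo (rowS θ) (rowF hθ) {true} θ β p S₀)
    (hD : ∀ M : ℝ, 32 ≤ M → ∃ δ₀ : ℝ, 0 < δ₀ ∧ ∀ δ : ℝ, 0 < δ → δ < δ₀ → ∀ᶠ n : ℕ in atTop,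
      Φ.DetT θ δ M n) :
    Φ.P2Tg (rowS θ) (rowF hθ) {true} θ P := by
  classical
  have hQ := h1.kit
  have hs : 0 < Real.sin θ :=
    Real.sin_pos_of_pos_of_lt_pi h0 (by linarith [Real.pi_pos, h1.lt])
  obtain ⟨α, C, hα, hC, hA, -⟩ := h1.kit.armS
  obtain ⟨g, hg0, hg1, δG, hδG, hGeo⟩ := hGeo
  obtain ⟨c, hc0, hc1, ρ₀, hρ₀, hE⟩ := tips_E hQ hP hg
  obtain ⟨e, he⟩ : ∃ e : ℝ, e = c ^ Fintype.card Φ.ι := ⟨_, rfl⟩
  have he0 : 0 < e := by rw [he]; positivity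
  obtain ⟨x₁, hx₁, hx₁'⟩ := small_pow (N := ((univ : Finset Φ.H).card : ℝ)) (ε := e / 4) hα hC.le
    (Nat.cast_nonneg _) (by positivity)
  obtain ⟨x₂, hx₂, hx₂'⟩ := small_pow (N := ((univ : Finset Φ.ι).card : ℝ)) (ε := e / 4) hα hC.le
    (Nat.cast_nonneg _) (by positivity)
  obtain ⟨M, hM, hM1, hM2⟩ : ∃ M : ℝ, 32 ≤ M ∧ 32 / M ≤ x₁ ∧ 32 / M ≤ x₂ := by
    refine ⟨max 32 (max (32 / x₁) (32 / x₂)), le_max_left _ _, ?_, ?_⟩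
    · have h2 : 32 / x₁ ≤ max 32 (max (32 / x₁) (32 / x₂)) :=
        (le_max_left _ _).trans (le_max_right _ _)
      rw [div_le_iff₀ hx₁] at h2
      rw [div_le_iff₀ (by positivity)]
      linarith
    · have h2 : 32 / x₂ ≤ max 32 (max (32 / x₁) (32 / x₂)) :=
        (le_max_right _ _).trans (le_max_right _ _)
      rw [div_le_iff₀ hx₂] at h2
      rw [div_le_iff₀ (by positivity)]
      linarith
  obtain ⟨δD, hδD, hD⟩ := hD M hM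
  have hM0 : 0 < M := by linarith
  refine ⟨2 / e, min δG (min δD (g / (2 * M))), by positivity, by positivity,
    fun δ hδ hδ' => ?_⟩
  simp only [lt_min_iff] at hδ'
  obtain ⟨d1, d2, d3⟩ := hδ'
  rw [lt_div_iff₀ (by positivity)] at d3
  have ev1 : ∀ᶠ n : ℕ in atTop, max (32 * M) (16 * (ρ₀ + 1)) ≤ δ * n :=
    (tendsto_natCast_atTop_atTop.const_mul_atTop hδ).eventually_ge_atTop _
  filter_upwards [hGeo δ hδ d1, hD δ hδ d2, ev1] with n nG nD nn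
  intro σ hσ
  have n1 : 32 * M ≤ δ * n := (le_max_left _ _).trans nn
  have n2 : 16 * ((ρ₀ : ℝ) + 1) ≤ δ * n := (le_max_right _ _).trans nn
  have hn0 : (0 : ℝ) < n := by
    by_contra h
    push Not at h
    nlinarith
  have hgn : 1 ≤ g * n := by
    have h2 : 2 * (M * δ) * n ≤ g * n := mul_le_mul_of_nonneg_right (by linarith) hn0.le
    have h3 : (1 : ℝ) ≤ M * (δ * n) := by nlinarith
    nlinarith
  have hρ : ρ₀ ≤ ⌊δ * n / 16⌋ := by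
    refine Int.le_floor.2 ?_
    linarith
  have key := FrS.p2t_one (Φ := Φ) hs hQ hP hg hA nG ⟨hδ, hn0, hM, n1, by linarith⟩ hgn hρ
    (fun t U κ I J z d ρ => hE t U κ I J z d ρ) nD hσ (ε := e / 4)
    (fun x hx hx' => hx₁' x hx (hx'.trans hM1)) (fun x hx hx' => hx₂' x hx (hx'.trans hM2))
  rw [← he] at key
  rw [div_mul_eq_mul_div, le_div_iff₀ he0]
  linarith

end Vale.Agent.P167.N.ID
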