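import Vale.Agent.P167.N.H506.Q.EF
import Vale.Agent.P167.N.H506.Q.Hole
import Vale.Agent.P167.N.H506.Q.ArmF
import Vale.Agent.P167.H398.Q.Core
import Vale.Agent.P167.H398.Q.Err

/-!
# P167, `q < 1`, START: the comparison for one frame, independent of the rows

`EF_armA`, `NA_errA`: arms at the holes are rare. `mix_absA`: mixing at the holes.
`start_coreA`: the comparison.
-/

set_option autoImplicit false

namespace Vale.Agent.P167.N.ID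

open Finset MeasureTheory

open Vale.Agent.P167 Vale.Agent.P167.N

open Vale.Agent.P167.FK

open Vale.Agent.P167.FKA (Loc Ind)

open Vale.Agent.P167.H519 (IsLim)

open Vale.Agent.P167.QX (QL)

open Vale.Agent.P167.H398.Q

open Vale.Agent.P167.H506.Q (EF RM fac_le fac)

variable {q : ℝ} {K : Finset (ℤ × ℤ)} {κ : Cfg} {P : Measure Cfg} {ι : Type}

/-- **The arms at a hole are rare**, given the frozen squares. -/
theorem EF_armA (hQ : Kit q) (hP : IsLim q P) (hg : ∀ᵐ ω ∂P, Good ω) {α C : ℝ}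
    (h : ArmS q α C) {x : ℤ × ℤ} {r R : ℤ} {b : Bool} (hr : 1 ≤ r) (hrR : r ≤ R)
    (hκ : ∀ v ∈ K, v ∈ Bq x R \ Bq x r → κ v = b) (hs : Shp (K : Set (ℤ × ℤ)) x r R)
    {T : Cfg → ℝ} (hT0 : ∀ ω, 0 ≤ T ω) (cT : CB T) (hT : Ind ((Bq x R \ Bq x r) \ K) T) :
    EF P K κ (fun ω => T ω * {ω | Arm b x r R ω}.indicator 1 ω) ≤
      C * ((r : ℝ) / R) ^ α * EF P K κ T := by
  obtain ⟨c1, M, hM⟩ := cT
  cases b with
  | false => exact Vale.Agent.P167.N.H506.Q.EF_arm_cl hQ hP hg h hr hrR hκ hs hT0 c1 hM hT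
  | true => exact Vale.Agent.P167.N.H506.Q.EF_arm_op hQ hP hg h hr hrR hκ hs hT0 c1 hM hT

/-- **The error off the event that there are no arms.** -/
theorem NA_errA [IsFiniteMeasure P] (hg : ∀ᵐ ω ∂P, Good ω) {J : Finset ι} {c : ι → ℤ × ℤ}
    {b : ι → Bool} {r R : ℤ} {e : ℝ} {T : Cfg → ℝ} (hT0 : ∀ ω, 0 ≤ T ω) (hT : CB T)
    (h : ∀ i ∈ J, EF P K κ (fun ω => T ω * {ω | Arm (b i) (c i) r R ω}.indicator 1 ω) ≤
      e * EF P K κ T) :
    EF P K κ (fun ω => T ω * (1 - (NA J b c r R).indicator 1 ω)) ≤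
      J.card * e * EF P K κ T := by
  classical
  have hfn := fn_EF (P := P) (K := K) (κ := κ) hg
  have hA : ∀ i, CB ({ω | Arm (b i) (c i) r R ω}.indicator (1 : Cfg → ℝ)) := fun i =>
    CB.of_loc (Arm.loc (b i) (c i) r R)
  have hTA : ∀ i ∈ J, CB fun ω => T ω * {ω | Arm (b i) (c i) r R ω}.indicator 1 ω := fun i _ =>
    hT.mul (hA i)
  have h1 : CB fun ω => T ω * (1 - (NA J b c r R).indicator 1 ω) := by
    have := hT.mul ((CB.const (1 : ℝ)).lin (cb_NA (J := J) (b := b) (c := c) (r := r) (R := R))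
      1 (-1))
    refine this.congr fun ω _ => ?_
    ring
  have h2 : EF P K κ (fun ω => T ω * (1 - (NA J b c r R).indicator 1 ω)) ≤
      EF P K κ (fun ω => ∑ i ∈ J, T ω * {ω | Arm (b i) (c i) r R ω}.indicator 1 ω) := by
    refine hfn.mono h1 (CB.sum hTA) fun ω _ => ?_
    rw [← mul_sum]
    refine mul_le_mul_of_nonneg_left ?_ (hT0 ω)
    have hn : ∀ i ∈ J, (0 : ℝ) ≤ {ω | Arm (b i) (c i) r R ω}.indicator 1 ω := fun i _ =>
      Set.indicator_nonneg (fun _ _ => zero_le_one) _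
    by_cases hω : ω ∈ NA J b c r R
    · rw [Set.indicator_of_mem hω]
      simp only [Pi.one_apply, sub_self]
      exact sum_nonneg hn
    · rw [Set.indicator_of_notMem hω, sub_zero]
      unfold NA at hω
      simp only [Set.mem_ofPred_eq, not_forall, not_not] at hω
      obtain ⟨i, hi, ha⟩ := hω
      have h3 := single_le_sum hn hi
      rw [Set.indicator_of_mem (show ω ∈ {ω | Arm (b i) (c i) r R ω} from ha)] at h3
      exact h3
  refine h2.trans ?_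
  rw [EF_sum hg hTA]
  calc ∑ i ∈ J, EF P K κ (fun ω => T ω * {ω | Arm (b i) (c i) r R ω}.indicator 1 ω)
      ≤ ∑ _i ∈ J, e * EF P K κ T := sum_le_sum fun i hi => h i hi
    _ = _ := by
        rw [sum_const, nsmul_eq_mul]
        ring

/-- **Mixing at the holes**, functions which do not depend on the boxes on the good
configurations. -/
theorem mix_absA (hQ : Kit q) (hκ : Good κ) (hP : IsLim q P) (hg : ∀ᵐ ω ∂P, Good ω)
    {J : Finset ι} {c : ι → ℤ × ℤ} {r R : ℤ} {ε : ℝ}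
    (h : RM q K κ ((J.biUnion fun i => Bq (c i) R) \ K) ((J.biUnion fun i => Bq (c i) r) \ K)
      (fac J.card ε)) (hε0 : 0 ≤ ε) (hε1 : ε < 1) (hε : 8 * J.card * ε ≤ 1) {T G : Cfg → ℝ}
    (hT0 : ∀ ω, 0 ≤ T ω) (hT : Loc (J.biUnion fun i => Bq (c i) r) T) (cG : CB G)
    (hG : ∀ ω ω' : Cfg, Good ω → Good ω' → (∀ v ∉ J.biUnion fun i => Bq (c i) R, ω v = ω' v) →
      G ω = G ω') :
    |EF P K κ (fun ω => G ω * T ω) - EF P K κ G * EF P K κ T| ≤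
      8 * J.card * ε * (EF P K κ (fun ω => |G ω|) * EF P K κ T) := by
  classical
  have hPp : IsProbabilityMeasure P := hP.1
  obtain ⟨c1, M, hM⟩ := cb_Gg cG
  have hT' : Loc (((J.biUnion fun i => Bq (c i) r) \ K) ∪ K) T := by
    rw [Finset.sdiff_union_self_eq_union]
    exact fun ω ω' hh => hT ω ω' fun v hv => hh v (mem_union_left _ hv)
  have hind : Ind ((J.biUnion fun i => Bq (c i) R) \ K) (Gg G) := by
    intro ω ω' hh
    have hh' : ∀ v ∉ J.biUnion fun i => Bq (c i) R, ω v = ω' v := fun v hv =>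
      hh v fun hv' => hv (mem_sdiff.1 hv').1
    unfold Gg
    by_cases hgo : Good ω
    · have hgo' := good_of hh' hgo
      rw [if_pos hgo, if_pos hgo', hG ω ω' hgo hgo' hh']
    · rw [if_neg hgo, if_neg fun hgo' => hgo ((good_iff hh').2 hgo')]
  have key := Vale.Agent.P167.N.H506.Q.RM.EF_mul hQ hκ h Finset.sdiff_disjoint hP hg hT0 hT' c1 hM
    hind
  have cT : CB T := CB.of_loc hT
  have e1 : EF P K κ (fun ω => Gg G ω * T ω) = EF P K κ (fun ω => G ω * T ω) :=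
    EF_congr hg ((cb_Gg cG).mul cT) (cG.mul cT) fun ω hω _ => by
      show Gg _ ω * _ = _
      rw [Gg_good hω]
  have e2 : EF P K κ (fun ω => |Gg G ω|) = EF P K κ (fun ω => |G ω|) :=
    EF_congr hg (cb_Gg cG).abs cG.abs fun ω hω _ => by
      show |Gg _ ω| = _
      rw [Gg_good hω]
  rw [e1, e2, EF_Gg hg cG] at key
  refine key.trans (mul_le_mul_of_nonneg_right ?_ (mul_nonneg
    (H506.Q.EF_nonneg fun ω => abs_nonneg _) (H506.Q.EF_nonneg hT0)))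
  have := fac_le hε0 hε hε1
  linarith

/-- **The comparison for one frame.** -/
theorem start_coreA (hQ : Kit q) (hP : IsLim q P) (hg : ∀ᵐ ω ∂P, Good ω) (hκ : Good κ)
    {J : Finset ι} {h : ι → ℤ × ℤ} {b : ι → Bool} {R₁ R₂ R₃ R₄ : ℤ} {ε η₁ η₂ : ℝ}
    (hrm : RM q K κ ((J.biUnion fun i => Bq (h i) R₃) \ K) ((J.biUnion fun i => Bq (h i) R₂) \ K)
      (fac J.card ε)) (hε0 : 0 ≤ ε) (hε1 : ε < 1) {ε1 : ℝ} (hεε : 8 * J.card * ε ≤ ε1)
    (hε1' : 0 ≤ ε1) (hε1h : ε1 ≤ 1 / 2)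
    {Rc R0 T1 Hc H0 T2 Gc G0 : Cfg → ℝ}
    (cRc : CB Rc) (cR0 : CB R0) (cT1 : CB T1) (cHc : CB Hc) (cH0 : CB H0) (cT : CB T2)
    (cGc : CB Gc) (cG0 : CB G0)
    (hT20 : ∀ ω, 0 ≤ T2 ω) (hT2l : Loc (J.biUnion fun i => Bq (h i) R₂) T2)
    (hGcl : ∀ ω ω' : Cfg, Good ω → Good ω' →
      (∀ v ∉ J.biUnion fun i => Bq (h i) R₃, ω v = ω' v) → Gc ω = Gc ω')
    (hG0l : ∀ ω ω' : Cfg, Good ω → Good ω' →
      (∀ v ∉ J.biUnion fun i => Bq (h i) R₃, ω v = ω' v) → G0 ω = G0 ω')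
    (hT2N : ∀ ω, ω ∉ NA J b h (R₁ + 1) (R₂ - 1) → T2 ω = 0)
    (hGcN : ∀ ω, ω ∉ NA J b h (R₃ + 1) (R₄ - 1) → Gc ω = 0)
    (hG0N : ∀ ω, ω ∉ NA J b h (R₃ + 1) (R₄ - 1) → G0 ω = 0)
    {k M M' lm ε2 C5 V : ℝ} (hk : 0 ≤ k) (hl : 0 < lm) (hT1 : ∀ ω, 0 ≤ T1 ω)
    (ha1 : ∀ i ∈ J, EF P K κ (fun ω => T1 ω *
      {ω | Arm (b i) (h i) (R₁ + 1) (R₂ - 1) ω}.indicator 1 ω) ≤ η₁ * EF P K κ T1)
    (ha2 : ∀ i ∈ J, EF P K κ (fun ω => T1 ω *
      {ω | Arm (b i) (h i) (R₃ + 1) (R₄ - 1) ω}.indicator 1 ω) ≤ η₂ * EF P K κ T1)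
    {η : ℝ} (hη : J.card * η₁ + J.card * η₂ ≤ η) (hη0 : 0 ≤ η)
    (h1c : ∀ ω, Good ω → (∀ v ∈ K, ω v = κ v) → |Rc ω| ≤ k * (T1 ω * Hc ω))
    (h10 : ∀ ω, Good ω → (∀ v ∈ K, ω v = κ v) → |R0 ω| ≤ k * (T1 ω * H0 ω))
    (h2c : EF P K κ (fun ω => T1 ω * Hc ω ^ 2) ≤ M * EF P K κ T1)
    (h20 : EF P K κ (fun ω => T1 ω * H0 ω ^ 2) ≤ M * EF P K κ T1)
    (hfc : ∀ ω, Good ω → (∀ v ∈ K, ω v = κ v) → ω ∈ NA J b h (R₁ + 1) (R₂ - 1) →
      ω ∈ NA J b h (R₃ + 1) (R₄ - 1) → Rc ω = k * (Gc ω * T2 ω))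
    (hf0 : ∀ ω, Good ω → (∀ v ∈ K, ω v = κ v) → ω ∈ NA J b h (R₁ + 1) (R₂ - 1) →
      ω ∈ NA J b h (R₃ + 1) (R₄ - 1) → R0 ω = k * (G0 ω * T2 ω))
    (hG0 : ∀ ω, Good ω → (∀ v ∈ K, ω v = κ v) → 0 ≤ G0 ω) (hε2 : 0 ≤ ε2)
    (h6 : |EF P K κ Gc - V * EF P K κ G0| ≤ ε2 * EF P K κ G0)
    (h6a : EF P K κ (fun ω => |Gc ω|) ≤ M' * EF P K κ G0) (hV : |V| ≤ M')
    (h7 : EF P K κ T1 ≤ C5 * EF P K κ (fun ω => G0 ω * T2 ω)) (hC5 : 0 ≤ C5) (hM : 0 ≤ M)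
    (he : (lm * M + η / lm) / 2 * C5 ≤ 1 / 2) :
    |EF P K κ Rc - V * EF P K κ R0| ≤
      2 * ((lm * M + η / lm) / 2 * C5 * (1 + M') + 2 * (2 * ε1 * M' + ε2)) * EF P K κ R0 ∧
    k * EF P K κ T1 ≤ 2 * C5 * EF P K κ R0 := by
  classical
  have hPp : IsProbabilityMeasure P := hP.1
  have hfn := fn_EF (P := P) (K := K) (κ := κ) hg
  have h8 : 8 * J.card * ε ≤ 1 := hεε.trans (by linarith)
  have hm : ∀ G : Cfg → ℝ, CB G → (∀ ω ω' : Cfg, Good ω → Good ω' →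
      (∀ v ∉ J.biUnion fun i => Bq (h i) R₃, ω v = ω' v) → G ω = G ω') →
      |EF P K κ (fun ω => G ω * T2 ω) - EF P K κ G * EF P K κ T2| ≤
        ε1 * (EF P K κ (fun ω => |G ω|) * EF P K κ T2) := fun G cG hG =>
    (mix_absA hQ hκ hP hg hrm hε0 hε1 h8 hT20 hT2l cG hG).trans
      (mul_le_mul_of_nonneg_right hεε (mul_nonneg (H506.Q.EF_nonneg fun ω => abs_nonneg _)
        (H506.Q.EF_nonneg hT20)))
  obtain ⟨gc, hgc⟩ : ∃ x, x = EF P K κ Gc := ⟨_, rfl⟩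
  obtain ⟨g0, hg0⟩ : ∃ x, x = EF P K κ G0 := ⟨_, rfl⟩
  have habs0 : EF P K κ (fun ω => |G0 ω|) = EF P K κ G0 :=
    EF_congr hg cG0.abs cG0 fun ω hω hk => abs_of_nonneg (hG0 ω hω hk)
  have hg0n : 0 ≤ EF P K κ G0 := by
    rw [← habs0]
    exact H506.Q.EF_nonneg fun _ => abs_nonneg _
  have ht2n : 0 ≤ EF P K κ T2 := H506.Q.EF_nonneg hT20
  -- the good event
  obtain ⟨χ, hχ⟩ : ∃ χ : Cfg → ℝ, χ = fun ω => (NA J b h (R₁ + 1) (R₂ - 1)).indicator 1 ω *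
    (NA J b h (R₃ + 1) (R₄ - 1)).indicator 1 ω := ⟨_, rfl⟩
  have cχ : CB χ := by
    rw [hχ]
    exact cb_NA.mul cb_NA
  have hi : ∀ (S : Set Cfg) (ω : Cfg), (0 : ℝ) ≤ S.indicator 1 ω ∧ S.indicator 1 ω ≤ (1 : ℝ) :=
    fun S ω => ⟨Set.indicator_nonneg (fun _ _ => zero_le_one) _,
      Set.indicator_le_self' (fun _ _ => zero_le_one) ω⟩
  have hχ01 : ∀ ω, 0 ≤ χ ω ∧ χ ω ≤ 1 := fun ω => by
    obtain ⟨a0, a1⟩ := hi (NA J b h (R₁ + 1) (R₂ - 1)) ω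
    obtain ⟨b0, b1⟩ := hi (NA J b h (R₃ + 1) (R₄ - 1)) ω
    rw [hχ]
    exact ⟨mul_nonneg a0 b0, mul_le_one₀ a1 b0 b1⟩
  have herr : EF P K κ (fun ω => T1 ω * (1 - χ ω)) ≤ η * EF P K κ T1 := by
    have e1 := NA_errA (P := P) (K := K) (κ := κ) hg hT1 cT1 ha1
    have e2 := NA_errA (P := P) (K := K) (κ := κ) hg hT1 cT1 ha2
    rw [hχ]
    refine (NA_err2 hg hT1 cT1 e1 e2).trans ?_
    exact mul_le_mul_of_nonneg_right hη (H506.Q.EF_nonneg hT1)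
  -- the factorisation
  have key : ∀ {F G : Cfg → ℝ}, (∀ ω, Good ω → (∀ v ∈ K, ω v = κ v) →
      ω ∈ NA J b h (R₁ + 1) (R₂ - 1) → ω ∈ NA J b h (R₃ + 1) (R₄ - 1) →
      F ω = k * (G ω * T2 ω)) → (∀ ω, ω ∉ NA J b h (R₃ + 1) (R₄ - 1) → G ω = 0) →
      ∀ ω, Good ω ∧ (∀ v ∈ K, ω v = κ v) → χ ω * F ω = (k * G ω) * T2 ω := by
    intro F G hF hGN ω hω
    by_cases a1 : ω ∈ NA J b h (R₁ + 1) (R₂ - 1)
    · by_cases a2 : ω ∈ NA J b h (R₃ + 1) (R₄ - 1)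
      · rw [hF ω hω.1 hω.2 a1 a2]
        simp only [hχ]
        rw [Set.indicator_of_mem a1, Set.indicator_of_mem a2]
        simp only [Pi.one_apply]
        ring
      · have e1 : χ ω = 0 := by
          simp only [hχ]
          rw [Set.indicator_of_notMem a2, mul_zero]
        rw [e1, hGN ω a2]
        ring
    · have e1 : χ ω = 0 := by
        simp only [hχ]
        rw [Set.indicator_of_notMem a1, zero_mul]
      rw [e1, hT2N ω a1]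
      ring
  have ek : ∀ G : Cfg → ℝ, CB G → EF P K κ (fun ω => k * G ω) = k * EF P K κ G :=
    fun G cG => hfn.smul cG k
  have ekT : ∀ G : Cfg → ℝ, CB G → EF P K κ (fun ω => k * G ω * T2 ω) =
      k * EF P K κ (fun ω => G ω * T2 ω) := fun G cG => by
    have := hfn.smul (cG.mul cT) k
    rw [← this]
    congr 1
    funext ω
    ring
  have hT1n : 0 ≤ EF P K κ T1 := H506.Q.EF_nonneg hT1
  have fin := start_abs hfn cRc cR0 cT1 cHc cH0 cT (cGc.lin cGc k 0 |> fun h =>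
      h.congr fun ω _ => by
        show k * _ + 0 * _ = k * Gc ω
        ring) (cG0.lin cG0 k 0 |> fun h => h.congr fun ω _ => by
        show k * _ + 0 * _ = k * G0 ω
        ring) cχ
    (k := k) (M := M) (M' := M') (η := η) (l := lm) (ε1 := ε1) (ε2 := ε2) (C5 := C5) (V := V)
    (a := k * EF P K κ (fun ω => |Gc ω|))
    hk hl (fun ω _ => hT1 ω) (fun ω _ => hχ01 ω) (fun ω hω => h1c ω hω.1 hω.2)
    (fun ω hω => h10 ω hω.1 hω.2) h2c h20 herr (key hfc hGcN) (key hf0 hG0N)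
    (by
      rw [ekT _ cGc, ek _ cGc, show k * EF P K κ (fun ω => Gc ω * T2 ω) -
        k * EF P K κ Gc * EF P K κ T2 =
        k * (EF P K κ (fun ω => Gc ω * T2 ω) - EF P K κ Gc * EF P K κ T2) by ring, abs_mul,
        abs_of_nonneg hk]
      refine (mul_le_mul_of_nonneg_left (hm _ cGc hGcl) hk).trans (le_of_eq ?_)
      ring)
    (by
      rw [ekT _ cG0, ek _ cG0, show k * EF P K κ (fun ω => G0 ω * T2 ω) -
        k * EF P K κ G0 * EF P K κ T2 =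
        k * (EF P K κ (fun ω => G0 ω * T2 ω) - EF P K κ G0 * EF P K κ T2) by ring, abs_mul,
        abs_of_nonneg hk]
      refine (mul_le_mul_of_nonneg_left (hm _ cG0 hG0l) hk).trans (le_of_eq ?_)
      rw [habs0]
      ring)
    (by
      rw [ek _ cG0]
      calc k * EF P K κ (fun ω => |Gc ω|) ≤ k * (M' * EF P K κ G0) :=
            mul_le_mul_of_nonneg_left h6a hk
        _ = M' * (k * EF P K κ G0) := by ring)
    (by rw [ek _ cG0]; exact mul_nonneg hk hg0n) ht2n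
    (by
      rw [ek _ cGc, ek _ cG0, show k * EF P K κ Gc - V * (k * EF P K κ G0) =
        k * (EF P K κ Gc - V * EF P K κ G0) by ring, abs_mul, abs_of_nonneg hk]
      refine (mul_le_mul_of_nonneg_left h6 hk).trans (le_of_eq ?_)
      ring)
    hV
    (by
      rw [ekT _ cG0]
      calc k * EF P K κ T1 ≤ k * (C5 * _) := mul_le_mul_of_nonneg_left h7 hk
        _ = C5 * (k * _) := by ring)
    hε1' hε1h hε2 (by positivity) he hC5
  refine ⟨fin.1, ?_⟩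
  have f2 := fin.2
  rw [ekT _ cG0] at f2
  calc k * EF P K κ T1 ≤ k * (C5 * _) := mul_le_mul_of_nonneg_left h7 hk
    _ = C5 * (k * _) := by ring
    _ ≤ C5 * (2 * EF P K κ R0) := mul_le_mul_of_nonneg_left f2 hC5
    _ = _ := by ring

end Vale.Agent.P167.N.ID
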