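import Vale.Agent.P167.N.ID.StA
import Vale.Agent.P167.N.ID.StB
import Vale.Agent.P167.N.H398.Q.Fac
import Vale.Agent.P167.H398.Q.Cnt
import Vale.Agent.P167.H398.Q.Frm
import Vale.Agent.P167.H592.T.Box

/-!
# P167, `q < 1`, START: abstract frames, one `n`

Exits of the rows, no inner loops; the functions `T2`, `G`; the factorisation of the functional of a
frame.
-/

set_option autoImplicit false

namespace Vale.Agent.P167.N.ID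

open Finset MeasureTheory

open Vale.Agent.P167 Vale.Agent.P167.N

open Vale.Agent.P167.BR hiding dv

open Vale.Agent.P167.FK

open Vale.Agent.P167.FKA (Loc Ind)

open Vale.Agent.P167.E6 (IsPolygon Encloses)

open Vale.Agent.P167.XDL (bS mem_bS)

open Vale.Agent.P167.H825 (dv epos enl FlowIn)

open Vale.Agent.P167.H825.Q (Row)

open Vale.Agent.P167.H680.T (uI mem_uI ax nm_ht trans_mem' ax_nx)

open Vale.Agent.P167.H398.Q (NA NA_loc NA_ind conf_NA cb_NA ind_congr CB TO_eq)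

open Vale.Agent.P167.QX (QL RT TB TO fLp VisL XBoff TB_congr TO_congr XBoff_congr aF)

open Vale.Agent.P167.H685 (LE mem_LE)

open Vale.Agent.P167.Enl (qN uN)

open Vale.Agent.P167.H945.Q (nm_sub_le nm_comm nm_of_Bq Bq_of_nm)

/-! ### rows -/

section rows

variable {ι : Type} [Fintype ι] {g : ι → Row}

theorem exits_sepA [DecidableEq Ed]
    (hs : ∀ i j, i ≠ j → ∀ u ∈ (g i).I, ∀ v ∈ (g j).I, (2 : ℤ) ≤ nm (u - v)) :
    (bS (uI g)).filter (fun e => hdv e ∉ uI g) =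
      univ.biUnion fun i => (bS (g i).I).filter fun e => hdv e ∉ (g i).I := by
  ext e
  simp only [mem_filter, mem_biUnion, mem_univ, true_and]
  constructor
  · rintro ⟨h1, h2⟩
    rw [mem_bS] at h1
    rcases h1 with ⟨h1, -⟩ | ⟨-, h1⟩
    · exact absurd h1 h2
    · obtain ⟨i, hi⟩ := mem_uI.1 h1
      have h3 : hdv e ∉ (g i).I := fun h => h2 (mem_uI.2 ⟨i, h⟩)
      exact ⟨i, mem_bS.2 (Or.inr ⟨h3, hi⟩), h3⟩
  · rintro ⟨i, h1, h2⟩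
    have h3 : tlv e ∈ (g i).I := by
      rw [mem_bS] at h1
      rcases h1 with ⟨h1, -⟩ | ⟨-, h1⟩
      · exact absurd h1 h2
      · exact h1
    have h4 : hdv e ∉ uI g := by
      intro h
      obtain ⟨j, hj⟩ := mem_uI.1 h
      by_cases hij : j = i
      · subst hij
        exact h2 hj
      · have h5 := hs j i hij _ hj _ h3
        have h6 := nm_ht e
        omega
    exact ⟨mem_bS.2 (Or.inr ⟨h4, mem_uI.2 ⟨i, h3⟩⟩), h4⟩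

omit [Fintype ι] in
/-- The sides of one row are sides of the rows. -/
theorem bS_subA [Fintype ι]
    (hs : ∀ i j, i ≠ j → ∀ u ∈ (g i).I, ∀ v ∈ (g j).I, (2 : ℤ) ≤ nm (u - v)) {i : ι} {e : Ed}
    (he : e ∈ bS (g i).I) : e ∈ bS (uI g) := by
  have key : ∀ {v w : ℤ × ℤ}, v ∈ (g i).I → w ∉ (g i).I → nm (v - w) ≤ 1 → w ∉ uI g := by
    intro v w hv hw h hw'
    obtain ⟨j, hj⟩ := mem_uI.1 hw'
    by_cases hij : i = j
    · subst hij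
      exact hw hj
    · have := hs i j hij _ hv _ hj
      omega
  rw [mem_bS] at he ⊢
  rcases he with ⟨h1, h2⟩ | ⟨h1, h2⟩
  · exact Or.inl ⟨mem_uI.2 ⟨i, h1⟩, key h1 h2 (nm_ht e)⟩
  · exact Or.inr ⟨key h2 h1 (by rw [nm_comm]; exact nm_ht e), mem_uI.2 ⟨i, h2⟩⟩

/-- **The number of the exits of the rows.** -/
theorem exits_cardA (hs : ∀ i j, i ≠ j → ∀ u ∈ (g i).I, ∀ v ∈ (g j).I, (2 : ℤ) ≤ nm (u - v))
    (hr : ∀ i, 1 ≤ (g i).L) :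
    ((bS (uI g)).filter fun e => hdv e ∉ uI g).card = ∑ i, ((g i).L + 1) := by
  classical
  rw [exits_sepA hs, card_biUnion]
  · exact sum_congr rfl fun i _ => QX.card_exits (hr i)
  · intro i _ j _ hij
    rw [Function.onFun, Finset.disjoint_left]
    intro e he he'
    have tl : ∀ i, e ∈ (bS (g i).I).filter (fun e => hdv e ∉ (g i).I) → tlv e ∈ (g i).I := by
      intro i he
      obtain ⟨g1, g2⟩ := mem_filter.1 he
      rw [mem_bS] at g1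
      rcases g1 with ⟨g1, -⟩ | ⟨-, g1⟩
      · exact absurd g1 g2
      · exact g1
    have h1 := hs i j hij _ (tl i he) _ (tl j he')
    rw [sub_self] at h1
    have : nm (0 : ℤ × ℤ) = 0 := by simp [nm]
    omega

/-- **There are no inner loops.** -/
theorem no_innerA (hs : ∀ i j, i ≠ j → ∀ u ∈ (g i).I, ∀ v ∈ (g j).I, (2 : ℤ) ≤ nm (u - v))
    (ω : Cfg) : ∀ A ∈ pcs ω (uI g), ¬ IsLp (uI g) A := by
  intro A hA' hl
  obtain ⟨e, he⟩ := pcs_nonempty hA'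
  have h1 : nx ω e ∈ A := (nx_mem_iff hA' (hl e he)).1 he
  have h2 : nx ω (nx ω e) ∈ A := (nx_mem_iff hA' (hl _ h1)).1 h1
  have key : ∀ e, hdv e ∈ uI g → tlv e ∈ uI g → ∃ i, ax (g i).o e = true ∧ hdv e ∈ (g i).I := by
    intro e g1 g2
    obtain ⟨i, hi⟩ := mem_uI.1 g1
    obtain ⟨j, hj⟩ := mem_uI.1 g2
    have hij : i = j := by
      by_contra hij
      have h3 := hs i j hij _ hi _ hj
      have h4 := nm_ht e
      omega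
    subst hij
    refine ⟨i, ?_, hi⟩
    cases h : ax (g i).o e
    · exact absurd (trans_mem' h hi hj) id
    · rfl
  obtain ⟨i, a1, b1⟩ := key (nx ω e) (hl _ h1) (by rw [tlv_nx]; exact hl _ he)
  obtain ⟨j, a2, b2⟩ := key (nx ω (nx ω e)) (hl _ h2) (by rw [tlv_nx]; exact hl _ h1)
  have hij : i = j := by
    by_contra hij
    have h3 := hs i j hij _ b1 _ b2
    have h4 := nm_ht (nx ω (nx ω e))
    rw [tlv_nx, nm_comm] at h4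
    omega
  subst hij
  rw [ax_nx, a1] at a2
  simp at a2

end rows

/-! ### frames -/

variable {X : Type} {RS : RSys X} {Kx : Type} [Fintype Kx] [DecidableEq Kx] {F : Fct RS Kx}
  {Kt : Finset Kx} {Φ : FrS X} {θ β : ℝ} {l : ℕ} {p : ZMod l → ℤ × ℤ} {S₀ : Finset (ℤ × ℤ)}
  {δ g : ℝ} {n : ℕ} {R R' R₁ R₂ R₃ R₄ : ℤ} {ω ω' σ : Cfg} {c : Ed → ℝ}

theorem mem_hBA {v : ℤ × ℤ} : v ∈ Φ.hB δ n R ↔ ∃ x, v ∈ Bq (Φ.h δ n x) R := by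
  unfold FrS.hB
  rw [mem_biUnion]
  exact ⟨fun ⟨x, _, h⟩ => ⟨x, h⟩, fun ⟨x, h⟩ => ⟨x, mem_univ _, h⟩⟩

theorem hB_monoA (h : R ≤ R') : Φ.hB δ n R ⊆ Φ.hB δ n R' := by
  intro v hv
  obtain ⟨x, hx⟩ := mem_hBA.1 hv
  exact mem_hBA.2 ⟨x, H398.Q.Bq_mono' h hx⟩

theorem visL_hBA (h : R ≤ R') {ℓ : Finset Ed} (hv : VisL (Φ.hB δ n R) ℓ) :
    VisL (Φ.hB δ n R') ℓ := H398.Q.VisL_mono (Finset.coe_subset.2 (hB_monoA h)) hv

theorem cnf_NAhA (h : R + 2 ≤ R') (hω : ω ∈ Φ.NAh δ n (R + 1) (R' - 1)) :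
    Φ.Cnf δ n R R' ω := by
  intro ℓ hℓ hv
  obtain ⟨x, -, hx⟩ := conf_NA hℓ h hv hω
  exact ⟨x, hx⟩

theorem FrS.Cnf.mono {R'' : ℤ} (h : Φ.Cnf δ n R R' ω) (hR : R' ≤ R'') : Φ.Cnf δ n R R'' ω := by
  intro ℓ hℓ hv
  obtain ⟨x, hx⟩ := h ℓ hℓ hv
  exact ⟨x, fun v hv => H398.Q.Bq_mono' hR (hx v hv)⟩

/-- The phases with the flow. -/
theorem ph_aF : Φ.ph RS δ n c = aF (Φ.ph RS δ n 0) c := by
  funext e b
  show ∑ i, (RS.wall (Φ.r δ n i) 0).a e b + c e / 2 =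
    (∑ i, (RS.wall (Φ.r δ n i) 0).a e b + (0 : Ed → ℝ) e / 2) + c e / 2
  simp

theorem hdis_of (hgeo : Φ.GeoN RS F Kt θ β p S₀ g δ n) (hR : (2 * R : ℝ) < g * n) {x y : Φ.H}
    (hxy : x ≠ y) : Disjoint (Bq (Φ.h δ n x) R) (Bq (Φ.h δ n y) R) := by
  rw [Finset.disjoint_left]
  intro v hv hv'
  have h1 := nm_of_Bq hv
  have h2 := nm_of_Bq hv'
  have h3 := nm_sub_le (Φ.h δ n x) v (Φ.h δ n y)
  rw [nm_comm (Φ.h δ n x) v] at h3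
  have h4 := hgeo.seph x y hxy
  have h5 : (nm (Φ.h δ n x - Φ.h δ n y) : ℝ) ≤ 2 * R := by
    have : nm (Φ.h δ n x - Φ.h δ n y) ≤ R + R := by omega
    have h6 : (nm (Φ.h δ n x - Φ.h δ n y) : ℝ) ≤ ((R + R : ℤ) : ℝ) := by exact_mod_cast this
    push_cast at h6
    linarith
  linarith

/-! ### the functions -/

theorem T2_nonneg (ω : Cfg) : 0 ≤ Φ.T2 RS θ δ n R₁ R₂ ω := by
  unfold FrS.T2
  exact mul_nonneg (abs_nonneg _) (Set.indicator_nonneg (fun _ _ => zero_le_one) _)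

theorem T2_loc (h12 : R₁ + 2 ≤ R₂) : Loc (Φ.hB δ n R₂) (Φ.T2 RS θ δ n R₁ R₂) := by
  classical
  intro ω ω' h
  have h1 : ω ∈ Φ.NAh δ n (R₁ + 1) (R₂ - 1) ↔ ω' ∈ Φ.NAh δ n (R₁ + 1) (R₂ - 1) :=
    NA_loc fun x _ v hv => h v (mem_hBA.2 ⟨x, H398.Q.Bq_mono' (by omega) hv⟩)
  unfold FrS.T2
  rw [ind_congr h1]
  by_cases h2 : ω ∈ Φ.NAh δ n (R₁ + 1) (R₂ - 1)
  · congr 2
    unfold FrS.TB
    refine TB_congr (B' := ↑(Φ.hB δ n R₂)) (fun v hv => h v (Finset.mem_coe.1 hv)) ?_ ?_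
    · intro ℓ hl hv v hv'
      obtain ⟨x, hx⟩ := cnf_NAhA h12 h2 ℓ hl hv
      exact Finset.mem_coe.2 (mem_hBA.2 ⟨x, hx v hv'⟩)
    · intro ℓ hl hv v hv'
      obtain ⟨x, hx⟩ := cnf_NAhA h12 (h1.1 h2) ℓ hl hv
      exact Finset.mem_coe.2 (mem_hBA.2 ⟨x, hx v hv'⟩)
  · rw [Set.indicator_of_notMem fun h3 => h2 (h1.2 h3), mul_zero, mul_zero]

theorem cb_T2A (h12 : R₁ + 2 ≤ R₂) : CB (Φ.T2 RS θ δ n R₁ R₂) := CB.of_loc (T2_loc h12)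

theorem T2_NA (h : ω ∉ Φ.NAh δ n (R₁ + 1) (R₂ - 1)) : Φ.T2 RS θ δ n R₁ R₂ ω = 0 := by
  unfold FrS.T2
  rw [Set.indicator_of_notMem h, mul_zero]

theorem G_NA (h : ω ∉ Φ.NAh δ n (R₃ + 1) (R₄ - 1)) : Φ.G RS θ β p S₀ δ n c R₃ R₄ ω = 0 := by
  unfold FrS.G
  rw [Set.indicator_of_notMem h, mul_zero]

theorem sin_posA (h0 : 0 < θ) (h1 : Ang θ) : 0 < Real.sin θ :=
  Real.sin_pos_of_pos_of_lt_pi h0 (by linarith [Real.pi_pos, h1.lt])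

theorem cos_posA (h0 : 0 < θ) (h1 : Ang θ) : 0 < Real.cos θ :=
  Real.cos_pos_of_mem_Ioo ⟨by linarith [Real.pi_pos], by linarith [h1.lt]⟩

theorem cb_GA (h0 : 0 < θ) (h1 : Ang θ) : CB (Φ.G RS θ β p S₀ δ n c R₃ R₄) :=
  ((Vale.Agent.P167.N.H398.Q.cb_TO (sin_posA h0 h1) h1.kit).mul
    (Vale.Agent.P167.N.H398.Q.cb_XBoff h0 h1 _ _ _ _ _ _)).mul cb_NA

/-- `G` does not depend on the squares of the boxes (good configurations). -/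
theorem G_congr (h34 : R₃ + 2 ≤ R₄)
    (hdis : ∀ x y, x ≠ y → Disjoint (Bq (Φ.h δ n x) R₄) (Bq (Φ.h δ n y) R₄))
    (hg : Good ω) (hg' : Good ω') (h : ∀ v ∉ Φ.hB δ n R₃, ω v = ω' v) :
    Φ.G RS θ β p S₀ δ n c R₃ R₄ ω = Φ.G RS θ β p S₀ δ n c R₃ R₄ ω' := by
  classical
  have h1 : ω ∈ Φ.NAh δ n (R₃ + 1) (R₄ - 1) ↔ ω' ∈ Φ.NAh δ n (R₃ + 1) (R₄ - 1) := by
    refine NA_ind (by omega) (fun x _ y _ hxy => ?_) fun v hv => h v fun hv' => ?_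
    · exact Finset.disjoint_of_subset_left (H398.Q.Bq_mono' (by omega))
        (Finset.disjoint_of_subset_right (H398.Q.Bq_mono' (by omega)) (hdis x y hxy))
    · obtain ⟨x, hx⟩ := mem_hBA.1 hv'
      exact hv x (mem_univ _) (H398.Q.Bq_mono' (by omega) hx)
  have h' : ∀ v ∉ (↑(Φ.hB δ n R₃) : Set (ℤ × ℤ)), ω v = ω' v := fun v hv => h v fun hv' =>
    hv (Finset.mem_coe.2 hv')
  unfold FrS.G FrS.TO
  rw [ind_congr h1, TO_congr h', XBoff_congr hg hg' h']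

/-- Without flow `G ≥ 0`. -/
theorem G_nonneg (h0 : 0 < θ) (h1 : Ang θ) (hβ : Real.cos (θ / 2 + β) = Real.sin θ)
    (hR : R ≤ R₃)
    (h : ∀ ℓ ∈ LE ω (bS (Φ.U RS δ n)), ¬ VisL (Φ.hB δ n R) ℓ →
      0 ≤ fLp θ (Φ.U RS δ n) (Φ.ph RS δ n 0) ω ℓ) :
    0 ≤ Φ.G RS θ β p S₀ δ n 0 R₃ R₄ ω := by
  classical
  have hpi := Real.pi_pos
  have hlt := h1.lt
  have hs := sin_posA h0 h1
  have hc := cos_posA h0 h1
  have hs2 : 0 < Real.sin (2 * θ) := by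
    rw [Real.sin_two_mul]
    positivity
  have eX : XBoff θ β (qN p n (Φ.t n)) (enl S₀ n) (Φ.k n) (dv 0) (Φ.hB δ n R₃) ω = 1 := by
    unfold XBoff
    refine prod_eq_one fun A _ => ?_
    have e : mass (enl S₀ n) (qN p n (Φ.t n) 0) (dv 0) A = 0 := by
      unfold mass
      refine sum_eq_zero fun z _ => ?_
      rw [H398.Q.dv_zero']
      simp
    rw [e]
    unfold QX.wB
    split_ifs
    · rw [add_zero, div_self hc.ne']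
    · rw [add_zero, hβ, div_self hs.ne']
    · rw [add_zero, div_self hs2.ne']
    · rw [sub_zero, div_self hs.ne']
  unfold FrS.G
  rw [eX, mul_one]
  refine mul_nonneg ?_ (Set.indicator_nonneg (fun _ _ => zero_le_one) _)
  unfold FrS.TO TO
  refine prod_nonneg fun ℓ hℓ => ?_
  obtain ⟨h2, h3⟩ := mem_filter.1 hℓ
  exact h ℓ h2 fun h4 => h3 (visL_hBA hR h4)

/-- Flows in the domain vanish in the boxes of the holes. -/
theorem box_flowA (hgeo : Φ.GeoN RS F Kt θ β p S₀ g δ n) {κ₀ B : ℝ}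
    (hc : FlowIn (enl S₀ n) κ₀ B n c) (hR : (R : ℝ) + 2 ≤ κ₀ * n) {x : Φ.H} {e : Ed}
    (he : hdv e ∈ Bq (Φ.h δ n x) R) : c e = 0 := by
  by_contra h
  obtain ⟨v, hv, h1⟩ := hgeo.out x
  refine hv (hc.sup e h v ?_)
  obtain ⟨a1, -⟩ := Enl.epos_near e
  have h3 := nm_of_Bq he
  have h4 := nm_sub_le v (Φ.h δ n x) (epos e)
  have h5 := nm_sub_le (Φ.h δ n x) (hdv e) (epos e)
  rw [nm_comm (Φ.h δ n x) (hdv e)] at h5
  have h6 : nm (v - epos e) ≤ R + 2 := by omega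
  have h7 : (nm (v - epos e) : ℝ) ≤ R + 2 := by exact_mod_cast h6
  linarith

/-- The rows are separate. -/
theorem sep2A (hgeo : Φ.GeoN RS F Kt θ β p S₀ g δ n) (hn : 4 ≤ δ * n) :
    ∀ i j, i ≠ j → ∀ u ∈ (RS.shape (Φ.r δ n i)).I, ∀ v ∈ (RS.shape (Φ.r δ n j)).I,
      (2 : ℤ) ≤ nm (u - v) := by
  intro i j hij u hu v hv
  have h1 := hgeo.sepr i j hij u hu v hv
  have h2 : ((2 : ℤ) : ℝ) ≤ (nm (u - v) : ℝ) := by
    push_cast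
    linarith
  exact_mod_cast h2

/-- The rows are not empty. -/
theorem len_posA (hgeo : Φ.GeoN RS F Kt θ β p S₀ g δ n) (hn : 1 ≤ g * n) (i : Φ.ι) :
    1 ≤ (RS.shape (Φ.r δ n i)).L := by
  have h1 := hgeo.val i
  have h2 : (1 : ℝ) ≤ F.mg (Φ.r δ n i) := hn.trans h1.2
  have h3 : 1 ≤ F.mg (Φ.r δ n i) := by exact_mod_cast h2
  exact h3.trans (F.mg_le h1.1)

/-- **The frame with confined loops at the holes.** -/
theorem frameA (hgeo : Φ.GeoN RS F Kt θ β p S₀ g δ n) (hδn : 4 ≤ δ * n) (hgn : 1 ≤ g * n)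
    {κ₀ B₀ : ℝ}
    (hfl : FlowIn (enl S₀ n) κ₀ B₀ n c)
    (hR : (⌊δ * n⌋₊ : ℤ) + 4 ≤ R) (hR' : (R' : ℝ) + 2 ≤ κ₀ * n) (hκ₀ : 1 ≤ κ₀ * n)
    (hω : Good ω) (hc : Φ.Cnf δ n R R' ω) : ∃ K : ℝ,
    QX.Frame θ (qN p n (Φ.t n)) (enl S₀ n) (Φ.U RS δ n) (uN p n (Φ.t n))
      (QX.stag θ β (qN p n (Φ.t n)) (Φ.k n)) (Φ.ph RS δ n 0) c K
      (Φ.hB δ n R : Set (ℤ × ℤ)) ω := by
  obtain ⟨K, hK⟩ := hgeo.phs
  refine ⟨K, hω, hgeo.dom.symm, fun e he he' => Finset.mem_coe.2 (hB_monoA hR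
    (hgeo.hole e he he')), ?_, Enl.flow_in hfl hκ₀, ?_, fun k hk h1 h2 => (hK k hk).1 h1 h2,
    fun k hk h1 h2 => (hK k hk).2 h1 h2⟩
  · rintro e ⟨k, hk⟩
    obtain ⟨ℓ, hℓ, heℓ⟩ := hω e
    obtain ⟨x, hx⟩ := hc ℓ hℓ ⟨_, Enl.loop_iter hℓ heℓ k, hk⟩
    exact box_flowA hgeo hfl hR' (hx (hdv e) (mem_image_of_mem hdv heℓ))
  · intro e he b
    show ∑ i, (RS.wall (Φ.r δ n i) 0).a e b + (0 : Ed → ℝ) e / 2 = 0
    have h1 : ∀ i, (RS.wall (Φ.r δ n i) 0).a e b = 0 := by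
      intro i
      have h2 : e ∉ (RS.wall (Φ.r δ n i) 0).S := by
        rw [(RS.cuts (Φ.r δ n i) 0 (len_posA hgeo hgn i)).S]
        exact fun h => he (bS_subA (g := fun i => RS.shape (Φ.r δ n i)) (sep2A hgeo hδn) h)
      rw [(RS.wall (Φ.r δ n i) 0).off e h2]
      rfl
    simp [h1]

/-- **The factorisation for a frame.** -/
theorem frm_factA (h0 : 0 < θ) (h1 : Ang θ) (hβ : Real.cos (θ / 2 + β) = Real.sin θ)
    (hp : IsPolygon p) (hD : Encloses p S₀) (hgeo : Φ.GeoN RS F Kt θ β p S₀ g δ n)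
    (hδn : 4 ≤ δ * n) (hgn : 1 ≤ g * n)
    {κ₀ B₀ : ℝ} (hfl : FlowIn (enl S₀ n) κ₀ B₀ n c)
    (hR1 : (⌊δ * n⌋₊ : ℤ) + 4 ≤ R₁) (h12 : R₁ + 2 ≤ R₂) (h23 : R₂ ≤ R₃) (h34 : R₃ + 2 ≤ R₄)
    (hR4 : (R₄ : ℝ) + 2 ≤ κ₀ * n) (hω : Good ω)
    (hb1 : ∀ ℓ ∈ LE ω (bS (Φ.U RS δ n)), ¬ VisL (Φ.hB δ n ((⌊δ * n⌋₊ : ℤ) + 4)) ℓ →
      (∃ x, ∀ v ∈ vs ℓ, v ∈ Bq (Φ.h δ n x) R₄) →
      fLp θ (Φ.U RS δ n) (Φ.ph RS δ n 0) ω ℓ = 1)
    (hTB : 0 ≤ Φ.TB RS θ δ n R₁ ω)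
    (hN1 : ω ∈ Φ.NAh δ n (R₁ + 1) (R₂ - 1)) (hN2 : ω ∈ Φ.NAh δ n (R₃ + 1) (R₄ - 1)) :
    RT θ (Φ.U RS δ n) (Φ.ph RS δ n c) ω =
      (∏ i, (2 * Real.sin θ) ^ ((RS.shape (Φ.r δ n i)).L + 1)) *
        (Φ.G RS θ β p S₀ δ n c R₃ R₄ ω * Φ.T2 RS θ δ n R₁ R₂ ω) := by
  classical
  have hs := sin_posA h0 h1
  have hc := cos_posA h0 h1
  have hn' : 0 < n := by
    rcases Nat.eq_zero_or_pos n with h | h
    · rw [h] at hδn; norm_num at hδn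
    · exact h
  have c1 := cnf_NAhA h12 hN1
  have c3 := cnf_NAhA h34 hN2
  have hR2' : (R₂ : ℝ) ≤ R₄ := by exact_mod_cast (by omega : R₂ ≤ R₄)
  have hR40 : (0 : ℝ) ≤ R₄ := by exact_mod_cast (by omega : (0 : ℤ) ≤ R₄)
  obtain ⟨K, Fr⟩ := frameA hgeo hδn hgn hfl hR1 (R' := R₂) (by linarith) (by linarith) hω c1
  have fact := H398.Q.RT_fact Fr (Enl.isPolygon_qN hn' hp _) (Enl.encloses_qN hn' hp hD _)
    (Enl.bd_qN hn' hp hD hgeo.base) hs.ne' hc.ne' hβ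
    (B3 := Φ.hB δ n R₃) (Finset.coe_subset.2 (hB_monoA (by omega))) ?_ ?_
    (no_innerA (g := fun i => RS.shape (Φ.r δ n i)) (sep2A hgeo hδn) ω)
  · have e1 := exits_cardA (g := fun i => RS.shape (Φ.r δ n i)) (sep2A hgeo hδn)
      (len_posA hgeo hgn)
    have e2 : (2 * Real.sin θ) ^ ((bS (Φ.U RS δ n)).filter fun e => hdv e ∉ Φ.U RS δ n).card =
        ∏ i, (2 * Real.sin θ) ^ ((RS.shape (Φ.r δ n i)).L + 1) := by
      rw [Finset.prod_pow_eq_pow_sum]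
      congr 1
    rw [ph_aF, fact, e2]
    unfold FrS.G FrS.T2
    rw [Set.indicator_of_mem hN1, Set.indicator_of_mem hN2, abs_of_nonneg hTB]
    simp only [Pi.one_apply, mul_one]
    rfl
  · rintro e ⟨k, hk⟩
    obtain ⟨ℓ, hℓ, heℓ⟩ := hω e
    obtain ⟨x, hx⟩ := c3 ℓ hℓ ⟨_, Enl.loop_iter hℓ heℓ k, hk⟩
    exact box_flowA hgeo hfl (R := R₄) hR4 (hx (hdv e) (mem_image_of_mem hdv heℓ))
  · intro ℓ hℓ hv3 hv1
    exact hb1 ℓ hℓ (fun h => hv1 (visL_hBA hR1 h)) (c3 ℓ (mem_LE.1 hℓ).1 hv3)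

end Vale.Agent.P167.N.ID
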