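import Vale.Agent.P167.N.ID.SameR
import Vale.Agent.P167.N.ID.HoleX
import Vale.Agent.P167.N.ID.StC
import Vale.Agent.P167.N.ID.WinTab

/-!
# P167, `q < 1`, START (P2T): the deterministic part, assembly

* `FrS.KilZ`: the loops of value `0` in the box of a hole.
* `FrS.ends_far`: no loop visits two regular ends, off the arms.
* `FrS.detT_of`: **the deterministic part** from the pictures and `KilZ`.
-/

set_option autoImplicit false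

namespace Vale.Agent.P167.N.ID

open Finset MeasureTheory Filter

open Vale.Agent.P167 Vale.Agent.P167.N

open Vale.Agent.P167.FK Vale.Agent.P167.FKA

open Vale.Agent.P167.XDL (bS mem_bS)

open Vale.Agent.P167.H199 (Returns ret)

open Vale.Agent.P167.H680.S (nxt nxt_mem)

open Vale.Agent.P167.H680.T (nm_ht)

open Vale.Agent.P167.QX (wS fLp VisL returns_loop exc_last)

open Vale.Agent.P167.H685 (LE mem_LE)

open Vale.Agent.P167.H398.Q (NA conf_NA)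

open Vale.Agent.P167.Enl (nm_tri nm_sub_comm mem_Bq')

variable {θ β : ℝ} {Φ : FrS Row} {δ g M : ℝ} {n l : ℕ} {p : ZMod l → ℤ × ℤ}
  {S₀ : Finset (ℤ × ℤ)} {ω : Cfg}

/-- **The loops of value `0` in the box of a hole**: there is a strand of weight `0` with both ends on
one row, or with two regular end sides. -/
def FrS.KilZ (Φ : FrS Row) (θ δ : ℝ) (n : ℕ) (R : ℤ) (x : Φ.H) (ω : Cfg) : Prop :=
  ∀ ℓ, IsLoop ω ℓ → (∀ y ∈ ℓ, hdv y ∈ Bq (Φ.h δ n x) R) →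
    (∃ e ∈ bS (Φ.U (rowS θ) δ n), e ∈ ℓ) →
    fLp θ (Φ.U (rowS θ) δ n) (Φ.ph (rowS θ) δ n 0) ω ℓ = 0 →
    ∃ e ∈ exs (Φ.U (rowS θ) δ n) ℓ,
      wS θ (Φ.U (rowS θ) δ n) (Φ.ph (rowS θ) δ n 0) ω e = 0 ∧
      ((∃ i, tlv e ∈ (Φ.r δ n i).I ∧
        hdv (nxt (bS (Φ.U (rowS θ) δ n)) ω e) ∈ (Φ.r δ n i).I) ∨
      (e ∈ esS (Φ.r δ n) ∧ nxt (bS (Φ.U (rowS θ) δ n)) ω e ∈ esS (Φ.r δ n)))

/-- The end sides are at the corners of the ends. -/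
theorem Row.near_es (w : Row) (b e : Bool) : nm (hdv (w.es e) - w.st b (w.ke e)) ≤ 2 := by
  unfold Row.es Row.st Row.ke nm
  cases w.o <;> cases e <;> cases b <;>
    simp only [Bool.false_eq_true, if_false, if_true, hdv] <;> split_ifs <;>
    simp only [Prod.fst_sub, Prod.snd_sub, max_le_iff, abs_le] <;> push_cast <;>
    refine ⟨⟨?_, ?_⟩, ?_, ?_⟩ <;> omega

section geo

variable {hθ : 0 ≤ Real.cos θ} (h : Φ.GeoN (rowS θ) (rowF hθ) {true} θ β p S₀ g δ n)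

include h in
/-- **No loop visits two regular ends**, off the arms. -/
theorem FrS.GeoN.ends_far (N : NumT g δ M n) (hgM : 1 ≤ g * n)
    (hNt : ω ∈ Φ.NAt δ n (⌊δ * n / M⌋ + 1) (⌊δ * n / 8⌋ - 1)) {ℓ : Finset Ed} (hl : IsLoop ω ℓ)
    {e e' : Ed} (he : e ∈ ℓ) (he' : e' ∈ ℓ) (hne : e ≠ e') (h1 : e ∈ esS (Φ.r δ n))
    (h2 : e' ∈ esS (Φ.r δ n)) : False := by
  classical
  obtain ⟨i, rfl⟩ := h1
  obtain ⟨j, rfl⟩ := h2
  have hij : i ≠ j := fun hij => hne (by rw [hij])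
  have hlen : ∀ i, 1 ≤ (Φ.r δ n i).L := by
    intro i
    have h1 := (h.val i).2
    have h2 : (1 : ℝ) ≤ (Φ.r δ n i).mg := hgM.trans h1
    have h3 : 1 ≤ (Φ.r δ n i).mg := by exact_mod_cast h2
    exact h3.trans (Φ.r δ n i).mg_le
  obtain ⟨-, -, t1, t2, t3, t4, -, -⟩ := N.radii
  have hM0 : 0 < M := by linarith [N.M32]
  have hbig : (32 : ℝ) ≤ δ * n / M := by
    rw [le_div_iff₀ hM0]
    linarith [N.big]
  have hr32 : (32 : ℤ) ≤ ⌊δ * n / M⌋ := Int.le_floor.2 (by exact_mod_cast hbig)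
  have hgap : ⌊δ * n / M⌋ + 2 ≤ ⌊δ * n / 8⌋ := by omega
  -- the loop visits the small box at the end of the row `i`
  have hv : VisL (↑(({i} : Finset Φ.ι).biUnion fun i => Bq (Φ.cR δ n i) ⌊δ * n / M⌋) :
      Set (ℤ × ℤ)) ℓ := by
    refine ⟨_, he, ?_⟩
    rw [Finset.mem_coe, singleton_biUnion]
    have h3 := (Φ.r δ n i).near_es false (!(Φ.r δ n i).p)
    unfold nm at h3
    rw [max_le_iff, abs_le, abs_le] at h3
    simp only [Prod.fst_sub, Prod.snd_sub] at h3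
    rw [mem_bq']
    unfold FrS.cR
    omega
  obtain ⟨k, hk, hin⟩ := conf_NA (J := {i}) (b := Φ.bR δ n) (c := Φ.cR δ n) hl hgap hv
    (fun k hk => hNt k (mem_univ _))
  rw [mem_singleton] at hk
  subst hk
  have h4 := mem_Bq' (hin _ (mem_image_of_mem hdv he'))
  have h5 := (Φ.r δ n j).near_es false (!(Φ.r δ n j).p)
  obtain ⟨u, hu, hu1⟩ := (Φ.r δ n k).near_end (hlen k) false (!(Φ.r δ n k).p)
  obtain ⟨u', hu', hu1'⟩ := (Φ.r δ n j).near_end (hlen j) false (!(Φ.r δ n j).p)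
  have h6 := h.far_end hij hu hu' hu1 hu1'
  have h7 := nm_tri (Φ.cR δ n k) (hdv ((Φ.r δ n j).es (!(Φ.r δ n j).p))) (Φ.cR δ n j)
  rw [nm_sub_comm (Φ.cR δ n k) (hdv ((Φ.r δ n j).es (!(Φ.r δ n j).p)))] at h7
  change nm (hdv ((Φ.r δ n j).es (!(Φ.r δ n j).p)) - Φ.cR δ n j) ≤ 2 at h5
  have h8 : nm (Φ.cR δ n k - Φ.cR δ n j) ≤ ⌊δ * n / 8⌋ + 2 := by omega
  have h9 : (nm (Φ.cR δ n k - Φ.cR δ n j) : ℝ) ≤ ((⌊δ * n / 8⌋ : ℤ) : ℝ) + 2 := by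
    exact_mod_cast h8
  change δ * n / 2 - 2 ≤ (nm (Φ.cR δ n k - Φ.cR δ n j) : ℝ) at h6
  push_cast at t3
  have h10 : (1024 : ℝ) ≤ δ * n := by linarith [N.big, N.M32]
  linarith

include h in
/-- **The deterministic part.** -/
theorem FrS.GeoN.detT_of (h13 : Real.pi / 3 ≤ θ) (h12 : θ < Real.pi / 2) (N : NumT g δ M n)
    (h8 : 8 * ((⌊M * δ * n⌋ : ℤ) : ℝ) ≤ g * n) {t : Φ.ι → TipD} {J : Φ.ι → Φ.ι}
    (hOk : ∀ i, J i ≠ i ∧ (t i).Ok (Φ.U (rowS θ) δ n) (Φ.r δ n i).I (Φ.r δ n (J i)).I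
      (Φ.r δ n i).zt ⌊δ * n⌋₊ ⌊δ * n / 16⌋)
    (hdis : ∀ i j, i ≠ j →
      Disjoint ((t i).W ⌊δ * n⌋₊ ⌊δ * n / 16⌋) ((t j).W ⌊δ * n⌋₊ ⌊δ * n / 16⌋))
    (hK : ∀ ω : Cfg, Good ω → Φ.Frz (rowS θ) δ n ω →
      (∀ i, ω ∈ (t i).Z (Φ.r δ n (J i)).I (Φ.r δ n i).zt ⌊δ * n⌋₊ ⌊δ * n / 16⌋) →
      ∀ x, Φ.KilZ θ δ n ⌊M * δ * n⌋ x ω) : Φ.DetT θ δ M n := by
  classical
  refine ⟨t, J, hOk, hdis, fun ω hω hf hZ hNA hNt => ?_⟩
  obtain ⟨-, ⟨s1, s2, s3, s4, s5, -, -⟩, -⟩ := N.radii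
  have hbig : (1024 : ℝ) ≤ δ * n := by linarith [N.big, N.M32]
  have hR8 : 8 * (δ * n) ≤ ((⌊M * δ * n⌋ : ℤ) : ℝ) := by
    have h1 := Int.lt_floor_add_one (M * δ * n)
    have h2 : 32 * (δ * n) ≤ M * δ * n := by
      rw [mul_assoc]
      exact mul_le_mul_of_nonneg_right N.M32 (by linarith)
    linarith
  have hgn : 1 ≤ g * n := by linarith
  unfold FrS.TB QX.TB
  rw [prod_ne_zero_iff]
  intro ℓ hℓ h0
  obtain ⟨hLE, hvis⟩ := mem_filter.1 hℓ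
  obtain ⟨hl, hbs⟩ := mem_LE.1 hLE
  obtain ⟨x, hx⟩ := cnf_NAhA (R := ⌊4 * δ * n⌋) (R' := ⌊M * δ * n⌋) (by omega) hNA ℓ hl hvis
  have hx' : ∀ y ∈ ℓ, hdv y ∈ Bq (Φ.h δ n x) ⌊M * δ * n⌋ := fun y hy =>
    hx _ (mem_image_of_mem hdv hy)
  obtain ⟨e, he, hw, hc⟩ := hK ω hω hf hZ x ℓ hl hx' hbs h0
  obtain ⟨g1, g2, g3⟩ := mem_exs.1 he
  have hr : Returns (nx ω) (bS (Φ.U (rowS θ) δ n)) e := returns_loop hl g3 g1
  rcases hc with ⟨i, k1, k2⟩ | ⟨k1, k2⟩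
  · have h64 : 64 * δ ≤ g := by
      have hn : (0 : ℝ) < n := by
        rcases Nat.eq_zero_or_pos n with h3 | h3
        · rw [h3] at hbig
          norm_num at hbig
        · exact_mod_cast h3
      have h3 : 64 * (δ * n) ≤ g * n := by linarith
      by_contra h4
      push Not at h4
      nlinarith
    exact h.same_ne h13 h12 h64 (by linarith) (by
        have : (0 : ℝ) ≤ ((⌊M * δ * n⌋ : ℤ) : ℝ) := by linarith
        exact_mod_cast this) (by linarith) hf (hOk i).1 (hOk i).2 (hZ i) k1 g2 hr k2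
      (fun k _ => hx' _ (Vale.Agent.P167.H199.loop_iter hl g3 k)) hw
  · have hlast := exc_last g2 hr
    refine h.ends_far N hgn hNt hl g3 (nxt_mem (S := bS (Φ.U (rowS θ) δ n)) hl g1 g3).2 ?_ k1 k2
    intro heq
    refine g2 ?_
    have h1 : hdv (nxt (bS (Φ.U (rowS θ) δ n)) ω e) ∈ Φ.U (rowS θ) δ n := hlast.1
    rwa [← heq] at h1

end geo

end Vale.Agent.P167.N.ID
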