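import Vale.Agent.P167.N.ID.P2Td

/-!
# P167, `q < 1`, START (P2T): `P2Tg` from the pictures and the killed strands

* `FrS.PicK`: pictures of the killed tips such that `KilZ` holds at all holes if all killed tips are
  joined to the other rows.
* `FrS.p2t_pic`: **`P2Tg`** from `Geo` and `PicK`.
-/

set_option autoImplicit false

namespace Vale.Agent.P167.N.ID

open Finset MeasureTheory Filter

open Vale.Agent.P167 Vale.Agent.P167.N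

open Vale.Agent.P167.FK

open Vale.Agent.P167.H519 (IsLim)

variable {θ β : ℝ} {Φ : FrS Row} {δ g M : ℝ} {n l : ℕ} {p : ZMod l → ℤ × ℤ}
  {S₀ : Finset (ℤ × ℤ)} {P : Measure Cfg}

/-- The pictures and the killed strands at one size; `γ`: the windows. -/
def FrS.PicKN (Φ : FrS Row) (θ γ δ : ℝ) (n : ℕ) : Prop :=
  ∃ t : Φ.ι → TipD, ∃ J : Φ.ι → Φ.ι,
    (∀ i, J i ≠ i ∧ (t i).Ok (Φ.U (rowS θ) δ n) (Φ.r δ n i).I (Φ.r δ n (J i)).I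
      (Φ.r δ n i).zt ⌊δ * n⌋₊ ⌊δ * n / 16⌋) ∧
    (∀ i j, i ≠ j → Disjoint ((t i).W ⌊δ * n⌋₊ ⌊δ * n / 16⌋) ((t j).W ⌊δ * n⌋₊ ⌊δ * n / 16⌋)) ∧
    ∀ R : ℕ, 16 * ⌊δ * n⌋₊ ≤ R → ((R : ℝ) + 3 ≤ γ * n) →
      ∀ ω : Cfg, Good ω → Φ.Frz (rowS θ) δ n ω →
        (∀ i, ω ∈ (t i).Z (Φ.r δ n (J i)).I (Φ.r δ n i).zt ⌊δ * n⌋₊ ⌊δ * n / 16⌋) →
        ∀ x, Φ.KilZ θ δ n R x ω

/-- The pictures and the killed strands. -/
def FrS.PicK (Φ : FrS Row) (θ : ℝ) : Prop :=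
  ∃ γ δ₀ : ℝ, 0 < γ ∧ 0 < δ₀ ∧ ∀ δ : ℝ, 0 < δ → δ < δ₀ → ∀ᶠ n : ℕ in atTop, Φ.PicKN θ γ δ n

/-- **(P2T)** from the pictures and the killed strands. -/
theorem FrS.p2t_pic {hθ : 0 ≤ Real.cos θ} (h0 : 0 < θ) (h1 : Ang θ)
    (hP : IsLim (2 * Real.cos θ) P) (hg : ∀ᵐ ω ∂P, Good ω)
    (hGeo : Φ.Geo (rowS θ) (rowF hθ) {true} θ β p S₀) (hK : Φ.PicK θ) :
    Φ.P2Tg (rowS θ) (rowF hθ) {true} θ P := by
  refine FrS.p2t_of h0 h1 hP hg hGeo fun M hM => ?_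
  obtain ⟨g, hg0, hg1, δG, hδG, hG⟩ := hGeo
  obtain ⟨γ, δK, hγ, hδK, hK⟩ := hK
  have hM0 : 0 < M := by linarith
  refine ⟨min (min δG δK) (min (g / (8 * M)) (γ / (2 * M))), by positivity, fun δ hδ hδ' => ?_⟩
  simp only [lt_min_iff] at hδ'
  obtain ⟨⟨d1, d2⟩, d3, d4⟩ := hδ'
  rw [lt_div_iff₀ (by positivity)] at d3 d4
  have ev1 : ∀ᶠ n : ℕ in atTop, 32 * M ≤ δ * n :=
    (tendsto_natCast_atTop_atTop.const_mul_atTop hδ).eventually_ge_atTop _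
  filter_upwards [hG δ hδ d1, hK δ hδ d2, ev1] with n nG nK n1
  have hn0 : (0 : ℝ) < n := by
    by_contra h
    push Not at h
    nlinarith
  have hN : NumT g δ M n := ⟨hδ, hn0, hM, n1, by nlinarith⟩
  obtain ⟨t, J, hOk, hdis, hkil⟩ := nK
  have e1 : (⌊M * δ * n⌋₊ : ℤ) = ⌊M * δ * n⌋ := Int.natCast_floor_eq_floor (by positivity)
  have e2 : ((⌊M * δ * n⌋ : ℤ) : ℝ) ≤ M * δ * n := Int.floor_le _
  have e3 : ((⌊M * δ * n⌋₊ : ℕ) : ℝ) ≤ M * δ * n := Nat.floor_le (by positivity)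
  have e4 : 8 * M * δ * n ≤ g * n := by
    have := mul_le_mul_of_nonneg_right (by linarith : 8 * M * δ ≤ g) hn0.le
    linarith
  have e5 : 2 * M * δ * n ≤ γ * n := by
    have := mul_le_mul_of_nonneg_right (by linarith : 2 * M * δ ≤ γ) hn0.le
    linarith
  have e6 : (32 : ℝ) ≤ M * δ * n := by nlinarith
  refine nG.detT_of h1.gt.le h1.lt hN (by linarith) hOk hdis fun ω hω hf hZ x => ?_
  rw [← e1]
  refine hkil ⌊M * δ * n⌋₊ ?_ (by linarith) ω hω hf hZ x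
  have e7 : 16 * (δ * n) ≤ M * δ * n := by nlinarith
  have e8 : ((⌊δ * n⌋₊ : ℕ) : ℝ) ≤ δ * n := Nat.floor_le (by positivity)
  refine Nat.le_floor ?_
  push_cast
  linarith

end Vale.Agent.P167.N.ID
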