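import Vale.Agent.P167.N.ID.PicsF
import Vale.Agent.P167.N.ID.RowF

/-!
# P167, `q < 1`, START (P2T): the pictures of the killed tips of the Dobrushin frames, assembly
-/

set_option autoImplicit false

namespace Vale.Agent.P167.N.ID

open Finset Filter Topology

open Vale.Agent.P167.H262 (Rsq mem_Rsq)
open Vale.Agent.P167.E6 (IsPolygon Encloses dir face)
open Vale.Agent.P167.H825 (pdir Marks Box)
open Vale.Agent.P167.H825.Q (Bc)
open Vale.Agent.P167.H199 (Gap mks mks_ok Gen exists_Gap c0)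
open Vale.Agent.P167.H662 (hsite)
open Vale.Agent.P167.H680.T (uI mem_uI)
open Vale.Agent.P167.Enl (sW eW mem_rowP vp oz vz vz_eq oz_eq frmQ mem_frmQ iB jB iB_lt jB_le nm_tri
  nm_sub_comm hsite_far gn_big BGap pA pB gA gB gap_step rows_marks row_pos vp_pA vp_pB)

variable {l : ℕ} {p : ZMod l → ℤ × ℤ} {n : ℕ} {S₀ : Finset (ℤ × ℤ)} {θ β : ℝ} {b : Box}
  {tp : ℝ} {g δ : ℝ} {ia : ℕ} {ta : ℝ} {U : Finset (ℤ × ℤ)} {ρ : ℤ}

namespace DobN

section pics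

variable (H : DobN p S₀ b tp g δ n) (hδg : 512 * δ ≤ g) (hρ : 16 * ρ ≤ ⌊δ * n⌋₊) (hρ0 : 0 ≤ ρ)
  (hU : ∀ v ∈ U, v ∈ uI (shD p b tp n ⌊δ * n⌋₊))

include H hδg hρ hρ0 hU in
/-- **The killed tips at `T`**: the rows behind (`A`) and before (`B`) the vertex `T`. -/
theorem picT (hl : 0 < l) (hia : 0 < ia) {y : Fin l × Fin 3}
    (hy : nxK hl y = xT H.hp (mks p b tp)) :
    ∃ t₁ t₂, Pic U (rD θ β p b tp ia ta n ⌊δ * n⌋₊ (.inr (.inr ()))).I
        (rD θ β p b tp ia ta n ⌊δ * n⌋₊ (.inl (xT H.hp (mks p b tp))))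
        (hsite p (mks p b tp) n (xT H.hp (mks p b tp))) ⌊δ * n⌋₊ ρ t₁ ∧
      Pic U (rD θ β p b tp ia ta n ⌊δ * n⌋₊ (.inl (xT H.hp (mks p b tp)))).I
        (rD θ β p b tp ia ta n ⌊δ * n⌋₊ (.inl y))
        (hsite p (mks p b tp) n (xT H.hp (mks p b tp))) ⌊δ * n⌋₊ ρ t₂ ∧
      Disjoint (t₁.W ⌊δ * n⌋₊ ρ) (t₂.W ⌊δ * n⌋₊ ρ) := by
  obtain ⟨b1, b3, b5, b6, b7⟩ := H.basic
  obtain ⟨e1, e2, e3⟩ := H.big hδg
  obtain ⟨j1, j2⟩ := JD_xT (ia := ia) H.hp hia (Q := mks p b tp)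
  have h64 := hδ64 H.hδ hδg
  obtain ⟨n1, n2⟩ := nxK_iB hl y
  rw [hy] at n1 n2
  obtain ⟨⟨p1, p2, p3⟩, ⟨p4, p5, p6⟩⟩ := row_pos (p := p) H.hQ H.hg H.hδ H.hδg H.hn
    (xT H.hp (mks p b tp))
  obtain ⟨q1, q2⟩ := rows_six (p := p) H.hQ H.hg H.hδ h64 H.hn (xT H.hp (mks p b tp))
  obtain ⟨dT3, dT0⟩ := dirT H.hp H.hD (mks p b tp)
  have hyT : 2 * (n : ℤ) ≤ n * (p (iT p)).2 := by nlinarith [H.hN (iT p)]
  have hT := hsT (n := n) H.hp H.hQ
  set x := xT H.hp (mks p b tp) with hx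
  set z := hsite p (mks p b tp) n x with hz
  have hz2 : z.2 = n * (p (iT p)).2 := by rw [hT]
  have hz1 : z.1 = n * (p (iT p)).1 := by rw [hT]
  -- the two rows
  have hrA : ∀ v, ((rD θ β p b tp ia ta n ⌊δ * n⌋₊ (.inl x)).iso true).V v =
      tipV z 0 false (gA p n (mks p b tp) ⌊δ * n⌋₊ x) true v := fun v => by
    have := iso_aft (θ := θ) (β := β) (p := p) (t := ⌊tp * n⌋₊) (bc := .dob ia ta) (Js := JD p ia)
      (C := 0) (c := 1) H.hQ H.hg H.hδ h64 H.hn x j1 true v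
    rw [dT0] at this
    exact this
  have hrB : ∀ v, ((rD θ β p b tp ia ta n ⌊δ * n⌋₊ (.inl y)).iso false).V v =
      tipV z 3 true (gB p n (mks p b tp) ⌊δ * n⌋₊ x) false v := fun v => by
    have := iso_bef (θ := θ) (β := β) (p := p) (t := ⌊tp * n⌋₊) (bc := .dob ia ta) (Js := JD p ia)
      (C := 0) (c := 1) H.hp H.hQ H.hg H.hδ h64 H.hn x j2 false v
    rw [dT3] at this
    change ((frowJ θ β p (mks p b tp) n ⌊δ * n⌋₊ ⌊tp * n⌋₊ (.dob ia ta) (JD p ia) 0 1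
      (iB l (m := 2) x) (jB (m := 2) x)).iso false).V v = _ at this
    rw [n1, n2] at this
    exact this
  have hLA : 2 * ρ ≤ ((rD θ β p b tp ia ta n ⌊δ * n⌋₊ (.inl x)).L : ℤ) := by
    change 2 * ρ ≤ ((frowJ θ β p (mks p b tp) n ⌊δ * n⌋₊ ⌊tp * n⌋₊ (.dob ia ta) (JD p ia) 0 1
      x.1 x.2).L : ℤ)
    rw [frowJ_L]
    omega
  have hLB : 2 * ρ ≤ ((rD θ β p b tp ia ta n ⌊δ * n⌋₊ (.inl y)).L : ℤ) := by
    change 2 * ρ ≤ ((frowJ θ β p (mks p b tp) n ⌊δ * n⌋₊ ⌊tp * n⌋₊ (.dob ia ta) (JD p ia) 0 1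
      y.1 y.2).L : ℤ)
    rw [frowJ_L]
    change sW p n (mks p b tp) ⌊δ * n⌋₊ (iB l (m := 2) x) (jB (m := 2) x) + _ + 2 ≤ _ at q1
    change _ + eW p n (mks p b tp) ⌊δ * n⌋₊ (iB l (m := 2) x) (jB (m := 2) x) = _ at p1
    rw [n1, n2] at q1 p1
    omega
  -- the frozen squares
  have key : ∀ v ∈ U, nm (v - z) ≤ 6 * ⌊δ * n⌋₊ →
      (∃ s : ℤ, (gA p n (mks p b tp) ⌊δ * n⌋₊ x : ℤ) ≤ s ∧ v = (z.1 + s, z.2 - 1)) ∨
      (∃ s : ℤ, s < -(gB p n (mks p b tp) ⌊δ * n⌋₊ x : ℤ) ∧ v = (z.1 - 1, z.2 - s - 1)) ∨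
      (v.1 = z.1 ∧ v.2 + ⌊δ * n⌋₊ < z.2) := by
    intro v hv h
    rcases H.uP hδg (hU v hv) h with h1 | ⟨h1, -⟩
    · have h2 := rays_near H.hp H.hQ H.hg H.hδ h64 H.hn x h1 h
      rw [dT3, dT0] at h2
      rcases h2 with ⟨s, hs, h2⟩ | ⟨s, hs, h2⟩
      · left
        exact ⟨s, hs, h2.trans (oz_eq z s).1⟩
      · right; left
        exact ⟨s, hs, h2.trans (oz_eq z s).2.2.2⟩
    · right; right
      obtain ⟨k1, k2, k3⟩ := mem_spk.1 h1
      exact ⟨by omega, by omega⟩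
  have vA := fun v => (tipV_eq z false (gA p n (mks p b tp) ⌊δ * n⌋₊ x) true v).1
  have vB := fun v => (tipV_eq z true (gB p n (mks p b tp) ⌊δ * n⌋₊ x) false v).2.2.2
  refine ⟨⟨(rD θ β p b tp ia ta n ⌊δ * n⌋₊ (.inl x)).iso true, false,
    (gA p n (mks p b tp) ⌊δ * n⌋₊ x : ℤ) - 1, ⌊δ * n⌋₊,
    (rD θ β p b tp ia ta n ⌊δ * n⌋₊ (.inl x)).hgt true⟩,
    ⟨(rD θ β p b tp ia ta n ⌊δ * n⌋₊ (.inl y)).iso false, false,
    (gB p n (mks p b tp) ⌊δ * n⌋₊ x : ℤ), ⌊δ * n⌋₊,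
    (rD θ β p b tp ia ta n ⌊δ * n⌋₊ (.inl y)).hgt false⟩, ?_, ?_, ?_⟩
  · refine picC (k := 0) (e := false) (f := true) (G := gA p n (mks p b tp) ⌊δ * n⌋₊ x) hρ hρ0 e1
      hLA (by omega) (by omega) (by omega) (by omega) hrA (fun v hv hn h => ?_) fun t h1 h2 => ?_
    · have h3 := key _ h hn
      rw [vA] at h3
      simp only [Bool.false_eq_true, if_false, if_true, Prod.mk.injEq] at h3
      rcases h3 with ⟨s, h3⟩ | ⟨s, h3⟩ | h3 <;> omega
    · rw [vA]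
      change _ ∈ (spk p n ⌊δ * n⌋₊).I
      rw [mem_spk]
      simp only [Bool.false_eq_true, if_false, if_true]
      omega
  · refine picC (k := 3) (e := true) (f := false) (G := gB p n (mks p b tp) ⌊δ * n⌋₊ x) hρ hρ0 e1
      hLB (by omega) (by omega) (by omega) (by omega) hrB (fun v hv hn h => ?_) fun t h1 h2 => ?_
    · have h3 := key _ h hn
      rw [vB] at h3
      simp only [Bool.false_eq_true, if_false, if_true, Prod.mk.injEq] at h3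
      rcases h3 with ⟨s, h3⟩ | ⟨s, h3⟩ | h3 <;> omega
    · have h3 := row_aft (p := p) H.hQ H.hg H.hδ h64 H.hn x (s := t - 1) (by omega) (by omega)
      rw [dT0, (oz_eq _ _).1] at h3
      rw [vB]
      change _ ∈ (frowJ θ β p (mks p b tp) n ⌊δ * n⌋₊ ⌊tp * n⌋₊ (.dob ia ta) (JD p ia) 0 1
        x.1 x.2).I
      rw [frowJ_I, shp_I]
      convert h3 using 1
      refine Prod.ext ?_ ?_
      · simp only [Bool.false_eq_true, if_false]
        change z.1 - 1 + t = z.1 + (t - 1)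
        omega
      · simp only [if_true]
        change z.2 + _ + (-_ - 1) = z.2 - 1
        omega
  · exact T_disj hρ hρ0 e1 ⟨by omega, by omega⟩ ⟨by omega, by omega⟩ hrA hrB

end pics

end DobN

/-- The pictures of the killed tips, with a condition `P` on the other rows. -/
def FrS.PicsJ {X : Type} (RS : RSys X) {Kx : Type} [Fintype Kx] [DecidableEq Kx] (F : Fct RS Kx)
    (Φ : FrS X) (k₀ : Kx) (P : (Φ.ι → Φ.ι) → Prop) (δ : ℝ) (n : ℕ) : Prop :=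
  ∃ t : Φ.ι → TipD, ∃ J : Φ.ι → Φ.ι,
    (∀ i, J i ≠ i ∧ (t i).Ok (Φ.U RS δ n) (RS.I (Φ.r δ n i)) (RS.I (Φ.r δ n (J i)))
      (F.ctr (Φ.r δ n i) k₀) ⌊δ * n⌋₊ ⌊δ * n / 16⌋) ∧
    (∀ i j, i ≠ j → Disjoint ((t i).W ⌊δ * n⌋₊ ⌊δ * n / 16⌋) ((t j).W ⌊δ * n⌋₊ ⌊δ * n / 16⌋)) ∧
    P J

/-- At `T`: the row `A` behind `T` is joined to the spoke, the row `B` before `T` to `A`. -/
def JT (hp : IsPolygon p) (Q : Marks) (J : IxD l → IxD l) : Prop :=
  J (.inl (⟨iT p, (lowV_iT hp).lt⟩, 0)) = .inr (.inr ()) ∧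
    ∀ y : Fin l × Fin 3, iB l (xT hp Q) = y.1 → jB (xT hp Q) = y.2 →
      J (.inl y) = .inl (⟨iT p, (lowV_iT hp).lt⟩, 0)

/-- **The pictures of the killed tips of the Dobrushin frames**, one scale. -/
theorem pics_DJ [NeZero l] (hc : 0 ≤ Real.cos θ) (H : DobN p S₀ b tp g δ n) (hδg : 512 * δ ≤ g)
    (hia : 0 < ia) :
    (frD θ β p S₀ b tp ia ta).PicsJ (rowS θ) (rowF hc) true (JT H.hp (mks p b tp)) δ n := by
  classical
  have hl : 0 < l := by have := H.hp.1; omega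
  obtain ⟨ρ0, ρ1⟩ := rho_le (n := n) H.hδ
  obtain ⟨e1, e2, e3⟩ := H.big hδg
  have hU : ∀ v ∈ (frD θ β p S₀ b tp ia ta).U (rowS θ) δ n,
      v ∈ uI (shD p b tp n ⌊δ * n⌋₊) := by
    intro v hv
    obtain ⟨i, hi⟩ := mem_uI.1 hv
    refine mem_uI.2 ⟨i, ?_⟩
    have hi' : v ∈ (rD θ β p b tp ia ta n ⌊δ * n⌋₊ i).I := hi
    rcases i with x | x | x
    · have e : (rD θ β p b tp ia ta n ⌊δ * n⌋₊ (.inl x)).I =
          (shp p (mks p b tp) n ⌊δ * n⌋₊ x.1 x.2).I := frowJ_I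
      rw [e] at hi'
      exact hi'
    · have e : (rD θ β p b tp ia ta n ⌊δ * n⌋₊ (.inr (.inl x))).I =
          (shp pQ (mksQ p b) (bM p * n) ⌊δ * n⌋₊ x.1 x.2).I := frowJ_I
      rw [e] at hi'
      exact hi'
    · exact hi'
  obtain ⟨yB, hyB⟩ : ∃ y, nxK hl y = xT H.hp (mks p b tp) :=
    (Finite.injective_iff_surjective.1 fun _ _ h => nxK_inj hl h) _
  obtain ⟨t₁, t₂, h1, h2, h3⟩ := H.picT (θ := θ) (β := β) (ta := ta) hδg ρ1 ρ0 hU hl hia hyB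
  obtain ⟨j1, j2⟩ := JD_xT (ia := ia) H.hp hia (Q := mks p b tp)
  have hB1 : JD p ia yB.1 = false := by
    rw [← (nxK_iB hl yB).1, hyB]
    exact j2
  have hB : hkD p ia hl (.inl yB) = .inl (xT H.hp (mks p b tp)) := by
    show Sum.inl (if JD p ia yB.1 = true then yB else nxK hl yB) = _
    rw [hB1, if_neg Bool.false_ne_true, hyB]
  have hA : hkD p ia hl (.inl (xT H.hp (mks p b tp))) = .inl (xT H.hp (mks p b tp)) := by
    exact congrArg Sum.inl (if_pos j1)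
  have hAB : (Sum.inl (xT H.hp (mks p b tp)) : IxD l) ≠ .inl yB := by
    intro h
    rw [← Sum.inl.inj h] at hB1
    exact absurd (j1.symm.trans hB1) (by decide)
  have ex : ∀ i : IxD l, ∃ tJ : TipD × IxD l, (tJ.2 ≠ i ∧
      Pic ((frD θ β p S₀ b tp ia ta).U (rowS θ) δ n)
        (rD θ β p b tp ia ta n ⌊δ * n⌋₊ tJ.2).I (rD θ β p b tp ia ta n ⌊δ * n⌋₊ i)
        (hoD p b tp n (hkD p ia hl i)) ⌊δ * n⌋₊ ⌊δ * n / 16⌋ tJ.1) ∧
      (i = .inl (xT H.hp (mks p b tp)) → tJ = (t₁, .inr (.inr ()))) ∧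
      (i = .inl yB → tJ = (t₂, .inl (xT H.hp (mks p b tp)))) := by
    intro i
    by_cases hiA : i = .inl (xT H.hp (mks p b tp))
    · rw [hiA, hA]
      exact ⟨(t₁, .inr (.inr ())), ⟨Sum.inr_ne_inl, h1⟩, fun _ => rfl, fun h => absurd h hAB⟩
    by_cases hiB : i = .inl yB
    · rw [hiB, hB]
      exact ⟨(t₂, .inl (xT H.hp (mks p b tp))), ⟨hAB, h2⟩, fun h => absurd h.symm hAB,
        fun _ => rfl⟩
    rcases i with y | y | y
    · by_cases hJ : JD p ia y.1 = true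
      · obtain ⟨y', hy', t', ht'⟩ := H.picA (θ := θ) (β := β) (ta := ta) hδg ρ1 ρ0 hU hJ
          fun h => hiA (by rw [h])
        refine ⟨(t', .inl y'), ⟨fun h => hy' (Sum.inl.inj h), ?_⟩, fun h => absurd h hiA,
          fun h => absurd h hiB⟩
        have e : hkD p ia hl (.inl y) = .inl y := by
          show Sum.inl (if JD p ia y.1 = true then y else nxK hl y) = _
          rw [if_pos hJ]
        rw [e]
        exact ht'
      · have hJ' : JD p ia y.1 = false := by simpa using hJ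
        obtain ⟨t', ht'⟩ := H.picB (θ := θ) (β := β) (ta := ta) hδg ρ1 ρ0 hU hl hJ'
          fun h => hiB (by rw [nxK_inj hl (h.trans hyB.symm)])
        refine ⟨(t', .inl (nxK hl y)), ⟨fun h => ?_, ?_⟩, fun h => absurd h hiA,
          fun h => absurd h hiB⟩
        · have h4 := Sum.inl.inj h
          obtain ⟨n1, n2⟩ := nxK_iB hl y
          have h5 := iBjB_ne (l := l) (Q := mks p b tp) (by have := H.hp.1; omega) y
          apply h5
          change nxK hl y = y at h4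
          rw [h4] at n1 n2
          exact Prod.ext (Fin.ext n1) (Fin.ext n2)
        · have e : hkD p ia hl (.inl y) = .inl (nxK hl y) := by
            show Sum.inl (if JD p ia y.1 = true then y else nxK hl y) = _
            rw [if_neg hJ]
          rw [e]
          exact ht'
    · obtain ⟨y', hy', t', ht'⟩ := H.picQ (θ := θ) (β := β) (ia := ia) (ta := ta) hδg ρ1 ρ0 hU y
      exact ⟨(t', .inr (.inl y')), ⟨fun h => hy' (Sum.inl.inj (Sum.inr.inj h)), ht'⟩,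
        fun h => absurd h hiA, fun h => absurd h hiB⟩
    · obtain ⟨y', t', ht'⟩ := H.picS (θ := θ) (β := β) (ia := ia) (ta := ta) hδg ρ1 ρ0 hU
      exact ⟨(t', .inr (.inl y')), ⟨fun h => Sum.inl_ne_inr (Sum.inr.inj h), ht'⟩,
        fun h => absurd h hiA, fun h => absurd h hiB⟩
  choose t ht using ex
  refine ⟨fun i => (t i).1, fun i => (t i).2, fun i => ⟨(ht i).1.1, (ht i).1.2.1⟩,
    fun i j hij => ?_, ?_, fun y h4 h5 => ?_⟩
  rotate_left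
  · exact congrArg Prod.snd ((ht _).2.1 rfl)
  · have hy : y = yB := by
      refine nxK_inj hl (Eq.trans ?_ hyB.symm)
      have h6 : nxK hl yB = xT H.hp (mks p b tp) := hyB
      obtain ⟨n1, n2⟩ := nxK_iB hl yB
      rw [h6] at n1 n2
      have : y = yB := Prod.ext (Fin.ext (h4.symm.trans n1)) (Fin.ext (h5.symm.trans n2))
      rw [this, h6]
    exact congrArg Prod.snd ((ht (.inl y)).2.2 (by rw [hy]))
  by_cases hh : hkD p ia hl i = hkD p ia hl j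
  · obtain ⟨y, y', hyy, k1, k2, k3⟩ := hkD_inj hl hij hh
    have hy : y = xT H.hp (mks p b tp) := by
      refine JD_T H.hp (Q := mks p b tp) k1 ?_
      have := (nxK_iB hl y').1
      rw [k3] at this
      change JD p ia (iB l (m := 2) y) = false
      rw [this]
      exact k2
    have hy' : y' = yB := nxK_inj hl (by rw [k3, hy, hyB])
    rcases hyy with ⟨rfl, rfl⟩ | ⟨rfl, rfl⟩
    · change Disjoint ((t (.inl y)).1.W _ _) ((t (.inl y')).1.W _ _)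
      rw [(ht (.inl y)).2.1 (by rw [hy]), (ht (.inl y')).2.2 (by rw [hy'])]
      exact h3
    · change Disjoint ((t (.inl y')).1.W _ _) ((t (.inl y)).1.W _ _)
      rw [(ht (.inl y)).2.1 (by rw [hy]), (ht (.inl y')).2.2 (by rw [hy'])]
      exact h3.symm
  · refine (ht i).1.2.disj (ht j).1.2 ?_
    have h4 := H.seph _ _ hh
    have h5 : ((12 * ⌊δ * n⌋₊ : ℤ) : ℝ) <
        nm (hoD p b tp n (hkD p ia hl i) - hoD p b tp n (hkD p ia hl j)) := by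
      have : (16 : ℝ) ≤ (⌊δ * n⌋₊ : ℝ) := by exact_mod_cast e1
      push_cast
      linarith
    exact_mod_cast h5

/-- **The pictures of the killed tips of the Dobrushin frames**, one scale. -/
theorem pics_D [NeZero l] (hc : 0 ≤ Real.cos θ) (H : DobN p S₀ b tp g δ n) (hδg : 512 * δ ≤ g)
    (hia : 0 < ia) : (frD θ β p S₀ b tp ia ta).Pics (rowS θ) (rowF hc) true δ n := by
  obtain ⟨t, J, h1, h2, -⟩ := pics_DJ (β := β) (ta := ta) hc H hδg hia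
  exact ⟨t, J, h1, h2⟩

/-- **The pictures of the killed tips of the Dobrushin frames**, with the rows at `T`. -/
theorem evD_picsJ [NeZero l] (hc : 0 ≤ Real.cos θ) (hp : IsPolygon p) (hD : Encloses p S₀)
    (hN : Nrm p) (hb : b.Ok S₀) (h0 : 0 < tp) (h1 : tp < 1)
    (ht : ∀ i : ℤ, ∀ y ∈ ({b.xl, b.xr, b.yb, b.yt} : Set ℝ), y ≠ i + tp ∧ y ≠ i - tp)
    (hia : 0 < ia) :
    ∃ δ₀ > 0, ∀ δ : ℝ, 0 < δ → δ < δ₀ → ∀ᶠ n : ℕ in atTop,
      (frD θ β p S₀ b tp ia ta).PicsJ (rowS θ) (rowF hc) true (JT hp (mks p b tp)) δ n := by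
  obtain ⟨g, hg0, hg, hg', hev⟩ := exists_dobN hp hD hN hb h0 h1 ht
  refine ⟨g / 512, by positivity, fun δ hδ hδ' => ?_⟩
  filter_upwards [hev g hg0 le_rfl δ hδ (by linarith)] with n hn
  exact pics_DJ hc hn (by linarith) hia

/-- **The pictures of the killed tips of the Dobrushin frames.** -/
theorem evD_pics [NeZero l] (hc : 0 ≤ Real.cos θ) (hp : IsPolygon p) (hD : Encloses p S₀)
    (hN : Nrm p) (hb : b.Ok S₀) (h0 : 0 < tp) (h1 : tp < 1)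
    (ht : ∀ i : ℤ, ∀ y ∈ ({b.xl, b.xr, b.yb, b.yt} : Set ℝ), y ≠ i + tp ∧ y ≠ i - tp)
    (hia : 0 < ia) :
    ∃ δ₀ > 0, ∀ δ : ℝ, 0 < δ → δ < δ₀ → ∀ᶠ n : ℕ in atTop,
      (frD θ β p S₀ b tp ia ta).Pics (rowS θ) (rowF hc) true δ n := by
  obtain ⟨g, hg0, hg, hg', hev⟩ := exists_dobN hp hD hN hb h0 h1 ht
  refine ⟨g / 512, by positivity, fun δ hδ hδ' => ?_⟩
  filter_upwards [hev g hg0 le_rfl δ hδ (by linarith)] with n hn
  exact pics_D hc hn (by linarith) hia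

end Vale.Agent.P167.N.ID
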