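import Vale.Agent.P167.N.ID.PicsC
import Vale.Agent.P167.N.ID.FrmS
import Vale.Agent.P167.N.ID.RowF

/-!
# P167, `q < 1`, START (P2T): the pictures of the killed tips of the free and wired frames
-/

set_option autoImplicit false

namespace Vale.Agent.P167.N.ID

open Finset Filter Topology

open Vale.Agent.P167.E6 (IsPolygon Encloses dir face)
open Vale.Agent.P167.H825 (pdir Marks Box)
open Vale.Agent.P167.H825.Q (Bc)
open Vale.Agent.P167.H199 (Gap mks mks_ok Gen exists_Gap)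
open Vale.Agent.P167.H662 (hsite)
open Vale.Agent.P167.H680.T (uI mem_uI)
open Vale.Agent.P167.Enl (sW eW mem_rowP vp oz vz frmQ mem_frmQ iB jB iB_lt jB_le nm_tri nm_sub_comm
  hsite_far gn_big)

variable {l : ℕ} {p : ZMod l → ℤ × ℤ} {n : ℕ} {S₀ : Finset (ℤ × ℤ)} {θ β : ℝ} {b : Box}
  {tp : ℝ} {bc : Bc} {g δ : ℝ}

/-- The radius of the box around the tip. -/
theorem rho_le (hδ : 0 < δ) : 0 ≤ ⌊δ * n / 16⌋ ∧ 16 * ⌊δ * n / 16⌋ ≤ (⌊δ * n⌋₊ : ℤ) := by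
  have hn0 : (0 : ℝ) ≤ δ * n := by positivity
  refine ⟨Int.floor_nonneg.2 (by positivity), ?_⟩
  rw [Int.natCast_floor_eq_floor hn0]
  refine Int.le_floor.2 ?_
  have := Int.floor_le (δ * n / 16)
  push_cast
  linarith

/-- Pictures at different holes are disjoint. -/
theorem Pic.disj {U J U' J' : Finset (ℤ × ℤ)} {r r' : Row} {z z' : ℤ × ℤ} {d ρ : ℤ}
    {t t' : TipD} (h : Pic U J r z d ρ t) (h' : Pic U' J' r' z' d ρ t')
    (hz : 12 * d < nm (z - z')) : Disjoint (t.W d ρ) (t'.W d ρ) := by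
  rw [Finset.disjoint_left]
  intro v hv hv'
  have h1 := h.2 v hv
  have h2 := h'.2 v hv'
  have h3 := nm_tri z v z'
  rw [nm_sub_comm z v] at h3
  omega

/-- The row before a mark is another row. -/
theorem iBjB_ne (hl : 2 ≤ l) {Q : Marks} (x : Fin l × Fin (Q.m + 1)) :
    ((⟨iB l x, iB_lt x⟩, ⟨jB x, Nat.lt_succ_of_le (jB_le x)⟩) : Fin l × Fin (Q.m + 1)) ≠ x := by
  intro h
  have h1 := congrArg (fun y => (y.1 : ℕ)) h
  have h2 := congrArg (fun y => (y.2 : ℕ)) h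
  change iB l x = x.1 at h1
  change jB x = x.2 at h2
  have := x.1.2
  unfold iB at h1
  unfold jB at h2
  split_ifs at h1 h2 <;> omega

/-- The marks of a polygon are far from each other. -/
theorem marks_far {Q : Marks} (hp : IsPolygon p) (hQ : Q.Ok) (hg : Gap Q l g)
    (hδg : 512 * δ ≤ g) (hn : 16 ≤ δ * n) {x y : Fin l × Fin (Q.m + 1)} (hxy : x ≠ y) :
    (12 * ⌊δ * n⌋₊ : ℤ) < nm (hsite p Q n x - hsite p Q n y) := by
  have hl : 0 < l := by have := hp.1; omega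
  have hn0 : (0 : ℝ) ≤ n := Nat.cast_nonneg n
  have hδ : 0 < δ := by
    by_contra hc
    push Not at hc
    nlinarith
  obtain ⟨b1, b2, b3, b4, b5⟩ := gn_big hQ hg (by linarith : 4 * δ ≤ g) hn hl
  have hκ : ∀ i < l, ∀ j ≤ Q.m, g ≤ Q.θ i (j + 1) - Q.θ i j :=
    fun i hi j hj => by linarith [hg.1 i hi j hj]
  have h1 := hsite_far (n := n) (Q := Q) hQ hκ hp b3 hxy
  have h2 : (⌊δ * n⌋₊ : ℝ) ≤ δ * n := Nat.floor_le (by positivity)
  have h3 : 512 * δ * n ≤ g * n := mul_le_mul_of_nonneg_right hδg hn0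
  have h4 : ((12 * ⌊δ * n⌋₊ : ℤ) : ℝ) < nm (hsite p Q n x - hsite p Q n y) := by
    push_cast
    linarith
  exact_mod_cast h4

/-- **The pictures of the killed tips of the free and wired frames**, one scale. -/
theorem pics_P [NeZero l] (hc : 0 ≤ Real.cos θ) (hp : IsPolygon p) (hD : Encloses p S₀)
    (hQ : (mks p b tp).Ok) (hg : Gap (mks p b tp) l g) (hδ : 0 < δ) (hδg : 512 * δ ≤ g)
    (hn : 16 ≤ δ * n) :
    (frP θ β p S₀ b tp bc).Pics (rowS θ) (rowF hc) true δ n := by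
  obtain ⟨ρ0, ρ1⟩ := rho_le (n := n) hδ
  have hl : 2 ≤ l := by have := hp.1; omega
  have hU : ∀ v ∈ (frP θ β p S₀ b tp bc).U (rowS θ) δ n, v ∈ frmQ p (mks p b tp) n ⌊δ * n⌋₊ := by
    intro v hv
    obtain ⟨i, hi⟩ := mem_uI.1 hv
    have hi' : v ∈ (frowJ θ β p (mks p b tp) n ⌊δ * n⌋₊ (tP p n tp bc) bc (fun _ => true) 0 1
      i.1 i.2).I := hi
    rw [frowJ_I, shp_I] at hi'
    obtain ⟨σ, h1, h2, rfl⟩ := mem_rowP.1 hi'
    exact mem_frmQ.2 ⟨i, σ, h1, h2, rfl⟩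
  have key : ∀ x : Fin l × Fin 3, ∃ t', Pic ((frP θ β p S₀ b tp bc).U (rowS θ) δ n)
      (frowJ θ β p (mks p b tp) n ⌊δ * n⌋₊ (tP p n tp bc) bc (fun _ => true) 0 1
        (iB l (m := (mks p b tp).m) x) (jB (m := (mks p b tp).m) x)).I
      (frowJ θ β p (mks p b tp) n ⌊δ * n⌋₊ (tP p n tp bc) bc (fun _ => true) 0 1 x.1 x.2)
      (hsite p (mks p b tp) n x) ⌊δ * n⌋₊ ⌊δ * n / 16⌋ t' := fun x =>
    pic_aft (Q := mks p b tp) (Js := fun _ => true) hp hD hQ hg hδ (by linarith) hn x ρ1 ρ0 rfl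
      fun v hv _ => hU v hv
  choose t ht using key
  refine ⟨t, fun x => (⟨iB l (m := (mks p b tp).m) x, iB_lt (Q := mks p b tp) x⟩,
    ⟨jB (m := (mks p b tp).m) x, Nat.lt_succ_of_le (jB_le (Q := mks p b tp) x)⟩),
    fun x => ⟨iBjB_ne hl (Q := mks p b tp) x, (ht x).1⟩, fun x y hxy => ?_⟩
  exact (ht x).disj (ht y) (marks_far hp hQ hg hδg hn hxy)

/-- **The pictures of the killed tips of the free and wired frames.** -/
theorem evP_pics [NeZero l] (hc : 0 ≤ Real.cos θ) (hp : IsPolygon p) (hD : Encloses p S₀)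
    (hb : b.Ok S₀) (h0 : 0 < tp) (h1 : tp < 1)
    (ht : ∀ i : ℤ, ∀ y ∈ ({b.xl, b.xr, b.yb, b.yt} : Set ℝ), y ≠ i + tp ∧ y ≠ i - tp) :
    ∃ δ₀ > 0, ∀ δ : ℝ, 0 < δ → δ < δ₀ → ∀ᶠ n : ℕ in atTop,
      (frP θ β p S₀ b tp bc).Pics (rowS θ) (rowF hc) true δ n := by
  have hQ := mks_ok p ⟨hb.gx, hb.gy⟩ h0 h1 ht
  obtain ⟨g, hg0, hg⟩ := exists_Gap hQ l
  refine ⟨g / 512, by positivity, fun δ hδ hδ' => ?_⟩
  have ev : ∀ᶠ n : ℕ in atTop, 16 ≤ δ * n :=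
    (tendsto_natCast_atTop_atTop.const_mul_atTop hδ).eventually_ge_atTop 16
  filter_upwards [ev] with n hn
  exact pics_P hc hp hD hQ hg hδ (by linarith) hn

end Vale.Agent.P167.N.ID
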