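import Vale.Agent.P167.N.ID.WinS
import Vale.Agent.P167.N.ID.L2B

/-!
# P167, block ID: the killed strands at the holes

* `HolKr`: the windows at a hole, with related killed pairs.
* `HoleN.holKr`: the holes with two rows.
* `FrS.KilHd`: a loop with the factor zero in the box of a hole has a strand with the weight zero with
  both ends on the same row, or with both ends regular end sides.
* `frP_kilH`, `frD_kilH`: the two families of frames, without the vertex with the spoke.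
-/

set_option autoImplicit false

namespace Vale.Agent.P167.N.ID

open Finset Filter Topology
open Vale.Agent.P167 Vale.Agent.P167.N
open Vale.Agent.P167.BR
open Vale.Agent.P167.Top
open Vale.Agent.P167.FK
open Vale.Agent.P167.H871
open Vale.Agent.P167.H871.Q
open Vale.Agent.P167.A (plane)
open Vale.Agent.P167.E6 (IsPolygon Encloses dir)
open Vale.Agent.P167.H825 (pdir ptau enl Box Marks)
open Vale.Agent.P167.H825.Q (Bc)
open Vale.Agent.P167.H662 (hsite)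
open Vale.Agent.P167.H199 (mks mks_ok Gap exists_Gap c0)
open Vale.Agent.P167.XDL (bS mem_bS)
open Vale.Agent.P167.H680.T (uI mem_uI WCG)
open Vale.Agent.P167.H680.S (nxt nxt_mem)
open Vale.Agent.P167.QX (returns_loop fLp wS)
open Vale.Agent.P167.Enl

/-- **The windows at a hole, with related killed pairs.** -/
def HolKr (θ : ℝ) (K : Finset (ℤ × ℤ)) (EE : Set Ed) (a : Ed → Bool → ℝ) (h : ℤ × ℤ) (ρ : ℤ)
    (b : Bool) (Rel : ℤ × ℤ → ℤ × ℤ → Prop) : Prop :=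
  ∀ v, v ∉ K → v ∈ Bq h ρ → ∃ w : WinD, w.Ok θ K EE a ∧ v ∈ w.D ∧ (∀ u ∈ Bq h ρ, u ∈ w.V) ∧
    (∀ u ∈ K, u ∈ Bq h ρ → u ∈ w.C) ∧ w.σ = (if b then -1 else 1) ∧ (∀ j, ¬ w.Z j) ∧ w.KR Rel

/-- **A loop with the factor zero in the box of a hole** has a strand with the weight zero, with both
ends on a row with its killed end at the hole, or with both ends regular end sides. -/
def FrS.KilHd (Φ : FrS Row) (θ δ : ℝ) (n : ℕ) (R : ℤ) (x : Φ.H) : Prop :=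
  ∀ ω : Cfg, Good ω → Φ.Frz (rowS θ) δ n ω → ∀ ℓ, IsLoop ω ℓ →
    (∀ y ∈ ℓ, hdv y ∈ Bq (Φ.h δ n x) R) → (∃ e ∈ bS (Φ.U (rowS θ) δ n), e ∈ ℓ) →
    fLp θ (Φ.U (rowS θ) δ n) (Φ.ph (rowS θ) δ n 0) ω ℓ = 0 →
    ∃ e ∈ exs (Φ.U (rowS θ) δ n) ℓ,
      wS θ (Φ.U (rowS θ) δ n) (Φ.ph (rowS θ) δ n 0) ω e = 0 ∧
      ((∃ i, (nm ((Φ.r δ n i).zt - Φ.h δ n x) : ℝ) ≤ 2 * δ * n ∧ tlv e ∈ (Φ.r δ n i).I ∧
          hdv (nxt (bS (Φ.U (rowS θ) δ n)) ω e) ∈ (Φ.r δ n i).I) ∨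
        (e ∈ EEr (Φ.r δ n) ∧ nxt (bS (Φ.U (rowS θ) δ n)) ω e ∈ EEr (Φ.r δ n)))

/-- **A loop with the factor zero in the box of a hole** has a strand with the weight zero, with both
ends on the same row, or with both ends regular end sides. -/
def FrS.KilH (Φ : FrS Row) (θ δ : ℝ) (n : ℕ) (R : ℤ) (x : Φ.H) : Prop :=
  ∀ ω : Cfg, Good ω → Φ.Frz (rowS θ) δ n ω → ∀ ℓ, IsLoop ω ℓ →
    (∀ y ∈ ℓ, hdv y ∈ Bq (Φ.h δ n x) R) → (∃ e ∈ bS (Φ.U (rowS θ) δ n), e ∈ ℓ) →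
    fLp θ (Φ.U (rowS θ) δ n) (Φ.ph (rowS θ) δ n 0) ω ℓ = 0 →
    ∃ e ∈ exs (Φ.U (rowS θ) δ n) ℓ,
      wS θ (Φ.U (rowS θ) δ n) (Φ.ph (rowS θ) δ n 0) ω e = 0 ∧
      ((∃ i, tlv e ∈ (Φ.r δ n i).I ∧
          hdv (nxt (bS (Φ.U (rowS θ) δ n)) ω e) ∈ (Φ.r δ n i).I) ∨
        (e ∈ EEr (Φ.r δ n) ∧ nxt (bS (Φ.U (rowS θ) δ n)) ω e ∈ EEr (Φ.r δ n)))

theorem FrS.KilHd.kilH {Φ : FrS Row} {θ δ : ℝ} {n : ℕ} {R : ℤ} {x : Φ.H}
    (h : Φ.KilHd θ δ n R x) : Φ.KilH θ δ n R x := by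
  intro ω hg hf ℓ h1 h2 h3 h4
  obtain ⟨e, he, hw, h5⟩ := h ω hg hf ℓ h1 h2 h3 h4
  exact ⟨e, he, hw, h5.imp (fun ⟨i, _, h6⟩ => ⟨i, h6⟩) id⟩

/-- From the windows with related killed pairs. -/
theorem FrS.KilHd.of_holKr {Φ : FrS Row} {θ δ : ℝ} {n : ℕ} {x : Φ.H} {R : ℤ}
    {Rel : ℤ × ℤ → ℤ × ℤ → Prop} (h0 : 0 < θ) (h1 : θ < Real.pi / 2)
    (h : HolKr θ (Φ.U (rowS θ) δ n) (EEr (Φ.r δ n)) (Φ.ph (rowS θ) δ n 0) (Φ.h δ n x) R
      (Φ.b δ n x) Rel)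
    (hc : ∀ ω, Φ.Frz (rowS θ) δ n ω → ∀ v ∈ Φ.U (rowS θ) δ n, v ∈ Bq (Φ.h δ n x) R →
      ω v = Φ.b δ n x)
    (hRel : ∀ u v, u ∈ Bq (Φ.h δ n x) R → v ∈ Bq (Φ.h δ n x) R → Rel u v →
      ∃ i, (nm ((Φ.r δ n i).zt - Φ.h δ n x) : ℝ) ≤ 2 * δ * n ∧ u ∈ (Φ.r δ n i).I ∧
        v ∈ (Φ.r δ n i).I) : Φ.KilHd θ δ n R x := by
  intro ω _ hf ℓ hl h2 h3 h4
  obtain ⟨e, he, hel⟩ := h3
  have hcos : 0 < Real.cos θ := Real.cos_pos_of_mem_Ioo ⟨by linarith, h1⟩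
  have hpre : ∀ e ∈ ℓ, tlv e ∈ Bq (Φ.h δ n x) R := by
    intro e he
    have hxi : e ∈ ℓ.image (nx ω) := by rw [hl.image]; exact he
    obtain ⟨y, hy, rfl⟩ := mem_image.1 hxi
    rw [tlv_nx]
    exact h2 y hy
  obtain ⟨y, hy, hyK⟩ : ∃ y ∈ ℓ, hdv y ∉ Φ.U (rowS θ) δ n := by
    rcases mem_bS.1 he with ⟨-, h4⟩ | ⟨h4, -⟩
    · have hxi : e ∈ ℓ.image (nx ω) := by rw [hl.image]; exact hel
      obtain ⟨y, hy, rfl⟩ := mem_image.1 hxi
      exact ⟨y, hy, by rwa [tlv_nx] at h4⟩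
    · exact ⟨e, hel, h4⟩
  obtain ⟨w, hw, hD, hV, hC, hσ, hZ, hK⟩ := h _ hyK (h2 y hy)
  have hv : w.Lv (Φ.U (rowS θ) δ n) ω ℓ :=
    ⟨hl, fun y hy => hV _ (h2 y hy), fun y hy hK => ⟨hC _ hK (h2 y hy), by
      rw [hc ω hf _ hK (h2 y hy), hσ]
      cases Φ.b δ n x <;> simp⟩, ⟨e, he, hel⟩, ⟨y, hy, hD⟩⟩
  rcases hw.loop h0 h1 hv with ⟨-, e', k1, k2, k3⟩ | ⟨r, q, k1, k2, k3⟩
  · refine ⟨e', k1, k2, ?_⟩
    rcases k3 with k3 | k3
    · left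
      obtain ⟨g1, g2, g3⟩ := mem_exs.1 k1
      have m1 := hpre e' g3
      have m2 := h2 _ (nxt_mem (S := bS (Φ.U (rowS θ) δ n)) hl g1 g3).2
      rcases hw.kil_rel hv k1 k3 hK with k4 | k4
      · exact hRel _ _ m1 m2 k4
      · obtain ⟨i, i0, i1, i2⟩ := hRel _ _ m2 m1 k4
        exact ⟨i, i0, i2, i1⟩
    · exact Or.inr k3
  · exfalso
    rw [k1] at h4
    have hq : 0 < q := by
      rcases k2 with rfl | ⟨rfl, -⟩
      · exact one_pos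
      · positivity
    have hp : 0 < ∏ e ∈ exs (Φ.U (rowS θ) δ n) ℓ, r e :=
      prod_pos fun e he => by linarith [(k3 e he).1]
    exact (mul_pos hq hp).ne' h4

/-! ### holes with two rows -/

section hole

variable {z : ℤ × ℤ} {d κ : ℤ} {A B R : ℕ} {P : ℕ → ℤ × ℤ} {U : ℕ → ℤ} {τ : ℤ} {θ c : ℝ}
  {mA mB : Bool} {K : Finset (ℤ × ℤ)} {EE : Set Ed} {a : Ed → Bool → ℝ}

/-- The two squares are in the row before the hole, of the type `-`, or in the row behind it, of the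
type `+`. -/
def RH (z : ℤ × ℤ) (d κ : ℤ) (A B R : ℕ) (mA mB : Bool) (u v : ℤ × ℤ) : Prop :=
  (mA = false ∧ u ∈ rA z d A R ∧ v ∈ rA z d A R) ∨
    (mB = true ∧ u ∈ rB z d κ B R ∧ v ∈ rB z d κ B R)

theorem wH_inA (hW : WinI κ A B R P U) {k : ℕ} (hk : k < 2 * A + 1) (hA : A < R)
    (hA1 : 1 ≤ A) :
    sqL (Ls z d (P k)) (U k + 4 + d - 1) ∈ rA z d A R := by
  show (Lq z d _).2 = -1 ∧ -(R : ℤ) ≤ (Lq z d _).1 ∧ (Lq z d _).1 < -R + A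
  rw [show U k + 4 + d - 1 = (U k + 3) + d by ring, Lq_sqL]
  rcases lt_trichotomy k A with h | h | h
  · rw [(hW.aD k h).1, (hW.aD k h).2]
    have e : sqL (-(R : ℤ) + k, 0) (0 + 3) = (-(R : ℤ) + k, 0 - 1) := by
      rw [zero_add]
      exact (sqL_e _ _).2.2.2.1
    rw [e]
    refine ⟨by norm_num, ?_, ?_⟩ <;> simp only <;> omega
  · subst h
    rw [hW.aE.1, hW.aE.2]
    have e : sqL (-(R : ℤ) + k, 0) (-1 + 3) = (-(R : ℤ) + k - 1, 0 - 1) := by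
      rw [show (-1 : ℤ) + 3 = 2 by norm_num]
      exact (sqL_e _ _).2.2.1
    rw [e]
    refine ⟨by norm_num, ?_, ?_⟩ <;> simp only <;> omega
  · obtain ⟨j, rfl⟩ : ∃ j, k = A + 1 + j := ⟨k - (A + 1), by omega⟩
    rw [(hW.aF j (by omega)).1, (hW.aF j (by omega)).2]
    have e : sqL (-(R : ℤ) + A - j, -1) (-2 + 3) = (-(R : ℤ) + A - j - 1, -1) := by
      rw [show (-2 : ℤ) + 3 = 1 by norm_num]
      exact (sqL_e _ _).2.1
    rw [e]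
    refine ⟨by norm_num, ?_, ?_⟩ <;> simp only <;> omega

theorem wH_inB (hW : WinI κ A B R P U) {k : ℕ} (h1 : tB κ A R ≤ k) (h2 : k < tB κ A R + 2 * B + 1)
    (hB1 : 1 ≤ B) : sqL (Ls z d (P k)) (U k + 4 + d - 1) ∈ rB z d κ B R := by
  show (Lq z (κ + d) _).2 = -1 ∧ (R : ℤ) - B ≤ (Lq z (κ + d) _).1 ∧ (Lq z (κ + d) _).1 < R
  rw [show U k + 4 + d - 1 = (U k + 3 - κ) + (κ + d) by ring]
  rcases lt_trichotomy k (tB κ A R + B) with h | h | h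
  · obtain ⟨j, rfl⟩ : ∃ j, k = tB κ A R + j := ⟨k - tB κ A R, by omega⟩
    rw [(hW.bF j (by omega)).1, (hW.bF j (by omega)).2, Ls_Ls, Lq_sqL]
    have e : sqL ((R : ℤ) - j, -1) (κ + 2 + 3 - κ) = ((R : ℤ) - j - 1, -1) := by
      rw [sqL_congr (d := κ + 2 + 3 - κ) (d' := 1) (by omega)]
      exact (sqL_e _ _).2.1
    rw [e]
    refine ⟨by norm_num, ?_, ?_⟩ <;> simp only <;> omega
  · subst h
    rw [hW.bE.1, hW.bE.2, Ls_Ls, Lq_sqL]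
    have e : sqL ((R : ℤ) - B, -1) (κ + 1 + 3 - κ) = ((R : ℤ) - B, -1) := by
      rw [sqL_congr (d := κ + 1 + 3 - κ) (d' := 0) (by omega)]
      exact (sqL_e _ _).1
    rw [e]
    refine ⟨by norm_num, ?_, ?_⟩ <;> simp only <;> omega
  · obtain ⟨j, rfl⟩ : ∃ j, k = tB κ A R + B + 1 + j := ⟨k - (tB κ A R + B + 1), by omega⟩
    rw [(hW.bD j (by omega)).1, (hW.bD j (by omega)).2, Ls_Ls, Lq_sqL]
    have e : sqL ((R : ℤ) - B + j, 0) (κ + 3 - κ) = ((R : ℤ) - B + j, 0 - 1) := by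
      rw [sqL_congr (d := κ + 3 - κ) (d' := 3) (by omega)]
      exact (sqL_e _ _).2.2.2.1
    rw [e]
    refine ⟨by norm_num, ?_, ?_⟩ <;> simp only <;> omega

/-- **The killed pairs of a hole with two rows** are on the same row. -/
theorem HoleN.kr (h : HoleN θ c τ z d κ A B R mA mB K EE a) (hm : ¬ (mA = false ∧ mB = true))
    (hb : Bd (RW κ A B R) (2 * A + 8 * R + 2 * B) P U 1) (hW : WinI κ A B R P U) :
    (wH θ c τ z d κ A B R mA mB P U).KR (RH z d κ A B R mA mB) := by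
  have hR : 2 ≤ R := by have := h.ltB; have := h.posB; omega
  obtain ⟨t1, t2⟩ := tB_bd κ A B R hR
  rintro i j ⟨i0, hi⟩ ⟨j0, hj⟩ hij hs
  obtain ⟨i, rfl⟩ : ∃ k, i = k + 1 := ⟨i - 1, by omega⟩
  obtain ⟨j, rfl⟩ : ∃ k, j = k + 1 := ⟨j - 1, by omega⟩
  rw [Nat.add_sub_cancel] at hi hj
  change sH τ z d κ A B R mA mB P (i + 1 - 1) - sH τ z d κ A B R mA mB P (j + 1 - 1) = -1 ∨
    sH τ z d κ A B R mA mB P (i + 1 - 1) - sH τ z d κ A B R mA mB P (j + 1 - 1) = 2 at hs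
  rw [Nat.add_sub_cancel, Nat.add_sub_cancel] at hs
  obtain ⟨e1, e2⟩ := wH_idx hb (by omega) (k := i + 1) (by omega)
  obtain ⟨e3, e4⟩ := wH_idx hb (by omega) (k := j + 1) (by omega)
  show RH z d κ A B R mA mB (sqL (Ls z d (P (i + 1 + (2 * A + 8 * R + 2 * B - 1))))
    (U (i + 1 + (2 * A + 8 * R + 2 * B - 1)) + d - 1))
    (sqL (Ls z d (P (j + 1 + (2 * A + 8 * R + 2 * B - 1))))
    (U (j + 1 + (2 * A + 8 * R + 2 * B - 1)) + d - 1))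
  rw [e1, e2, e3, e4, Nat.add_sub_cancel, Nat.add_sub_cancel]
  rcases hi with hi | ⟨hi, hi'⟩ <;> rcases hj with hj | ⟨hj, hj'⟩
  · refine Or.inl ⟨?_, wH_inA hW hi h.ltA h.posA, wH_inA hW hj h.ltA h.posA⟩
    obtain ⟨-, -, h5⟩ := sH_bdA (τ := τ) (z := z) (d := d) (κ := κ) (B := B) (R := R) (mA := mA)
      (mB := mB) (P := P) hi
    obtain ⟨-, -, h8⟩ := sH_bdA (τ := τ) (z := z) (d := d) (κ := κ) (B := B) (R := R) (mA := mA)
      (mB := mB) (P := P) hj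
    cases mA
    · rfl
    · have := h5 rfl
      have := h8 rfl
      omega
  · exfalso
    have h1 := sH_bdA (τ := τ) (z := z) (d := d) (κ := κ) (B := B) (R := R) (mA := mA) (mB := mB)
      (P := P) hi
    have h2 := sH_bdB (τ := τ) (z := z) (d := d) (κ := κ) (A := A) (B := B) (mA := mA)
      (mB := mB) (P := P) hR hj
    obtain ⟨h3, h4, h5⟩ := h1
    obtain ⟨h6, h7, h8⟩ := h2
    cases mA
    · cases mB
      · have := h8 rfl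
        omega
      · exact hm ⟨rfl, rfl⟩
    · have := h5 rfl
      omega
  · omega
  · refine Or.inr ⟨?_, wH_inB hW hi hi' h.posB, wH_inB hW hj hj' h.posB⟩
    obtain ⟨-, -, h5⟩ := sH_bdB (τ := τ) (z := z) (d := d) (κ := κ) (A := A) (B := B) (mA := mA)
      (mB := mB) (P := P) hR hi
    obtain ⟨-, -, h8⟩ := sH_bdB (τ := τ) (z := z) (d := d) (κ := κ) (A := A) (B := B) (mA := mA)
      (mB := mB) (P := P) hR hj
    cases mB
    · have := h5 rfl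
      have := h8 rfl
      omega
    · rfl

/-- **The windows of a hole with two rows**, with the killed pairs. -/
theorem HoleN.holKr {b : Bool} (h : HoleN θ c τ z d κ A B R mA mB K EE a)
    (hm : ¬ (mA = false ∧ mB = true)) (hb : b = decide (τ = -1)) :
    HolKr θ K EE a z R b (RH z d κ A B R mA mB) := by
  obtain ⟨P, U, hbd, hW⟩ := exists_win h.kap h.posA h.posB h.ltA h.ltB
  intro v hv hvB
  refine ⟨wH θ c τ z d κ A B R mA mB P U, h.ok hbd hW, ?_, fun u hu => mem_coe.2 hu,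
    fun u _ _ => trivial, ?_, fun _ => id, h.kr hm hbd hW⟩
  · by_contra h1
    exact hv (h.kb v hvB h1)
  · show τ = _
    subst hb
    rcases h.sg with rfl | rfl <;> simp

end hole

/-! ### the rows of a polygon near a mark -/

section rows

variable {l : ℕ} {p : ZMod l → ℤ × ℤ} {S₀ : Finset (ℤ × ℤ)} {Q : Marks} {n t : ℕ} {g δ : ℝ}

/-- The squares in the row before a mark. -/
theorem rA_row (hp : IsPolygon p) (hD : Encloses p S₀) (hQ : Q.Ok) (hg : Gap Q l g) (hδ : 0 < δ)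
    (hδg : 4 * δ ≤ g) (hn : 16 ≤ δ * n) {R : ℕ} (hR2 : (2 * R : ℝ) + 10 < g * n)
    (ht : t < n) {x : Fin l × Fin (Q.m + 1)} {v : ℤ × ℤ}
    (hv : v ∈ rA (hsite p Q n x) (uBt p n t Q x) (R - gB p n Q ⌊δ * n⌋₊ x) R) :
    v ∈ (shp p Q n ⌊δ * n⌋₊ (iB l x) (jB x)).I := by
  obtain ⟨⟨p1, p2, p3⟩, ⟨p4, p5, p6⟩⟩ := row_pos (p := p) hQ hg hδ hδg hn x
  obtain ⟨q1, q2⟩ := rows_long (p := p) hQ hg hδ hδg hn (R := R) (by linarith) x
  have hd1 : 16 ≤ ⌊δ * n⌋₊ := Nat.le_floor (by push_cast; linarith)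
  have huB := uBt_mod (p := p) hp hD hQ ht x
  have hPB := pB_le (n := n) hQ x
  obtain ⟨h1, h2, h3⟩ := hv
  rw [shp_I, Enl.mem_rowP]
  refine ⟨((Lq (hsite p Q n x) (uBt p n t Q x) v).1 + pB n Q x).toNat, by omega, by omega, ?_⟩
  apply Lq_inj (z := hsite p Q n x) (u := uBt p n t Q x)
  have LB : ∀ σ : ℤ, Lq (hsite p Q n x) (uBt p n t Q x) (Enl.op p n (iB l x) σ) =
      (σ - pB n Q x, -1) := fun σ => by
    rw [← vp_pB hp hQ x]
    exact Lq_oz huB _ _ _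
  rw [LB]
  ext
  · show _ = (((Lq (hsite p Q n x) (uBt p n t Q x) v).1 + pB n Q x).toNat : ℤ) - pB n Q x
    omega
  · exact h1

/-- The squares in the row behind a mark. -/
theorem rB_row (hp : IsPolygon p) (hD : Encloses p S₀) (hQ : Q.Ok) (hg : Gap Q l g) (hδ : 0 < δ)
    (hδg : 4 * δ ≤ g) (hn : 16 ≤ δ * n) {R : ℕ} (hR2 : (2 * R : ℝ) + 10 < g * n)
    (ht : t < n) {x : Fin l × Fin (Q.m + 1)} {v : ℤ × ℤ}
    (hv : v ∈ rB (hsite p Q n x) (uBt p n t Q x) (uAt p n t Q x - uBt p n t Q x)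
      (R - gA p n Q ⌊δ * n⌋₊ x) R) :
    v ∈ (shp p Q n ⌊δ * n⌋₊ x.1 x.2).I := by
  obtain ⟨⟨p1, p2, p3⟩, ⟨p4, p5, p6⟩⟩ := row_pos (p := p) hQ hg hδ hδg hn x
  obtain ⟨q1, q2⟩ := rows_long (p := p) hQ hg hδ hδg hn (R := R) (by linarith) x
  have hd1 : 16 ≤ ⌊δ * n⌋₊ := Nat.le_floor (by push_cast; linarith)
  have hn' : 0 < n := by omega
  have huA := uAt_mod (p := p) hp hD ht x (Enl.pA_lt hQ hn' x)
  have hcancel : uAt p n t Q x - uBt p n t Q x + uBt p n t Q x = uAt p n t Q x := by ring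
  obtain ⟨h1, h2, h3⟩ := hv
  rw [hcancel] at h1 h2 h3
  rw [shp_I, Enl.mem_rowP]
  refine ⟨((Lq (hsite p Q n x) (uAt p n t Q x) v).1 + pA n Q x).toNat, by omega, by omega, ?_⟩
  apply Lq_inj (z := hsite p Q n x) (u := uAt p n t Q x)
  have LA : ∀ σ : ℤ, Lq (hsite p Q n x) (uAt p n t Q x) (Enl.op p n x.1 σ) =
      (σ - pA n Q x, -1) := fun σ => by
    rw [← vp_pA]
    exact Lq_oz huA _ _ _
  rw [LA]
  ext
  · show _ = (((Lq (hsite p Q n x) (uAt p n t Q x) v).1 + pA n Q x).toNat : ℤ) - pA n Q x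
    omega
  · exact h1

end rows

/-! ### the killed ends -/

section zt

variable {θ : ℝ} {J : Bool} {z : ℤ × ℤ} {r : Fin 4} {s e jp : ℕ} {F T : ℕ → ℝ}

/-- **The killed end of a row along a side**: the first one for `J = true`, the last one for
`J = false`. -/
theorem srowJ_zt (h : s < e) : nm ((srowJ θ J z r s e jp F T).zt -
    H825.Q.osq z r (if J then s else e - 1)) ≤ 1 := by
  have key : ∀ σ, s ≤ σ → σ < e → (srowJ θ J z r s e jp F T).sq (Enl.idx r s e σ) =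
      H825.Q.osq z r σ := fun σ h1 h2 => H825.Q.srow_sq z r _ _ h1 h2
  have k1 := key s le_rfl h
  have k2 := key (e - 1) (by omega) (by omega)
  have hL := srowJ_L θ J z r s e jp F T
  have n1 := fun b => (srowJ θ J z r s e jp F T).near_st b 0
  have n2 := fun b => (srowJ θ J z r s e jp F T).near_st' b (k := (srowJ θ J z r s e jp F T).L)
    (by omega)
  rw [show (srowJ θ J z r s e jp F T).L - 1 = e - s - 1 by omega] at n2
  unfold Row.zt Row.ke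
  rw [srowJ_p]
  have i1 : (r = 0 ∨ r = 1) → Enl.idx r s e s = 0 ∧ Enl.idx r s e (e - 1) = e - s - 1 := by
    intro hr
    unfold Enl.idx
    rw [if_pos hr, if_pos hr]
    omega
  have i2 : ¬ (r = 0 ∨ r = 1) → Enl.idx r s e s = e - s - 1 ∧ Enl.idx r s e (e - 1) = 0 := by
    intro hr
    unfold Enl.idx
    rw [if_neg hr, if_neg hr]
    omega
  by_cases hr : r = 0 ∨ r = 1
  · obtain ⟨h1, h2⟩ := i1 hr
    rw [h1] at k1
    rw [h2] at k2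
    rw [if_pos hr]
    cases J
    · simp only [Bool.not_false, if_true, Bool.false_eq_true, if_false]
      rw [← k2]
      exact n2 _
    · simp only [Bool.not_true, if_true, Bool.false_eq_true, if_false]
      rw [← k1]
      exact n1 _
  · obtain ⟨h1, h2⟩ := i2 hr
    rw [h1] at k1
    rw [h2] at k2
    rw [if_neg hr]
    cases J
    · simp only [Bool.false_eq_true, if_false]
      rw [← k2]
      exact n1 _
    · simp only [if_true]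
      rw [← k1]
      exact n2 _

end zt

section ztp

variable {l : ℕ} {p : ZMod l → ℤ × ℤ} {S₀ : Finset (ℤ × ℤ)} {Q : Marks} {bc : Bc} {t n : ℕ}
  {θ β C c g δ : ℝ} {J : ℕ → Bool}

/-- The killed end of the row behind a mark. -/
theorem frowJ_ztB (hQ : Q.Ok) (hg : Gap Q l g) (hδ : 0 < δ) (hδg : 4 * δ ≤ g) (hn : 16 ≤ δ * n)
    (x : Fin l × Fin (Q.m + 1)) (hJ : J x.1 = true) :
    (nm ((frowJ θ β p Q n ⌊δ * n⌋₊ t bc J C c x.1 x.2).zt - hsite p Q n x) : ℝ) ≤ 2 * δ * n := by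
  have hse := (rb_of (p := p) hQ hg hδ hδg hn x.1.2 (j := x.2) (by omega)).se
  obtain ⟨-, ⟨p4, p5, p6⟩⟩ := row_pos (p := p) hQ hg hδ hδg hn x
  have h1 : nm ((frowJ θ β p Q n ⌊δ * n⌋₊ t bc J C c x.1 x.2).zt -
      Enl.op p n x.1 ((if J x.1 then sW p n Q ⌊δ * n⌋₊ x.1 x.2 else
        eW p n Q ⌊δ * n⌋₊ x.1 x.2 - 1 : ℕ) : ℤ)) ≤ 1 := srowJ_zt hse
  rw [if_pos hJ] at h1
  have h2 := op_near (p := p) (n := n) x.1 ((sW p n Q ⌊δ * n⌋₊ x.1 x.2 : ℕ) : ℤ)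
  have h3 : nm (vp p n x.1 ((sW p n Q ⌊δ * n⌋₊ x.1 x.2 : ℕ) : ℤ) - hsite p Q n x) ≤
      (⌊δ * n⌋₊ : ℤ) + 1 := by
    rw [← vp_pA, vp_same, abs_le]
    omega
  have h4 := nm_tri (frowJ θ β p Q n ⌊δ * n⌋₊ t bc J C c x.1 x.2).zt
    (Enl.op p n x.1 ((sW p n Q ⌊δ * n⌋₊ x.1 x.2 : ℕ) : ℤ)) (hsite p Q n x)
  have h5 := nm_tri (Enl.op p n x.1 ((sW p n Q ⌊δ * n⌋₊ x.1 x.2 : ℕ) : ℤ))
    (vp p n x.1 ((sW p n Q ⌊δ * n⌋₊ x.1 x.2 : ℕ) : ℤ)) (hsite p Q n x)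
  have h6 : nm ((frowJ θ β p Q n ⌊δ * n⌋₊ t bc J C c x.1 x.2).zt - hsite p Q n x) ≤
      (⌊δ * n⌋₊ : ℤ) + 3 := by omega
  have h7 : (nm ((frowJ θ β p Q n ⌊δ * n⌋₊ t bc J C c x.1 x.2).zt - hsite p Q n x) : ℝ) ≤
      (⌊δ * n⌋₊ : ℝ) + 3 := by exact_mod_cast h6
  have h8 : (⌊δ * n⌋₊ : ℝ) ≤ δ * n := Nat.floor_le (by linarith)
  linarith

/-- The killed end of the row before a mark. -/
theorem frowJ_ztA (hp : IsPolygon p) (hQ : Q.Ok) (hg : Gap Q l g) (hδ : 0 < δ)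
    (hδg : 4 * δ ≤ g) (hn : 16 ≤ δ * n) (x : Fin l × Fin (Q.m + 1)) (hJ : J (iB l x) = false) :
    (nm ((frowJ θ β p Q n ⌊δ * n⌋₊ t bc J C c (iB l x) (jB x)).zt - hsite p Q n x) : ℝ) ≤
      2 * δ * n := by
  have hjB := jB_le x
  have hse := (rb_of (p := p) hQ hg hδ hδg hn (iB_lt x) (j := jB x) (by omega)).se
  obtain ⟨⟨p1, p2, p3⟩, -⟩ := row_pos (p := p) hQ hg hδ hδg hn x
  have h1 : nm ((frowJ θ β p Q n ⌊δ * n⌋₊ t bc J C c (iB l x) (jB x)).zt -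
      Enl.op p n (iB l x) ((if J (iB l x) then sW p n Q ⌊δ * n⌋₊ (iB l x) (jB x) else
        eW p n Q ⌊δ * n⌋₊ (iB l x) (jB x) - 1 : ℕ) : ℤ)) ≤ 1 := srowJ_zt hse
  rw [if_neg (by rw [hJ]; decide)] at h1
  have h2 := op_near (p := p) (n := n) (iB l x)
    ((eW p n Q ⌊δ * n⌋₊ (iB l x) (jB x) - 1 : ℕ) : ℤ)
  have h3 : nm (vp p n (iB l x) ((eW p n Q ⌊δ * n⌋₊ (iB l x) (jB x) - 1 : ℕ) : ℤ) -
      hsite p Q n x) ≤ (⌊δ * n⌋₊ : ℤ) + 1 := by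
    rw [← vp_pB hp hQ x, vp_same, abs_le]
    omega
  have h4 := nm_tri (frowJ θ β p Q n ⌊δ * n⌋₊ t bc J C c (iB l x) (jB x)).zt
    (Enl.op p n (iB l x) ((eW p n Q ⌊δ * n⌋₊ (iB l x) (jB x) - 1 : ℕ) : ℤ)) (hsite p Q n x)
  have h5 := nm_tri (Enl.op p n (iB l x) ((eW p n Q ⌊δ * n⌋₊ (iB l x) (jB x) - 1 : ℕ) : ℤ))
    (vp p n (iB l x) ((eW p n Q ⌊δ * n⌋₊ (iB l x) (jB x) - 1 : ℕ) : ℤ)) (hsite p Q n x)
  have h6 : nm ((frowJ θ β p Q n ⌊δ * n⌋₊ t bc J C c (iB l x) (jB x)).zt - hsite p Q n x) ≤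
      (⌊δ * n⌋₊ : ℤ) + 3 := by omega
  have h7 : (nm ((frowJ θ β p Q n ⌊δ * n⌋₊ t bc J C c (iB l x) (jB x)).zt -
      hsite p Q n x) : ℝ) ≤ (⌊δ * n⌋₊ : ℝ) + 3 := by exact_mod_cast h6
  have h8 : (⌊δ * n⌋₊ : ℝ) ≤ δ * n := Nat.floor_le (by linarith)
  linarith

end ztp

/-! ### the frames -/

section frames

variable {l : ℕ} {θ β : ℝ} {p : ZMod l → ℤ × ℤ} {S₀ : Finset (ℤ × ℤ)} {b : Box} {tp : ℝ} {bc : Bc}
  {n : ℕ} {g δ : ℝ} {ia : ℕ} {ta : ℝ}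

/-- **The killed strands at the holes of the free and wired frames.** -/
theorem kilP_d [NeZero l] (h0 : 0 < θ) (h1 : θ < Real.pi / 2) (hp : IsPolygon p)
    (hD : Encloses p S₀) (hN : Nrm p) (hQ : (mks p b tp).Ok) (hbc : bc = .free ∨ bc = .wired)
    (hbg : BGap l (mks p b tp) g bc) (hg : Gap (mks p b tp) l g) (hδ : 0 < δ) (hδg : 4 * δ ≤ g)
    (hn : 16 ≤ δ * n) {R : ℕ} (hR1 : ⌊δ * n⌋₊ + 3 ≤ R) (hR2 : (R : ℝ) + 2 < g / 16 * n)
    (x : (frP θ β p S₀ b tp bc).H) : (frP θ β p S₀ b tp bc).KilHd θ δ n R x := by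
  have hl : 0 < l := Nat.pos_of_ne_zero (NeZero.ne l)
  obtain ⟨b1, b2, b3, b4, b5⟩ := Enl.gn_big hQ hg hδg hn hl
  have e16 : g / 16 * n = g * n / 16 := by ring
  have ht : tP p n tp bc < n := tP_lt hQ hg hδg hn
  change Fin l × Fin 3 at x
  have hI : ∀ y : Fin l × Fin 3, (rP θ β p b tp bc n ⌊δ * n⌋₊ y).I =
      (shp p (mks p b tp) n ⌊δ * n⌋₊ y.1 y.2).I := fun y => frowJ_I
  refine FrS.KilHd.of_holKr h0 h1 ((holeP hp hD hN hQ hbc (bc_ok (by linarith) hbg) hg hδ hδg hn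
    hR1 (by linarith) x).holKr (by simp) (wcJ_tz (Q := mks p b tp) x)) ?_ ?_
  · intro ω hf v hv hvB
    obtain ⟨i, hi⟩ := mem_uI.1 hv
    rw [hf i v hi, colP hp hD hQ hg hbg hδ hδg hn x i v hi ?_]
    have h1 : (nm (v - (frP θ β p S₀ b tp bc).h δ n x) : ℝ) ≤ R := by exact_mod_cast mem_Bq' hvB
    linarith
  · rintro u v - - (⟨k0, k1, k2⟩ | ⟨-, k1, k2⟩)
    · exact absurd k0 (by simp)
    · refine ⟨x, ?_, ?_, ?_⟩
      · exact frowJ_ztB (J := fun _ => true) hQ hg hδ hδg hn x rfl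
      · change u ∈ (rP θ β p b tp bc n ⌊δ * n⌋₊ _).I
        rw [hI]
        exact rB_row hp hD hQ hg hδ hδg hn (by linarith) ht k1
      · change v ∈ (rP θ β p b tp bc n ⌊δ * n⌋₊ _).I
        rw [hI]
        exact rB_row hp hD hQ hg hδ hδg hn (by linarith) ht k2

/-- **The killed strands at the marks of the domain of the Dobrushin frames**, except the one with
the spoke. -/
theorem kilD_d [NeZero l] (h0 : 0 < θ) (h1 : θ < Real.pi / 2) (H : DobN p S₀ b tp g δ n)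
    (hbg : BGap l (mks p b tp) g (.dob ia ta)) {R : ℕ} (hR1 : ⌊δ * n⌋₊ + 3 ≤ R)
    (hR2 : (R : ℝ) + 2 < g / 16 * n) (x : Fin l × Fin 3) (hx : x ≠ xT H.hp (mks p b tp)) :
    (frD θ β p S₀ b tp ia ta).KilHd θ δ n R (.inl x) := by
  have ht : ⌊tp * n⌋₊ < n := tP_lt (bc := .dob ia ta) H.hQ H.hg H.hδg H.hn
  obtain ⟨b1, b3, b5, b6, b7⟩ := H.basic
  have e16 : g / 16 * n = g * n / 16 := by ring
  have hI : ∀ y : Fin l × Fin 3, (rD θ β p b tp ia ta n ⌊δ * n⌋₊ (.inl y)).I =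
      (shp p (mks p b tp) n ⌊δ * n⌋₊ y.1 y.2).I := fun y => rowD_I _
  refine FrS.KilHd.of_holKr h0 h1 ((holeD H hbg hR1 hR2 x hx).holKr
    (JD_mark H.hp (Q := mks p b tp) x hx) (wcJ_tz (Q := mks p b tp) x)) ?_ ?_
  · intro ω hf v hv hvB
    obtain ⟨i, hi⟩ := mem_uI.1 hv
    rw [hf i v hi, colD H hbg (.inl x) i v hi ?_]
    have h1 : (nm (v - (frD θ β p S₀ b tp ia ta).h δ n (.inl x)) : ℝ) ≤ R := by
      exact_mod_cast mem_Bq' hvB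
    linarith
  · rintro u v - - (⟨k0, k1, k2⟩ | ⟨k0, k1, k2⟩)
    · have hj : jB x < 3 := by
        have := jB_le (Q := mks p b tp) x
        change jB x ≤ 2 at this
        omega
      refine ⟨.inl ((⟨iB l x, iB_lt (Q := mks p b tp) x⟩, ⟨jB x, hj⟩) : Fin l × Fin 3), ?_, ?_, ?_⟩
      · exact frowJ_ztA (J := JD p ia) H.hp H.hQ H.hg H.hδ H.hδg H.hn x k0
      · change u ∈ (rD θ β p b tp ia ta n ⌊δ * n⌋₊ _).I
        rw [hI]
        exact rA_row H.hp H.hD H.hQ H.hg H.hδ H.hδg H.hn (by linarith) ht k1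
      · change v ∈ (rD θ β p b tp ia ta n ⌊δ * n⌋₊ _).I
        rw [hI]
        exact rA_row H.hp H.hD H.hQ H.hg H.hδ H.hδg H.hn (by linarith) ht k2
    · refine ⟨.inl x, ?_, ?_, ?_⟩
      · exact frowJ_ztB (J := JD p ia) H.hQ H.hg H.hδ H.hδg H.hn x k0
      · change u ∈ (rD θ β p b tp ia ta n ⌊δ * n⌋₊ _).I
        rw [hI]
        exact rB_row H.hp H.hD H.hQ H.hg H.hδ H.hδg H.hn (by linarith) ht k1
      · change v ∈ (rD θ β p b tp ia ta n ⌊δ * n⌋₊ _).I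
        rw [hI]
        exact rB_row H.hp H.hD H.hQ H.hg H.hδ H.hδg H.hn (by linarith) ht k2

/-- **The killed strands at the marks of the box of the Dobrushin frames.** -/
theorem kilB_d [NeZero l] (h0 : 0 < θ) (h1 : θ < Real.pi / 2) (H : DobN p S₀ b tp g δ n)
    (hbg : BGap l (mks p b tp) g (.dob ia ta)) {R : ℕ} (hR1 : ⌊δ * n⌋₊ + 3 ≤ R)
    (hR2 : (R : ℝ) + 2 < g / 16 * n) (x : Fin 4 × Fin 3) :
    (frD θ β p S₀ b tp ia ta).KilHd θ δ n R (.inr (.inl x)) := by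
  obtain ⟨b1, b3, b5, b6, b7⟩ := H.basic
  obtain ⟨c1, c2, c3, c4⟩ := H.box
  have e16 : g / 16 * n = g * n / 16 := by ring
  have hNn : 0 < bM p * n := Nat.mul_pos (DobN.hM (p := p)) b5
  have ht : tG pQ (bM p * n) (tqB (bQ b (bM p))) (cT p ia) < bM p * n :=
    t_lt H.hQ' H.hg' c2 c3 (tG_le pQ (bM p * n) (tqB (bQ b (bM p))) (cT p ia)).2
  have hgN : g * n ≤ g * ((bM p * n : ℕ) : ℝ) := by
    refine mul_le_mul_of_nonneg_left ?_ b6.le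
    exact_mod_cast Nat.le_mul_of_pos_left n (DobN.hM (p := p))
  have hI : ∀ y : Fin 4 × Fin 3, (rD θ β p b tp ia ta n ⌊δ * n⌋₊ (.inr (.inl y))).I =
      (shp pQ (mksQ p b) (bM p * n) ⌊δ * n⌋₊ y.1 y.2).I := fun y => rowD_I _
  have hB : ∀ {v}, v ∈ rB (hsite pQ (mksQ p b) (bM p * n) x)
      (uBt pQ (bM p * n) (tG pQ (bM p * n) (tqB (bQ b (bM p))) (cT p ia)) (mksQ p b) x)
      (uAt pQ (bM p * n) (tG pQ (bM p * n) (tqB (bQ b (bM p))) (cT p ia)) (mksQ p b) x -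
        uBt pQ (bM p * n) (tG pQ (bM p * n) (tqB (bQ b (bM p))) (cT p ia)) (mksQ p b) x)
      (R - gA pQ (bM p * n) (mksQ p b) ⌊δ * n⌋₊ x) R →
      v ∈ (shp pQ (mksQ p b) (bM p * n) ⌊δ * n⌋₊ x.1 x.2).I := by
    intro v hv
    have h := rB_row (R := R) (v := v) (x := x) pQ_poly pQ_encl H.hQ' H.hg' c1 c2 c3
      (by linarith) ht (by rw [c4]; exact hv)
    rw [c4] at h
    exact h
  refine FrS.KilHd.of_holKr h0 h1 ((holeB H hR1 hR2 x).holKr (by simp) ?_) ?_ ?_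
  · show decide (cT p ia = -1) = _
    have h1 := kOf_lt x.1.2 (pA_lt H.hQ' hNn x) ht
    have h2 : H825.Q.stτ (Bc.free.ka 4 (bM p * n)
        (tG pQ (bM p * n) (tqB (bQ b (bM p))) (cT p ia)))
        (kOf 4 (bM p * n) (tG pQ (bM p * n) (tqB (bQ b (bM p))) (cT p ia)) x.1
          (pA (bM p * n) (mksQ p b) x)) = 1 := if_pos h1
    rw [h2, mul_one]
    rcases cT_or p ia with h | h <;> rw [h] <;> unfold tz
    · rw [if_pos rfl]
      norm_num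
    · rw [if_neg (by norm_num)]
      norm_num
  · intro ω hf v hv hvB
    obtain ⟨i, hi⟩ := mem_uI.1 hv
    rw [hf i v hi, colD H hbg (.inr (.inl x)) i v hi ?_]
    have h1 : (nm (v - (frD θ β p S₀ b tp ia ta).h δ n (.inr (.inl x))) : ℝ) ≤ R := by
      exact_mod_cast mem_Bq' hvB
    linarith
  · rintro u v - - (⟨k0, k1, k2⟩ | ⟨-, k1, k2⟩)
    · exact absurd k0 (by simp)
    · refine ⟨.inr (.inl x), ?_, ?_, ?_⟩
      · have h := frowJ_ztB (θ := θ) (β := β) (bc := .free) (p := pQ)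
          (t := tG pQ (bM p * n) (tqB (bQ b (bM p))) (cT p ia))
          (J := fun _ => true) (C := CQ θ β p ia) (c := cT p ia) H.hQ' H.hg' c1 c2 c3 x rfl
        rw [c4] at h
        have e1 : 2 * (δ / bM p) * ((bM p * n : ℕ) : ℝ) = 2 * δ * n := by
          have hM : (1 : ℝ) ≤ bM p := by exact_mod_cast DobN.hM (p := p)
          push_cast
          field_simp
        rw [e1] at h
        exact h
      · change u ∈ (rD θ β p b tp ia ta n ⌊δ * n⌋₊ _).I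
        rw [hI]
        exact hB k1
      · change v ∈ (rD θ β p b tp ia ta n ⌊δ * n⌋₊ _).I
        rw [hI]
        exact hB k2

/-- **The killed strands at the foot of the spoke.** -/
theorem kilF_d [NeZero l] (h0 : 0 < θ) (h1 : θ < Real.pi / 2) (H : DobN p S₀ b tp g δ n)
    (hbg : BGap l (mks p b tp) g (.dob ia ta)) {R : ℕ} (hR1 : ⌊δ * n⌋₊ + 3 ≤ R)
    (hR2 : (R : ℝ) + 3 ≤ g / 16 * n) :
    (frD θ β p S₀ b tp ia ta).KilHd θ δ n R (.inr (.inr ())) := by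
  have hh : (frD θ β p S₀ b tp ia ta).h δ n (.inr (.inr ())) = ftD p n := rfl
  have hbb : (frD θ β p S₀ b tp ia ta).b δ n (.inr (.inr ())) = decide (cT p ia = -1) := rfl
  refine FrS.KilHd.of_holKr (Rel := RF (ftD p n) (R + 1 - ⌊δ * n⌋₊) R) h0 h1 ?_ ?_ ?_
  · rw [hh, hbb]
    intro v hv hvB
    rcases lt_or_ge v.2 (-1) with h3 | h3
    · obtain ⟨w, w1, w2, w3, w4, w5, w6, w7⟩ := H.winFb (θ := θ) (β := β) (ia := ia) (ta := ta)
        (R := R + 1) (by push_cast; linarith) (by omega)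
      have e1 : (((R + 1 : ℕ) : ℤ) - 1) = (R : ℤ) := by push_cast; ring
      rw [e1] at w4 w5
      refine ⟨w, w1, w3 v h3 (Bq_subW (by push_cast; omega) hvB), w4, fun u hu => w5 u hu, ?_, w6,
        w7.mono fun _ _ h => h.elim⟩
      rw [w2, sgn_T99]
    · have h4 : v.2 ≠ -1 := fun h5 =>
        hv ((H.mem_F (R := R) (by linarith) hvB).2 (Or.inl h5))
      obtain ⟨w, w1, w2, w3, w4, w5, w6, w7⟩ := H.winF (θ := θ) (β := β) (ia := ia) (ta := ta)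
        (R := R) (by push_cast; linarith) (by omega)
      refine ⟨w, w1, w3 v hv (by omega) hvB, w4, fun u hu => w5 u hu, ?_, w6, w7⟩
      rw [w2, sgn_T99]
  · intro ω hf v hv hvB
    obtain ⟨i, hi⟩ := mem_uI.1 hv
    rw [hf i v hi, colD H hbg (.inr (.inr ())) i v hi ?_]
    have h1 : (nm (v - (frD θ β p S₀ b tp ia ta).h δ n (.inr (.inr ()))) : ℝ) ≤ R := by
      exact_mod_cast mem_Bq' hvB
    linarith
  · rintro u v hu hv ⟨⟨k1, k2⟩, ⟨k3, k4⟩⟩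
    have hI : (rD θ β p b tp ia ta n ⌊δ * n⌋₊ (.inr (.inr ()))).I = (spk p n ⌊δ * n⌋₊).I :=
      rowD_I _
    have hft : (ftD p n).1 = n * (p (iT p)).1 := rfl
    have hft2 : (ftD p n).2 = 0 := rfl
    obtain ⟨s1, s2⟩ := H.szR (R := R) (by linarith)
    have hY : 2 * (n : ℤ) ≤ n * (p (iT p)).2 := by
      have := (H.hN (iT p)).2
      nlinarith
    rw [hh] at hu hv
    have m1 := mem_bq'.1 hu
    have m2 := mem_bq'.1 hv
    refine ⟨.inr (.inr ()), ?_, ?_, ?_⟩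
    · have hst : (rD θ β p b tp ia ta n ⌊δ * n⌋₊ (.inr (.inr ()))).zt =
          ((n : ℤ) * (p (iT p)).1 + (if (rD θ β p b tp ia ta n ⌊δ * n⌋₊ (.inr (.inr ()))).gc
            false then 1 else 0), (⌊δ * n⌋₊ : ℤ) + (0 : ℕ)) := rfl
      rw [hh]
      change (nm ((rD θ β p b tp ia ta n ⌊δ * n⌋₊ (.inr (.inr ()))).zt - ftD p n) : ℝ) ≤ _
      rw [hst]
      have h3 : nm (((n : ℤ) * (p (iT p)).1 +
          (if (rD θ β p b tp ia ta n ⌊δ * n⌋₊ (.inr (.inr ()))).gc false then 1 else 0),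
            (⌊δ * n⌋₊ : ℤ) + (0 : ℕ)) - ftD p n) ≤ (⌊δ * n⌋₊ : ℤ) + 3 := by
        unfold ftD
        rw [nm_le_iff]
        split_ifs <;> simp only [Prod.mk_sub_mk] <;> omega
      generalize nm (((n : ℤ) * (p (iT p)).1 +
          (if (rD θ β p b tp ia ta n ⌊δ * n⌋₊ (.inr (.inr ()))).gc false then 1 else 0),
            (⌊δ * n⌋₊ : ℤ) + (0 : ℕ)) - ftD p n) = m at h3 ⊢
      have h4 : (m : ℝ) ≤ (⌊δ * n⌋₊ : ℝ) + 3 := by exact_mod_cast h3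
      have h5 : (⌊δ * n⌋₊ : ℝ) ≤ δ * n := Nat.floor_le (by linarith [H.hn])
      linarith [H.hn]
    · change u ∈ (rD θ β p b tp ia ta n ⌊δ * n⌋₊ _).I
      rw [hI, mem_spk]
      omega
    · change v ∈ (rD θ β p b tp ia ta n ⌊δ * n⌋₊ _).I
      rw [hI, mem_spk]
      omega

/-- **The killed strands at the holes of the Dobrushin frames**, except the vertex with the spoke. -/
theorem kilDs_d [NeZero l] (h0 : 0 < θ) (h1 : θ < Real.pi / 2) (H : DobN p S₀ b tp g δ n)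
    (hbg : BGap l (mks p b tp) g (.dob ia ta)) {R : ℕ} (hR1 : ⌊δ * n⌋₊ + 3 ≤ R)
    (hR2 : (R : ℝ) + 3 ≤ g / 16 * n) (x : (frD θ β p S₀ b tp ia ta).H)
    (hx : x ≠ .inl (xT H.hp (mks p b tp))) : (frD θ β p S₀ b tp ia ta).KilHd θ δ n R x := by
  rcases x with x | x | ⟨⟩
  · exact kilD_d h0 h1 H hbg hR1 (by linarith) x fun h => hx (by rw [h])
  · exact kilB_d h0 h1 H hbg hR1 (by linarith) x
  · exact kilF_d h0 h1 H hbg hR1 hR2

/-! ### all scales -/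

/-- **The killed strands at the holes of the free and wired frames**, all scales. -/
theorem frP_kilHd [NeZero l] (hθ : 0 < θ) (hθ' : θ < Real.pi / 2) (hp : IsPolygon p)
    (hD : Encloses p S₀) (hN : Nrm p) (hb : b.Ok S₀) (h0 : 0 < tp) (h1 : tp < 1)
    (ht : ∀ i : ℤ, ∀ y ∈ ({b.xl, b.xr, b.yb, b.yt} : Set ℝ), y ≠ i + tp ∧ y ≠ i - tp)
    (hbc : bc.Ok l (mks p b tp)) (hbc' : bc = .free ∨ bc = .wired) :
    ∃ κ₁ δ₀ : ℝ, 0 < κ₁ ∧ 0 < δ₀ ∧ ∀ δ : ℝ, 0 < δ → δ < δ₀ → ∀ᶠ n : ℕ in atTop,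
      ∀ x, (frP θ β p S₀ b tp bc).KilHd θ δ n ⌊κ₁ * n⌋ x := by
  have hgen : H199.Gen b := ⟨hb.gx, hb.gy⟩
  have hQ := mks_ok p hgen h0 h1 ht
  obtain ⟨g1, hg1, hG⟩ := exists_Gap hQ l
  obtain ⟨g2, hg2, hB⟩ := exists_BGap hbc
  set g := min g1 g2 with hgdef
  have hg0 : 0 < g := lt_min hg1 hg2
  have hG' : Gap (mks p b tp) l g := hG.mono (min_le_left _ _)
  have hB' : BGap l (mks p b tp) g bc := hB.mono (min_le_right _ _)
  refine ⟨g / 32, g / 64, by positivity, by positivity, fun δ hδ hδ' => ?_⟩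
  filter_upwards [scales hg0 hδ hδ'] with n hn x
  obtain ⟨n1, n2, n3, n4⟩ := hn
  rw [n4]
  exact kilP_d hθ hθ' hp hD hN hQ hbc' hB' hG' hδ (by linarith) n1 (by omega) n3 x

/-- **The killed strands at the holes of the Dobrushin frames**, all scales, except the vertex with
the spoke. -/
theorem frD_kilHd [NeZero l] (hθ : 0 < θ) (hθ' : θ < Real.pi / 2) (hp : IsPolygon p)
    (hD : Encloses p S₀) (hN : Nrm p) (hb : b.Ok S₀) (h0 : 0 < tp) (h1 : tp < 1)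
    (ht : ∀ i : ℤ, ∀ y ∈ ({b.xl, b.xr, b.yb, b.yt} : Set ℝ), y ≠ i + tp ∧ y ≠ i - tp)
    (hbc : (Bc.dob ia ta).Ok l (mks p b tp)) :
    ∃ κ₁ δ₀ : ℝ, 0 < κ₁ ∧ 0 < δ₀ ∧ ∀ δ : ℝ, 0 < δ → δ < δ₀ → ∀ᶠ n : ℕ in atTop,
      ∀ x, x ≠ .inl (xT hp (mks p b tp)) →
        (frD θ β p S₀ b tp ia ta).KilHd θ δ n ⌊κ₁ * n⌋ x := by
  obtain ⟨g, hg, hB, hH⟩ := scales_D hp hD hN hb h0 h1 ht hbc
  refine ⟨g / 32, g / 64, by positivity, by positivity, fun δ hδ hδ' => ?_⟩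
  filter_upwards [hH δ hδ hδ'] with n hn x hx
  obtain ⟨n1, n2, n3, n4⟩ := hn
  rw [n4]
  exact kilDs_d hθ hθ' n1 hB (by omega) n3 x hx

/-! ### without the distance -/

/-- **The killed strands at the holes of the free and wired frames.** -/
theorem kilP [NeZero l] (h0 : 0 < θ) (h1 : θ < Real.pi / 2) (hp : IsPolygon p)
    (hD : Encloses p S₀) (hN : Nrm p) (hQ : (mks p b tp).Ok) (hbc : bc = .free ∨ bc = .wired)
    (hbg : BGap l (mks p b tp) g bc) (hg : Gap (mks p b tp) l g) (hδ : 0 < δ) (hδg : 4 * δ ≤ g)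
    (hn : 16 ≤ δ * n) {R : ℕ} (hR1 : ⌊δ * n⌋₊ + 3 ≤ R) (hR2 : (R : ℝ) + 2 < g / 16 * n)
    (x : (frP θ β p S₀ b tp bc).H) : (frP θ β p S₀ b tp bc).KilH θ δ n R x :=
  (kilP_d h0 h1 hp hD hN hQ hbc hbg hg hδ hδg hn hR1 hR2 x).kilH

/-- **The killed strands at the holes of the Dobrushin frames**, except the vertex with the spoke. -/
theorem kilDs [NeZero l] (h0 : 0 < θ) (h1 : θ < Real.pi / 2) (H : DobN p S₀ b tp g δ n)
    (hbg : BGap l (mks p b tp) g (.dob ia ta)) {R : ℕ} (hR1 : ⌊δ * n⌋₊ + 3 ≤ R)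
    (hR2 : (R : ℝ) + 3 ≤ g / 16 * n) (x : (frD θ β p S₀ b tp ia ta).H)
    (hx : x ≠ .inl (xT H.hp (mks p b tp))) : (frD θ β p S₀ b tp ia ta).KilH θ δ n R x :=
  (kilDs_d h0 h1 H hbg hR1 hR2 x hx).kilH

/-- **The killed strands at the holes of the free and wired frames**, all scales. -/
theorem frP_kilH [NeZero l] (hθ : 0 < θ) (hθ' : θ < Real.pi / 2) (hp : IsPolygon p)
    (hD : Encloses p S₀) (hN : Nrm p) (hb : b.Ok S₀) (h0 : 0 < tp) (h1 : tp < 1)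
    (ht : ∀ i : ℤ, ∀ y ∈ ({b.xl, b.xr, b.yb, b.yt} : Set ℝ), y ≠ i + tp ∧ y ≠ i - tp)
    (hbc : bc.Ok l (mks p b tp)) (hbc' : bc = .free ∨ bc = .wired) :
    ∃ κ₁ δ₀ : ℝ, 0 < κ₁ ∧ 0 < δ₀ ∧ ∀ δ : ℝ, 0 < δ → δ < δ₀ → ∀ᶠ n : ℕ in atTop,
      ∀ x, (frP θ β p S₀ b tp bc).KilH θ δ n ⌊κ₁ * n⌋ x := by
  obtain ⟨κ₁, δ₀, k1, k2, h⟩ := frP_kilHd (θ := θ) (β := β) hθ hθ' hp hD hN hb h0 h1 ht hbc hbc'
  exact ⟨κ₁, δ₀, k1, k2, fun δ d1 d2 => (h δ d1 d2).mono fun n hn x => (hn x).kilH⟩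

/-- **The killed strands at the holes of the Dobrushin frames**, all scales, except the vertex with
the spoke. -/
theorem frD_kilH [NeZero l] (hθ : 0 < θ) (hθ' : θ < Real.pi / 2) (hp : IsPolygon p)
    (hD : Encloses p S₀) (hN : Nrm p) (hb : b.Ok S₀) (h0 : 0 < tp) (h1 : tp < 1)
    (ht : ∀ i : ℤ, ∀ y ∈ ({b.xl, b.xr, b.yb, b.yt} : Set ℝ), y ≠ i + tp ∧ y ≠ i - tp)
    (hbc : (Bc.dob ia ta).Ok l (mks p b tp)) :
    ∃ κ₁ δ₀ : ℝ, 0 < κ₁ ∧ 0 < δ₀ ∧ ∀ δ : ℝ, 0 < δ → δ < δ₀ → ∀ᶠ n : ℕ in atTop,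
      ∀ x, x ≠ .inl (xT hp (mks p b tp)) →
        (frD θ β p S₀ b tp ia ta).KilH θ δ n ⌊κ₁ * n⌋ x := by
  obtain ⟨κ₁, δ₀, k1, k2, h⟩ := frD_kilHd (θ := θ) (β := β) hθ hθ' hp hD hN hb h0 h1 ht hbc
  exact ⟨κ₁, δ₀, k1, k2, fun δ d1 d2 => (h δ d1 d2).mono fun n hn x hx => (hn x hx).kilH⟩

end frames

end Vale.Agent.P167.N.ID
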