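import Vale.Agent.P167.N.ID.P2Te
import Vale.Agent.P167.N.ID.PicsG
import Vale.Agent.P167.N.ID.PicsP
import Vale.Agent.P167.N.ID.WinKil
import Vale.Agent.P167.N.ID.MixD
import Vale.Agent.P167.QB.FactC

/-!
# P167, `q < 1`, START (P2T): the two families of frames

* `frP_picK`, `frD_picK`: the pictures and the killed strands.
* `frP_p2t`, `frD_p2t`: **(P2T)**.
-/

set_option autoImplicit false

namespace Vale.Agent.P167.N.ID

open Finset Filter Topology MeasureTheory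
open Vale.Agent.P167 Vale.Agent.P167.N
open Vale.Agent.P167.FK (Bq Good)
open Vale.Agent.P167.E6 (IsPolygon Encloses)
open Vale.Agent.P167.H825 (Box Marks)
open Vale.Agent.P167.H825.Q (Bc)
open Vale.Agent.P167.H519 (IsLim)
open Vale.Agent.P167.H199 (mks mks_ok Gap exists_Gap)
open Vale.Agent.P167.Enl (BGap exists_BGap)
open Vale.Agent.P167.QB (gB)
open Vale.Agent.P167.H262 (Rsq mem_Rsq)

variable {l : ℕ} {θ β : ℝ} {p : ZMod l → ℤ × ℤ} {S₀ : Finset (ℤ × ℤ)} {b : Box} {tp : ℝ} {bc : Bc}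
  {n : ℕ} {g δ : ℝ} {ia : ℕ} {ta : ℝ} {P : Measure Cfg}

/-- The killed strands at a hole. -/
theorem FrS.KilH.kilZ {Φ : FrS Row} {R : ℤ} {x : Φ.H} (h : Φ.KilH θ δ n R x) {ω : Cfg}
    (hω : Good ω) (hf : Φ.Frz (rowS θ) δ n ω) : Φ.KilZ θ δ n R x ω := by
  intro ℓ h1 h2 h3 h4
  obtain ⟨e, he, hw, hc⟩ := h ω hω hf ℓ h1 h2 h3 h4
  refine ⟨e, he, hw, ?_⟩
  rcases hc with ⟨i, k1, k2⟩ | hc
  · exact Or.inl ⟨i, k1, k2⟩
  · exact Or.inr hc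

/-- A box with at least 16 squares. -/
theorem floor_big (hn : 16 ≤ δ * n) {R : ℕ} (hR : 16 * ⌊δ * n⌋₊ ≤ R) : ⌊δ * n⌋₊ + 3 ≤ R := by
  have : 16 ≤ ⌊δ * n⌋₊ := Nat.le_floor (by push_cast; linarith)
  omega

/-- The squares of a picture are near the tip. -/
theorem TipD.Ok.W_near {t : TipD} {U I J : Finset (ℤ × ℤ)} {z : ℤ × ℤ} {d ρ : ℤ}
    (h : t.Ok U I J z d ρ) (h1 : 16 * ρ ≤ d) (h2 : 16 ≤ d) {v : ℤ × ℤ} (hv : v ∈ t.W d ρ) :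
    v ∈ Bq z (4 * d) := by
  obtain ⟨w, hw, rfl⟩ := mem_image.1 hv
  have ha := h.na
  have hb := h.nb
  rw [h.zt, ← Isom.Bq_V]
  refine mem_image_of_mem _ ?_
  rw [mem_bq']
  dsimp only
  have hz := h.ze
  rcases mem_union.1 hw with hw | hw
  · have h3 := mem_Rsq.1 (mem_filter.1 hw).1
    omega
  · unfold tubT at hw
    cases hk : t.k
    · rw [hk] at hw
      simp only [Bool.false_eq_true, if_false, mem_union, mem_Rsq] at hw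
      omega
    · rw [hk] at hw
      simp only [if_true, mem_union, mem_Rsq] at hw
      omega

/-- **The killed strands at the hole `T` of the Dobrushin frames.** -/
theorem kilZ_T [NeZero l] (h0 : 0 < θ) (h1 : θ < Real.pi / 2)
    (hβ : β = (θ - Real.pi) / 2 ∨ β = (Real.pi - 3 * θ) / 2) (H : DobN p S₀ b tp g δ n)
    (hbg : BGap l (mks p b tp) g (.dob ia ta)) {R : ℕ}
    (hR1 : 16 * ⌊δ * n⌋₊ ≤ R) (hR2 : (R : ℝ) + 3 ≤ g / 16 * n) {ω : Cfg}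
    (hf : (frD θ β p S₀ b tp ia ta).Frz (rowS θ) δ n ω)
    {t : IxD l → TipD} {J : IxD l → IxD l}
    (hOk : ∀ i, J i ≠ i ∧ (t i).Ok ((frD θ β p S₀ b tp ia ta).U (rowS θ) δ n)
      ((frD θ β p S₀ b tp ia ta).r δ n i).I ((frD θ β p S₀ b tp ia ta).r δ n (J i)).I
      ((frD θ β p S₀ b tp ia ta).r δ n i).zt ⌊δ * n⌋₊ ⌊δ * n / 16⌋)
    (hJ : JT H.hp (mks p b tp) J)
    (hZ : ∀ i, ω ∈ (t i).Z ((frD θ β p S₀ b tp ia ta).r δ n (J i)).I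
      ((frD θ β p S₀ b tp ia ta).r δ n i).zt ⌊δ * n⌋₊ ⌊δ * n / 16⌋) :
    (frD θ β p S₀ b tp ia ta).KilZ θ δ n R (.inl (xT H.hp (mks p b tp))) ω := by
  have hc : 0 ≤ Real.cos θ := (Real.cos_pos_of_mem_Ioo ⟨by linarith, h1⟩).le
  intro ℓ l1 l2 l3 l4
  have hn := H.hn
  have hd : 16 ≤ ⌊δ * n⌋₊ := Nat.le_floor (by push_cast; linarith)
  have hd1 : δ * n < ⌊δ * n⌋₊ + 1 := Nat.lt_floor_add_one _
  have hd2 : (⌊δ * n⌋₊ : ℝ) ≤ δ * n := Nat.floor_le (by linarith)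
  have hρ : 16 * ⌊δ * n / 16⌋ ≤ (⌊δ * n⌋₊ : ℤ) := by
    have h3 := Int.floor_le (δ * n / 16)
    have h4 : (16 * ⌊δ * n / 16⌋ : ℝ) < (⌊δ * n⌋₊ : ℝ) + 1 := by linarith
    have h5 : 16 * ⌊δ * n / 16⌋ < (⌊δ * n⌋₊ : ℤ) + 1 := by exact_mod_cast h4
    omega
  have hx := (hOk (.inl (xT H.hp (mks p b tp)))).2
  have hnz : nm (((frD θ β p S₀ b tp ia ta).r δ n (.inl (xT H.hp (mks p b tp)))).zt -
      (frD θ β p S₀ b tp ia ta).h δ n (.inl (xT H.hp (mks p b tp)))) ≤ 2 * ⌊δ * n⌋₊ + 1 := by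
    have h3 : (nm (((frD θ β p S₀ b tp ia ta).r δ n (.inl (xT H.hp (mks p b tp)))).zt -
      (frD θ β p S₀ b tp ia ta).h δ n (.inl (xT H.hp (mks p b tp)))) : ℝ) ≤ 2 * δ * n :=
      frowJ_ztB (J := JD p ia) H.hQ H.hg H.hδ H.hδg H.hn (xT H.hp (mks p b tp))
        (JD_xT H.hp hbg.1 (Q := mks p b tp)).1
    have h4 : (nm (((frD θ β p S₀ b tp ia ta).r δ n (.inl (xT H.hp (mks p b tp)))).zt -
      (frD θ β p S₀ b tp ia ta).h δ n (.inl (xT H.hp (mks p b tp)))) : ℝ) <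
        2 * ⌊δ * n⌋₊ + 2 := by linarith
    have h5 : nm (((frD θ β p S₀ b tp ia ta).r δ n (.inl (xT H.hp (mks p b tp)))).zt -
      (frD θ β p S₀ b tp ia ta).h δ n (.inl (xT H.hp (mks p b tp)))) <
        2 * ⌊δ * n⌋₊ + 2 := by exact_mod_cast h4
    omega
  have hG : ∀ v ∈ ((t (.inl (xT H.hp (mks p b tp)))).W ⌊δ * n⌋₊ ⌊δ * n / 16⌋ : Set (ℤ × ℤ)),
      v ∉ (frD θ β p S₀ b tp ia ta).U (rowS θ) δ n ∧
        v ∈ Bq ((frD θ β p S₀ b tp ia ta).h δ n (.inl (xT H.hp (mks p b tp)))) R := by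
    intro v hv
    refine ⟨fun h => Finset.disjoint_left.1 hx.free (mem_coe.1 hv) h, ?_⟩
    have h3 := hx.W_near hρ (by exact_mod_cast hd) (mem_coe.1 hv)
    rw [mem_bq'] at h3 ⊢
    rw [nm_le_iff] at hnz
    simp only [Prod.fst_sub, Prod.snd_sub] at hnz
    omega
  obtain ⟨u, hu, s, ⟨v, hv, hs⟩, hp⟩ := hZ (.inl (xT H.hp (mks p b tp)))
  rw [Set.mem_singleton_iff] at hu
  subst hu
  have hJ1 : J (.inl (xT H.hp (mks p b tp))) = .inr (.inr ()) := hJ.1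
  rw [hJ1] at hv
  obtain ⟨e, he, hw, i, -, k1, k2⟩ := H.kil_T hc h0 h1 hβ hbg (floor_big H.hn hR1)
    (by linarith) hf hG ⟨s, ⟨v, hv, hs⟩, hp⟩ l1 l2 l3 l4
  exact ⟨e, he, hw, Or.inl ⟨i, k1, k2⟩⟩

/-- The pictures and the killed strands of the free and wired frames. -/
theorem frP_picK [NeZero l] (h0 : 0 < θ) (h1 : θ < Real.pi / 2) (hp : IsPolygon p)
    (hD : Encloses p S₀) (hN : Nrm p) (hb : b.Ok S₀)
    (ht0 : 0 < tp) (ht1 : tp < 1)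
    (ht : ∀ i : ℤ, ∀ y ∈ ({b.xl, b.xr, b.yb, b.yt} : Set ℝ), y ≠ i + tp ∧ y ≠ i - tp)
    (hbc : bc.Ok l (mks p b tp)) (hbc' : bc = .free ∨ bc = .wired) :
    (frP θ β p S₀ b tp bc).PicK θ := by
  have hgen : H199.Gen b := ⟨hb.gx, hb.gy⟩
  have hQ := mks_ok p hgen ht0 ht1 ht
  obtain ⟨g1, hg1, hG⟩ := exists_Gap hQ l
  obtain ⟨g2, hg2, hB⟩ := exists_BGap hbc
  set g := min g1 g2 with hgdef
  have hg0 : 0 < g := lt_min hg1 hg2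
  have hG' : Gap (mks p b tp) l g := hG.mono (min_le_left _ _)
  have hB' : BGap l (mks p b tp) g bc := hB.mono (min_le_right _ _)
  have hc : 0 ≤ Real.cos θ := (Real.cos_pos_of_mem_Ioo ⟨by linarith, h1⟩).le
  refine ⟨g / 16, g / 512, by positivity, by positivity, fun δ hδ hδ' => ?_⟩
  have ev : ∀ᶠ n : ℕ in atTop, 16 ≤ δ * n :=
    (tendsto_natCast_atTop_atTop.const_mul_atTop hδ).eventually_ge_atTop 16
  filter_upwards [ev] with n hn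
  obtain ⟨t, J, hOk, hdis⟩ := pics_P (β := β) (bc := bc) hc hp hD hQ hG' hδ (by linarith) hn
  exact ⟨t, J, hOk, hdis, fun R hR1 hR2 ω hω hf _ x =>
    (kilP h0 h1 hp hD hN hQ hbc' hB' hG' hδ (by linarith) hn (floor_big hn hR1)
      (by linarith) x).kilZ hω hf⟩

/-- The pictures and the killed strands of the Dobrushin frames. -/
theorem frD_picK [NeZero l] (h0 : 0 < θ) (h1 : θ < Real.pi / 2)
    (hβ : β = (θ - Real.pi) / 2 ∨ β = (Real.pi - 3 * θ) / 2) (hp : IsPolygon p)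
    (hD : Encloses p S₀) (hN : Nrm p) (hb : b.Ok S₀)
    (ht0 : 0 < tp) (ht1 : tp < 1)
    (ht : ∀ i : ℤ, ∀ y ∈ ({b.xl, b.xr, b.yb, b.yt} : Set ℝ), y ≠ i + tp ∧ y ≠ i - tp)
    (hbc : (Bc.dob ia ta).Ok l (mks p b tp)) :
    (frD θ β p S₀ b tp ia ta).PicK θ := by
  have hc : 0 ≤ Real.cos θ := (Real.cos_pos_of_mem_Ioo ⟨by linarith, h1⟩).le
  obtain ⟨g1, hg1, hG, -, hH⟩ := exists_dobN hp hD hN hb ht0 ht1 ht
  obtain ⟨g2, hg2, hB⟩ := exists_BGap hbc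
  set g := min g1 g2 with hgdef
  have hg0 : 0 < g := lt_min hg1 hg2
  have hgg : g ≤ g1 := min_le_left _ _
  have hB' : BGap l (mks p b tp) g (.dob ia ta) := hB.mono (min_le_right _ _)
  refine ⟨g / 16, g / 512, by positivity, by positivity, fun δ hδ hδ' => ?_⟩
  filter_upwards [hH g hg0 hgg δ hδ (by linarith)] with n H
  obtain ⟨t, J, hOk, hdis, hJ⟩ := pics_DJ (β := β) (ta := ta) hc H (by linarith) hB'.1
  refine ⟨t, J, hOk, hdis, fun R hR1 hR2 ω hω hf hZ x => ?_⟩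
  by_cases hx : x = .inl (xT H.hp (mks p b tp))
  · subst hx
    exact kilZ_T h0 h1 hβ H hB' hR1 hR2 hf hOk hJ hZ
  · exact (kilDs h0 h1 H hB' (floor_big H.hn hR1) hR2 x hx).kilZ hω hf

/-- **(P2T) for the free and wired frames.** -/
theorem frP_p2t [NeZero l] {hθ : 0 ≤ Real.cos θ} (h0 : 0 < θ) (h1 : Ang θ)
    (hP : IsLim (2 * Real.cos θ) P) (hg : ∀ᵐ ω ∂P, Good ω)
    (hGeo : (frP θ β p S₀ b tp bc).Geo (rowS θ) (rowF hθ) {true} θ β p S₀) (hp : IsPolygon p)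
    (hD : Encloses p S₀) (hN : Nrm p) (hb : b.Ok S₀)
    (ht0 : 0 < tp) (ht1 : tp < 1)
    (ht : ∀ i : ℤ, ∀ y ∈ ({b.xl, b.xr, b.yb, b.yt} : Set ℝ), y ≠ i + tp ∧ y ≠ i - tp)
    (hbc : bc.Ok l (mks p b tp)) (hbc' : bc = .free ∨ bc = .wired) :
    (frP θ β p S₀ b tp bc).P2Tg (rowS θ) (rowF hθ) {true} θ P :=
  FrS.p2t_pic h0 h1 hP hg hGeo (frP_picK h0 h1.lt hp hD hN hb ht0 ht1 ht hbc hbc')

/-- **(P2T) for the Dobrushin frames.** -/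
theorem frD_p2t [NeZero l] {hθ : 0 ≤ Real.cos θ} (h0 : 0 < θ) (h1 : Ang θ)
    (hP : IsLim (2 * Real.cos θ) P) (hg : ∀ᵐ ω ∂P, Good ω)
    (hGeo : (frD θ (gB θ) p S₀ b tp ia ta).Geo (rowS θ) (rowF hθ) {true} θ (gB θ) p S₀)
    (hp : IsPolygon p) (hD : Encloses p S₀) (hN : Nrm p) (hb : b.Ok S₀)
    (ht0 : 0 < tp) (ht1 : tp < 1)
    (ht : ∀ i : ℤ, ∀ y ∈ ({b.xl, b.xr, b.yb, b.yt} : Set ℝ), y ≠ i + tp ∧ y ≠ i - tp)
    (hbc : (Bc.dob ia ta).Ok l (mks p b tp)) :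
    (frD θ (gB θ) p S₀ b tp ia ta).P2Tg (rowS θ) (rowF hθ) {true} θ P :=
  FrS.p2t_pic h0 h1 hP hg hGeo (frD_picK h0 h1.lt (Or.inl rfl) hp hD hN hb ht0 ht1 ht hbc)

end Vale.Agent.P167.N.ID
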