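import Vale.Agent.P167.H871.Q.AltB

/-!
# P167, `q < 1`: parity of the innermost excursion over a site of the contour

`q` is a lattice polygon around the finite set `I`, `Foot q I ω e i j`: the excursion of `e` off `I`
goes from the side `i` to the side `j` (`i < j`: it encloses primal sites, `j < i`: dual sites).
`par_inner`: if an excursion goes over the site `q m` and stays in `B`, then there is one inside of it
which goes over `q m` and whose inner sites have the parity of `q m`.
-/

set_option autoImplicit false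

namespace Vale.Agent.P167.N.ID

open Finset
open Vale.Agent.P167.FK
open Vale.Agent.P167.Top
open Vale.Agent.P167.E6 (IsPolygon Encloses)
open Vale.Agent.P167.H199 (strand ret Returns ret_min ret_le mem_strand loop_nx loop_iter)
open Vale.Agent.P167.BR (be be_even be_odd)
open Vale.Agent.P167.XDL (bS mem_bS exists_idx)
open Vale.Agent.P167.QX (exc mem_exc exc_last exc_ni exc_disj ExtPot out_stays returns_good
  exists_strand_loop in_stays)
open Vale.Agent.P167.H871
open Vale.Agent.P167.H871.Q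

variable {n : ℕ} {q : ZMod n → ℤ × ℤ} {I : Finset (ℤ × ℤ)} {u : ℕ → ℤ} {ω : Cfg}
  {B : Set (ℤ × ℤ)} {e e' x : Ed} {φ : ℤ × ℤ → ℤ} {σ : ℤ} {i j i' j' : ℕ}

/-- The parity of the sites alternates along the polygon. -/
theorem par_succ (hq : IsPolygon q) (hI : Encloses q I) (k : ℕ) :
    Even ((q ((k + 1 : ℕ) : ZMod n)).1 + (q ((k + 1 : ℕ) : ZMod n)).2) ↔
      ¬ Even ((q (k : ZMod n)).1 + (q (k : ZMod n)).2) := by
  rw [Nat.cast_succ]
  by_cases hp : Even ((q (k : ZMod n)).1 + (q (k : ZMod n)).2)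
  · refine iff_of_false ?_ (not_not.2 hp)
    rw [← (be_even hq hI hp).2.1]
    exact BR.odd_rs _
  · refine iff_of_true ?_ hp
    rw [← (be_odd hq hI hp).2.1]
    exact BR.even_ls _

/-- Two sites of the polygon have the same parity iff their numbers have the same parity. -/
theorem par_add (hq : IsPolygon q) (hI : Encloses q I) (k l : ℕ) :
    (Even ((q ((k + l : ℕ) : ZMod n)).1 + (q ((k + l : ℕ) : ZMod n)).2) ↔
      Even ((q (k : ZMod n)).1 + (q (k : ZMod n)).2)) ↔ Even l := by
  induction l with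
  | zero => simp
  | succ l ih =>
    rw [show k + (l + 1) = k + l + 1 by ring, par_succ hq hI, Nat.even_add_one]
    tauto

/-- The excursions are matched: in an interval of sides which is mapped into itself there are as many
leaving sides as entering sides. -/
theorem even_len (hq : IsPolygon q) (hI : Encloses q I)
    (hu : Bd (I : Set (ℤ × ℤ)) n (fun k => q (k : ZMod n)) u 1) (hg : Good ω) {lo m : ℕ}
    (hlm : lo ≤ m) (hmn : m ≤ n)
    (hin : ∀ e i j, Foot q I ω e i j → ((lo ≤ i ∧ i < m) ↔ (lo ≤ j ∧ j < m))) :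
    Even (m - lo) := by
  classical
  set O : Finset Ed := (bS I).filter fun e => hdv e ∉ I with hO
  have hfoot : ∀ e : Ed, ∃ i j, e ∈ O → Foot q I ω e i j := by
    intro e
    by_cases he : e ∈ O
    · obtain ⟨h1, h2⟩ := mem_filter.1 he
      have h3 : tlv e ∈ I := by
        rw [mem_bS] at h1
        rcases h1 with h | h
        · exact absurd h.1 h2
        · exact h.2
      obtain ⟨i, j, h⟩ := exists_foot hq hI hu (returns_good hg h1) h2 h3
      exact ⟨i, j, fun _ => h⟩
    · exact ⟨0, 0, fun h => absurd h he⟩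
  choose a b hab using hfoot
  have hmem : ∀ {e : Ed}, hdv e ∉ I → tlv e ∈ I → e ∈ O := fun h1 h2 =>
    mem_filter.2 ⟨mem_bS.2 (Or.inr ⟨h1, h2⟩), h1⟩
  have uniq : ∀ {e i j}, Foot q I ω e i j → e ∈ O ∧ a e = i ∧ b e = j := by
    intro e i j h
    have he := hmem h.out h.tl
    have h2 := hab e he
    refine ⟨he, ?_, ?_⟩
    · by_contra hne
      exact XDL.be_ne hq h2.hi h.hi hne (h2.e1.symm.trans h.e1)
    · by_contra hne
      exact XDL.be_ne hq h2.hj h.hj hne (h2.e2.symm.trans h.e2)
  have ainj : ∀ e ∈ O, ∀ e' ∈ O, a e = a e' → e = e' := by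
    intro e he e' he' h
    rw [(hab e he).e1, (hab e' he').e1, h]
  have binj : ∀ e ∈ O, ∀ e' ∈ O, b e = b e' → e = e' := by
    intro e he e' he' h
    by_contra hne
    have F := hab e he
    have F' := hab e' he'
    have h3 := exc_disj F.out F.tl F.rt F'.out F'.tl F'.rt hne F.mem_last
    rw [h] at h3
    exact h3 F'.mem_last
  set F : Finset ℕ := Ico lo m with hF
  have hFn : ∀ k ∈ F, k < n := fun k hk => by rw [hF, mem_Ico] at hk; omega
  have cA : (O.filter fun e => a e ∈ F).card =
      (F.filter fun k : ℕ => ¬ Even ((q (k : ZMod n)).1 + (q (k : ZMod n)).2)).card := by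
    refine card_bij (fun e _ => a e) (fun e he => ?_) (fun e he e' he' h => ?_) (fun k hk => ?_)
    · obtain ⟨h1, h2⟩ := mem_filter.1 he
      exact mem_filter.2 ⟨h2, (hab e h1).odd hq hI⟩
    · exact ainj e (mem_filter.1 he).1 e' (mem_filter.1 he').1 h
    · obtain ⟨h1, h2⟩ := mem_filter.1 hk
      obtain ⟨-, -, g3, g4⟩ := be_odd hq hI h2
      have he := hmem g4 g3
      have h3 : a (be q (k : ZMod n)) = k := by
        by_contra hne
        exact XDL.be_ne hq (hab _ he).hi (hFn k h1) hne (hab _ he).e1.symm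
      exact ⟨be q (k : ZMod n), mem_filter.2 ⟨he, by rw [h3]; exact h1⟩, h3⟩
  have cB : (O.filter fun e => b e ∈ F).card =
      (F.filter fun k : ℕ => Even ((q (k : ZMod n)).1 + (q (k : ZMod n)).2)).card := by
    refine card_bij (fun e _ => b e) (fun e he => ?_) (fun e he e' he' h => ?_) (fun k hk => ?_)
    · obtain ⟨h1, h2⟩ := mem_filter.1 he
      exact mem_filter.2 ⟨h2, (hab e h1).even hq hI⟩
    · exact binj e (mem_filter.1 he).1 e' (mem_filter.1 he').1 h
    · obtain ⟨h1, h2⟩ := mem_filter.1 hk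
      obtain ⟨-, -, g3, g4⟩ := be_even hq hI h2
      obtain ⟨e, e1, e2, e3, e4⟩ := exists_prev hg g3 g4
      obtain ⟨i, j, hf⟩ := exists_foot hq hI hu e3 e1 e2
      obtain ⟨h3, -, h4⟩ := uniq hf
      have h5 : j = k := by
        by_contra hne
        exact XDL.be_ne hq hf.hj (hFn k h1) hne (hf.e2.symm.trans e4)
      exact ⟨e, mem_filter.2 ⟨h3, by rw [h4, h5]; exact h1⟩, h4.trans h5⟩
  have hAB : (O.filter fun e => a e ∈ F) = O.filter fun e => b e ∈ F := by
    refine filter_congr fun e he => ?_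
    rw [hF, mem_Ico, mem_Ico]
    exact hin e _ _ (hab e he)
  rw [hAB, cB] at cA
  have h1 := sum_alt (s := fun k : ℕ => if Even ((q (k : ZMod n)).1 + (q (k : ZMod n)).2) then -1
    else 1) (fun k => by
      have := par_succ hq hI k
      by_cases hp : Even ((q (k : ZMod n)).1 + (q (k : ZMod n)).2)
      · rw [if_pos hp, if_neg (fun h => this.1 h hp), neg_neg]
      · rw [if_neg hp, if_pos (this.2 hp)]) hlm
  have h2 : ∑ k ∈ F, (if Even ((q (k : ZMod n)).1 + (q (k : ZMod n)).2) then (-1 : ℤ) else 1) =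
      ((F.filter fun k : ℕ => ¬ Even ((q (k : ZMod n)).1 + (q (k : ZMod n)).2)).card : ℤ) -
      (F.filter fun k : ℕ => Even ((q (k : ZMod n)).1 + (q (k : ZMod n)).2)).card := by
    rw [← sum_boole, ← sum_boole, ← sum_sub_distrib]
    refine sum_congr rfl fun k _ => ?_
    split_ifs <;> norm_num
  rw [← hF, h2, cA, sub_self, mul_zero] at h1
  obtain ⟨d, rfl⟩ := Nat.exists_eq_add_of_le hlm
  rw [Nat.add_sub_cancel_left, ← par_add hq hI lo d]
  split_ifs at h1 with g1 g2
  · exact iff_of_true g2 g1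
  · norm_num at h1
  · norm_num at h1
  · exact iff_of_false (by assumption) (by assumption)

/-- **Parity of the innermost excursion over a site.** -/
theorem par_inner (hq : IsPolygon q) (hI : Encloses q I)
    (hu : Bd (I : Set (ℤ × ℤ)) n (fun k => q (k : ZMod n)) u 1) (hg : Good ω) (hR : Rays I B)
    {v : ℤ × ℤ} (hv : v ∉ B) (hv0 : IsC v (q 0)) {m : ℕ} (hmn : m ≤ n)
    (F : Foot q I ω e i j) (hs : Stays I B ω e) (h1 : min i j < m) (h2 : m ≤ max i j) :
    ∃ e' i' j', Foot q I ω e' i' j' ∧ Stays I B ω e' ∧ min i j ≤ min i' j' ∧ min i' j' < m ∧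
      m ≤ max i' j' ∧ max i' j' ≤ max i j ∧
      (Even ((q (m : ZMod n)).1 + (q (m : ZMod n)).2) ↔ i' < j') := by
  classical
  -- the set of the lower feet
  set T : Set ℕ := {k | ∃ e' i' j', Foot q I ω e' i' j' ∧ Stays I B ω e' ∧ min i j ≤ min i' j' ∧
    min i' j' < m ∧ m ≤ max i' j' ∧ max i' j' ≤ max i j ∧ min i' j' = k} with hT
  have hne : T.Nonempty := ⟨_, e, i, j, F, hs, le_rfl, h1, h2, le_rfl, rfl⟩
  have hbd : BddAbove T := ⟨m, by rintro k ⟨e', i', j', -, -, -, h, -, -, rfl⟩; exact h.le⟩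
  obtain ⟨s, a, b, Fs, hst, g1, g2, g3, g4, g5⟩ := Nat.sSup_mem hne hbd
  refine ⟨s, a, b, Fs, hst, g1, g2, g3, g4, ?_⟩
  obtain ⟨i0, j0, φ, σ, -, -, -, -, -, hφ, -⟩ := exists_ext hq hI hu Fs.out Fs.tl Fs.rt
  have h0 : φ (q 0) = 0 := pot_off hR Fs.rt hst hφ hv hv0
  have key := even_len hq hI hu hg (lo := min a b + 1) (m := m) (by omega) hmn ?_
  · -- parities
    obtain ⟨d, hd⟩ := Nat.exists_eq_add_of_le (show min a b + 1 ≤ m by omega)
    rw [hd, Nat.add_sub_cancel_left, ← par_add hq hI (min a b + 1) d, ← hd] at key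
    rw [key, par_succ hq hI]
    have hab := Fs.ne hq hI
    rcases lt_or_gt_of_ne hab with h | h
    · rw [min_eq_left h.le]
      exact iff_of_true (Fs.odd hq hI) h
    · rw [min_eq_right h.le]
      exact iff_of_false (not_not.2 (Fs.even hq hI)) (by omega)
  · intro e' i' j' F'
    by_cases hes : s = e'
    · subst hes
      have e1 : i' = a := by
        by_contra hne'
        exact XDL.be_ne hq F'.hi Fs.hi hne' (F'.e1.symm.trans Fs.e1)
      have e2 : j' = b := by
        by_contra hne'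
        exact XDL.be_ne hq F'.hj Fs.hj hne' (F'.e2.symm.trans Fs.e2)
      subst e1 e2
      constructor <;> intro h <;> omega
    · have hins := inside hq hI hR Fs hst hφ h0 F' hes
      have hle : ∀ x y : ℕ, (x = i' ∧ y = j') ∨ (x = j' ∧ y = i') → min a b + 1 ≤ x → x < m →
          m ≤ y → False := by
        intro x y hxy k1 k2 k3
        obtain ⟨k4, k5, k6⟩ := hins (by rcases hxy with ⟨rfl, rfl⟩ | ⟨rfl, rfl⟩ <;> omega)
        have k7 : min i' j' ∈ T := ⟨e', i', j', F', k4, by omega, by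
          rcases hxy with ⟨rfl, rfl⟩ | ⟨rfl, rfl⟩ <;> omega, by
          rcases hxy with ⟨rfl, rfl⟩ | ⟨rfl, rfl⟩ <;> omega, by omega, rfl⟩
        have k8 := le_csSup hbd k7
        rw [← g5] at k8
        rcases hxy with ⟨rfl, rfl⟩ | ⟨rfl, rfl⟩ <;> omega
      constructor
      · rintro ⟨k1, k2⟩
        obtain ⟨-, k5, k6⟩ := hins (Or.inl (by omega))
        refine ⟨by omega, ?_⟩
        by_contra k3
        exact hle i' j' (Or.inl ⟨rfl, rfl⟩) k1 k2 (by omega)
      · rintro ⟨k1, k2⟩
        obtain ⟨-, k5, k6⟩ := hins (Or.inr (by omega))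
        refine ⟨by omega, ?_⟩
        by_contra k3
        exact hle j' i' (Or.inr ⟨rfl, rfl⟩) k1 k2 (by omega)

end Vale.Agent.P167.N.ID
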