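import Vale.Agent.P167.N.ID.PhA
import Vale.Agent.P167.N.ID.FrmC

/-!
# P167, `q < 1`, START: the phases of the steps of the cells, the rows of a polygon

* `pos_dec`, `kOf_dm`, `uN_W`: base numbering and corner numbering of the steps.
* `frame_vals`: the values of the rows of a polygon at the inner and outer faces, corner numbering.
* `cellD_lit`, `phsD`, `clrD`: the cell inside of a polygon.
-/

set_option autoImplicit false

namespace Vale.Agent.P167.N.ID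

open Finset
open Vale.Agent.P167.Top
open Vale.Agent.P167.H871
open Vale.Agent.P167.H871.Q
open Vale.Agent.P167.A (plane)
open Vale.Agent.P167.H199 (Gap ah at')
open Vale.Agent.P167.H825.Q (Bc stΦ stτ)
open Vale.Agent.P167.H680.T (WallG WCG sgb sq)
open Vale.Agent.P167.H398.Q (hB)
open Vale.Agent.P167.E6 (IsPolygon Encloses dir face)
open Vale.Agent.P167.H825 (pdir enl ptau Marks)
open Vale.Agent.P167.XDL (bS mem_bS)
open Vale.Agent.P167.BR (ce)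
open Vale.Agent.P167.Enl (sW eW tB tB_lt kOf uN qN PN bd_qN qN_nat pW uW pW_eq uW_eq pW_vp uW_same
  uW_mod vec_pred vp frmQ mem_frmQ sR eR row_dat row_num sR_num row_bds gn_big sqL_op)

variable {l : ℕ} {θ β : ℝ} {p : ZMod l → ℤ × ℤ} {S₀ : Finset (ℤ × ℤ)} {Q : Marks} {n t d : ℕ}
  {bc : Bc} {J : ℕ → Bool} {C c : ℝ} {g δ : ℝ}

/-! ### numberings -/

theorem ptau_per (hp : IsPolygon p) (hD : Encloses p S₀) (i : ℕ) :
    ptau p (i + l) = ptau p i + 4 := by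
  have h := (bd_qN one_pos hp hD (t := 0) one_pos).per i
  unfold uN at h
  simp only [add_zero, Nat.div_one, mul_one] at h
  linarith

/-- Every step is a step of a side. -/
theorem pos_dec {m : ℕ} (hm : m < l * n) : m / n < l ∧ m % n < n ∧ m / n * n + m % n = m := by
  have hn : 0 < n := by
    rcases Nat.eq_zero_or_pos n with h | h
    · rw [h] at hm; omega
    · exact h
  exact ⟨Nat.div_lt_of_lt_mul (by rw [mul_comm n l]; exact hm), Nat.mod_lt _ hn,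
    Nat.div_add_mod' m n⟩

theorem kOf_dm (m : ℕ) : kOf l n t (m / n) (m % n) = if t ≤ m then m - t else l * n + m - t := by
  unfold kOf
  rw [Nat.div_add_mod' m n]

/-- The lifted direction of a step. -/
theorem uN_W (hp : IsPolygon p) (hD : Encloses p S₀) (hn : 0 < n) {t' : ℕ} (ht : t < n)
    (ht' : t' < n) (m : ℕ) :
    uN p n t (kOf l n t (m / n) (m % n)) = uW p n t' m - 4 + if m < t then 4 else 0 := by
  have hl : 0 < l := by have := hp.1; omega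
  rw [uW_eq hn ht' hl, kOf_dm, ptau_per hp hD]
  unfold uN
  have hln : n ≤ l * n := Nat.le_mul_of_pos_left n hl
  split_ifs with h1 h2 h2
  · omega
  · rw [Nat.sub_add_cancel h1]
    ring
  · rw [show l * n + m - t + t = m + l * n by omega, Nat.add_mul_div_right _ _ hn,
      ptau_per hp hD]
    ring
  · omega

/-! ### the rows -/

section rows

variable (hp : IsPolygon p) (hD : Encloses p S₀) (hQ : Q.Ok) (hg : Gap Q l g)
  (hδ : 0 < δ) (hδg : 4 * δ ≤ g) (hn : 16 ≤ δ * n)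

/-- The squares of the rows of a polygon. -/
theorem mem_frowJ {i j : ℕ} {v : ℤ × ℤ} : v ∈ (frowJ θ β p Q n d t bc J C c i j).I ↔
    ∃ σ : ℕ, sW p n Q d i j ≤ σ ∧ σ < eW p n Q d i j ∧ v = Enl.op p n i σ := by
  rw [frowJ_I, shp_I, Enl.mem_rowP]

/-- The steps of the rows. -/
theorem inR_row {m : ℕ} (hm : m < l * n) (h : InR (l * (Q.m + 1)) (sR p n Q ⌊δ * n⌋₊)
    (eR p n Q ⌊δ * n⌋₊) m) (hQ : Q.Ok) (hg : Gap Q l g) (hδ : 0 < δ) (hδg : 4 * δ ≤ g)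
    (hn : 16 ≤ δ * n) : ∃ j ≤ Q.m, sW p n Q ⌊δ * n⌋₊ (m / n) j ≤ m % n ∧
      m % n < eW p n Q ⌊δ * n⌋₊ (m / n) j := by
  obtain ⟨a, ha, h1, h2⟩ := h
  obtain ⟨a1, a2, a3⟩ := row_dat ha
  have h5 := row_bds (p := p) hQ hg hδ hδg hn ha
  unfold sR at h1
  unfold eR at h2
  obtain ⟨σ, rfl⟩ : ∃ σ, m = a / (Q.m + 1) * n + σ := ⟨m - a / (Q.m + 1) * n, by omega⟩
  have hσ : σ < n := by omega
  have e1 : (a / (Q.m + 1) * n + σ) / n = a / (Q.m + 1) := by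
    rw [add_comm, Nat.add_mul_div_right _ _ (by omega), Nat.div_eq_of_lt hσ, zero_add]
  have e2 : (a / (Q.m + 1) * n + σ) % n = σ := by
    rw [add_comm, Nat.add_mul_mod_self_right, Nat.mod_eq_of_lt hσ]
  rw [e1, e2]
  exact ⟨a % (Q.m + 1), a2, by omega, by omega⟩

include hp hD hQ hg hδg hn in
/-- The square outside of a step, corner numbering. -/
theorem oq_W {m : ℕ} (hm : m < l * n) :
    oq (pW p n (tB n Q)) (uW p n (tB n Q)) m = Enl.op p n (m / n) ((m % n : ℕ) : ℤ) := by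
  have hl : 0 < l := by have := hp.1; omega
  obtain ⟨-, -, -, c4, b5⟩ := gn_big hQ hg hδg hn hl
  obtain ⟨e1, e2, e3⟩ := pos_dec hm
  have h6 := sqL_op hp hD b5 (tB_lt (n := n) hQ b5) (i := m / n) (σ := m % n) e2
  rw [e3] at h6
  exact h6

include hp hD hQ hg hδ hδg hn in
/-- **The values of the rows at the faces**, corner numbering, inner face (`b`) and outer face. -/
theorem frame_vals (hb : bc.Ok l Q) (ht : t < n) (hc : c = 1 ∨ c = -1) {m : ℕ} (hm : m < l * n)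
    (h : InR (l * (Q.m + 1)) (sR p n Q ⌊δ * n⌋₊) (eR p n Q ⌊δ * n⌋₊) m) (b : Bool) {x : Ed}
    (hx : P4 x = M4 (pW p n (tB n Q) m + if b then (0, 0) else vec (uW p n (tB n Q) m - 1))
      (uW p n (tB n Q) m)) :
    ∃ i j, i < l ∧ j ≤ Q.m ∧ i = m / n ∧
      oq (pW p n (tB n Q)) (uW p n (tB n Q)) m ∈
        (frowJ θ β p Q n ⌊δ * n⌋₊ t bc J C c i j).I ∧
      (frowJ θ β p Q n ⌊δ * n⌋₊ t bc J C c i j).Φ θ x = C + (θ / 4 *
        (uN p n t (kOf l n t (m / n) (m % n)) : ℝ) + if kOf l n t (m / n) (m % n) < bc.ka l n t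
          then 0 else β) - hJ θ (J i) + (if b then hJ θ (J i) else -hJ θ (J i)) ∧
      (frowJ θ β p Q n ⌊δ * n⌋₊ t bc J C c i j).σ θ x = c *
        (if kOf l n t (m / n) (m % n) < bc.ka l n t then 1 else -1) *
          ((3 * θ - Real.pi) / 4) := by
  have hl : 0 < l := by have := hp.1; omega
  obtain ⟨-, -, -, c4, b5⟩ := gn_big hQ hg hδg hn hl
  have ht' := tB_lt (n := n) hQ b5
  obtain ⟨e1, e2, e3⟩ := pos_dec hm
  obtain ⟨j, j1, j2, j3⟩ := inR_row hm h hQ hg hδ hδg hn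
  have h1 := uW_mod hp hD b5 ht' (i := m / n) (σ := m % n) e2
  have h2 := pW_vp (p := p) b5 ht' hl (i := m / n) (σ := m % n) e2
  rw [e3] at h1 h2
  have hx' : P4 x = M4 (vp p n (m / n) ((m % n : ℕ) : ℤ) + if b then (0, 0) else
      dir (pdir p (m / n) - 1)) (((pdir p (m / n)).val : ℕ) : ℤ) := by
    rw [hx, h2, vec_pred h1]
    refine M4_congr ?_
    rw [h1]
    have := (pdir p (m / n)).isLt
    omega
  obtain ⟨k1, k2⟩ := frowJ_val (θ := θ) (β := β) (J := J) (C := C) (c := c) hp hD hQ hb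
    (d := ⌊δ * n⌋₊) (by omega) ht hc e1 j1 j2 j3 b hx'
  refine ⟨m / n, j, e1, j1, rfl, ?_, k1, k2⟩
  rw [oq_W hp hD hQ hg hδg hn hm]
  exact mem_frowJ.2 ⟨m % n, j2, j3, rfl⟩

end rows

/-! ### the cell inside -/

section inside

variable (hp : IsPolygon p) (hD : Encloses p S₀) (hQ : Q.Ok) (hg : Gap Q l g)
  (hδ : 0 < δ) (hδg : 4 * δ ≤ g) (hn : 16 ≤ δ * n)

include hp hD in
/-- The base numbering. -/
theorem base_W (hn : 0 < n) {t' : ℕ} (ht' : t' < n) :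
    (fun k : ℕ => qN p n t (k : ZMod (l * n))) = (fun k => pW p n t' (k + t)) ∧
      uN p n t = fun k => uW p n t' (k + t) - 4 := by
  have hl : 0 < l := by have := hp.1; omega
  have : NeZero l := ⟨by omega⟩
  refine ⟨funext fun k => ?_, funext fun k => ?_⟩
  · rw [qN_nat hn, pW_eq hn ht' hl]
  · rw [uW_eq hn ht' hl, ptau_per hp hD]
    unfold uN
    ring

include hp hD hQ hg hδ hδg hn in
/-- **The cell inside of a polygon**, base numbering. -/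
theorem cellD_lit {B : Set (ℤ × ℤ)} (hB' : (hB p Q n (⌊δ * n⌋₊ + 4) : Set (ℤ × ℤ)) ⊆ B)
    (t : ℕ) : Cell (frmQ p Q n ⌊δ * n⌋₊) B (enl S₀ n : Set (ℤ × ℤ)) (l * n)
      (fun k => qN p n t (k : ZMod (l * n))) (uN p n t) 1 := by
  have hl : 0 < l := by have := hp.1; omega
  obtain ⟨-, -, -, c4, b5⟩ := gn_big hQ hg hδg hn hl
  have ht' := tB_lt (n := n) hQ b5
  obtain ⟨e1, e2⟩ := base_W (t := t) hp hD b5 ht'
  rw [e1, e2]
  exact (rb_frame hp hD hQ hg hδ hδg hn hB').cellD.base t (by norm_num)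

include hp hD hQ hg hδ hδg hn in
/-- The square outside of a step in the rows, base numbering. -/
theorem oqD {k : ℕ} (hk : k < l * n) (ht : t < n)
    (h : oq (fun k => qN p n t (k : ZMod (l * n))) (uN p n t) k ∈ frmQ p Q n ⌊δ * n⌋₊) :
    ∃ m < l * n, InR (l * (Q.m + 1)) (sR p n Q ⌊δ * n⌋₊) (eR p n Q ⌊δ * n⌋₊) m ∧
      k = kOf l n t (m / n) (m % n) ∧ (k + t = m ∨ k + t = m + l * n) ∧
      oq (fun k => qN p n t (k : ZMod (l * n))) (uN p n t) k =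
        oq (pW p n (tB n Q)) (uW p n (tB n Q)) m := by
  have hl : 0 < l := by have := hp.1; omega
  obtain ⟨-, -, -, c4, b5⟩ := gn_big hQ hg hδg hn hl
  have ht' := tB_lt (n := n) hQ b5
  obtain ⟨e1, e2⟩ := base_W (t := t) hp hD b5 ht'
  have hR := rws_of hp hD hQ hg hδ hδg hn
  have hln : n ≤ l * n := Nat.le_mul_of_pos_left n hl
  have key : ∀ m, oq (fun k => qN p n t (k : ZMod (l * n))) (uN p n t) m =
      oq (pW p n (tB n Q)) (uW p n (tB n Q)) (m + t) := by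
    intro m
    rw [e1, e2]
    exact sqL_congr (show (uW p n (tB n Q) (m + t) - 4 - 1) % 4 =
      (uW p n (tB n Q) (m + t) - 1) % 4 by omega)
  obtain ⟨m, hm, hm2⟩ : ∃ m < l * n, k + t = m ∨ k + t = m + l * n := by
    rcases Nat.lt_or_ge (k + t) (l * n) with h1 | h1
    · exact ⟨k + t, h1, Or.inl rfl⟩
    · exact ⟨k + t - l * n, by omega, Or.inr (by omega)⟩
  have hoq : oq (fun k => qN p n t (k : ZMod (l * n))) (uN p n t) k =
      oq (pW p n (tB n Q)) (uW p n (tB n Q)) m := by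
    rw [key]
    rcases hm2 with h1 | h1
    · rw [h1]
    · rw [h1]
      have := oq_per hR.bd m 1
      rwa [mul_one] at this
  refine ⟨m, hm, hR.inR hm ?_, ?_, hm2, hoq⟩
  · rw [rws_frm hp hD hQ hg hδ hδg hn]
    rw [hoq] at h
    exact h
  · rw [kOf_dm]
    split_ifs with h1 <;> omega

include hp hD hQ hg hδ hδg hn in
/-- **The phases inside of a polygon.** -/
theorem phsD {ι : Type} {r : ι → Row} {K : Finset (ℤ × ℤ)} {B : Set (ℤ × ℤ)}
    {a : Ed → Bool → ℝ} (S : Sys θ r K a) (hb : bc.Ok l Q) (ht : t < n)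
    (hr : ∀ i j, i < l → j ≤ Q.m → ∃ y, r y = frowJ θ β p Q n ⌊δ * n⌋₊ t bc J C 1 i j)
    (hK : ∀ v ∈ K, v ∉ enl S₀ n)
    (hK2 : ∀ k, oq (fun k => qN p n t (k : ZMod (l * n))) (uN p n t) k ∈ K →
      oq (fun k => qN p n t (k : ZMod (l * n))) (uN p n t) k ∈ frmQ p Q n ⌊δ * n⌋₊) :
    Phs θ β C K B (enl S₀ n : Set (ℤ × ℤ)) (l * n) (fun k => qN p n t (k : ZMod (l * n)))
      (uN p n t) 1 (bc.ka l n t) 0 0 a := by
  have hl : 0 < l := by have := hp.1; omega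
  obtain ⟨-, -, -, c4, b5⟩ := gn_big hQ hg hδg hn hl
  have ht' := tB_lt (n := n) hQ b5
  refine phs_rows S (bd_qN b5 hp hD ht) hK fun k hk x hx h1 h2 => ?_
  obtain ⟨m, hm, hin, hk2, hm2, hoq⟩ := oqD hp hD hQ hg hδ hδg hn hk ht (hK2 k h1)
  have hx' : P4 x = M4 (pW p n (tB n Q) m + if true then (0, 0) else
      vec (uW p n (tB n Q) m - 1)) (uW p n (tB n Q) m) := by
    obtain ⟨e1, e2⟩ := base_W (t := t) hp hD b5 ht'
    have hR := rws_of hp hD hQ hg hδ hδg hn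
    have h3 : P4 x = M4 (pW p n (tB n Q) (k + t)) (uW p n (tB n Q) (k + t)) := by
      have h4 : P4 x = M4 ((fun k : ℕ => qN p n t (k : ZMod (l * n))) k) (uN p n t k) := hx
      rw [e1, e2] at h4
      rw [h4]
      exact M4_congr (by simp only; omega)
    rw [h3, if_pos rfl, show ((0, 0) : ℤ × ℤ) = 0 from rfl, add_zero]
    rcases hm2 with h4 | h4
    · rw [h4]
    · rw [h4, hR.bd.perP, hR.bd.per]
      exact M4_congr (by omega)
  obtain ⟨i, j, i1, j1, -, v1, v2, v3⟩ := frame_vals (θ := θ) (β := β) (J := J) (C := C) (c := 1)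
    hp hD hQ hg hδ hδg hn hb ht (Or.inl rfl) hm hin true hx'
  obtain ⟨y, hy⟩ := hr i j i1 j1
  rw [← hk2] at v2 v3
  refine ⟨y, by rw [hy, hoq]; exact v1, ?_, ?_⟩
  · rw [hy, v2]
    unfold psi lab
    rw [if_pos rfl, if_neg (Nat.not_lt_zero k)]
    split_ifs <;> push_cast <;> ring
  · rw [hy, v3]
    unfold sgr
    by_cases h5 : k < bc.ka l n t
    · rw [if_pos h5, decide_eq_false (not_not.2 h5)]
      simp
    · rw [if_neg h5, decide_eq_true h5]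
      simp

include hp hD hQ hg hδ hδg hn in
/-- The colours of the squares of the rows, corner numbering. -/
theorem colW_at {η : Cfg} {ka m : ℕ} (hc : ColP p Q n ⌊δ * n⌋₊ t ka η) (hm : m < l * n)
    (h : InR (l * (Q.m + 1)) (sR p n Q ⌊δ * n⌋₊) (eR p n Q ⌊δ * n⌋₊) m) :
    η (oq (pW p n (tB n Q)) (uW p n (tB n Q)) m) =
      decide (¬ kOf l n t (m / n) (m % n) < ka) := by
  obtain ⟨e1, e2, e3⟩ := pos_dec hm
  obtain ⟨j, j1, j2, j3⟩ := inR_row hm h hQ hg hδ hδg hn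
  rw [oq_W hp hD hQ hg hδg hn hm]
  exact hc (⟨m / n, e1⟩, ⟨j, by omega⟩) (m % n) j2 j3

include hp hD hQ hg hδ hδg hn in
/-- **The colours inside of a polygon.** -/
theorem clrD {η : Cfg} {ka : ℕ} {K : Finset (ℤ × ℤ)} {B : Set (ℤ × ℤ)}
    (hc : ColP p Q n ⌊δ * n⌋₊ t ka η) (ht : t < n)
    (hK2 : ∀ k, oq (fun k => qN p n t (k : ZMod (l * n))) (uN p n t) k ∈ K →
      oq (fun k => qN p n t (k : ZMod (l * n))) (uN p n t) k ∈ frmQ p Q n ⌊δ * n⌋₊) :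
    Clr K B (l * n) (fun k => qN p n t (k : ZMod (l * n))) (uN p n t) ka η := by
  intro k hk h1 h2
  obtain ⟨m, hm, hin, hk2, hm2, hoq⟩ := oqD hp hD hQ hg hδ hδg hn hk ht (hK2 k h1)
  rw [hoq, colW_at hp hD hQ hg hδ hδg hn hc hm hin, ← hk2]

end inside

/-! ### points of the rows -/

/-- **A point of a side which is far from the marks is in a row.** -/
theorem mid_row (hQ : Q.Ok) (hg : Gap Q l g) (hδ : 0 < δ) (hδg : 4 * δ ≤ g) (hn : 16 ≤ δ * n)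
    {i : ℕ} (hi : i < l) {τ : ℝ} (h0 : 0 ≤ τ) (h1 : τ ≤ 1)
    (hτ : ∀ j ≤ Q.m + 1, g ≤ |Q.θ i j - τ|) {t : ℕ} (t1 : ⌊τ * n⌋₊ ≤ t) (t2 : t ≤ ⌊τ * n⌋₊ + 1) :
    ∃ j ≤ Q.m, sW p n Q ⌊δ * n⌋₊ i j + 2 ≤ t ∧ t + 2 ≤ eW p n Q ⌊δ * n⌋₊ i j := by
  have hl : 0 < l := by omega
  obtain ⟨b1, b2, b3, b4, b5⟩ := gn_big hQ hg hδg hn hl
  have hn0 : (0 : ℝ) ≤ n := Nat.cast_nonneg n
  obtain ⟨j, hj, h2, h3⟩ : ∃ j ≤ Q.m, Q.θ i j ≤ τ ∧ τ < Q.θ i (j + 1) := by
    by_contra hcon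
    push Not at hcon
    have h : ∀ j ≤ Q.m + 1, Q.θ i j ≤ τ := by
      intro j
      induction j with
      | zero => intro _; rw [hQ.zero]; exact h0
      | succ j ih => intro h; exact hcon j (by omega) (ih (by omega))
    have h4 := h (Q.m + 1) le_rfl
    have h5 := hτ (Q.m + 1) le_rfl
    rw [hQ.one] at h4 h5
    rw [abs_of_nonpos (by linarith)] at h5
    have : 0 < g := by linarith
    linarith
  have d1 := hτ j (by omega)
  have d2 := hτ (j + 1) (by omega)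
  rw [abs_of_nonpos (by linarith)] at d1
  rw [abs_of_pos (by linarith)] at d2
  have s1 := (Enl.le_rnd ((n : ℤ) • p (i : ZMod l)) (H825.bsite p Q n)
    (⌊Q.θ i j * n⌋₊ + ⌊δ * n⌋₊)).2
  have s2 := (Enl.le_rnd ((n : ℤ) • p (i : ZMod l)) (H825.bsite p Q n)
    (⌊Q.θ i (j + 1) * n⌋₊ - ⌊δ * n⌋₊)).1
  change sW p n Q ⌊δ * n⌋₊ i j ≤ _ at s1
  change _ ≤ eW p n Q ⌊δ * n⌋₊ i j at s2
  have f1 : (⌊Q.θ i j * n⌋₊ : ℝ) ≤ Q.θ i j * n :=
    Nat.floor_le (mul_nonneg (Enl.theta_nonneg hQ i (by omega)) hn0)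
  have f2 : Q.θ i (j + 1) * n < ⌊Q.θ i (j + 1) * n⌋₊ + 1 := Nat.lt_floor_add_one _
  have f3 : (⌊τ * n⌋₊ : ℝ) ≤ τ * n := Nat.floor_le (mul_nonneg h0 hn0)
  have f4 : τ * n < ⌊τ * n⌋₊ + 1 := Nat.lt_floor_add_one _
  have m1 : (Q.θ i j + g) * n ≤ τ * n := mul_le_mul_of_nonneg_right (by linarith) hn0
  have m2 : (τ + g) * n ≤ Q.θ i (j + 1) * n := mul_le_mul_of_nonneg_right (by linarith) hn0
  refine ⟨j, hj, ?_, ?_⟩
  · have : (⌊Q.θ i j * n⌋₊ : ℝ) + ⌊δ * n⌋₊ + 3 ≤ ⌊τ * n⌋₊ := by linarith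
    have : ⌊Q.θ i j * n⌋₊ + ⌊δ * n⌋₊ + 3 ≤ ⌊τ * n⌋₊ := by exact_mod_cast this
    omega
  · have : (⌊τ * n⌋₊ : ℝ) + 3 + ⌊δ * n⌋₊ ≤ ⌊Q.θ i (j + 1) * n⌋₊ := by linarith
    have : ⌊τ * n⌋₊ + 3 + ⌊δ * n⌋₊ ≤ ⌊Q.θ i (j + 1) * n⌋₊ := by exact_mod_cast this
    omega

/-- The steps at a point of a row. -/
theorem mid_inR {i j : ℕ} (hi : i < l) (hj : j ≤ Q.m) (h1 : sW p n Q d i j + 2 ≤ t)
    (h2 : t + 2 ≤ eW p n Q d i j) {k : ℕ} (k1 : i * n + t ≤ k + 2) (k2 : k ≤ i * n + t + 1) :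
    InR (l * (Q.m + 1)) (sR p n Q d) (eR p n Q d) k := by
  obtain ⟨g1, -, -⟩ := row_num (Q := Q) hi hj
  obtain ⟨g4, g5⟩ := sR_num (p := p) (n := n) (Q := Q) (d := d) hi hj
  exact ⟨i * (Q.m + 1) + j, g1, by rw [g4]; omega, by rw [g5]; omega⟩

end Vale.Agent.P167.N.ID
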