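import Vale.Agent.P167.N.ID.PhX
import Vale.Agent.P167.N.ID.GeoSE

/-!
# P167, `q < 1`, START: the cells of the Dobrushin frame

* `glueD`: the data of the curve of the region `R` between the box and the domain.
* `cellD_D`, `cellR`, `cellX_D`: the cells of the frame.
-/

set_option autoImplicit false

namespace Vale.Agent.P167.N.ID

open Finset
open Vale.Agent.P167.Top
open Vale.Agent.P167.H871
open Vale.Agent.P167.H871.Q
open Vale.Agent.P167.FK (Bq)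
open Vale.Agent.P167.H199 (Gap mks)
open Vale.Agent.P167.H662 (hsite)
open Vale.Agent.P167.H825.Q (Bc)
open Vale.Agent.P167.H398.Q (hB)
open Vale.Agent.P167.E6 (IsPolygon Encloses dir face)
open Vale.Agent.P167.H825 (pdir enl ptau Marks Box)
open Vale.Agent.P167.Enl (sW eW tB tB_lt kOf uN qN PN bd_qN qN_nat pW uW pW_eq uW_eq pW_vp uW_same
  uW_mod vec_pred vp frmQ mem_frmQ sR eR row_dat row_num sR_num row_bds gn_big sqL_op mem_hB Bq_of
  frmQ_disj)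

variable {l : ℕ} {p : ZMod l → ℤ × ℤ} {S₀ : Finset (ℤ × ℤ)} {b : Box} {n d : ℕ} {tp g δ : ℝ}

/-- The squares of the rows of the box. -/
noncomputable abbrev K1D (p : ZMod l → ℤ × ℤ) (b : Box) (n d : ℕ) : Finset (ℤ × ℤ) :=
  frmQ pQ (mksQ p b) (bM p * n) d

/-- The squares of the rows of the polygon. -/
noncomputable abbrev K2D (p : ZMod l → ℤ × ℤ) (b : Box) (tp : ℝ) (n d : ℕ) : Finset (ℤ × ℤ) :=
  frmQ p (mks p b tp) n d

/-- `B` contains the boxes of the holes. -/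
def HolB (p : ZMod l → ℤ × ℤ) (b : Box) (tp : ℝ) (n d : ℕ) (B : Set (ℤ × ℤ)) : Prop :=
  ∀ x : HxD l, ∀ v ∈ Bq (hoD p b tp n x) ((d : ℤ) + 4), v ∈ B

theorem HolB.poly {B : Set (ℤ × ℤ)} (h : HolB p b tp n d B) :
    (hB p (mks p b tp) n (d + 4) : Set (ℤ × ℤ)) ⊆ B := by
  intro v hv
  obtain ⟨x, hx⟩ := mem_hB.1 (mem_coe.1 hv)
  exact h (.inl x) v hx

theorem HolB.box {B : Set (ℤ × ℤ)} (h : HolB p b tp n d B) :
    (hB pQ (mksQ p b) (bM p * n) (d + 4) : Set (ℤ × ℤ)) ⊆ B := by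
  intro v hv
  obtain ⟨x, hx⟩ := mem_hB.1 (mem_coe.1 hv)
  exact h (.inr (.inl x)) v hx

/-- The rows of the box. -/
theorem rb_box (H : DobN p S₀ b tp g δ n) {B : Set (ℤ × ℤ)} (hB : HolB p b tp n ⌊δ * n⌋₊ B) :
    RB (enl {(0, 0)} (bM p * n) : Set (ℤ × ℤ)) (4 * (bM p * n))
      (pW pQ (bM p * n) (tB (bM p * n) (mksQ p b))) (uW pQ (bM p * n) (tB (bM p * n) (mksQ p b)))
      (4 * ((mksQ p b).m + 1)) (sR pQ (bM p * n) (mksQ p b) ⌊δ * n⌋₊)
      (eR pQ (bM p * n) (mksQ p b) ⌊δ * n⌋₊) (K1D p b n ⌊δ * n⌋₊) B := by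
  obtain ⟨c1, c2, c3, c4⟩ := H.box
  have h := rb_frame (p := pQ) (S₀ := {(0, 0)}) (Q := mksQ p b) (n := bM p * n) (B := B) pQ_poly
    pQ_encl H.hQ' H.hg' c1 c2 c3 (by rw [c4]; exact hB.box)
  rw [c4] at h
  exact h

/-- The facts for the vertex with the spoke. -/
theorem jT_facts (H : DobN p S₀ b tp g δ n) : iT p * n < l * n ∧
    pW p n (tB n (mks p b tp)) (iT p * n) = ((xV p n : ℤ), (yV p n : ℤ)) ∧
    uW p n (tB n (mks p b tp)) (iT p * n) % 4 = 0 ∧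
    ¬ InR (l * ((mks p b tp).m + 1)) (sR p n (mks p b tp) ⌊δ * n⌋₊)
      (eR p n (mks p b tp) ⌊δ * n⌋₊) (iT p * n) := by
  obtain ⟨-, -, b5, -, -⟩ := H.basic
  have hl : 0 < l := by have := H.hp.1; omega
  have hL := lowV_iT H.hp
  have ht := tB_lt (n := n) H.hQ b5
  obtain ⟨a3, a4⟩ := xV_eq (n := n) H.hN
  have h1 := pW_vp (p := p) b5 ht hl (i := iT p) (σ := 0) b5
  have h2 := uW_mod H.hp H.hD b5 ht (i := iT p) (σ := 0) b5
  rw [add_zero] at h1 h2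
  refine ⟨Nat.mul_lt_mul_of_pos_right hL.lt b5, ?_, ?_, ?_⟩
  · rw [h1, a3, a4]
    unfold vp Enl.vz
    ext <;> simp
  · rw [h2, (hL.sides H.hp H.hD).1]
    rfl
  · rintro ⟨a, ha, h3, h4⟩
    obtain ⟨a1, a2, a3⟩ := row_dat ha
    have h5 := row_bds (p := p) H.hQ H.hg H.hδ H.hδg H.hn ha
    unfold sR at h3
    unfold eR at h4
    rcases lt_trichotomy (a / ((mks p b tp).m + 1)) (iT p) with h6 | h6 | h6
    · have h7 : (a / ((mks p b tp).m + 1) + 1) * n ≤ iT p * n := Nat.mul_le_mul_right n h6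
      rw [add_mul, one_mul] at h7
      omega
    · rw [h6] at h3 h4 h5
      omega
    · have h7 : (iT p + 1) * n ≤ a / ((mks p b tp).m + 1) * n := Nat.mul_le_mul_right n h6
      rw [add_mul, one_mul] at h7
      omega

section cells

variable (H : DobN p S₀ b tp g δ n) {n' : ℕ} {P' : ℕ → ℤ × ℤ} {u' : ℕ → ℤ} {ι : ℕ → ℕ}
  (hP : BPf p S₀ n (mks p b tp) ⌊δ * n⌋₊ n' P' u' ι) {B : Set (ℤ × ℤ)}
  (hB : HolB p b tp n ⌊δ * n⌋₊ B)

include H hP hB in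
/-- **The data of the curve of `R`.** -/
theorem glueD : Glue (K1D p b n ⌊δ * n⌋₊) (K2D p b tp n ⌊δ * n⌋₊) (spk p n ⌊δ * n⌋₊).I B
    (enl {(0, 0)} (bM p * n) : Set (ℤ × ℤ))
    ((enl S₀ n : Set (ℤ × ℤ)) ∪ (K2D p b tp n ⌊δ * n⌋₊ : Set (ℤ × ℤ)))
    (4 * (bM p * n) - 1) (n' - 1) (yV p n)
    (fun k => pW pQ (bM p * n) (tB (bM p * n) (mksQ p b)) (k + (2 * (bM p * n) + xV p n)))
    (fun k => P' (k + ι (iT p * n)))
    (fun k => uW pQ (bM p * n) (tB (bM p * n) (mksQ p b)) (k + (2 * (bM p * n) + xV p n)) -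
      uW pQ (bM p * n) (tB (bM p * n) (mksQ p b)) (2 * (bM p * n) + xV p n))
    (fun k => u' (k + ι (iT p * n)) - u' (ι (iT p * n))) (xV p n) 0 := by
  obtain ⟨-, -, b5, -, hM⟩ := H.basic
  have hl : 0 < l := by have := H.hp.1; omega
  have hN0 : 0 < bM p * n := Nat.mul_pos (by omega) b5
  obtain ⟨j1, j2, j3, j4⟩ := jT_facts H
  have c4 : 16 ≤ ⌊δ * n⌋₊ := Nat.le_floor (by push_cast; exact H.hn)
  have hn' := n'_pos hP H.hp b5
  have hfr := rws_frm H.hp H.hD H.hQ H.hg H.hδ H.hδg H.hn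
  have hbd := hP.bd
  have hcv := hP.cov
  rw [hfr] at hbd hcv
  refine glue_dob H.hN (by omega) (tB_lt H.hQ' hN0)
    (innF H.hp H.hD H.hN H.hQ H.hg H.hδ H.hδg H.hn) hbd hcv (by omega) (hP.lt _ j1) ?_ ?_ ?_
    (rb_box H hB).cellD ?_ ?_ ?_
  · rw [hP.near _ j1 j4, j2]
  · rw [hP.dir _ j1, j3]
  · intro v hv
    exact (row_pos H.hp H.hN H.hQ H.hg H.hδ H.hδg H.hn hv).2.1
  · have h := (rb_frame H.hp H.hD H.hQ H.hg H.hδ H.hδg H.hn hB.poly).cellX hP.bd hP.cov hn'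
    rw [hfr] at h
    exact h
  · intro v hv
    refine hB (.inl (xT H.hp (mks p b tp))) v (Bq_of ?_)
    show nm (v - hsite p (mks p b tp) n (xT H.hp (mks p b tp))) < _
    obtain ⟨a3, a4⟩ := xV_eq (n := n) H.hN
    rw [hsT H.hp H.hQ, ← a3, ← a4]
    omega
  · intro v hv
    refine hB (.inr (.inr ())) v (Bq_of ?_)
    show nm (v - ftD p n) < _
    obtain ⟨a3, a4⟩ := xV_eq (n := n) H.hN
    unfold ftD
    rw [← a3]
    omega

/-- The frozen squares. -/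
noncomputable abbrev KD (p : ZMod l → ℤ × ℤ) (b : Box) (tp : ℝ) (n d : ℕ) : Finset (ℤ × ℤ) :=
  K1D p b n d ∪ K2D p b tp n d ∪ (spk p n d).I

omit hP hB in
include H in
/-- The squares of the polygon and the spoke are inside of the box. -/
theorem deep {v : ℤ × ℤ} (hv : v ∈ enl S₀ n ∨ v ∈ K2D p b tp n ⌊δ * n⌋₊ ∨
    v ∈ (spk p n ⌊δ * n⌋₊).I) : (1 ≤ v.1 ∧ v.1 + 1 < (bM p * n : ℕ)) ∧
      1 ≤ v.2 ∧ v.2 + 1 < (bM p * n : ℕ) := by
  obtain ⟨-, -, b5, -, hM⟩ := H.basic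
  have c4 : 16 ≤ ⌊δ * n⌋₊ := Nat.le_floor (by push_cast; exact H.hn)
  have hF := innF H.hp H.hD H.hN H.hQ H.hg H.hδ H.hδg H.hn
  have key : ∀ w ∈ (enl S₀ n : Set (ℤ × ℤ)) ∪ (K2D p b tp n ⌊δ * n⌋₊ : Set (ℤ × ℤ)),
      (1 ≤ w.1 ∧ w.1 + 1 < (bM p * n : ℕ)) ∧ 1 ≤ w.2 ∧ w.2 + 1 < (bM p * n : ℕ) := by
    intro w hw
    have := hF.box w hw
    omega
  rcases hv with h | h | h
  · exact key v (Or.inl h)
  · exact key v (Or.inr h)
  · have h1 := H.spk_mem' (x := ()) h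
    push_cast
    omega

omit hP hB in
include H in
theorem low_D {v : ℤ × ℤ} (hv : v ∈ enl S₀ n) : (yV p n : ℤ) ≤ v.2 := by
  obtain ⟨-, -, b5, -, hM⟩ := H.basic
  obtain ⟨a3, a4⟩ := xV_eq (n := n) H.hN
  rw [a4]
  exact ((lowV_iT H.hp).enl H.hD b5 hv).1

theorem nb_io (P : ℕ → ℤ × ℤ) (u : ℕ → ℤ) (k : ℕ) :
    ((oq P u k).1 ≤ (iq P u k).1 + 1 ∧ (iq P u k).1 ≤ (oq P u k).1 + 1) ∧
      (oq P u k).2 ≤ (iq P u k).2 + 1 ∧ (iq P u k).2 ≤ (oq P u k).2 + 1 := by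
  have h1 := sqL_nb (P k) (u k)
  have h2 := sqL_nb (P k) (u k - 1)
  unfold oq iq
  omega

omit hP hB in
include H in
theorem K1_out {v : ℤ × ℤ} (hv : v ∈ K1D p b n ⌊δ * n⌋₊) : v ∉ enl {(0, 0)} (bM p * n) := by
  obtain ⟨c1, c2, c3, c4⟩ := H.box
  have h := frmQ_disj (p := pQ) (S₀ := {(0, 0)}) (Q := mksQ p b) (n := bM p * n) pQ_poly pQ_encl
    H.hQ' H.hg' c1 c2 c3
  rw [c4] at h
  exact fun h' => Finset.disjoint_left.1 h h' hv

omit hP hB in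
include H in
theorem K3_D {v : ℤ × ℤ} (hv : v ∈ (spk p n ⌊δ * n⌋₊).I) :
    v.1 = xV p n ∧ (⌊δ * n⌋₊ : ℤ) ≤ v.2 ∧ v.2 + ⌊δ * n⌋₊ < yV p n := by
  obtain ⟨a3, a4⟩ := xV_eq (n := n) H.hN
  rw [a3, a4]
  exact mem_spk.1 hv

include H hP hB in
/-- Rows of different groups are not adjacent. -/
theorem adj_D : (∀ v ∈ K1D p b n ⌊δ * n⌋₊, ∀ t, v + vec t ∉ K2D p b tp n ⌊δ * n⌋₊ ∪
      (spk p n ⌊δ * n⌋₊).I) ∧
    (∀ v ∈ K2D p b tp n ⌊δ * n⌋₊, ∀ t, v + vec t ∉ K1D p b n ⌊δ * n⌋₊ ∪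
      (spk p n ⌊δ * n⌋₊).I) := by
  have G := glueD H hP hB
  have hback : ∀ (v : ℤ × ℤ) (t : ℤ), v + vec t + vec (t + 2) = v := fun v t => by
    rw [vec_back]; abel
  refine ⟨fun v hv t h => ?_, fun v hv t h => ?_⟩
  · rcases mem_union.1 h with h | h
    · exact G.d12 v hv t h
    · exact G.d13 v hv t h
  · rcases mem_union.1 h with h | h
    · exact G.d12 _ h (t + 2) (by rw [hback]; exact hv)
    · exact G.d23 v hv t h

include H hP hB in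
/-- **The domain is a cell**, base numbering. -/
theorem cellD_D (t : ℕ) : Cell (KD p b tp n ⌊δ * n⌋₊) B (enl S₀ n : Set (ℤ × ℤ)) (l * n)
      (fun k => qN p n t (k : ZMod (l * n))) (uN p n t) 1 := by
  have c4 : 16 ≤ ⌊δ * n⌋₊ := Nat.le_floor (by push_cast; exact H.hn)
  have h0 := cellD_lit H.hp H.hD H.hQ H.hg H.hδ H.hδg H.hn hB.poly t
  have h1 := h0.add (K' := K1D p b n ⌊δ * n⌋₊ ∪ (spk p n ⌊δ * n⌋₊).I) ?_ ?_ (adj_D H hP hB).2
  · have e : K2D p b tp n ⌊δ * n⌋₊ ∪ (K1D p b n ⌊δ * n⌋₊ ∪ (spk p n ⌊δ * n⌋₊).I) =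
        KD p b tp n ⌊δ * n⌋₊ := by
      ext v
      simp only [mem_union]
      tauto
    rwa [e] at h1
  · intro v hv h
    rcases mem_union.1 hv with g | g
    · refine K1_out H g (mem_boxE.2 ?_)
      have := deep H (Or.inl (mem_coe.1 h))
      omega
    · have := K3_D H g
      have := low_D H (mem_coe.1 h)
      omega
  · intro k hv
    have h2 := h0.bd.left k
    have h3 := nb_io (fun k => qN p n t (k : ZMod (l * n))) (uN p n t) k
    rcases mem_union.1 hv with g | g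
    · refine K1_out H g (mem_boxE.2 ?_)
      have h4 := deep H (v := iq (fun k => qN p n t (k : ZMod (l * n))) (uN p n t) k)
        (Or.inl (mem_coe.1 h2))
      omega
    · have := K3_D H g
      have h4 : (yV p n : ℤ) ≤ (iq (fun k => qN p n t (k : ZMod (l * n))) (uN p n t) k).2 :=
        low_D H (mem_coe.1 h2)
      omega

include H hP hB in
/-- The squares of `K` next to the domain are in the rows of the polygon. -/
theorem oqD_D {t k : ℕ} (h : oq (fun k => qN p n t (k : ZMod (l * n))) (uN p n t) k ∈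
      KD p b tp n ⌊δ * n⌋₊) :
    oq (fun k => qN p n t (k : ZMod (l * n))) (uN p n t) k ∈ K2D p b tp n ⌊δ * n⌋₊ := by
  have c4 : 16 ≤ ⌊δ * n⌋₊ := Nat.le_floor (by push_cast; exact H.hn)
  have h2 := (cellD_D H hP hB t).bd.left k
  have h3 := nb_io (fun k => qN p n t (k : ZMod (l * n))) (uN p n t) k
  rcases mem_union.1 h with g | g
  · rcases mem_union.1 g with g | g
    · exfalso
      refine K1_out H g (mem_boxE.2 ?_)
      have h4 := deep H (v := iq (fun k => qN p n t (k : ZMod (l * n))) (uN p n t) k)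
        (Or.inl (mem_coe.1 h2))
      omega
    · exact g
  · exfalso
    have := K3_D H g
    have h4 : (yV p n : ℤ) ≤ (iq (fun k => qN p n t (k : ZMod (l * n))) (uN p n t) k).2 :=
      low_D H (mem_coe.1 h2)
    omega

/-- The exterior of the box with its rows. -/
noncomputable def XD (p : ZMod l → ℤ × ℤ) (b : Box) (n d : ℕ) : Set (ℤ × ℤ) :=
  ((enl {(0, 0)} (bM p * n) : Set (ℤ × ℤ)) ∪ (K1D p b n d : Set (ℤ × ℤ)))ᶜ

variable {nQ : ℕ} {PQ : ℕ → ℤ × ℤ} {uQ : ℕ → ℤ} {ιQ : ℕ → ℕ}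
  (hPQ : BPf pQ {(0, 0)} (bM p * n) (mksQ p b) ⌊δ * n⌋₊ nQ PQ uQ ιQ)

omit hP in
include H hB hPQ in
theorem cellX_0 {tq : ℕ} (htq : tq < bM p * n) :
    Cell (K1D p b n ⌊δ * n⌋₊) B (XD p b n ⌊δ * n⌋₊) nQ
      (revP nQ (sP PQ (ιQ tq))) (revU nQ (sU uQ (ιQ tq) 4)) (-1) := by
  obtain ⟨c1, c2, c3, c4⟩ := H.box
  have h := cellX_lit (p := pQ) (S₀ := {(0, 0)}) (Q := mksQ p b) (n := bM p * n) (B := B)
    (δ := δ / bM p) (n' := nQ) (P' := PQ) (u' := uQ) (ι := ιQ) (j₀ := tq) (κ := 4) pQ_poly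
    pQ_encl H.hQ' H.hg' c1 c2 c3 (by rw [c4]; exact hPQ) (by rw [c4]; exact hB.box) (by omega)
    (by norm_num)
  rw [c4] at h
  exact h

omit hP hB in
include H in
/-- The squares next to the exterior are not in the rows inside of the box. -/
theorem oqX_0 {P : ℕ → ℤ × ℤ} {u : ℕ → ℤ} {m : ℕ}
    (hb : Bd (XD p b n ⌊δ * n⌋₊) m P u (-1)) (k : ℕ) :
    oq P u k ∉ K2D p b tp n ⌊δ * n⌋₊ ∪ (spk p n ⌊δ * n⌋₊).I := by
  intro hv
  have h2 := hb.left k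
  have h3 := nb_io P u k
  refine h2 (Or.inl (mem_coe.2 (mem_boxE.2 ?_)))
  have h4 := deep H (v := oq P u k) (by
    rcases mem_union.1 hv with g | g
    · exact Or.inr (Or.inl g)
    · exact Or.inr (Or.inr g))
  unfold iq at h3
  omega

include H hP hB hPQ in
/-- **The exterior of the box is a cell.** -/
theorem cellX_D {tq : ℕ} (htq : tq < bM p * n) :
    Cell (KD p b tp n ⌊δ * n⌋₊) B (XD p b n ⌊δ * n⌋₊) nQ
      (revP nQ (sP PQ (ιQ tq))) (revU nQ (sU uQ (ιQ tq) 4)) (-1) := by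
  have h0 := cellX_0 H hB hPQ htq
  have h1 := h0.add (K' := K2D p b tp n ⌊δ * n⌋₊ ∪ (spk p n ⌊δ * n⌋₊).I) ?_
    (oqX_0 H h0.bd) (adj_D H hP hB).1
  · have e : K1D p b n ⌊δ * n⌋₊ ∪ (K2D p b tp n ⌊δ * n⌋₊ ∪ (spk p n ⌊δ * n⌋₊).I) =
        KD p b tp n ⌊δ * n⌋₊ := by
      ext v
      simp only [mem_union]
      tauto
    rwa [e] at h1
  · intro v hv h
    refine h (Or.inl (mem_coe.2 (mem_boxE.2 ?_)))
    have h4 := deep H (v := v) (by
      rcases mem_union.1 hv with g | g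
      · exact Or.inr (Or.inl g)
      · exact Or.inr (Or.inr g))
    omega

omit hP in
include H hB hPQ in
/-- The squares of `K` next to the exterior are in the rows of the box. -/
theorem oqX_D {tq k : ℕ} (htq : tq < bM p * n)
    (h : oq (revP nQ (sP PQ (ιQ tq))) (revU nQ (sU uQ (ιQ tq) 4)) k ∈ KD p b tp n ⌊δ * n⌋₊) :
    oq (revP nQ (sP PQ (ιQ tq))) (revU nQ (sU uQ (ιQ tq) 4)) k ∈ K1D p b n ⌊δ * n⌋₊ := by
  have h0 := oqX_0 H (cellX_0 H hB hPQ htq).bd k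
  rw [mem_union] at h0
  rcases mem_union.1 h with g | g
  · exact (mem_union.1 g).resolve_right fun g => h0 (Or.inl g)
  · exact absurd (Or.inr g) h0

/-- The region between the box and the domain. -/
noncomputable def RD (p : ZMod l → ℤ × ℤ) (S₀ : Finset (ℤ × ℤ)) (b : Box) (tp : ℝ) (n d : ℕ) :
    Finset (ℤ × ℤ) :=
  (enl {(0, 0)} (bM p * n)).filter fun v => (v ∉ enl S₀ n ∧ v ∉ K2D p b tp n d) ∧
    ¬ (v.1 = xV p n ∧ 0 ≤ v.2 ∧ v.2 < yV p n)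

omit hP hB in
theorem coe_RD : (RD p S₀ b tp n d : Set (ℤ × ℤ)) = ((enl {(0, 0)} (bM p * n) : Set (ℤ × ℤ)) \
    ((enl S₀ n : Set (ℤ × ℤ)) ∪ (K2D p b tp n d : Set (ℤ × ℤ)))) \
      strip (xV p n) 0 (yV p n) := by
  ext v
  unfold RD strip
  simp only [coe_filter, Set.mem_ofPred_eq, Set.mem_sdiff, Set.mem_union, mem_coe, not_or, zero_add,
    and_assoc]

/-- The number of the steps of the curve of `R`. -/
noncomputable def MR (p : ZMod l → ℤ × ℤ) (n n' : ℕ) : ℕ :=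
  4 * (bM p * n) - 1 + yV p n + (n' - 1) + yV p n

/-- The curve of `R`. -/
noncomputable def PR (p : ZMod l → ℤ × ℤ) (b : Box) (n n' : ℕ) (P' : ℕ → ℤ × ℤ) (ι : ℕ → ℕ) :
    ℕ → ℤ × ℤ :=
  CP (4 * (bM p * n) - 1) (n' - 1) (yV p n)
    (fun k => pW pQ (bM p * n) (tB (bM p * n) (mksQ p b)) (k + (2 * (bM p * n) + xV p n)))
    (fun k => P' (k + ι (iT p * n))) (xV p n) 0

/-- The directions of the curve of `R`. -/
noncomputable def UR (p : ZMod l → ℤ × ℤ) (b : Box) (n n' : ℕ) (u' : ℕ → ℤ) (ι : ℕ → ℕ) :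
    ℕ → ℤ :=
  CU (4 * (bM p * n) - 1) (n' - 1) (yV p n)
    (fun k => uW pQ (bM p * n) (tB (bM p * n) (mksQ p b)) (k + (2 * (bM p * n) + xV p n)) -
      uW pQ (bM p * n) (tB (bM p * n) (mksQ p b)) (2 * (bM p * n) + xV p n))
    (fun k => u' (k + ι (iT p * n)) - u' (ι (iT p * n)))

include H hP hB in
/-- **The region `R` is a cell**, first step `c`. -/
theorem cellR (c : ℕ) : Cell (KD p b tp n ⌊δ * n⌋₊) B (RD p S₀ b tp n ⌊δ * n⌋₊ : Set (ℤ × ℤ))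
    (MR p n n') (fun k => PR p b n n' P' ι (k + c)) (fun k => UR p b n n' u' ι (k + c)) 1 := by
  have h := (glueD H hP hB).cell.shift c
  rw [← coe_RD] at h
  exact h

end cells

end Vale.Agent.P167.N.ID
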