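import Mathlib.Tactic

/-!
# P167, `q < 1`, START: the numbering of the curve of the region `R`
-/

set_option autoImplicit false

namespace Vale.Agent.P167.N.ID

/-- The position of the outer face of the step `j` on the path around the rows, first step `jT`. -/
def cyc (ι : ℕ → ℕ) (n' jT j : ℕ) : ℕ := if jT ≤ j then ι j - ι jT else ι j + n' - ι jT

/-- The step of the curve of `R` at the position `m` of the path around the rows; the position `mA`
is the step `0`. -/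
def kk (M mA m : ℕ) : ℕ := if m ≤ mA then mA - m else M + mA - m

theorem kk_lt {M mA m m' : ℕ} (h : m < M) (h' : m' < M) :
    kk M mA m < kk M mA m' ↔ (m ≤ mA ∧ mA < m') ∨ ((m ≤ mA ↔ m' ≤ mA) ∧ m' < m) := by
  unfold kk
  split_ifs <;> omega

theorem kk_bd {M mA m : ℕ} (hA : mA < M) : kk M mA m < M := by
  unfold kk
  split_ifs <;> omega

theorem cyc_lt {ι : ℕ → ℕ} {n' ln jT j j' : ℕ} (hm : ∀ k l, k < l → l < ln → ι k < ι l)
    (hl : ∀ k < ln, ι k < n') (hT : jT < ln) (hj : j < ln) (hj' : j' < ln) :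
    cyc ι n' jT j < cyc ι n' jT j' ↔
      (jT ≤ j ∧ j' < jT) ∨ ((jT ≤ j ↔ jT ≤ j') ∧ j < j') := by
  have a1 := hl _ hj
  have a2 := hl _ hj'
  have a3 := hl _ hT
  have key : ∀ x y, x < ln → y < ln → (x < y ∧ ι x < ι y) ∨ (x = y ∧ ι x = ι y) ∨
      (y < x ∧ ι y < ι x) := by
    intro x y hx hy
    rcases lt_trichotomy x y with h | h | h
    · exact Or.inl ⟨h, hm _ _ h hy⟩
    · exact Or.inr (Or.inl ⟨h, by rw [h]⟩)
    · exact Or.inr (Or.inr ⟨h, hm _ _ h hx⟩)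
  have b1 := key j j' hj hj'
  have b2 := key jT j hT hj
  have b3 := key jT j' hT hj'
  unfold cyc
  split_ifs <;> omega

theorem cyc_bd {ι : ℕ → ℕ} {n' ln jT j : ℕ} (hm : ∀ k l, k < l → l < ln → ι k < ι l)
    (hl : ∀ k < ln, ι k < n') (hT : jT < ln) (hj : j < ln) : cyc ι n' jT j < n' ∧
      (j ≠ jT → 1 ≤ cyc ι n' jT j) := by
  have a1 := hl _ hj
  have a3 := hl _ hT
  have key : (j < jT ∧ ι j < ι jT) ∨ (j = jT ∧ ι j = ι jT) ∨ (jT < j ∧ ι jT < ι j) := by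
    rcases lt_trichotomy j jT with h | h | h
    · exact Or.inl ⟨h, hm _ _ h hT⟩
    · exact Or.inr (Or.inl ⟨h, by rw [h]⟩)
    · exact Or.inr (Or.inr ⟨h, hm _ _ h hj⟩)
  unfold cyc
  split_ifs <;> omega

/-- The numbers of the Dobrushin frame. -/
structure RN (N X Y n' ln n t jT jA tq : ℕ) (ι : ℕ → ℕ) (cl i0 : Prop) : Prop where
  hm : ∀ k l, k < l → l < ln → ι k < ι l
  hl : ∀ k < ln, ι k < n'
  hX : X < N
  hY : 1 ≤ Y
  hn' : 2 < n'
  ht : 1 ≤ t
  htn : t < n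
  hnl : n < ln
  hA : n < jA
  hA' : jA < ln
  hT : jT < ln
  hq : tq < N
  cs : (cl ∧ ¬ i0 ∧ n ≤ jT ∧ jT < jA) ∨ (¬ cl ∧ i0 ∧ jT = 0) ∨ (¬ cl ∧ ¬ i0 ∧ jA < jT)

section

variable {N X Y n' ln n t jT jA tq : ℕ} {ι : ℕ → ℕ} {cl i0 : Prop}

/-- The number of the steps. -/
def Mn (N Y n' : ℕ) : ℕ := 4 * N - 1 + Y + (n' - 1) + Y

/-- The position of the first closed step. -/
def mAn (ι : ℕ → ℕ) (n' jT jA : ℕ) : ℕ := cyc ι n' jT (jA - 1)

/-- The first step. -/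
def s0n (N Y n' jT jA : ℕ) (ι : ℕ → ℕ) : ℕ := 4 * N - 1 + Y + (n' - 1 - mAn ι n' jT jA)

/-- The junction. -/
def k0n (N Y n' t jT jA : ℕ) (ι : ℕ → ℕ) : ℕ :=
  kk (Mn N Y n') (mAn ι n' jT jA) (cyc ι n' jT (t - 1))

/-- The base of the box. -/
def zBn (N X Y n' jT jA tq : ℕ) (ι : ℕ → ℕ) : ℕ := tq + 2 * N - X - 1 + Y + mAn ι n' jT jA

/-- The vertex `T'`. -/
def zTn (N Y n' jT jA jV : ℕ) (ι : ℕ → ℕ) : ℕ :=
  kk (Mn N Y n') (mAn ι n' jT jA) (cyc ι n' jT (jV - 1))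

variable (R : RN N X Y n' ln n t jT jA tq ι cl i0)

include R

theorem RN.lts {j j' : ℕ} (hj : j < ln) (hj' : j' < ln) :
    kk (Mn N Y n') (mAn ι n' jT jA) (cyc ι n' jT j) <
      kk (Mn N Y n') (mAn ι n' jT jA) (cyc ι n' jT j') ↔
    ((¬ ((jT ≤ jA - 1 ∧ j < jT) ∨ ((jT ≤ jA - 1 ↔ jT ≤ j) ∧ jA - 1 < j))) ∧
      ((jT ≤ jA - 1 ∧ j' < jT) ∨ ((jT ≤ jA - 1 ↔ jT ≤ j') ∧ jA - 1 < j'))) ∨
    ((((jT ≤ jA - 1 ∧ j < jT) ∨ ((jT ≤ jA - 1 ↔ jT ≤ j) ∧ jA - 1 < j)) ↔
      ((jT ≤ jA - 1 ∧ j' < jT) ∨ ((jT ≤ jA - 1 ↔ jT ≤ j') ∧ jA - 1 < j'))) ∧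
      ((jT ≤ j' ∧ j < jT) ∨ ((jT ≤ j' ↔ jT ≤ j) ∧ j' < j))) := by
  have hA := R.hA'
  have hn' := R.hn'
  have hX := R.hX
  have b1 := (cyc_bd R.hm R.hl R.hT hj).1
  have b2 := (cyc_bd R.hm R.hl R.hT hj').1
  have b3 := (cyc_bd R.hm R.hl R.hT (j := jA - 1) (by omega)).1
  have c1 := cyc_lt R.hm R.hl R.hT (j := jA - 1) (j' := j) (by omega) hj
  have c2 := cyc_lt R.hm R.hl R.hT (j := jA - 1) (j' := j') (by omega) hj'
  have c3 := cyc_lt R.hm R.hl R.hT (j := j') (j' := j) hj' hj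
  have hM : n' ≤ Mn N Y n' := by unfold Mn; omega
  rw [kk_lt (by omega) (by omega), ← c1, ← c2, ← c3]
  unfold mAn
  omega

/-- **The colours of the outer faces.** -/
theorem RN.col {j : ℕ} (hj : j < ln) :
    kk (Mn N Y n') (mAn ι n' jT jA) (cyc ι n' jT j) < k0n N Y n' t jT jA ι ↔
      (t ≤ j ∧ j < jA) := by
  have h1 := R.lts hj (j' := t - 1) (by have := R.hA'; have := R.hA; have := R.htn; omega)
  unfold k0n
  rw [h1]
  have h2 := R.ht
  have h3 := R.htn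
  have h4 := R.hA
  have h5 := R.hA'
  have h6 := R.hT
  rcases R.cs with ⟨-, -, g1, g2⟩ | ⟨-, -, g1⟩ | ⟨-, -, g1⟩ <;> omega

/-- The colour of the vertex with the spoke. -/
theorem RN.colT : mAn ι n' jT jA < cyc ι n' jT (t - 1) ↔ cl := by
  have h2 := R.ht
  have h3 := R.htn
  have h4 := R.hA
  have h5 := R.hA'
  have h6 := R.hT
  have c1 := cyc_lt R.hm R.hl R.hT (j := jA - 1) (j' := t - 1) (by omega) (by omega)
  unfold mAn
  rw [c1]
  rcases R.cs with ⟨g, -, g1, g2⟩ | ⟨g, -, g1⟩ | ⟨g, -, g1⟩ <;> simp only [g, iff_true, iff_false] <;>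
    omega

theorem RN.mA_lt : mAn ι n' jT jA < n' := by
  have h4 := R.hA
  have h5 := R.hA'
  exact (cyc_bd R.hm R.hl R.hT (j := jA - 1) (by omega)).1

theorem RN.mA_pos (h : jA - 1 ≠ jT) : 1 ≤ mAn ι n' jT jA := by
  have h4 := R.hA
  have h5 := R.hA'
  exact (cyc_bd R.hm R.hl R.hT (j := jA - 1) (by omega)).2 h

theorem RN.M_ge : 4 * N - 1 + 2 * Y + n' ≤ Mn N Y n' + 1 := by
  have := R.hn'
  unfold Mn
  omega

/-- The base of the box comes after the outer faces before the spoke. -/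
theorem RN.ltB {j : ℕ} (hj : j < ln) :
    kk (Mn N Y n') (mAn ι n' jT jA) (cyc ι n' jT j) < zBn N X Y n' jT jA tq ι ↔
      ¬ mAn ι n' jT jA < cyc ι n' jT j := by
  have h1 := (cyc_bd R.hm R.hl R.hT hj).1
  have h2 := R.hY
  have h3 := R.hX
  have h4 := R.hq
  have h5 := R.hn'
  unfold kk zBn Mn
  split_ifs with h
  · constructor <;> omega
  · constructor <;> omega

/-- The base of the closed steps. -/
def zcn (N X Y n' n jT jA tq : ℕ) (ι : ℕ → ℕ) (cl : Prop) [Decidable cl] : ℕ :=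
  if cl then zBn N X Y n' jT jA tq ι else zTn N Y n' jT jA n ι

/-- The base of the open steps. -/
def zon (N X Y n' ln jT jA tq : ℕ) (ι : ℕ → ℕ) (cl : Prop) [Decidable cl] : ℕ :=
  if cl then zTn N Y n' jT jA ln ι else zBn N X Y n' jT jA tq ι

theorem RN.zB_lt : zBn N X Y n' jT jA tq ι < Mn N Y n' := by
  have h1 := R.mA_lt
  have h2 := R.hY
  have h3 := R.hX
  have h4 := R.hq
  have h5 := R.hn'
  unfold zBn Mn
  omega

theorem RN.k0_lt : k0n N Y n' t jT jA ι < Mn N Y n' ∧ zTn N Y n' jT jA n ι < Mn N Y n' ∧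
    zTn N Y n' jT jA ln ι < Mn N Y n' := by
  have h1 := R.mA_lt
  have h2 := R.hn'
  have h4 := R.hY
  have h3 : mAn ι n' jT jA < Mn N Y n' := by unfold Mn; omega
  exact ⟨kk_bd h3, kk_bd h3, kk_bd h3⟩

theorem RN.z_lt [Decidable cl] : zcn N X Y n' n jT jA tq ι cl < Mn N Y n' ∧
    zon N X Y n' ln jT jA tq ι cl < Mn N Y n' := by
  obtain ⟨-, h1, h2⟩ := R.k0_lt
  have h3 := R.zB_lt
  unfold zcn zon
  split_ifs
  · exact ⟨h3, h2⟩
  · exact ⟨h1, h3⟩

/-- **The identity of the phases, closed steps.** -/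
theorem RN.idc [Decidable cl] [Decidable i0] {j : ℕ} (hj : j < ln) (h2 : j < jA) {J : Prop}
    [Decidable J]
    (hJ : J ↔ (cl ∧ jT ≤ j) ∨ (¬ cl ∧ i0 ∧ j < n) ∨ (¬ cl ∧ ¬ i0 ∧ (jT ≤ j ∨ j < n))) :
    ((if i0 then (1 : ℤ) else 0) + (if j < jT then 1 else 0) +
      (if mAn ι n' jT jA < cyc ι n' jT j then 1 else 0) +
      if kk (Mn N Y n') (mAn ι n' jT jA) (cyc ι n' jT j) < zcn N X Y n' n jT jA tq ι cl
        then 1 else 0) = if J then 1 else 2 := by
  have a1 := R.ht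
  have a2 := R.htn
  have a3 := R.hA
  have a4 := R.hA'
  have a5 := R.hT
  have a6 := R.hnl
  have c1 := cyc_lt R.hm R.hl R.hT (j := jA - 1) (j' := j) (by omega) hj
  have e0 : mAn ι n' jT jA < cyc ι n' jT j ↔
      (jT ≤ jA - 1 ∧ j < jT) ∨ ((jT ≤ jA - 1 ↔ jT ≤ j) ∧ jA - 1 < j) := c1
  have c2 := R.ltB hj
  have c3 := R.lts hj (j' := n - 1) (by omega)
  unfold zcn
  by_cases hc : cl
  · rw [if_pos hc]
    simp only [c2, e0]
    rcases R.cs with ⟨-, g0, g1, g2⟩ | ⟨g, -⟩ | ⟨g, -⟩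
    · rw [if_neg g0]
      have hJ' : J ↔ jT ≤ j := by
        rw [hJ]
        simp only [hc, not_true, false_and, or_false, true_and]
      simp only [hJ']
      split_ifs <;> omega
    · exact absurd hc g
    · exact absurd hc g
  · rw [if_neg hc]
    unfold zTn
    simp only [c3, e0]
    rcases R.cs with ⟨g, -⟩ | ⟨-, g0, g1⟩ | ⟨-, g0, g1⟩
    · exact absurd g hc
    · rw [if_pos g0]
      have hJ' : J ↔ j < n := by
        rw [hJ]
        simp only [hc, not_false_iff, false_and, false_or, true_and, g0, not_true, or_false]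
      simp only [hJ']
      split_ifs <;> omega
    · rw [if_neg g0]
      have hJ' : J ↔ (jT ≤ j ∨ j < n) := by
        rw [hJ]
        simp only [hc, not_false_iff, false_and, false_or, true_and, g0]
      simp only [hJ']
      split_ifs <;> omega

/-- **The identity of the phases, open steps.** -/
theorem RN.ido [Decidable cl] [Decidable i0] {j : ℕ} (hj : j < ln) (h1 : j < t ∨ jA ≤ j) {J : Prop}
    [Decidable J]
    (hJ : J ↔ (cl ∧ jT ≤ j) ∨ (¬ cl ∧ i0 ∧ j < n) ∨ (¬ cl ∧ ¬ i0 ∧ (jT ≤ j ∨ j < n))) :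
    ((if i0 then (1 : ℤ) else 0) + (if j < jT then 1 else 0) +
      (if mAn ι n' jT jA < cyc ι n' jT j then 1 else 0) +
      (if kk (Mn N Y n') (mAn ι n' jT jA) (cyc ι n' jT j) < zon N X Y n' ln jT jA tq ι cl
        then 1 else 0) - if j < t then 1 else 0) = if J then 1 else 2 := by
  have a1 := R.ht
  have a2 := R.htn
  have a3 := R.hA
  have a4 := R.hA'
  have a5 := R.hT
  have a6 := R.hnl
  have c1 := cyc_lt R.hm R.hl R.hT (j := jA - 1) (j' := j) (by omega) hj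
  have e0 : mAn ι n' jT jA < cyc ι n' jT j ↔
      (jT ≤ jA - 1 ∧ j < jT) ∨ ((jT ≤ jA - 1 ↔ jT ≤ j) ∧ jA - 1 < j) := c1
  have c2 := R.ltB hj
  have c3 := R.lts hj (j' := ln - 1) (by omega)
  unfold zon
  by_cases hc : cl
  · rw [if_pos hc]
    unfold zTn
    simp only [c3, e0]
    rcases R.cs with ⟨-, g0, g1, g2⟩ | ⟨g, -⟩ | ⟨g, -⟩
    · rw [if_neg g0]
      have hJ' : J ↔ jT ≤ j := by
        rw [hJ]
        simp only [hc, not_true, false_and, or_false, true_and]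
      simp only [hJ']
      split_ifs <;> omega
    · exact absurd hc g
    · exact absurd hc g
  · rw [if_neg hc]
    simp only [c2, e0]
    rcases R.cs with ⟨g, -⟩ | ⟨-, g0, g1⟩ | ⟨-, g0, g1⟩
    · exact absurd g hc
    · rw [if_pos g0]
      have hJ' : J ↔ j < n := by
        rw [hJ]
        simp only [hc, not_false_iff, false_and, false_or, true_and, g0, not_true, or_false]
      simp only [hJ']
      split_ifs <;> omega
    · rw [if_neg g0]
      have hJ' : J ↔ (jT ≤ j ∨ j < n) := by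
        rw [hJ]
        simp only [hc, not_false_iff, false_and, false_or, true_and, g0]
      simp only [hJ']
      split_ifs <;> omega

/-- The colours of the steps at the spoke and the box. -/
theorem RN.colS {k : ℕ} (h1 : mAn ι n' jT jA ≤ k)
    (h2 : k < mAn ι n' jT jA + (4 * N - 1) + 2 * Y) :
    k < k0n N Y n' t jT jA ι ↔ cl := by
  have a1 := R.ht
  have a2 := R.htn
  have a3 := R.hA
  have a4 := R.hA'
  rw [← R.colT]
  have h3 := (cyc_bd R.hm R.hl R.hT (j := t - 1) (by omega)).1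
  have h4 := R.hn'
  unfold k0n kk Mn
  split_ifs with h
  · constructor <;> omega
  · constructor <;> omega

/-- The base of the box comes after the spoke. -/
theorem RN.ltE {i : ℕ} (hi : i < Y) : mAn ι n' jT jA + i < zBn N X Y n' jT jA tq ι := by
  have h3 := R.hX
  unfold zBn
  omega

/-- The base of the box comes before the west side of the spoke. -/
theorem RN.geW (i : ℕ) : zBn N X Y n' jT jA tq ι ≤ 4 * N - 1 + i + Y + mAn ι n' jT jA := by
  have h3 := R.hX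
  have h4 := R.hq
  unfold zBn
  omega

/-- The steps between the base site and the vertex `T'`. -/
theorem RN.btw [Decidable cl] {j : ℕ} (hj : j < ln)
    (h : (cl ∧ k0n N Y n' t jT jA ι ≤ kk (Mn N Y n') (mAn ι n' jT jA) (cyc ι n' jT j) ∧
        kk (Mn N Y n') (mAn ι n' jT jA) (cyc ι n' jT j) < zon N X Y n' ln jT jA tq ι cl) ∨
      (¬ cl ∧ zcn N X Y n' n jT jA tq ι cl ≤ kk (Mn N Y n') (mAn ι n' jT jA) (cyc ι n' jT j) ∧
        kk (Mn N Y n') (mAn ι n' jT jA) (cyc ι n' jT j) < k0n N Y n' t jT jA ι)) : j < n := by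
  have a1 := R.ht
  have a2 := R.htn
  have a3 := R.hA
  have a4 := R.hA'
  have a5 := R.hT
  have a6 := R.hnl
  have b1 := R.col hj
  rcases h with ⟨h1, h2, h3⟩ | ⟨h1, h2, h3⟩
  · unfold zon at h3
    rw [if_pos h1] at h3
    unfold zTn at h3
    rw [R.lts hj (j' := ln - 1) (by omega)] at h3
    rcases R.cs with ⟨-, g0, g1, g2⟩ | ⟨g, -⟩ | ⟨g, -⟩
    · omega
    · exact absurd h1 g
    · exact absurd h1 g
  · unfold zcn at h2
    rw [if_neg h1] at h2
    unfold zTn at h2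
    rw [← not_lt, R.lts hj (j' := n - 1) (by omega)] at h2
    rcases R.cs with ⟨g, -⟩ | ⟨-, g0, g1⟩ | ⟨-, g0, g1⟩
    · exact absurd g h1
    · omega
    · omega

/-- The sites between the base site and the vertex `T'`. -/
theorem RN.mid [Decidable cl] {j : ℕ} (hj : j < n) (h : (cl ∧ j ≤ t) ∨ (¬ cl ∧ t ≤ j))
    (h0 : kk (Mn N Y n') (mAn ι n' jT jA) (cyc ι n' jT (t - 1)) =
      kk (Mn N Y n') (mAn ι n' jT jA) (cyc ι n' jT t) + 1) :
    zcn N X Y n' n jT jA tq ι cl ≤ kk (Mn N Y n') (mAn ι n' jT jA) (cyc ι n' jT j) + 1 ∧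
      kk (Mn N Y n') (mAn ι n' jT jA) (cyc ι n' jT j) + 1 ≤
        zon N X Y n' ln jT jA tq ι cl := by
  have a1 := R.ht
  have a2 := R.htn
  have a3 := R.hA
  have a4 := R.hA'
  have a5 := R.hT
  have a6 := R.hnl
  have key : ∀ i, i < ln → (mAn ι n' jT jA < cyc ι n' jT i ↔
      (jT ≤ jA - 1 ∧ i < jT) ∨ ((jT ≤ jA - 1 ↔ jT ≤ i) ∧ jA - 1 < i)) := fun i hi =>
    cyc_lt R.hm R.hl R.hT (j := jA - 1) (j' := i) (by omega) hi
  have b1 := R.ltB (j := j) (by omega)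
  have b2 := R.ltB (j := t - 1) (by omega)
  rw [key _ (by omega)] at b1 b2
  unfold zcn zon
  rcases h with ⟨hc, h⟩ | ⟨hc, h⟩
  · rw [if_pos hc, if_pos hc]
    have c1 := R.lts (j := j) (j' := ln - 1) (by omega) (by omega)
    have c2 := R.lts (j := t - 1) (j' := ln - 1) (by omega) (by omega)
    unfold zTn
    rcases R.cs with ⟨-, g0, g1, g2⟩ | ⟨g, -⟩ | ⟨g, -⟩
    · rcases (by omega : j < t ∨ j = t) with g | g
      · constructor <;> omega
      · rw [g, ← h0]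
        constructor <;> omega
    · exact absurd hc g
    · exact absurd hc g
  · rw [if_neg hc, if_neg hc]
    have c1 := R.lts (j := j) (j' := n - 1) (by omega) (by omega)
    unfold zTn
    rcases R.cs with ⟨g, -⟩ | ⟨-, g0, g1⟩ | ⟨-, g0, g1⟩
    · exact absurd g hc
    · constructor <;> omega
    · constructor <;> omega

end

end Vale.Agent.P167.N.ID
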