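import Vale.Agent.P167.N.ID.PhG
import Vale.Agent.P167.N.ID.PhN
import Vale.Agent.P167.N.ID.FrmS
import Vale.Agent.P167.N.ID.GeoSG

/-!
# P167, `q < 1`, START: the steps of the curve of the region `R` of the Dobrushin frame

* `rn_D`: the numbers of the frame.
* `uW_T`, `uW_box`: lifted directions at the vertex with the spoke.
* `posR`: the steps of the curve of `R` with the first step `s0D`.
-/

set_option autoImplicit false

namespace Vale.Agent.P167.N.ID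

open Finset
open Vale.Agent.P167.Top
open Vale.Agent.P167.H871
open Vale.Agent.P167.H871.Q
open Vale.Agent.P167.A (plane)
open Vale.Agent.P167.FK (Bq)
open Vale.Agent.P167.H199 (Gap ah at' mks)
open Vale.Agent.P167.H662 (hsite)
open Vale.Agent.P167.H825.Q (Bc stΦ stτ)
open Vale.Agent.P167.H680.T (WallG WCG sgb sq par mem_uI)
open Vale.Agent.P167.H398.Q (hB)
open Vale.Agent.P167.E6 (IsPolygon Encloses dir face)
open Vale.Agent.P167.H825 (pdir enl ptau Marks Box tn)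
open Vale.Agent.P167.XDL (bS mem_bS)
open Vale.Agent.P167.Enl (sW eW tB tB_lt kOf uN qN PN bd_qN qN_nat pW uW pW_eq uW_eq pW_vp uW_same
  uW_mod vec_pred vp frmQ mem_frmQ sR eR row_dat row_num sR_num row_bds gn_big sqL_op frmQ_disj
  mem_hB BGap pdir_step)

variable {l : ℕ} {θ β : ℝ} {p : ZMod l → ℤ × ℤ} {S₀ : Finset (ℤ × ℤ)} {b : Box} {n d : ℕ}
  {tp g δ : ℝ} {ia : ℕ} {ta : ℝ}

/-- The step of the junction, corner numbering. -/
noncomputable def jAd (n ia : ℕ) (ta : ℝ) : ℕ := ia * n + ⌊ta * n⌋₊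

/-- The junction is in a row. -/
theorem jA_row (H : DobN p S₀ b tp g δ n) (hbg : BGap l (mks p b tp) g (.dob ia ta)) :
    ∃ j ≤ (mks p b tp).m, sW p n (mks p b tp) ⌊δ * n⌋₊ ia j + 2 ≤ ⌊ta * n⌋₊ ∧
      ⌊ta * n⌋₊ + 2 ≤ eW p n (mks p b tp) ⌊δ * n⌋₊ ia j := by
  obtain ⟨g1, g2, g3, g4, g5⟩ := hbg
  exact mid_row H.hQ H.hg H.hδ H.hδg H.hn g2 g3.le g4.le g5 le_rfl (Nat.le_succ _)

/-- The base site is in a row. -/
theorem t_row (H : DobN p S₀ b tp g δ n) :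
    ∃ j ≤ (mks p b tp).m, sW p n (mks p b tp) ⌊δ * n⌋₊ 0 j + 2 ≤ tB n (mks p b tp) ∧
      tB n (mks p b tp) + 2 ≤ eW p n (mks p b tp) ⌊δ * n⌋₊ 0 j := by
  have hl : 0 < l := by have := H.hp.1; omega
  exact mid_row H.hQ H.hg H.hδ H.hδg H.hn hl H.hQ.tp0.le H.hQ.tp1.le H.hg.2 le_rfl (Nat.le_succ _)

/-- The end of a row is on its side. -/
theorem eW_le (H : DobN p S₀ b tp g δ n) {i j : ℕ} (hi : i < l) (hj : j ≤ (mks p b tp).m) :
    eW p n (mks p b tp) ⌊δ * n⌋₊ i j ≤ n := by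
  obtain ⟨g1, g2, g3⟩ := row_num (Q := mks p b tp) hi hj
  have h := row_bds (p := p) H.hQ H.hg H.hδ H.hδg H.hn g1
  rw [g2, g3] at h
  omega

theorem xV_bd (H : DobN p S₀ b tp g δ n) : 2 ≤ xV p n ∧ xV p n + 3 ≤ bM p * n ∧ 2 ≤ yV p n := by
  have h := innF H.hp H.hD H.hN H.hQ H.hg H.hδ H.hδg H.hn
  have h1 := h.box _ h.t1
  simp only at h1
  omega

/-- **The numbers of the frame.** -/
theorem rn_D (H : DobN p S₀ b tp g δ n) (hbg : BGap l (mks p b tp) g (.dob ia ta)) {n' : ℕ}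
    {P' : ℕ → ℤ × ℤ} {u' : ℕ → ℤ} {ι : ℕ → ℕ}
    (hP : BPf p S₀ n (mks p b tp) ⌊δ * n⌋₊ n' P' u' ι) {tq : ℕ} (htq : tq < bM p * n) :
    RN (bM p * n) (xV p n) (yV p n) n' (l * n) n (tB n (mks p b tp)) (iT p * n) (jAd n ia ta) tq ι
      (clT p ia) (iT p = 0) := by
  obtain ⟨-, -, b5, -, hM⟩ := H.basic
  have hl := H.hp.1
  obtain ⟨j1, -, -, -⟩ := jT_facts H
  obtain ⟨x1, x2, x3⟩ := xV_bd H
  obtain ⟨k, k1, k2, k3⟩ := jA_row H hbg
  obtain ⟨k', k1', k2', k3'⟩ := t_row H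
  obtain ⟨g1, g2, g3, g4, g5⟩ := hbg
  have e1 := eW_le H g2 k1
  have e2 : (ia + 1) * n ≤ l * n := Nat.mul_le_mul_right n g2
  have e3 : 1 * n ≤ ia * n := Nat.mul_le_mul_right n g1
  have e4 : 3 * n ≤ l * n := Nat.mul_le_mul_right n (by omega)
  rw [add_mul, one_mul] at e2
  refine ⟨hP.mono, hP.lt, by omega, by omega, n'_pos hP H.hp b5, by omega, tB_lt H.hQ b5,
    by omega, ?_, ?_, j1, htq, ?_⟩
  · unfold jAd
    omega
  · unfold jAd
    omega
  · unfold jAd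
    by_cases hc : clT p ia
    · left
      obtain ⟨c1, c2⟩ := hc
      have e5 : 1 * n ≤ iT p * n := Nat.mul_le_mul_right n c1
      have e6 : iT p * n ≤ ia * n := Nat.mul_le_mul_right n c2
      exact ⟨⟨c1, c2⟩, by omega, by omega, by omega⟩
    · right
      rcases Nat.eq_zero_or_pos (iT p) with h0 | h0
      · left
        exact ⟨hc, h0, by rw [h0, zero_mul]⟩
      · right
        have e6 : (ia + 1) * n ≤ iT p * n := Nat.mul_le_mul_right n (by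
          by_contra h
          exact hc ⟨h0, by omega⟩)
        rw [add_mul, one_mul] at e6
        exact ⟨hc, by omega, by omega⟩

/-- The lifted direction at the vertex with the spoke. -/
theorem uW_T (H : DobN p S₀ b tp g δ n) : uW p n (tB n (mks p b tp)) (iT p * n) =
    uT p + 5 - if iT p = 0 then 4 else 0 := by
  obtain ⟨-, -, b5, -, -⟩ := H.basic
  have hl : 0 < l := by have := H.hp.1; omega
  have : NeZero l := ⟨hl.ne'⟩
  obtain ⟨d1, d2⟩ := dirT H.hp H.hD (mks p b tp)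
  rw [iB_xT] at d1
  change pdir p (iT p) = 0 at d2
  rw [uW_eq b5 (tB_lt H.hQ b5) hl, Nat.mul_div_cancel _ b5, ptau_per H.hp H.hD]
  unfold uT
  by_cases h0 : iT p = 0
  · rw [if_pos h0] at d1 ⊢
    rw [h0] at d2 ⊢
    rw [if_pos rfl]
    have h1 : ptau p (0 + l) = ptau p 0 + 4 := ptau_per H.hp H.hD 0
    obtain ⟨m, rfl⟩ : ∃ m, l = m + 1 := ⟨l - 1, by omega⟩
    have h2 : ptau p (m + 1) = ptau p m + tn (pdir p m) (pdir p (m + 1)) := rfl
    have h3 : pdir p (m + 1) = pdir p 0 := by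
      unfold pdir
      rw [show ((m + 1 : ℕ) : ZMod (m + 1)) = 0 from ZMod.natCast_self _, Nat.cast_zero]
    rw [Nat.add_sub_cancel] at d1 ⊢
    rw [zero_add, h2, d1, h3, d2] at h1
    have h4 : tn 3 0 = 1 := rfl
    rw [h4] at h1
    omega
  · rw [if_neg h0] at d1 ⊢
    rw [if_neg h0]
    obtain ⟨m, hm⟩ : ∃ m, iT p = m + 1 := ⟨iT p - 1, by omega⟩
    rw [hm, Nat.add_sub_cancel] at d1
    rw [hm] at d2
    rw [hm, Nat.add_sub_cancel]
    have h2 : ptau p (m + 1) = ptau p m + tn (pdir p m) (pdir p (m + 1)) := rfl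
    have h4 : tn 3 0 = 1 := rfl
    rw [h2, d1, d2, h4]
    ring

/-- The lifted direction of the box at the foot of the spoke. -/
theorem uW_box {N t X : ℕ} (hN : 0 < N) (ht : t < N) (hX : X < N) :
    uW pQ N t (2 * N + X) = 8 := by
  obtain ⟨d0, d1, d2, -⟩ := pdir_pQ
  rw [uW_eq hN ht (by norm_num), ptau_per pQ_poly pQ_encl]
  have e : (2 * N + X) / N = 2 := by
    rw [add_comm, Nat.add_mul_div_right _ _ hN, Nat.div_eq_of_lt hX]
  have h2 : ptau pQ 2 = 0 + tn (pdir pQ 0) (pdir pQ 1) + tn (pdir pQ 1) (pdir pQ 2) := rfl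
  rw [e, h2, d0, d1, d2]
  rfl

/-! ### the steps of the curve with another first step -/

section glue

variable {K₁ K₂ K₃ : Finset (ℤ × ℤ)} {B E F : Set (ℤ × ℤ)} {a b' h : ℕ} {P₁ P₂ : ℕ → ℤ × ℤ}
  {u₁ u₂ : ℕ → ℤ} {x y : ℤ}

/-- **The steps of the curve**, the first step is the position `mA` of the inner path. -/
theorem Glue.pos (G : Glue K₁ K₂ K₃ B E F a b' h P₁ P₂ u₁ u₂ x y) {mA k s : ℕ} (hmA : mA ≤ b')
    (hs : s = a + h + (b' - mA)) (hk : k < a + h + b' + h) :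
    (∃ i < h, k = mA + i ∧ CP a b' h P₁ P₂ x y (k + s) = (x + 1, y + (h : ℤ) - i) ∧
      CU a b' h u₁ u₂ (k + s) = 3) ∨
    (∃ m, 1 ≤ m ∧ m ≤ a ∧ k + 1 = m + h + mA ∧ CP a b' h P₁ P₂ x y (k + s) = P₁ m ∧
      CU a b' h u₁ u₂ (k + s) = u₁ m + 4) ∨
    (∃ i < h, k = a + i + h + mA ∧ CP a b' h P₁ P₂ x y (k + s) = (x, y + i) ∧
      CU a b' h u₁ u₂ (k + s) = 9) ∨
    (∃ m, 1 ≤ m ∧ m ≤ b' ∧ k = kk (a + h + b' + h) mA m ∧
      CP a b' h P₁ P₂ x y (k + s) = P₂ (m + 1) ∧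
      CU a b' h u₁ u₂ (k + s) = u₂ m + 2 + (if mA < m then 4 else 0)) := by
  have ha := G.C.ha
  have hb := G.C.hb
  have hH := G.C.hH
  have hP := G.C.bd.perP
  have hU := G.C.bd.per
  rcases Nat.lt_or_ge (k + s) (a + h + b' + h) with g | g
  · rcases Cut.hcase (a := a) (b := b') (H := h) (k + s) g with g' | ⟨j, hj, g'⟩ | ⟨i, hi, g'⟩ |
      ⟨i, hi, g'⟩
    · omega
    · omega
    · right; right; right
      obtain ⟨c1, c2, -⟩ := G.C.i3 (m := b' - i) (by omega) (by omega)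
      rw [show b' - (b' - i) = i by omega] at c1 c2
      refine ⟨b' - i, by omega, by omega, ?_, by rw [g', c1], ?_⟩
      · unfold kk
        rw [if_pos (by omega)]
        omega
      · rw [g', c2, if_neg (by omega)]
        ring
    · left
      obtain ⟨c1, c2, -⟩ := Cut.i4 (a := a) (b := b') (P₁ := P₁) (P₂ := P₂) (u₁ := u₁)
        (u₂ := u₂) (x := x) (y := y) (H := h) (j := h - 1 - i) (by omega)
      rw [show h - 1 - (h - 1 - i) = i by omega] at c1 c2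
      refine ⟨i, hi, by omega, ?_, by rw [g', c2]⟩
      rw [g', c1]
      ext
      · rfl
      · simp only
        omega
  · obtain ⟨q, hq⟩ : ∃ q, k + s = q + (a + h + b' + h) :=
      ⟨k + s - (a + h + b' + h), by omega⟩
    rw [hq, hP, hU]
    rcases Cut.hcase (a := a) (b := b') (H := h) q (by omega) with g' | ⟨j, hj, g'⟩ |
      ⟨i, hi, g'⟩ | ⟨i, hi, g'⟩
    · right; left
      obtain ⟨c1, c2⟩ := G.C.i1 (k := q + 1) (by omega) (by omega)
      rw [Nat.add_sub_cancel] at c1 c2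
      exact ⟨q + 1, by omega, by omega, by omega, c1, by rw [c2]; ring⟩
    · right; right; left
      obtain ⟨c1, c2⟩ := Cut.i2 (a := a) (b := b') (P₁ := P₁) (P₂ := P₂) (u₁ := u₁) (u₂ := u₂)
        (x := x) (y := y) hj
      exact ⟨j, hj, by omega, by rw [g', c1], by rw [g', c2]; norm_num⟩
    · right; right; right
      obtain ⟨c1, c2, -⟩ := G.C.i3 (m := b' - i) (by omega) (by omega)
      rw [show b' - (b' - i) = i by omega] at c1 c2
      refine ⟨b' - i, by omega, by omega, ?_, by rw [g', c1], ?_⟩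
      · unfold kk
        rw [if_neg (by omega)]
        omega
      · rw [g', c2, if_pos (by omega)]
        ring
    · omega

end glue

section

variable (H : DobN p S₀ b tp g δ n) (hbg : BGap l (mks p b tp) g (.dob ia ta)) {n' : ℕ}
  {P' : ℕ → ℤ × ℤ} {u' : ℕ → ℤ} {ι : ℕ → ℕ} (hP : BPf p S₀ n (mks p b tp) ⌊δ * n⌋₊ n' P' u' ι)
  {B : Set (ℤ × ℤ)} (hB : HolB p b tp n ⌊δ * n⌋₊ B) {tq : ℕ} (htq : tq < bM p * n)

/-- The position of the first closed step. -/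
noncomputable def mAD (p : ZMod l → ℤ × ℤ) (n ia : ℕ) (ta : ℝ) (n' : ℕ) (ι : ℕ → ℕ) : ℕ :=
  mAn ι n' (iT p * n) (jAd n ia ta)

/-- The first step of the curve of `R`. -/
noncomputable def s0D (p : ZMod l → ℤ × ℤ) (n ia : ℕ) (ta : ℝ) (n' : ℕ) (ι : ℕ → ℕ) : ℕ :=
  4 * (bM p * n) - 1 + yV p n + (n' - 1 - mAD p n ia ta n' ι)

/-- The curve of `R` with its first step. -/
noncomputable def PRs (p : ZMod l → ℤ × ℤ) (b : Box) (n ia : ℕ) (ta : ℝ) (n' : ℕ) (P' : ℕ → ℤ × ℤ)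
    (ι : ℕ → ℕ) : ℕ → ℤ × ℤ := fun k => PR p b n n' P' ι (k + s0D p n ia ta n' ι)

/-- The directions of the curve of `R` with its first step. -/
noncomputable def URs (p : ZMod l → ℤ × ℤ) (b : Box) (n ia : ℕ) (ta : ℝ) (n' : ℕ) (u' : ℕ → ℤ)
    (ι : ℕ → ℕ) : ℕ → ℤ := fun k => UR p b n n' u' ι (k + s0D p n ia ta n' ι)

include H hbg hP in
theorem mAD_lt : mAD p n ia ta n' ι < n' := by
  obtain ⟨-, -, b5, -, hM⟩ := H.basic
  exact (rn_D H hbg hP (tq := 0) (Nat.mul_pos (by omega) b5)).mA_lt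

include H hP hB in
/-- The cell of `R` with its first step. -/
theorem cellRs (ia : ℕ) (ta : ℝ) : Cell (KD p b tp n ⌊δ * n⌋₊) B
    (RD p S₀ b tp n ⌊δ * n⌋₊ : Set (ℤ × ℤ)) (MR p n n') (PRs p b n ia ta n' P' ι)
    (URs p b n ia ta n' u' ι) 1 :=
  cellR H hP hB _

include H hbg hP hB in
/-- **The steps of the curve of `R`.** -/
theorem posR {k : ℕ} (hk : k < MR p n n') :
    (∃ i < yV p n, k = mAD p n ia ta n' ι + i ∧
      PRs p b n ia ta n' P' ι k = ((xV p n : ℤ) + 1, 0 + (yV p n : ℤ) - i) ∧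
      URs p b n ia ta n' u' ι k = 3) ∨
    (∃ m, 1 ≤ m ∧ m ≤ 4 * (bM p * n) - 1 ∧ k + 1 = m + yV p n + mAD p n ia ta n' ι ∧
      PRs p b n ia ta n' P' ι k =
        pW pQ (bM p * n) (tB (bM p * n) (mksQ p b)) (m + (2 * (bM p * n) + xV p n)) ∧
      URs p b n ia ta n' u' ι k =
        uW pQ (bM p * n) (tB (bM p * n) (mksQ p b)) (m + (2 * (bM p * n) + xV p n)) - 4) ∨
    (∃ i < yV p n, k = 4 * (bM p * n) - 1 + i + yV p n + mAD p n ia ta n' ι ∧
      PRs p b n ia ta n' P' ι k = ((xV p n : ℤ), 0 + (i : ℤ)) ∧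
      URs p b n ia ta n' u' ι k = 9) ∨
    (∃ m, 1 ≤ m ∧ m ≤ n' - 1 ∧ k = kk (MR p n n') (mAD p n ia ta n' ι) m ∧
      PRs p b n ia ta n' P' ι k = P' (m + 1 + ι (iT p * n)) ∧
      URs p b n ia ta n' u' ι k = u' (m + ι (iT p * n)) - u' (ι (iT p * n)) + 2 +
        (if mAD p n ia ta n' ι < m then 4 else 0)) := by
  obtain ⟨-, -, b5, -, hM⟩ := H.basic
  have hN0 : 0 < bM p * n := Nat.mul_pos (by omega) b5
  have h1 := mAD_lt H hbg hP
  obtain ⟨x1, x2, x3⟩ := xV_bd H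
  rcases (glueD H hP hB).pos (mA := mAD p n ia ta n' ι) (k := k)
    (s := s0D p n ia ta n' ι) (by omega) rfl hk with
    ⟨i, hi, g1, g2, g3⟩ | ⟨m, m1, m2, g1, g2, g3⟩ | ⟨i, hi, g1, g2, g3⟩ | ⟨m, m1, m2, g1, g2, g3⟩
  · exact Or.inl ⟨i, hi, g1, g2, g3⟩
  · refine Or.inr (Or.inl ⟨m, m1, m2, g1, g2, ?_⟩)
    refine g3.trans ?_
    rw [uW_box hN0 (tB_lt H.hQ' hN0) (by omega)]
    ring
  · exact Or.inr (Or.inr (Or.inl ⟨i, hi, g1, g2, g3⟩))
  · exact Or.inr (Or.inr (Or.inr ⟨m, m1, m2, g1, g2, g3⟩))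

end

end Vale.Agent.P167.N.ID
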