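import Vale.Agent.P167.N.ID.PhQ
import Vale.Agent.P167.N.ID.PhP
import Vale.Agent.P167.N.ID.FrmC2

/-!
# P167, `q < 1`, START: the phases of the curve of the region `R` of the Dobrushin frame

* `outR`, `boxR`: the steps of the curve at the rows of the polygon and of the box.
* `valR`: the values of the rows at the steps; `clrR`: the colours.
-/

set_option autoImplicit false

namespace Vale.Agent.P167.N.ID

open Finset
open Vale.Agent.P167.Top
open Vale.Agent.P167.H871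
open Vale.Agent.P167.H871.Q
open Vale.Agent.P167.A (plane)
open Vale.Agent.P167.FK (Bq)
open Vale.Agent.P167.BR (ce)
open Vale.Agent.P167.H199 (Gap ah at' mks)
open Vale.Agent.P167.H662 (hsite)
open Vale.Agent.P167.H825.Q (Bc stΦ stτ)
open Vale.Agent.P167.H680.T (WallG WCG sgb sq par mem_uI)
open Vale.Agent.P167.H398.Q (hB)
open Vale.Agent.P167.E6 (IsPolygon Encloses dir face)
open Vale.Agent.P167.H825 (pdir enl ptau Marks Box tn)
open Vale.Agent.P167.XDL (bS mem_bS)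
open Vale.Agent.P167.Enl (sW eW tB tB_lt kOf uN qN PN bd_qN qN_nat pW uW pW_eq uW_eq pW_vp uW_same
  uW_mod vec_pred vp frmQ mem_frmQ sR eR row_dat row_num sR_num row_bds gn_big sqL_op frmQ_disj
  mem_hB BGap pdir_step)

variable {l : ℕ} {θ β : ℝ} {p : ZMod l → ℤ × ℤ} {S₀ : Finset (ℤ × ℤ)} {b : Box} {n d : ℕ}
  {tp g δ : ℝ} {ia : ℕ} {ta : ℝ}

/-- The closed steps of the polygon. -/
theorem kOf_ka (H : DobN p S₀ b tp g δ n) (hbg : BGap l (mks p b tp) g (.dob ia ta)) (j : ℕ) :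
    kOf l n (tB n (mks p b tp)) (j / n) (j % n) <
      Bc.ka l n (tB n (mks p b tp)) (.dob ia ta) ↔ tB n (mks p b tp) ≤ j ∧ j < jAd n ia ta := by
  obtain ⟨-, -, b5, -, -⟩ := H.basic
  obtain ⟨k, k1, k2, k3⟩ := jA_row H hbg
  have ht := tB_lt (n := n) H.hQ b5
  obtain ⟨g1, g2, -, -, -⟩ := hbg
  have e1 := eW_le H g2 k1
  have e2 : (ia + 1) * n ≤ l * n := Nat.mul_le_mul_right n g2
  have e3 : 1 * n ≤ ia * n := Nat.mul_le_mul_right n g1
  rw [add_mul, one_mul] at e2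
  rw [kOf_dm]
  show _ < kOf l n (tB n (mks p b tp)) ia ⌊ta * n⌋₊ ↔ _
  unfold kOf jAd
  split_ifs <;> omega

/-- The signs of the differences of the faces. -/
theorem JD_iffR (hn : 0 < n) (j : ℕ) : JD p ia (j / n) = true ↔
    (clT p ia ∧ iT p * n ≤ j) ∨ (¬ clT p ia ∧ iT p = 0 ∧ j < n) ∨
      (¬ clT p ia ∧ ¬ iT p = 0 ∧ (iT p * n ≤ j ∨ j < n)) := by
  have h1 : iT p ≤ j / n ↔ iT p * n ≤ j := Nat.le_div_iff_mul_le hn
  have h2 : j / n = 0 ↔ j < n := by
    rw [Nat.div_eq_zero_iff]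
    omega
  unfold JD
  by_cases hc : clT p ia
  · rw [if_pos hc]
    simp only [decide_eq_true_eq, hc, not_true, false_and, or_false, true_and]
    exact h1
  · rw [if_neg hc]
    by_cases h0 : iT p = 0
    · rw [if_pos h0]
      simp only [decide_eq_true_eq, hc, h0, not_true, not_false_iff, false_and, or_false, true_and,
        false_or]
      exact h2
    · rw [if_neg h0]
      simp only [decide_eq_true_eq, hc, h0, not_false_iff, false_and, true_and, false_or, h1, h2]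

section

variable (H : DobN p S₀ b tp g δ n) (hbg : BGap l (mks p b tp) g (.dob ia ta)) {n' : ℕ}
  {P' : ℕ → ℤ × ℤ} {u' : ℕ → ℤ} {ι : ℕ → ℕ} (hP : BPf p S₀ n (mks p b tp) ⌊δ * n⌋₊ n' P' u' ι)
  {B : Set (ℤ × ℤ)} (hB : HolB p b tp n ⌊δ * n⌋₊ B) {tq : ℕ} (htq : tq < bM p * n)

include H hP hB in
/-- **The steps of the curve at the rows of the polygon.** -/
theorem outR {k m : ℕ} (m1 : 1 ≤ m) (m2 : m ≤ n' - 1)
    (e1 : PRs p b n ia ta n' P' ι k = P' (m + 1 + ι (iT p * n)))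
    (e2 : URs p b n ia ta n' u' ι k = u' (m + ι (iT p * n)) - u' (ι (iT p * n)) + 2 +
      (if mAD p n ia ta n' ι < m then 4 else 0))
    (h1 : oq (PRs p b n ia ta n' P' ι) (URs p b n ia ta n' u' ι) k ∈ KD p b tp n ⌊δ * n⌋₊)
    (h2 : oq (PRs p b n ia ta n' P' ι) (URs p b n ia ta n' u' ι) k ∉ B) :
    ∃ j < l * n, InR (l * ((mks p b tp).m + 1)) (sR p n (mks p b tp) ⌊δ * n⌋₊)
        (eR p n (mks p b tp) ⌊δ * n⌋₊) j ∧ m = cyc ι n' (iT p * n) j ∧
      oq (PRs p b n ia ta n' P' ι) (URs p b n ia ta n' u' ι) k =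
        oq (pW p n (tB n (mks p b tp))) (uW p n (tB n (mks p b tp))) j ∧
      M4 (PRs p b n ia ta n' P' ι k) (URs p b n ia ta n' u' ι k) =
        M4 (pW p n (tB n (mks p b tp)) j + vec (uW p n (tB n (mks p b tp)) j - 1))
          (uW p n (tB n (mks p b tp)) j) ∧
      URs p b n ia ta n' u' ι k = uW p n (tB n (mks p b tp)) j -
        uW p n (tB n (mks p b tp)) (iT p * n) + 2 + (if j < iT p * n then 4 else 0) +
          (if mAD p n ia ta n' ι < m then 4 else 0) := by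
  obtain ⟨b', rfl⟩ : ∃ b', n' = b' + 1 := ⟨n' - 1, by omega⟩
  obtain ⟨j1, j2, j3, j4⟩ := jT_facts H
  have G := glueD H hP hB
  rw [Nat.add_sub_cancel] at G m2
  have hbd : Bd _ (b' + 1) (sP P' (ι (iT p * n))) (sU u' (ι (iT p * n)) (u' (ι (iT p * n)))) 1 :=
    G.C.b2
  obtain ⟨r1, r2⟩ := rev_at hbd (i := b' - m) (by omega)
  rw [show b' + 1 - (b' - m) = m + 1 by omega] at r1
  rw [show b' - (b' - m) = m by omega] at r2
  have hκ : u' (ι (iT p * n)) = uW p n (tB n (mks p b tp)) (iT p * n) := hP.dir _ j1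
  have hκ4 : u' (ι (iT p * n)) % 4 = 0 := by rw [hκ, j3]
  have c1 : PRs p b n ia ta (b' + 1) P' ι k =
      revP (b' + 1) (sP P' (ι (iT p * n))) (b' - m) := by rw [e1, r1]; rfl
  have c2 : URs p b n ia ta (b' + 1) u' ι k =
      revU (b' + 1) (sU u' (ι (iT p * n)) (u' (ι (iT p * n)))) (b' - m) + 4 +
        (if mAD p n ia ta (b' + 1) ι < m then 4 else 0) := by
    rw [e2, r2]
    show _ = u' (m + ι (iT p * n)) - u' (ι (iT p * n)) - 2 + 4 + _
    ring
  have c3 : oq (PRs p b n ia ta (b' + 1) P' ι) (URs p b n ia ta (b' + 1) u' ι) k =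
      oq (revP (b' + 1) (sP P' (ι (iT p * n))))
        (revU (b' + 1) (sU u' (ι (iT p * n)) (u' (ι (iT p * n))))) (b' - m) := by
    unfold oq
    rw [c1]
    refine sqL_congr ?_
    rw [c2]
    split_ifs <;> omega
  have c4 : M4 (PRs p b n ia ta (b' + 1) P' ι k) (URs p b n ia ta (b' + 1) u' ι k) =
      M4 (revP (b' + 1) (sP P' (ι (iT p * n))) (b' - m))
        (revU (b' + 1) (sU u' (ι (iT p * n)) (u' (ι (iT p * n)))) (b' - m)) := by
    rw [c1]
    refine M4_congr ?_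
    rw [c2]
    split_ifs <;> omega
  rw [c3] at h1 h2 ⊢
  have h3 : oq (revP (b' + 1) (sP P' (ι (iT p * n))))
      (revU (b' + 1) (sU u' (ι (iT p * n)) (u' (ι (iT p * n))))) (b' - m) ∈
        frmQ p (mks p b tp) n ⌊δ * n⌋₊ :=
    G.m2 (not_not.1 (G.F₂.bd.right (b' - m))) h1
  obtain ⟨j, hj, hin, g1, g2, g3⟩ := ixX H.hp H.hD H.hQ H.hg H.hδ H.hδg H.hn hP rfl hB.poly j1 hκ4
    (k := b' - m) (by omega) h3 h2
  rw [show b' - (b' - m) = m by omega] at g3
  refine ⟨j, hj, hin, ?_, g1, by rw [c4, g2], ?_⟩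
  · unfold cyc
    rcases g3 with ⟨g4, g5, -⟩ | ⟨g4, g5, -⟩
    · rw [if_pos g4]
      omega
    · rw [if_neg (by omega)]
      omega
  · rw [c2, ← hκ]
    rcases g3 with ⟨g4, -, g5⟩ | ⟨g4, -, g5⟩
    · rw [g5, if_neg (show ¬ j < iT p * n by omega)]
      ring
    · rw [g5, if_pos g4]
      ring

include H hP hB in
/-- **The steps of the curve at the rows of the box.** -/
theorem boxR {k m : ℕ} (m2 : m ≤ 4 * (bM p * n) - 1)
    (e1 : PRs p b n ia ta n' P' ι k =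
        pW pQ (bM p * n) (tB (bM p * n) (mksQ p b)) (m + (2 * (bM p * n) + xV p n)))
    (e2 : URs p b n ia ta n' u' ι k =
        uW pQ (bM p * n) (tB (bM p * n) (mksQ p b)) (m + (2 * (bM p * n) + xV p n)) - 4)
    (h1 : oq (PRs p b n ia ta n' P' ι) (URs p b n ia ta n' u' ι) k ∈ KD p b tp n ⌊δ * n⌋₊) :
    ∃ j < 4 * (bM p * n), InR (4 * ((mksQ p b).m + 1)) (sR pQ (bM p * n) (mksQ p b) ⌊δ * n⌋₊)
        (eR pQ (bM p * n) (mksQ p b) ⌊δ * n⌋₊) j ∧
      oq (PRs p b n ia ta n' P' ι) (URs p b n ia ta n' u' ι) k =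
        oq (pW pQ (bM p * n) (tB (bM p * n) (mksQ p b)))
          (uW pQ (bM p * n) (tB (bM p * n) (mksQ p b))) j ∧
      M4 (PRs p b n ia ta n' P' ι k) (URs p b n ia ta n' u' ι k) =
        M4 (pW pQ (bM p * n) (tB (bM p * n) (mksQ p b)) j)
          (uW pQ (bM p * n) (tB (bM p * n) (mksQ p b)) j) ∧
      ((m + (2 * (bM p * n) + xV p n) = j ∧ URs p b n ia ta n' u' ι k =
        uW pQ (bM p * n) (tB (bM p * n) (mksQ p b)) j - 4) ∨
      (m + (2 * (bM p * n) + xV p n) = j + 4 * (bM p * n) ∧ URs p b n ia ta n' u' ι k =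
        uW pQ (bM p * n) (tB (bM p * n) (mksQ p b)) j)) := by
  obtain ⟨-, -, b5, -, hM⟩ := H.basic
  have hN0 : 0 < bM p * n := Nat.mul_pos (by omega) b5
  obtain ⟨x1, x2, x3⟩ := xV_bd H
  obtain ⟨c1, c2, c3, c4⟩ := H.box
  have G := glueD H hP hB
  have hR := rb_box H hB
  have hbd := hR.hR.bd
  set N := bM p * n with hN
  have c5 : oq (PRs p b n ia ta n' P' ι) (URs p b n ia ta n' u' ι) k =
      oq (pW pQ N (tB N (mksQ p b))) (uW pQ N (tB N (mksQ p b))) (m + (2 * N + xV p n)) := by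
    unfold oq
    rw [e1, e2]
    exact sqL_congr (by omega)
  have c6 : M4 (PRs p b n ia ta n' P' ι k) (URs p b n ia ta n' u' ι k) =
      M4 (pW pQ N (tB N (mksQ p b)) (m + (2 * N + xV p n)))
        (uW pQ N (tB N (mksQ p b)) (m + (2 * N + xV p n))) := by
    rw [e1, e2]
    exact M4_congr (by omega)
  have h3 : oq (pW pQ N (tB N (mksQ p b))) (uW pQ N (tB N (mksQ p b))) (m + (2 * N + xV p n)) ∈
      frmQ pQ (mksQ p b) N ⌊δ * n⌋₊ := by
    rw [c5] at h1
    exact G.m1 (hbd.right (m + (2 * N + xV p n))) h1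
  obtain ⟨j, hj, hj2⟩ : ∃ j < 4 * N, m + (2 * N + xV p n) = j ∨
      m + (2 * N + xV p n) = j + 4 * N := by
    rcases Nat.lt_or_ge (m + (2 * N + xV p n)) (4 * N) with g1 | g1
    · exact ⟨_, g1, Or.inl rfl⟩
    · exact ⟨m + (2 * N + xV p n) - 4 * N, by omega, Or.inr (by omega)⟩
  have hoq : oq (pW pQ N (tB N (mksQ p b))) (uW pQ N (tB N (mksQ p b))) (m + (2 * N + xV p n)) =
      oq (pW pQ N (tB N (mksQ p b))) (uW pQ N (tB N (mksQ p b))) j := by
    rcases hj2 with g1 | g1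
    · rw [g1]
    · rw [g1]
      have := oq_per hbd j 1
      rwa [mul_one] at this
  refine ⟨j, hj, hR.hR.inR hj ?_, by rw [c5, hoq], ?_, ?_⟩
  · have h4 := rws_frm (p := pQ) (S₀ := {(0, 0)}) (Q := mksQ p b) (n := N) (δ := δ / bM p) pQ_poly
      pQ_encl H.hQ' H.hg' c1 c2 c3
    rw [c4] at h4
    rw [h4]
    rw [hoq] at h3
    exact h3
  · rw [c6]
    rcases hj2 with g1 | g1
    · rw [g1]
    · rw [g1, hbd.perP, hbd.per]
      exact M4_congr (by omega)
  · rcases hj2 with g1 | g1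
    · exact Or.inl ⟨g1, by rw [e2, g1]⟩
    · exact Or.inr ⟨g1, by rw [e2, g1, hbd.per]; ring⟩

/-- The row of the spoke. -/
noncomputable def rSp (θ β : ℝ) (p : ZMod l → ℤ × ℤ) (ia n d : ℕ) : Row :=
  ⟨{ spk p n d with c := ET θ β p ia + θ / 4, s := cT p ia, η := 1 }, false⟩

/-- The values of the row of the spoke. -/
theorem rSp_val (hN : Nrm p) (j : ℤ) :
    ((rSp θ β p ia n d).Φ θ (Sum.inl ((xV p n : ℤ), j)) = ET θ β p ia ∧
      (rSp θ β p ia n d).σ θ (Sum.inl ((xV p n : ℤ), j)) = cT p ia * ((3 * θ - Real.pi) / 4)) ∧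
    ((rSp θ β p ia n d).Φ θ (Sum.inl ((xV p n : ℤ) - 1, j)) = ET θ β p ia + θ / 2 ∧
      (rSp θ β p ia n d).σ θ (Sum.inl ((xV p n : ℤ) - 1, j)) =
        cT p ia * ((3 * θ - Real.pi) / 4)) := by
  obtain ⟨a3, a4⟩ := xV_eq (n := n) hN
  have e1 : decide ((n : ℤ) * (p (iT p)).1 ≤ (xV p n : ℤ)) = true := by
    rw [decide_eq_true_iff, a3]
  have e2 : decide ((n : ℤ) * (p (iT p)).1 ≤ (xV p n : ℤ) - 1) = false := by
    rw [decide_eq_false_iff_not, a3]
    omega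
  have e3 : ∀ c : Prop, ∀ [Decidable c], (if c then (0 : ℝ) else 0) = 0 := fun c _ => by
    split_ifs <;> rfl
  have e4 : ∀ c : Prop, ∀ [Decidable c], (if c then (1 : ℝ) else 1) = 1 := fun c _ => by
    split_ifs <;> rfl
  refine ⟨⟨?_, ?_⟩, ?_, ?_⟩
  · show (ET θ β p ia + θ / 4 + if decide ((n : ℤ) * (p (iT p)).1 ≤ (xV p n : ℤ)) = false
      then θ / 4 else -(θ / 4)) + (if _ then (0 : ℝ) else 0) = _
    rw [e1, e3, if_neg (by simp)]
    ring
  · show cT p ia * (if _ then (1 : ℝ) else 1) * ((3 * θ - Real.pi) / 4) = _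
    rw [e4, mul_one]
  · show (ET θ β p ia + θ / 4 + if decide ((n : ℤ) * (p (iT p)).1 ≤ (xV p n : ℤ) - 1) = false
      then θ / 4 else -(θ / 4)) + (if _ then (0 : ℝ) else 0) = _
    rw [e2, e3, if_pos rfl]
    ring
  · show cT p ia * (if _ then (1 : ℝ) else 1) * ((3 * θ - Real.pi) / 4) = _
    rw [e4, mul_one]

/-- The data of the cell `R`. -/
noncomputable def cRD (θ : ℝ) (p : ZMod l → ℤ × ℤ) (b : Box) (tp : ℝ) (n ia : ℕ) (ta : ℝ) (tq n' : ℕ)
    (P' : ℕ → ℤ × ℤ) (u' : ℕ → ℤ) (ι : ℕ → ℕ) : CD where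
  n := MR p n n'
  P := PRs p b n ia ta n' P' ι
  u := URs p b n ia ta n' u' ι
  k₀ := k0n (bM p * n) (yV p n) n' (tB n (mks p b tp)) (iT p * n) (jAd n ia ta) ι
  zc := zcn (bM p * n) (xV p n) (yV p n) n' n (iT p * n) (jAd n ia ta) tq ι (clT p ia)
  zo := zon (bM p * n) (xV p n) (yV p n) n' (l * n) (iT p * n) (jAd n ia ta) tq ι (clT p ia)
  C0 := θ / 4 * (uT p - 7)

theorem sgr_cT {k k₀ : ℕ} (h : k < k₀ ↔ clT p ia) : sgr (decide (¬ k < k₀)) = cT p ia := by
  unfold sgr cT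
  by_cases hc : clT p ia
  · rw [if_pos hc, if_neg (by simp [h.2 hc])]
  · have h' : ¬ k < k₀ := fun h' => hc (h.1 h')
    rw [if_neg hc, if_pos (by simp only [h', not_false_iff, decide_true])]

/-- The phases of the steps at the spoke and the box. -/
theorem psi_T {C0 : ℝ} {u : ℕ → ℤ} {k N X Y m ln jT jA k₀ : ℕ} (h : k < k₀ ↔ clT p ia) :
    psi θ β C0 u 1 k₀ (zcn N X Y n' m jT jA tq ι (clT p ia)) (zon N X Y n' ln jT jA tq ι (clT p ia)) k
      = C0 + θ / 4 * ((u k + if k < zBn N X Y n' jT jA tq ι then 4 else 0 : ℤ) : ℝ) +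
        if clT p ia then 0 else β := by
  unfold psi lab zcn zon
  by_cases hc : clT p ia
  · rw [if_pos (h.2 hc)]
    simp only [if_pos hc]
    split_ifs <;> push_cast <;> ring
  · rw [if_neg (fun h' => hc (h.1 h'))]
    simp only [if_neg hc]
    split_ifs <;> push_cast <;> ring

/-- An edge with the position of a step. -/
theorem edge_of {x : Ed} {v : ℤ × ℤ} {d : ℤ} (r : Fin 4) (h : P4 x = M4 v d)
    (hr : d % 4 = ((r.val : ℕ) : ℤ)) : x = ce v r := by
  apply P4_inj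
  rw [P4_ceN, h]
  exact M4_congr (by rw [hr]; have := r.isLt; omega)

include H hbg hP hB htq in
/-- The values at the east side of the spoke. -/
theorem valE {i k : ℕ} (hi : i < yV p n) (hk : k = mAD p n ia ta n' ι + i)
    (e1 : PRs p b n ia ta n' P' ι k = ((xV p n : ℤ) + 1, 0 + (yV p n : ℤ) - i))
    (e2 : URs p b n ia ta n' u' ι k = 3) {x : Ed}
    (hx : At (PRs p b n ia ta n' P' ι) (URs p b n ia ta n' u' ι) x k)
    (h2 : oq (PRs p b n ia ta n' P' ι) (URs p b n ia ta n' u' ι) k ∉ B) :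
    oq (PRs p b n ia ta n' P' ι) (URs p b n ia ta n' u' ι) k ∈ (rSp θ β p ia n ⌊δ * n⌋₊).I ∧
      (rSp θ β p ia n ⌊δ * n⌋₊).Φ θ x = psi θ β (θ / 4 * (uT p - 7))
        (URs p b n ia ta n' u' ι) 1 (cRD θ p b tp n ia ta tq n' P' u' ι).k₀
        (cRD θ p b tp n ia ta tq n' P' u' ι).zc (cRD θ p b tp n ia ta tq n' P' u' ι).zo k ∧
      (rSp θ β p ia n ⌊δ * n⌋₊).σ θ x =
        sgr (decide (¬ k < (cRD θ p b tp n ia ta tq n' P' u' ι).k₀)) *
          ((3 * θ - Real.pi) / 4) := by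
  have hRN := rn_D H hbg hP htq
  have G := glueD H hP hB
  have hoq : oq (PRs p b n ia ta n' P' ι) (URs p b n ia ta n' u' ι) k =
      ((xV p n : ℤ), 0 + (yV p n : ℤ) - i - 1) := by
    unfold oq
    rw [e1, e2, (Cut.sq_vals _ _ (3 - 1)).2.2.1 (by norm_num)]
    simp
  have hcol : k < k0n (bM p * n) (yV p n) n' (tB n (mks p b tp)) (iT p * n) (jAd n ia ta) ι ↔
      clT p ia := by
    refine hRN.colS ?_ ?_
    · show mAD p n ia ta n' ι ≤ k
      omega
    · show k < mAD p n ia ta n' ι + _ + _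
      omega
  have hz : k < zBn (bM p * n) (xV p n) (yV p n) n' (iT p * n) (jAd n ia ta) tq ι := by
    rw [hk]
    exact hRN.ltE hi
  have hxe : x = Sum.inl ((xV p n : ℤ), 0 + (yV p n : ℤ) - i - 1) := by
    have h3 : P4 x = M4 (PRs p b n ia ta n' P' ι k) (URs p b n ia ta n' u' ι k) := hx
    rw [e1, e2] at h3
    rw [edge_of 3 h3 rfl, BR.ce3]
    simp
  obtain ⟨⟨v1, v2⟩, -⟩ := rSp_val (θ := θ) (β := β) (ia := ia) (d := ⌊δ * n⌋₊) (n := n) H.hN
    (0 + (yV p n : ℤ) - i - 1)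
  refine ⟨?_, ?_, ?_⟩
  · rw [hoq] at h2 ⊢
    exact (G.s3 _ ⟨rfl, by simp only; omega, by simp only; omega⟩).resolve_right h2
  · rw [hxe, v1]
    show _ = psi θ β (θ / 4 * (uT p - 7)) _ 1
      (k0n (bM p * n) (yV p n) n' (tB n (mks p b tp)) (iT p * n) (jAd n ia ta) ι)
      (zcn (bM p * n) (xV p n) (yV p n) n' n (iT p * n) (jAd n ia ta) tq ι (clT p ia))
      (zon (bM p * n) (xV p n) (yV p n) n' (l * n) (iT p * n) (jAd n ia ta) tq ι (clT p ia)) k
    rw [psi_T hcol, e2, if_pos hz]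
    unfold ET
    push_cast
    ring
  · rw [hxe, v2]
    show _ = sgr (decide (¬ k <
      k0n (bM p * n) (yV p n) n' (tB n (mks p b tp)) (iT p * n) (jAd n ia ta) ι)) * _
    rw [sgr_cT hcol]

include H hbg hP hB htq in
/-- The values at the west side of the spoke. -/
theorem valW {i k : ℕ} (hi : i < yV p n)
    (hk : k = 4 * (bM p * n) - 1 + i + yV p n + mAD p n ia ta n' ι)
    (e1 : PRs p b n ia ta n' P' ι k = ((xV p n : ℤ), 0 + (i : ℤ)))
    (e2 : URs p b n ia ta n' u' ι k = 9) {x : Ed}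
    (hx : At (PRs p b n ia ta n' P' ι) (URs p b n ia ta n' u' ι) x k)
    (h2 : oq (PRs p b n ia ta n' P' ι) (URs p b n ia ta n' u' ι) k ∉ B) :
    oq (PRs p b n ia ta n' P' ι) (URs p b n ia ta n' u' ι) k ∈ (rSp θ β p ia n ⌊δ * n⌋₊).I ∧
      (rSp θ β p ia n ⌊δ * n⌋₊).Φ θ x = psi θ β (θ / 4 * (uT p - 7))
        (URs p b n ia ta n' u' ι) 1 (cRD θ p b tp n ia ta tq n' P' u' ι).k₀
        (cRD θ p b tp n ia ta tq n' P' u' ι).zc (cRD θ p b tp n ia ta tq n' P' u' ι).zo k ∧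
      (rSp θ β p ia n ⌊δ * n⌋₊).σ θ x =
        sgr (decide (¬ k < (cRD θ p b tp n ia ta tq n' P' u' ι).k₀)) *
          ((3 * θ - Real.pi) / 4) := by
  have hRN := rn_D H hbg hP htq
  have G := glueD H hP hB
  have hoq : oq (PRs p b n ia ta n' P' ι) (URs p b n ia ta n' u' ι) k =
      ((xV p n : ℤ), 0 + (i : ℤ)) := by
    unfold oq
    rw [e1, e2, (Cut.sq_vals _ _ (9 - 1)).1 (by norm_num)]
  have hcol : k < k0n (bM p * n) (yV p n) n' (tB n (mks p b tp)) (iT p * n) (jAd n ia ta) ι ↔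
      clT p ia := by
    refine hRN.colS ?_ ?_
    · show mAD p n ia ta n' ι ≤ k
      omega
    · show k < mAD p n ia ta n' ι + _ + _
      omega
  have hz : ¬ k < zBn (bM p * n) (xV p n) (yV p n) n' (iT p * n) (jAd n ia ta) tq ι := by
    rw [hk]
    exact not_lt.2 (hRN.geW i)
  have hxe : x = Sum.inl ((xV p n : ℤ) - 1, 0 + (i : ℤ)) := by
    have h3 : P4 x = M4 (PRs p b n ia ta n' P' ι k) (URs p b n ia ta n' u' ι k) := hx
    rw [e1, e2] at h3
    rw [edge_of 1 h3 rfl, BR.ce1]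
  obtain ⟨-, v1, v2⟩ := rSp_val (θ := θ) (β := β) (ia := ia) (d := ⌊δ * n⌋₊) (n := n) H.hN
    (0 + (i : ℤ))
  refine ⟨?_, ?_, ?_⟩
  · rw [hoq] at h2 ⊢
    exact (G.s3 _ ⟨rfl, by simp, by simp only; omega⟩).resolve_right h2
  · rw [hxe, v1]
    show _ = psi θ β (θ / 4 * (uT p - 7)) _ 1
      (k0n (bM p * n) (yV p n) n' (tB n (mks p b tp)) (iT p * n) (jAd n ia ta) ι)
      (zcn (bM p * n) (xV p n) (yV p n) n' n (iT p * n) (jAd n ia ta) tq ι (clT p ia))
      (zon (bM p * n) (xV p n) (yV p n) n' (l * n) (iT p * n) (jAd n ia ta) tq ι (clT p ia)) k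
    rw [psi_T hcol, e2, if_neg hz]
    unfold ET
    push_cast
    ring
  · rw [hxe, v2]
    show _ = sgr (decide (¬ k <
      k0n (bM p * n) (yV p n) n' (tB n (mks p b tp)) (iT p * n) (jAd n ia ta) ι)) * _
    rw [sgr_cT hcol]

include H hbg hP hB htq in
/-- The values at the rows of the box. -/
theorem valB {m k : ℕ} (m1 : 1 ≤ m) (m2 : m ≤ 4 * (bM p * n) - 1)
    (hk : k + 1 = m + yV p n + mAD p n ia ta n' ι)
    (e1 : PRs p b n ia ta n' P' ι k =
        pW pQ (bM p * n) (tB (bM p * n) (mksQ p b)) (m + (2 * (bM p * n) + xV p n)))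
    (e2 : URs p b n ia ta n' u' ι k =
        uW pQ (bM p * n) (tB (bM p * n) (mksQ p b)) (m + (2 * (bM p * n) + xV p n)) - 4)
    {x : Ed} (hx : At (PRs p b n ia ta n' P' ι) (URs p b n ia ta n' u' ι) x k)
    (h1 : oq (PRs p b n ia ta n' P' ι) (URs p b n ia ta n' u' ι) k ∈ KD p b tp n ⌊δ * n⌋₊)
    (htq' : tq = tG pQ (bM p * n) (tqB (bQ b (bM p))) (cT p ia)) :
    ∃ y : Fin 4 × Fin 3, oq (PRs p b n ia ta n' P' ι) (URs p b n ia ta n' u' ι) k ∈
        (rD θ β p b tp ia ta n ⌊δ * n⌋₊ (.inr (.inl y))).I ∧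
      (rD θ β p b tp ia ta n ⌊δ * n⌋₊ (.inr (.inl y))).Φ θ x = psi θ β (θ / 4 * (uT p - 7))
        (URs p b n ia ta n' u' ι) 1 (cRD θ p b tp n ia ta tq n' P' u' ι).k₀
        (cRD θ p b tp n ia ta tq n' P' u' ι).zc (cRD θ p b tp n ia ta tq n' P' u' ι).zo k ∧
      (rD θ β p b tp ia ta n ⌊δ * n⌋₊ (.inr (.inl y))).σ θ x =
        sgr (decide (¬ k < (cRD θ p b tp n ia ta tq n' P' u' ι).k₀)) *
          ((3 * θ - Real.pi) / 4) := by
  obtain ⟨-, -, b5, -, hM⟩ := H.basic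
  have hN0 : 0 < bM p * n := Nat.mul_pos (by omega) b5
  have hRN := rn_D H hbg hP htq
  obtain ⟨x1, x2, x3⟩ := xV_bd H
  obtain ⟨j, hj, hin, hoq, hM4, hju⟩ := boxR H hP hB m2 e1 e2 h1
  obtain ⟨c1, c2, c3, c4⟩ := H.box
  have htb := tB_lt (n := bM p * n) H.hQ' hN0
  have hcol : k < k0n (bM p * n) (yV p n) n' (tB n (mks p b tp)) (iT p * n) (jAd n ia ta) ι ↔
      clT p ia := by
    refine hRN.colS ?_ ?_
    · show mAD p n ia ta n' ι ≤ k
      omega
    · show k < mAD p n ia ta n' ι + _ + _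
      omega
  have hx' : P4 x = M4 (pW pQ (bM p * n) (tB (bM p * n) (mksQ p b)) j + if true then (0, 0) else
      vec (uW pQ (bM p * n) (tB (bM p * n) (mksQ p b)) j - 1))
      (uW pQ (bM p * n) (tB (bM p * n) (mksQ p b)) j) := by
    rw [if_pos rfl, show ((0, 0) : ℤ × ℤ) = 0 from rfl, add_zero, ← hM4]
    exact hx
  have hv := frame_vals (θ := θ) (β := β) (J := fun _ => true) (C := CQ θ β p ia) (c := cT p ia)
    (δ := δ / bM p) (bc := .free) (t := tq) (p := pQ) (S₀ := {(0, 0)}) (Q := mksQ p b)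
    (n := bM p * n) pQ_poly pQ_encl H.hQ' H.hg' c1 c2 c3 trivial htq (cT_or p ia) (m := j) hj
    (by rw [c4]; exact hin) true hx'
  rw [c4] at hv
  obtain ⟨i, jj, i1, i2, -, v1, v2, v3⟩ := hv
  change jj ≤ 2 at i2
  refine ⟨(⟨i, i1⟩, ⟨jj, by omega⟩), ?_, ?_, ?_⟩
  · rw [hoq]
    show _ ∈ (frowJ θ β pQ (mksQ p b) (bM p * n) ⌊δ * n⌋₊
      (tG pQ (bM p * n) (tqB (bQ b (bM p))) (cT p ia)) .free (fun _ => true) (CQ θ β p ia)
      (cT p ia) i jj).I
    rw [← htq']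
    exact v1
  · show (frowJ θ β pQ (mksQ p b) (bM p * n) ⌊δ * n⌋₊
      (tG pQ (bM p * n) (tqB (bQ b (bM p))) (cT p ia)) .free (fun _ => true) (CQ θ β p ia)
      (cT p ia) i jj).Φ θ x = psi θ β (θ / 4 * (uT p - 7)) _ 1
      (k0n (bM p * n) (yV p n) n' (tB n (mks p b tp)) (iT p * n) (jAd n ia ta) ι)
      (zcn (bM p * n) (xV p n) (yV p n) n' n (iT p * n) (jAd n ia ta) tq ι (clT p ia))
      (zon (bM p * n) (xV p n) (yV p n) n' (l * n) (iT p * n) (jAd n ia ta) tq ι (clT p ia)) k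
    obtain ⟨p1, p2, p3⟩ := pos_dec hj
    have hkl : kOf 4 (bM p * n) tq (j / (bM p * n)) (j % (bM p * n)) <
        Bc.ka 4 (bM p * n) tq .free := Enl.kOf_lt p1 p2 htq
    rw [← htq', v2, psi_T hcol, if_pos hkl, uN_W pQ_poly pQ_encl hN0 htq htb]
    have key : uW pQ (bM p * n) (tB (bM p * n) (mksQ p b)) j + (if j < tq then 4 else 0) =
        URs p b n ia ta n' u' ι k +
          if k < zBn (bM p * n) (xV p n) (yV p n) n' (iT p * n) (jAd n ia ta) tq ι
            then 4 else 0 := by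
      change k + 1 = m + yV p n + mAn ι n' (iT p * n) (jAd n ia ta) at hk
      unfold zBn
      rcases hju with ⟨g1, g2⟩ | ⟨g1, g2⟩
      · rw [g2, if_neg (by omega), if_pos (by omega)]
        ring
      · rw [g2]
        congr 1
        by_cases h : j < tq
        · rw [if_pos h, if_pos (by omega)]
        · rw [if_neg h, if_neg (by omega)]
    have key' : ((uW pQ (bM p * n) (tB (bM p * n) (mksQ p b)) j +
        (if j < tq then 4 else 0) : ℤ) : ℝ) = ((URs p b n ia ta n' u' ι k +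
          if k < zBn (bM p * n) (xV p n) (yV p n) n' (iT p * n) (jAd n ia ta) tq ι
            then 4 else 0 : ℤ) : ℝ) := by rw [key]
    unfold CQ ET hJ
    push_cast at key' ⊢
    simp only [if_true]
    linear_combination (θ / 4) * key'
  · show (frowJ θ β pQ (mksQ p b) (bM p * n) ⌊δ * n⌋₊
      (tG pQ (bM p * n) (tqB (bQ b (bM p))) (cT p ia)) .free (fun _ => true) (CQ θ β p ia)
      (cT p ia) i jj).σ θ x = sgr (decide (¬ k <
      k0n (bM p * n) (yV p n) n' (tB n (mks p b tp)) (iT p * n) (jAd n ia ta) ι)) * _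
    obtain ⟨p1, p2, p3⟩ := pos_dec hj
    have hkl : kOf 4 (bM p * n) tq (j / (bM p * n)) (j % (bM p * n)) <
        Bc.ka 4 (bM p * n) tq .free := Enl.kOf_lt p1 p2 htq
    rw [← htq', v3, if_pos hkl, sgr_cT hcol, mul_one]

include H hbg hP hB htq in
/-- The values at the outer faces of the rows of the polygon. -/
theorem valO {m k : ℕ} (m1 : 1 ≤ m) (m2 : m ≤ n' - 1)
    (hk : k = kk (MR p n n') (mAD p n ia ta n' ι) m)
    (e1 : PRs p b n ia ta n' P' ι k = P' (m + 1 + ι (iT p * n)))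
    (e2 : URs p b n ia ta n' u' ι k = u' (m + ι (iT p * n)) - u' (ι (iT p * n)) + 2 +
      (if mAD p n ia ta n' ι < m then 4 else 0)) {x : Ed}
    (hx : At (PRs p b n ia ta n' P' ι) (URs p b n ia ta n' u' ι) x k)
    (h1 : oq (PRs p b n ia ta n' P' ι) (URs p b n ia ta n' u' ι) k ∈ KD p b tp n ⌊δ * n⌋₊)
    (h2 : oq (PRs p b n ia ta n' P' ι) (URs p b n ia ta n' u' ι) k ∉ B) :
    ∃ y : Fin l × Fin 3, oq (PRs p b n ia ta n' P' ι) (URs p b n ia ta n' u' ι) k ∈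
        (rD θ β p b tp ia ta n ⌊δ * n⌋₊ (.inl y)).I ∧
      (rD θ β p b tp ia ta n ⌊δ * n⌋₊ (.inl y)).Φ θ x = psi θ β (θ / 4 * (uT p - 7))
        (URs p b n ia ta n' u' ι) 1 (cRD θ p b tp n ia ta tq n' P' u' ι).k₀
        (cRD θ p b tp n ia ta tq n' P' u' ι).zc (cRD θ p b tp n ia ta tq n' P' u' ι).zo k ∧
      (rD θ β p b tp ia ta n ⌊δ * n⌋₊ (.inl y)).σ θ x =
        sgr (decide (¬ k < (cRD θ p b tp n ia ta tq n' P' u' ι).k₀)) *
          ((3 * θ - Real.pi) / 4) := by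
  obtain ⟨-, -, b5, b6, hM⟩ := H.basic
  have hl : 0 < l := by have := H.hp.1; omega
  have hRN := rn_D H hbg hP htq
  obtain ⟨j, hj, hin, hm, hoq, hM4, hju⟩ := outR H hP hB m1 m2 e1 e2 h1 h2
  have ht := tB_lt (n := n) H.hQ b5
  have hbo : (Bc.dob ia ta).Ok l (mks p b tp) := bc_ok b6 hbg
  have hx' : P4 x = M4 (pW p n (tB n (mks p b tp)) j + if false then (0, 0) else
      vec (uW p n (tB n (mks p b tp)) j - 1)) (uW p n (tB n (mks p b tp)) j) := by
    rw [show (if false then ((0, 0) : ℤ × ℤ) else vec (uW p n (tB n (mks p b tp)) j - 1)) =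
      vec (uW p n (tB n (mks p b tp)) j - 1) from if_neg (by simp), ← hM4]
    exact hx
  obtain ⟨i, jj, i1, i2, i3, v1, v2, v3⟩ := frame_vals (θ := θ) (β := β) (J := JD p ia) (C := 0)
    (c := 1) H.hp H.hD H.hQ H.hg H.hδ H.hδg H.hn hbo ht (Or.inl rfl) (m := j) hj hin false hx'
  change jj ≤ 2 at i2
  rw [hm] at hk hju
  change k = kk (Mn (bM p * n) (yV p n) n') (mAn ι n' (iT p * n) (jAd n ia ta))
    (cyc ι n' (iT p * n) j) at hk
  change URs p b n ia ta n' u' ι k = uW p n (tB n (mks p b tp)) j -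
    uW p n (tB n (mks p b tp)) (iT p * n) + 2 + (if j < iT p * n then 4 else 0) +
      (if mAn ι n' (iT p * n) (jAd n ia ta) < cyc ι n' (iT p * n) j then 4 else 0) at hju
  rw [uW_T H] at hju
  have hcol : k < k0n (bM p * n) (yV p n) n' (tB n (mks p b tp)) (iT p * n) (jAd n ia ta) ι ↔
      (tB n (mks p b tp) ≤ j ∧ j < jAd n ia ta) := by
    rw [hk]
    exact hRN.col hj
  have hka := kOf_ka H hbg j
  have huN := uN_W H.hp H.hD b5 ht ht j
  have hJd := JD_iffR (p := p) (ia := ia) b5 j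
  refine ⟨(⟨i, i1⟩, ⟨jj, by omega⟩), ?_, ?_, ?_⟩
  · rw [hoq]
    exact v1
  · show (frowJ θ β p (mks p b tp) n ⌊δ * n⌋₊ (tB n (mks p b tp)) (.dob ia ta) (JD p ia) 0 1
      i jj).Φ θ x = psi θ β (θ / 4 * (uT p - 7)) _ 1
      (k0n (bM p * n) (yV p n) n' (tB n (mks p b tp)) (iT p * n) (jAd n ia ta) ι)
      (zcn (bM p * n) (xV p n) (yV p n) n' n (iT p * n) (jAd n ia ta) tq ι (clT p ia))
      (zon (bM p * n) (xV p n) (yV p n) n' (l * n) (iT p * n) (jAd n ia ta) tq ι (clT p ia)) k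
    rw [v2, i3, huN]
    unfold psi lab
    by_cases hc : tB n (mks p b tp) ≤ j ∧ j < jAd n ia ta
    · rw [if_pos (hcol.2 hc), if_pos (hka.2 hc)]
      have hid := hRN.idc hj hc.2 hJd
      rw [← hk] at hid
      have key : (uW p n (tB n (mks p b tp)) j - 4 + if j < tB n (mks p b tp) then 4 else 0) =
          uT p - 7 + (URs p b n ia ta n' u' ι k + 4 * 1 *
            (if k < zcn (bM p * n) (xV p n) (yV p n) n' n (iT p * n) (jAd n ia ta) tq ι (clT p ia)
              then 1 else 0)) + if JD p ia (j / n) = true then 2 else -2 := by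
        rw [hju, if_neg (show ¬ j < tB n (mks p b tp) by omega)]
        split_ifs at hid ⊢ <;> omega
      have key' : ((uW p n (tB n (mks p b tp)) j - 4 +
          (if j < tB n (mks p b tp) then 4 else 0) : ℤ) : ℝ) = ((uT p - 7 +
          (URs p b n ia ta n' u' ι k + 4 * 1 *
            (if k < zcn (bM p * n) (xV p n) (yV p n) n' n (iT p * n) (jAd n ia ta) tq ι (clT p ia)
              then 1 else 0)) + (if JD p ia (j / n) = true then 2 else -2) : ℤ) : ℝ) := by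
        rw [key]
      rw [key']
      unfold hJ
      push_cast
      by_cases hJJ : JD p ia (j / n) = true
      · rw [if_pos hJJ, if_pos hJJ]
        ring
      · rw [if_neg hJJ, if_neg hJJ]
        ring
    · rw [if_neg (fun h => hc (hcol.1 h)), if_neg (fun h => hc (hka.1 h))]
      have hid := hRN.ido hj (by omega) hJd
      rw [← hk] at hid
      have key : (uW p n (tB n (mks p b tp)) j - 4 + if j < tB n (mks p b tp) then 4 else 0) =
          uT p - 7 + (URs p b n ia ta n' u' ι k + 4 * 1 *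
            (if k < zon (bM p * n) (xV p n) (yV p n) n' (l * n) (iT p * n) (jAd n ia ta) tq ι
              (clT p ia) then 1 else 0)) + if JD p ia (j / n) = true then 2 else -2 := by
        rw [hju]
        split_ifs at hid ⊢ <;> omega
      have key' : ((uW p n (tB n (mks p b tp)) j - 4 +
          (if j < tB n (mks p b tp) then 4 else 0) : ℤ) : ℝ) = ((uT p - 7 +
          (URs p b n ia ta n' u' ι k + 4 * 1 *
            (if k < zon (bM p * n) (xV p n) (yV p n) n' (l * n) (iT p * n) (jAd n ia ta) tq ι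
              (clT p ia) then 1 else 0)) + (if JD p ia (j / n) = true then 2 else -2) : ℤ) : ℝ) := by
        rw [key]
      rw [key']
      unfold hJ
      push_cast
      by_cases hJJ : JD p ia (j / n) = true
      · rw [if_pos hJJ, if_pos hJJ]
        ring
      · rw [if_neg hJJ, if_neg hJJ]
        ring
  · show (frowJ θ β p (mks p b tp) n ⌊δ * n⌋₊ (tB n (mks p b tp)) (.dob ia ta) (JD p ia) 0 1
      i jj).σ θ x = sgr (decide (¬ k <
      k0n (bM p * n) (yV p n) n' (tB n (mks p b tp)) (iT p * n) (jAd n ia ta) ι)) * _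
    rw [v3, one_mul]
    unfold sgr
    by_cases hc : tB n (mks p b tp) ≤ j ∧ j < jAd n ia ta
    · rw [if_pos (hka.2 hc), if_neg (by simp [hcol.2 hc])]
    · have h' : ¬ k < k0n (bM p * n) (yV p n) n' (tB n (mks p b tp)) (iT p * n)
          (jAd n ia ta) ι := fun h => hc (hcol.1 h)
      rw [if_neg (fun h => hc (hka.1 h)), if_pos (by simp only [h', not_false_iff, decide_true])]

include H hbg hP hB htq in
/-- **The values of the rows at the steps of the curve of `R`.** -/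
theorem valR {k : ℕ} (hk : k < MR p n n') {x : Ed}
    (hx : At (PRs p b n ia ta n' P' ι) (URs p b n ia ta n' u' ι) x k)
    (h1 : oq (PRs p b n ia ta n' P' ι) (URs p b n ia ta n' u' ι) k ∈ KD p b tp n ⌊δ * n⌋₊)
    (h2 : oq (PRs p b n ia ta n' P' ι) (URs p b n ia ta n' u' ι) k ∉ B)
    (htq' : tq = tG pQ (bM p * n) (tqB (bQ b (bM p))) (cT p ia)) :
    ∃ i, oq (PRs p b n ia ta n' P' ι) (URs p b n ia ta n' u' ι) k ∈
        (rD θ β p b tp ia ta n ⌊δ * n⌋₊ i).I ∧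
      (rD θ β p b tp ia ta n ⌊δ * n⌋₊ i).Φ θ x = psi θ β (θ / 4 * (uT p - 7))
        (URs p b n ia ta n' u' ι) 1 (cRD θ p b tp n ia ta tq n' P' u' ι).k₀
        (cRD θ p b tp n ia ta tq n' P' u' ι).zc (cRD θ p b tp n ia ta tq n' P' u' ι).zo k ∧
      (rD θ β p b tp ia ta n ⌊δ * n⌋₊ i).σ θ x =
        sgr (decide (¬ k < (cRD θ p b tp n ia ta tq n' P' u' ι).k₀)) *
          ((3 * θ - Real.pi) / 4) := by
  rcases posR H hbg hP hB hk with ⟨i, hi, g1, g2, g3⟩ | ⟨m, m1, m2, g1, g2, g3⟩ |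
    ⟨i, hi, g1, g2, g3⟩ | ⟨m, m1, m2, g1, g2, g3⟩
  · exact ⟨.inr (.inr ()), valE H hbg hP hB htq hi g1 g2 g3 hx h2⟩
  · obtain ⟨y, hy⟩ := valB H hbg hP hB htq m1 m2 g1 g2 g3 hx h1 htq'
    exact ⟨_, hy⟩
  · exact ⟨.inr (.inr ()), valW H hbg hP hB htq hi g1 g2 g3 hx h2⟩
  · obtain ⟨y, hy⟩ := valO H hbg hP hB htq m1 m2 g1 g2 g3 hx h1 h2
    exact ⟨_, hy⟩

end

end Vale.Agent.P167.N.ID
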