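import Vale.Agent.P167.N.ID.PhR
import Vale.Agent.P167.N.ID.CDOut

/-!
# P167, `q < 1`, START: the steps of the polygon on the curve of the region `R`

* `out_at`: the step of the curve of `R` at a step of the polygon.
* `bq_RD`: the squares beyond the rows are in `R`; `k0_at`: the junction; `site_R`: the sites between
  the base site and the vertex `T'`; `exit_b`: the steps between the base site and the vertex `T'`.
-/

set_option autoImplicit false

namespace Vale.Agent.P167.N.ID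

open Finset
open Vale.Agent.P167.Top
open Vale.Agent.P167.H871
open Vale.Agent.P167.H871.Q
open Vale.Agent.P167.A (plane)
open Vale.Agent.P167.FK (Bq)
open Vale.Agent.P167.BR (ce)
open Vale.Agent.P167.H199 (Gap ah at' mks)
open Vale.Agent.P167.H662 (hsite)
open Vale.Agent.P167.H825.Q (Bc stΦ stτ)
open Vale.Agent.P167.H680.T (WallG WCG sgb sq par mem_uI)
open Vale.Agent.P167.H398.Q (hB)
open Vale.Agent.P167.E6 (IsPolygon Encloses dir face)
open Vale.Agent.P167.H825 (pdir enl ptau Marks Box tn)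
open Vale.Agent.P167.XDL (bS mem_bS)
open Vale.Agent.P167.Enl (sW eW tB tB_lt kOf uN qN PN bd_qN qN_nat pW uW pW_eq uW_eq pW_vp uW_same
  uW_mod vec_pred vp frmQ mem_frmQ sR eR row_dat row_num sR_num row_bds gn_big sqL_op frmQ_disj
  mem_hB BGap pdir_step)

variable {l : ℕ} {θ β : ℝ} {p : ZMod l → ℤ × ℤ} {S₀ : Finset (ℤ × ℤ)} {b : Box} {n d : ℕ}
  {tp g δ : ℝ} {ia : ℕ} {ta : ℝ}

/-- The step is in a row of the polygon. -/
abbrev InP (p : ZMod l → ℤ × ℤ) (b : Box) (tp : ℝ) (n d j : ℕ) : Prop :=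
  InR (l * ((mks p b tp).m + 1)) (sR p n (mks p b tp) d) (eR p n (mks p b tp) d) j

section

variable (H : DobN p S₀ b tp g δ n) (hbg : BGap l (mks p b tp) g (.dob ia ta)) {n' : ℕ}
  {P' : ℕ → ℤ × ℤ} {u' : ℕ → ℤ} {ι : ℕ → ℕ} (hP : BPf p S₀ n (mks p b tp) ⌊δ * n⌋₊ n' P' u' ι)
  {B : Set (ℤ × ℤ)} (hB : HolB p b tp n ⌊δ * n⌋₊ B)

include H hbg hP hB in
/-- The step of the curve at a position of the path around the rows. -/
theorem kk_out {m : ℕ} (m1 : 1 ≤ m) (m2 : m ≤ n' - 1) :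
    PRs p b n ia ta n' P' ι (kk (MR p n n') (mAD p n ia ta n' ι) m) =
        P' (m + 1 + ι (iT p * n)) ∧
      URs p b n ia ta n' u' ι (kk (MR p n n') (mAD p n ia ta n' ι) m) =
        u' (m + ι (iT p * n)) - u' (ι (iT p * n)) + 2 +
          (if mAD p n ia ta n' ι < m then 4 else 0) := by
  have h1 := mAD_lt H hbg hP
  obtain ⟨x1, x2, x3⟩ := xV_bd H
  have hM : MR p n n' = 4 * (bM p * n) - 1 + yV p n + (n' - 1) + yV p n := rfl
  have hk : kk (MR p n n') (mAD p n ia ta n' ι) m < MR p n n' := kk_bd (by omega)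
  have h2 : (m ≤ mAD p n ia ta n' ι ∧
      kk (MR p n n') (mAD p n ia ta n' ι) m = mAD p n ia ta n' ι - m) ∨
      (mAD p n ia ta n' ι < m ∧
        kk (MR p n n') (mAD p n ia ta n' ι) m = MR p n n' + mAD p n ia ta n' ι - m) := by
    unfold kk
    split_ifs with h
    · exact Or.inl ⟨h, rfl⟩
    · exact Or.inr ⟨by omega, rfl⟩
  rcases posR H hbg hP hB hk with ⟨i, hi, g1, g2, g3⟩ | ⟨m', m1', m2', g1, g2, g3⟩ |
    ⟨i, hi, g1, g2, g3⟩ | ⟨m', m1', m2', g1, g2, g3⟩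
  · omega
  · omega
  · omega
  · have h3 : m' = m := by
      have h4 : (m' ≤ mAD p n ia ta n' ι ∧
          kk (MR p n n') (mAD p n ia ta n' ι) m' = mAD p n ia ta n' ι - m') ∨
          (mAD p n ia ta n' ι < m' ∧
            kk (MR p n n') (mAD p n ia ta n' ι) m' = MR p n n' + mAD p n ia ta n' ι - m') := by
        unfold kk
        split_ifs with h
        · exact Or.inl ⟨h, rfl⟩
        · exact Or.inr ⟨by omega, rfl⟩
      omega
    rw [h3] at g2 g3
    exact ⟨g2, g3⟩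

/-- The step of the curve of `R` at a step of the polygon. -/
noncomputable def kR (p : ZMod l → ℤ × ℤ) (n ia : ℕ) (ta : ℝ) (n' : ℕ) (ι : ℕ → ℕ) (j : ℕ) : ℕ :=
  kk (MR p n n') (mAD p n ia ta n' ι) (cyc ι n' (iT p * n) j)

include H hbg hP hB in
/-- **The step of the curve of `R` at a step of the polygon.** -/
theorem out_at {j : ℕ} (hj : j < l * n) (hjT : j ≠ iT p * n) :
    kR p n ia ta n' ι j < MR p n n' ∧
    PRs p b n ia ta n' P' ι (kR p n ia ta n' ι j) =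
      P' (ι j) + vec (uW p n (tB n (mks p b tp)) j) ∧
    PRs p b n ia ta n' P' ι (kR p n ia ta n' ι j) = P' (ι j + 1) ∧
    URs p b n ia ta n' u' ι (kR p n ia ta n' ι j) = uW p n (tB n (mks p b tp)) j -
      uW p n (tB n (mks p b tp)) (iT p * n) + 2 + (if j < iT p * n then 4 else 0) +
        (if mAD p n ia ta n' ι < cyc ι n' (iT p * n) j then 4 else 0) ∧
    PRs p b n ia ta n' P' ι (kR p n ia ta n' ι j + 1) = P' (ι j) := by
  obtain ⟨-, -, b5, -, -⟩ := H.basic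
  obtain ⟨j1, j2, j3, j4⟩ := jT_facts H
  have hA := mAD_lt H hbg hP
  obtain ⟨c1, c2⟩ := cyc_bd hP.mono hP.lt j1 hj
  have hM : n' ≤ MR p n n' := by
    unfold MR
    have := xV_bd H
    omega
  obtain ⟨k1, k2⟩ := kk_out H hbg hP hB (c2 hjT) (by omega)
  have hn' := n'_pos hP H.hp b5
  have hb := hP.bd
  have g1 : P' (cyc ι n' (iT p * n) j + ι (iT p * n)) = P' (ι j) ∧
      P' (cyc ι n' (iT p * n) j + 1 + ι (iT p * n)) = P' (ι j + 1) ∧
      u' (cyc ι n' (iT p * n) j + ι (iT p * n)) = uW p n (tB n (mks p b tp)) j +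
        (if j < iT p * n then 4 else 0) := by
    unfold cyc
    have hm1 := hP.mono (iT p * n) j
    have hm2 := hP.lt _ j1
    by_cases h : iT p * n ≤ j
    · have hm3 := hm1 (by omega) hj
      rw [if_pos h, if_neg (by omega), show ι j - ι (iT p * n) + ι (iT p * n) = ι j by omega,
        show ι j - ι (iT p * n) + 1 + ι (iT p * n) = ι j + 1 by omega, hP.dir _ hj, add_zero]
      exact ⟨rfl, rfl, rfl⟩
    · rw [if_neg h, if_pos (by omega), show ι j + n' - ι (iT p * n) + ι (iT p * n) = ι j + n' by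
          omega, show ι j + n' - ι (iT p * n) + 1 + ι (iT p * n) = ι j + 1 + n' by omega, hb.perP,
        hb.perP, hb.per, hP.dir _ hj]
      exact ⟨rfl, rfl, by ring⟩
  have hκ : u' (ι (iT p * n)) = uW p n (tB n (mks p b tp)) (iT p * n) := hP.dir _ j1
  have e1 : PRs p b n ia ta n' P' ι (kR p n ia ta n' ι j) = P' (ι j + 1) := k1.trans g1.2.1
  have e2 : PRs p b n ia ta n' P' ι (kR p n ia ta n' ι j) =
      P' (ι j) + vec (uW p n (tB n (mks p b tp)) j) := by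
    rw [e1, hb.step, hP.dir _ hj]
  have e3 : URs p b n ia ta n' u' ι (kR p n ia ta n' ι j) = uW p n (tB n (mks p b tp)) j -
      uW p n (tB n (mks p b tp)) (iT p * n) + 2 + (if j < iT p * n then 4 else 0) +
        (if mAD p n ia ta n' ι < cyc ι n' (iT p * n) j then 4 else 0) := by
    refine k2.trans ?_
    rw [g1.2.2, hκ]
    ring
  refine ⟨kk_bd (by omega), e2, e1, e3, ?_⟩
  have h5 := (cellRs H hP hB ia ta).bd.step (kR p n ia ta n' ι j)
  have h6 : vec (URs p b n ia ta n' u' ι (kR p n ia ta n' ι j)) =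
      -vec (uW p n (tB n (mks p b tp)) j) := by
    rw [← vec_back]
    refine vec_congr ?_
    rw [e3]
    split_ifs <;> omega
  rw [h5, h6, e2]
  abel

include H hbg hP hB in
/-- The squares at a step of the polygon in a row. -/
theorem out_sq {j : ℕ} (hj : j < l * n) (hin : InP p b tp n ⌊δ * n⌋₊ j) :
    j ≠ iT p * n ∧
    oq (PRs p b n ia ta n' P' ι) (URs p b n ia ta n' u' ι) (kR p n ia ta n' ι j) =
      oq (pW p n (tB n (mks p b tp))) (uW p n (tB n (mks p b tp))) j ∧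
    bq (PRs p b n ia ta n' P' ι) (URs p b n ia ta n' u' ι) (kR p n ia ta n' ι j) =
      iq (pW p n (tB n (mks p b tp))) (uW p n (tB n (mks p b tp))) j ∧
    PRs p b n ia ta n' P' ι (kR p n ia ta n' ι j + 1) =
      pW p n (tB n (mks p b tp)) j + vec (uW p n (tB n (mks p b tp)) j - 1) := by
  obtain ⟨j1, j2, j3, j4⟩ := jT_facts H
  have hjT : j ≠ iT p * n := by
    rintro rfl
    exact j4 hin
  obtain ⟨g1, g2, g3, g4, g5⟩ := out_at H hbg hP hB hj hjT
  have hu : URs p b n ia ta n' u' ι (kR p n ia ta n' ι j) % 4 =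
      (uW p n (tB n (mks p b tp)) j + 2) % 4 := by
    rw [g4]
    split_ifs <;> omega
  have e1 : oq (PRs p b n ia ta n' P' ι) (URs p b n ia ta n' u' ι) (kR p n ia ta n' ι j) =
      oq (pW p n (tB n (mks p b tp))) (uW p n (tB n (mks p b tp))) j := by
    unfold oq
    rw [g2, sqL_congr (d' := uW p n (tB n (mks p b tp)) j + 1) (by omega), sqL_next',
      hP.far j hj hin, sqL_vec, sqL_pred]
  refine ⟨hjT, e1, ?_, by rw [g5, hP.far j hj hin]⟩
  unfold bq
  rw [e1, vec_congr (d' := uW p n (tB n (mks p b tp)) j - 1 + 2) (by omega), vec_back]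
  unfold oq iq
  rw [← sqL_pred]
  abel

omit H hP hB in
/-- The square beyond a step. -/
theorem bq_eq (P : ℕ → ℤ × ℤ) (u : ℕ → ℤ) (k : ℕ) : bq P u k =
    sqL (P k + vec (u k - 1)) (u k - 1) := by
  unfold bq oq
  rw [sqL_vec]

omit hP in
include H hB in
/-- **The squares beyond the rows are in `R`.** -/
theorem bq_RD {j : ℕ} (hin : InP p b tp n ⌊δ * n⌋₊ j) :
    bq (pW p n (tB n (mks p b tp))) (uW p n (tB n (mks p b tp))) j ∈
      RD p S₀ b tp n ⌊δ * n⌋₊ := by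
  have hrb := rb_frame H.hp H.hD H.hQ H.hg H.hδ H.hδg H.hn hB.poly
  have hfr := rws_frm H.hp H.hD H.hQ H.hg H.hδ H.hδg H.hn
  obtain ⟨a, ha, h1, h2⟩ := hin
  have hu := hrb.hR.str a ha j (by omega) (by omega)
  have h3 := hrb.byd ha h1 h2
  rw [← hu, ← bq_eq, hfr] at h3
  have h4 : oq (pW p n (tB n (mks p b tp))) (uW p n (tB n (mks p b tp))) j ∈
      K2D p b tp n ⌊δ * n⌋₊ := by
    rw [← mem_coe, ← hfr]
    exact ⟨a, ha, j, h1, h2, rfl⟩
  have h5 := deep H (Or.inr (Or.inl h4))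
  have h6 := row_pos H.hp H.hN H.hQ H.hg H.hδ H.hδg H.hn h4
  set v := oq (pW p n (tB n (mks p b tp))) (uW p n (tB n (mks p b tp))) j with hv
  have h7 : bq (pW p n (tB n (mks p b tp))) (uW p n (tB n (mks p b tp))) j =
      v + vec (uW p n (tB n (mks p b tp)) j - 1) := rfl
  rw [h7] at h3 ⊢
  have h8 : |dx (uW p n (tB n (mks p b tp)) j - 1)| ≤ 1 ∧
      |dy (uW p n (tB n (mks p b tp)) j - 1)| ≤ 1 := by
    rcases head_cases (uW p n (tB n (mks p b tp)) j - 1) with ⟨-, b, c⟩ | ⟨-, b, c⟩ | ⟨-, b, c⟩ |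
      ⟨-, b, c⟩ <;> rw [b, c] <;> norm_num
  have e1 : (v + vec (uW p n (tB n (mks p b tp)) j - 1)).1 =
      v.1 + dx (uW p n (tB n (mks p b tp)) j - 1) := rfl
  have e2 : (v + vec (uW p n (tB n (mks p b tp)) j - 1)).2 =
      v.2 + dy (uW p n (tB n (mks p b tp)) j - 1) := rfl
  rw [abs_le, abs_le] at h8
  unfold RD
  rw [mem_filter, mem_boxE, e1, e2]
  refine ⟨⟨⟨by omega, by omega⟩, by omega, by omega⟩, ⟨fun h => h3 (Or.inl h),
    fun h => h3 (Or.inr h)⟩, ?_⟩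
  rintro ⟨g1, g2, g3⟩
  have h9 := h6.2.2
  have h10 : nm (v - ((xV p n : ℤ), (yV p n : ℤ))) ≤ 2 := by
    rw [nm_le_iff]
    simp only [Prod.fst_sub, Prod.snd_sub]
    have := h6.2.1
    omega
  omega

include H hP hB in
/-- Consecutive steps of a row. -/
theorem ι_succ {a j : ℕ} (ha : a < l * ((mks p b tp).m + 1))
    (h1 : sR p n (mks p b tp) ⌊δ * n⌋₊ a ≤ j) (h2 : j + 1 < eR p n (mks p b tp) ⌊δ * n⌋₊ a) :
    ι (j + 1) = ι j + 1 := by
  have hrb := rb_frame H.hp H.hD H.hQ H.hg H.hδ H.hδg H.hn hB.poly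
  have h3 := hrb.hR.h3 a ha
  have hb := hP.bd
  have hj : j < l * n := by omega
  have hj1 : j + 1 < l * n := by omega
  have hu := hrb.hR.str a ha j (by omega) (by omega)
  have hu1 := hrb.hR.str a ha (j + 1) (by omega) (by omega)
  have e1 : P' (ι j + 1) = P' (ι (j + 1)) := by
    rw [hb.step, hP.dir _ hj, hP.far _ hj ⟨a, ha, h1, by omega⟩,
      hP.far _ hj1 ⟨a, ha, by omega, h2⟩, hrb.hR.bd.step, hu, hu1]
    abel
  have h4 := hP.mono j (j + 1) (by omega) hj1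
  have h5 := hP.lt _ hj1
  rcases (by omega : ι j + 1 < ι (j + 1) ∨ ι (j + 1) = ι j + 1) with g | g
  · exact absurd e1 (hb.inj _ _ g (by omega))
  · exact g

/-- The steps around the base site. -/
theorem in_t (H : DobN p S₀ b tp g δ n) {k : ℕ} (k1 : tB n (mks p b tp) ≤ k + 2)
    (k2 : k ≤ tB n (mks p b tp) + 1) : ∃ a < l * ((mks p b tp).m + 1),
      sR p n (mks p b tp) ⌊δ * n⌋₊ a ≤ k ∧ k < eR p n (mks p b tp) ⌊δ * n⌋₊ a ∧
      sR p n (mks p b tp) ⌊δ * n⌋₊ a + 2 ≤ tB n (mks p b tp) ∧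
      tB n (mks p b tp) + 2 ≤ eR p n (mks p b tp) ⌊δ * n⌋₊ a := by
  have hl : 0 < l := by have := H.hp.1; omega
  obtain ⟨j, j1, j2, j3⟩ := t_row H
  obtain ⟨g1, -, -⟩ := row_num (Q := mks p b tp) hl j1
  obtain ⟨g4, g5⟩ := sR_num (p := p) (n := n) (Q := mks p b tp) (d := ⌊δ * n⌋₊) hl j1
  exact ⟨0 * ((mks p b tp).m + 1) + j, g1, by rw [g4]; omega, by rw [g5]; omega,
    by rw [g4]; omega, by rw [g5]; omega⟩

/-- The steps around the junction. -/
theorem in_A (H : DobN p S₀ b tp g δ n) (hbg : BGap l (mks p b tp) g (.dob ia ta)) {k : ℕ}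
    (k1 : jAd n ia ta ≤ k + 2) (k2 : k ≤ jAd n ia ta + 1) : ∃ a < l * ((mks p b tp).m + 1),
      sR p n (mks p b tp) ⌊δ * n⌋₊ a ≤ k ∧ k < eR p n (mks p b tp) ⌊δ * n⌋₊ a ∧
      sR p n (mks p b tp) ⌊δ * n⌋₊ a + 2 ≤ jAd n ia ta ∧
      jAd n ia ta + 2 ≤ eR p n (mks p b tp) ⌊δ * n⌋₊ a := by
  obtain ⟨j, j1, j2, j3⟩ := jA_row H hbg
  obtain ⟨-, h2, -, -, -⟩ := hbg
  obtain ⟨g1, -, -⟩ := row_num (Q := mks p b tp) h2 j1
  obtain ⟨g4, g5⟩ := sR_num (p := p) (n := n) (Q := mks p b tp) (d := ⌊δ * n⌋₊) h2 j1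
  unfold jAd at *
  exact ⟨ia * ((mks p b tp).m + 1) + j, g1, by rw [g4]; omega, by rw [g5]; omega,
    by rw [g4]; omega, by rw [g5]; omega⟩

include H hbg hP hB in
/-- **The junctions on the curve of `R`**: `b` is the junction, `a` the first site. -/
theorem k0_at : kR p n ia ta n' ι (tB n (mks p b tp) - 1) =
      kR p n ia ta n' ι (tB n (mks p b tp)) + 1 ∧
    kR p n ia ta n' ι (jAd n ia ta - 1) = 0 ∧
    PRs p b n ia ta n' P' ι 0 = pW p n (tB n (mks p b tp)) (jAd n ia ta) +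
      vec (uW p n (tB n (mks p b tp)) (jAd n ia ta) - 1) := by
  obtain ⟨-, -, b5, -, hM⟩ := H.basic
  have hRN := rn_D H hbg hP (tq := 0) (Nat.mul_pos (by omega) b5)
  obtain ⟨a, ha, a1, a2, a3, a4⟩ := in_t H (k := tB n (mks p b tp)) (by omega) (by omega)
  obtain ⟨a', ha', a1', a2', a3', a4'⟩ := in_A H hbg (k := jAd n ia ta) (by omega) (by omega)
  have hrb := rb_frame H.hp H.hD H.hQ H.hg H.hδ H.hδg H.hn hB.poly
  have s1 := hrb.hR.h1 a ha
  have s2 := hrb.hR.h1 a' ha'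
  have e1 := hrb.hR.h3 a ha
  have e2 := hrb.hR.h3 a' ha'
  have i1 := ι_succ H hP hB ha (j := tB n (mks p b tp) - 1) (by omega) (by omega)
  have i2 := ι_succ H hP hB ha' (j := jAd n ia ta - 1) (by omega) (by omega)
  rw [Nat.sub_add_cancel (by omega)] at i1 i2
  obtain ⟨j1, -, -, j4⟩ := jT_facts H
  have hin1 : InP p b tp n ⌊δ * n⌋₊ (tB n (mks p b tp)) := ⟨a, ha, a1, a2⟩
  have hin2 : InP p b tp n ⌊δ * n⌋₊ (jAd n ia ta - 1) := ⟨a', ha', by omega, by omega⟩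
  have hne : ∀ j, InP p b tp n ⌊δ * n⌋₊ j → j ≠ iT p * n := by
    rintro j hj rfl
    exact j4 hj
  refine ⟨?_, ?_, ?_⟩
  · have h1 := hne _ hin1
    have h3 : cyc ι n' (iT p * n) (tB n (mks p b tp)) =
        cyc ι n' (iT p * n) (tB n (mks p b tp) - 1) + 1 := by
      have hl := hP.lt _ j1
      have m1 := hP.mono (iT p * n) (tB n (mks p b tp) - 1)
      have h4 : iT p * n ≤ tB n (mks p b tp) ↔ iT p * n ≤ tB n (mks p b tp) - 1 := by omega
      unfold cyc
      by_cases h5 : iT p * n ≤ tB n (mks p b tp) - 1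
      · rw [if_pos h5, if_pos (h4.2 h5), i1]
        rcases (by omega : iT p * n = tB n (mks p b tp) - 1 ∨ iT p * n < tB n (mks p b tp) - 1) with
          h6 | h6
        · rw [h6]
          omega
        · have := m1 h6 (by omega)
          omega
      · rw [if_neg h5, if_neg (fun h => h5 (h4.1 h)), i1]
        omega
    have h6 : cyc ι n' (iT p * n) (tB n (mks p b tp)) ≤ mAD p n ia ta n' ι ↔
        cyc ι n' (iT p * n) (tB n (mks p b tp) - 1) ≤ mAD p n ia ta n' ι := by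
      have h7 : ∀ j < l * n, cyc ι n' (iT p * n) j = mAD p n ia ta n' ι → j = jAd n ia ta - 1 := by
        intro j hj h8
        change cyc ι n' (iT p * n) j = cyc ι n' (iT p * n) (jAd n ia ta - 1) at h8
        have g1 := cyc_lt hP.mono hP.lt j1 (j := j) (j' := jAd n ia ta - 1) hj (by omega)
        have g2 := cyc_lt hP.mono hP.lt j1 (j := jAd n ia ta - 1) (j' := j) (by omega) hj
        omega
      have h8 := h7 (tB n (mks p b tp) - 1) (by omega)
      have := hRN.htn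
      have := hRN.hA
      omega
    have hAl := mAD_lt H hbg hP
    have hMl : n' ≤ MR p n n' := by
      unfold MR
      have := xV_bd H
      omega
    have hcl := (cyc_bd hP.mono hP.lt j1 (j := tB n (mks p b tp)) (by omega)).1
    unfold kR kk
    split_ifs <;> omega
  · show kk (MR p n n') (mAD p n ia ta n' ι) (mAD p n ia ta n' ι) = 0
    unfold kk
    rw [if_pos le_rfl, Nat.sub_self]
  · obtain ⟨-, -, g3, -, -⟩ := out_at H hbg hP hB (j := jAd n ia ta - 1) (by omega) (hne _ hin2)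
    have h9 : kR p n ia ta n' ι (jAd n ia ta - 1) = 0 := by
      show kk (MR p n n') (mAD p n ia ta n' ι) (mAD p n ia ta n' ι) = 0
      unfold kk
      rw [if_pos le_rfl, Nat.sub_self]
    rw [h9, ← i2, hP.far _ (by omega) ⟨a', ha', a1', a2'⟩] at g3
    exact g3

include H hbg hP hB in
/-- **The steps of the curve at the frozen squares**: the spoke, the box or the rows of the
polygon. -/
theorem idxR {k : ℕ} (hk : k < MR p n n')
    (h1 : oq (PRs p b n ia ta n' P' ι) (URs p b n ia ta n' u' ι) k ∈ KD p b tp n ⌊δ * n⌋₊)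
    (h2 : oq (PRs p b n ia ta n' P' ι) (URs p b n ia ta n' u' ι) k ∉ B) :
    (mAD p n ia ta n' ι ≤ k ∧ k < mAD p n ia ta n' ι + (4 * (bM p * n) - 1) + 2 * yV p n ∧
      (oq (PRs p b n ia ta n' P' ι) (URs p b n ia ta n' u' ι) k ∈ (spk p n ⌊δ * n⌋₊).I ∨
        oq (PRs p b n ia ta n' P' ι) (URs p b n ia ta n' u' ι) k ∈ K1D p b n ⌊δ * n⌋₊)) ∨
    ∃ j < l * n, InP p b tp n ⌊δ * n⌋₊ j ∧ k = kR p n ia ta n' ι j ∧
      oq (PRs p b n ia ta n' P' ι) (URs p b n ia ta n' u' ι) k =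
        oq (pW p n (tB n (mks p b tp))) (uW p n (tB n (mks p b tp))) j := by
  have G := glueD H hP hB
  rcases posR H hbg hP hB hk with ⟨i, hi, g1, g2, g3⟩ | ⟨m, m1, m2, g1, g2, g3⟩ |
    ⟨i, hi, g1, g2, g3⟩ | ⟨m, m1, m2, g1, g2, g3⟩
  · left
    refine ⟨by omega, by omega, Or.inl ?_⟩
    have hoq : oq (PRs p b n ia ta n' P' ι) (URs p b n ia ta n' u' ι) k =
        ((xV p n : ℤ), 0 + (yV p n : ℤ) - i - 1) := by
      unfold oq
      rw [g2, g3, (Cut.sq_vals _ _ (3 - 1)).2.2.1 (by norm_num)]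
      simp
    rw [hoq] at h2 ⊢
    exact (G.s3 _ ⟨rfl, by simp only; omega, by simp only; omega⟩).resolve_right h2
  · left
    obtain ⟨j, hj, hin, hoq, -, -⟩ := boxR H hP hB m2 g2 g3 h1
    refine ⟨by omega, by omega, Or.inr ?_⟩
    rw [hoq] at h1 ⊢
    exact G.m1 ((rb_box H hB).hR.bd.right j) h1
  · left
    refine ⟨by omega, by omega, Or.inl ?_⟩
    have hoq : oq (PRs p b n ia ta n' P' ι) (URs p b n ia ta n' u' ι) k =
        ((xV p n : ℤ), 0 + (i : ℤ)) := by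
      unfold oq
      rw [g2, g3, (Cut.sq_vals _ _ (9 - 1)).1 (by norm_num)]
    rw [hoq] at h2 ⊢
    exact (G.s3 _ ⟨rfl, by simp, by simp only; omega⟩).resolve_right h2
  · right
    obtain ⟨j, hj, hin, hm, hoq, -, -⟩ := outR H hP hB m1 m2 g2 g3 h1 h2
    exact ⟨j, hj, hin, by rw [g1, hm]; rfl, hoq⟩

include H hbg hP hB in
/-- **The exits over the base site `b`**: the steps between the base site and the vertex `T'` are
steps of the side `0`. -/
theorem exit_b [NeZero l] {tq : ℕ} (htq : tq < bM p * n) {k : ℕ}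
    (hk : (clT p ia ∧ (cRD θ p b tp n ia ta tq n' P' u' ι).k₀ ≤ k ∧
        k < (cRD θ p b tp n ia ta tq n' P' u' ι).zo) ∨
      (¬ clT p ia ∧ (cRD θ p b tp n ia ta tq n' P' u' ι).zc ≤ k ∧
        k < (cRD θ p b tp n ia ta tq n' P' u' ι).k₀))
    (h1 : oq (PRs p b n ia ta n' P' ι) (URs p b n ia ta n' u' ι) k ∈ KD p b tp n ⌊δ * n⌋₊)
    (h2 : oq (PRs p b n ia ta n' P' ι) (URs p b n ia ta n' u' ι) k ∉ B) :
    ∃ y, oq (PRs p b n ia ta n' P' ι) (URs p b n ia ta n' u' ι) k ∈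
      (rD θ β p b tp ia ta n ⌊δ * n⌋₊ (.inl (0, y))).I := by
  obtain ⟨-, -, b5, -, hM⟩ := H.basic
  have hRN := rn_D H hbg hP htq
  have hkM : k < MR p n n' := by
    have e1 := hRN.k0_lt
    have e2 := hRN.z_lt
    rcases hk with ⟨-, -, h⟩ | ⟨-, -, h⟩
    · exact lt_trans h e2.2
    · exact lt_trans h e1.1
  rcases idxR H hbg hP hB hkM h1 h2 with ⟨g1, g2, -⟩ | ⟨j, hj, hin, g1, g2⟩
  · exfalso
    have h3 := hRN.colS (k := k) g1 g2
    rcases hk with ⟨h, h', -⟩ | ⟨h, -, h'⟩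
    · exact absurd (h3.2 h) (not_lt.2 h')
    · exact h (h3.1 h')
  · have hjn : j < n := by
      refine hRN.btw hj ?_
      rcases hk with ⟨h, h', h''⟩ | ⟨h, h', h''⟩
      · left
        refine ⟨h, ?_, ?_⟩
        · rw [g1] at h'; exact h'
        · rw [g1] at h''; exact h''
      · right
        refine ⟨h, ?_, ?_⟩
        · rw [g1] at h'; exact h'
        · rw [g1] at h''; exact h''
    obtain ⟨jj, i1, i2, i3⟩ := inR_row hj hin H.hQ H.hg H.hδ H.hδg H.hn
    rw [Nat.div_eq_of_lt hjn, Nat.mod_eq_of_lt hjn] at i2 i3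
    change jj ≤ 2 at i1
    refine ⟨⟨jj, by omega⟩, ?_⟩
    rw [g2, oq_W H.hp H.hD H.hQ H.hg H.hδg H.hn hj, Nat.div_eq_of_lt hjn, Nat.mod_eq_of_lt hjn]
    show _ ∈ (frowJ θ β p (mks p b tp) n ⌊δ * n⌋₊ ⌊tp * n⌋₊ (.dob ia ta) (JD p ia) 0 1
      ((0 : Fin l) : ℕ) jj).I
    rw [Fin.val_zero]
    exact mem_frowJ.2 ⟨j, i2, i3, rfl⟩

/-- The outer sites of the rows of the side `0` between the base site and the vertex `T'`. -/
def SMid (p : ZMod l → ℤ × ℤ) (b : Box) (tp : ℝ) (n d ia : ℕ) : Set (ℤ × ℤ) :=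
  {s | ∃ σ : ℕ, σ < n ∧ InP p b tp n d σ ∧ ((clT p ia ∧ σ ≤ tB n (mks p b tp)) ∨
    (¬ clT p ia ∧ tB n (mks p b tp) ≤ σ)) ∧ s = vp p n 0 σ + dir (pdir p 0 - 1)}

include H hbg hP hB in
/-- **The sites between the base site `b` and the vertex `T'`** are between the bases of `R`. -/
theorem mid_R {tq : ℕ} (htq : tq < bM p * n) : (cRD θ p b tp n ia ta tq n' P' u' ι).Mid
    (vp p n ia ⌊ta * n⌋₊ + dir (pdir p ia - 1)) (SMid p b tp n ⌊δ * n⌋₊ ia) := by
  obtain ⟨-, -, b5, -, hM⟩ := H.basic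
  have hl : 0 < l := by have := H.hp.1; omega
  have hRN := rn_D H hbg hP htq
  obtain ⟨k1, k2, k3⟩ := k0_at H hbg hP hB
  have ht := tB_lt (n := n) H.hQ b5
  have key : ∀ i σ, i < l → σ < n → pW p n (tB n (mks p b tp)) (i * n + σ) +
      vec (uW p n (tB n (mks p b tp)) (i * n + σ) - 1) = vp p n i σ + dir (pdir p i - 1) := by
    intro i σ hi hσ
    rw [pW_vp (p := p) b5 ht hl hσ, vec_pred (uW_mod H.hp H.hD b5 ht hσ)]
  refine ⟨?_, ?_⟩
  · refine Eq.trans k3 ?_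
    obtain ⟨j, j1, j2, j3⟩ := jA_row H hbg
    obtain ⟨-, g2, -, -, -⟩ := hbg
    have e1 := eW_le H g2 j1
    exact key ia ⌊ta * n⌋₊ g2 (by omega)
  · rintro s ⟨σ, h1, h2, h3, rfl⟩
    have hσl : σ < l * n := lt_of_lt_of_le h1 (Nat.le_mul_of_pos_left n hl)
    obtain ⟨g1, -, -, g4⟩ := out_sq H hbg hP hB hσl h2
    obtain ⟨m1, m2⟩ := hRN.mid h1 h3 k1
    refine ⟨kR p n ia ta n' ι σ + 1, m1, m2, Eq.trans g4 ?_⟩
    have := key 0 σ hl h1
    rwa [zero_mul, zero_add] at this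

end

end Vale.Agent.P167.N.ID
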