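import Vale.Agent.P167.N.ID.PhB
import Vale.Agent.P167.N.ID.CDOut

/-!
# P167, `q < 1`, START: the exterior cell of a polygon with rows of one colour

* `ixX`: the step of the reversed path around the rows at an outer face.
* `cellX_lit`, `phsX`, `clrX`, `gdX`.
-/

set_option autoImplicit false

namespace Vale.Agent.P167.N.ID

open Finset
open Vale.Agent.P167.Top
open Vale.Agent.P167.H871
open Vale.Agent.P167.H871.Q
open Vale.Agent.P167.A (plane)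
open Vale.Agent.P167.H199 (Gap ah at')
open Vale.Agent.P167.H825.Q (Bc stΦ stτ)
open Vale.Agent.P167.H680.T (WallG WCG sgb sq)
open Vale.Agent.P167.H398.Q (hB)
open Vale.Agent.P167.E6 (IsPolygon Encloses dir face)
open Vale.Agent.P167.H825 (pdir enl ptau Marks)
open Vale.Agent.P167.XDL (bS mem_bS)
open Vale.Agent.P167.Enl (sW eW tB tB_lt kOf uN qN PN bd_qN qN_nat pW uW pW_eq uW_eq pW_vp uW_same
  uW_mod vec_pred vp frmQ mem_frmQ sR eR row_dat row_num sR_num row_bds gn_big sqL_op)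

variable {l : ℕ} {θ β : ℝ} {p : ZMod l → ℤ × ℤ} {S₀ : Finset (ℤ × ℤ)} {Q : Marks} {n t d : ℕ}
  {bc : Bc} {J : ℕ → Bool} {C c : ℝ} {g δ : ℝ}

/-- The path around the rows of a polygon, corner numbering. -/
abbrev BPf (p : ZMod l → ℤ × ℤ) (S₀ : Finset (ℤ × ℤ)) (n : ℕ) (Q : Marks) (d : ℕ) (n' : ℕ)
    (P' : ℕ → ℤ × ℤ) (u' : ℕ → ℤ) (ι : ℕ → ℕ) : Prop :=
  BP (enl S₀ n : Set (ℤ × ℤ)) (l * n) (pW p n (tB n Q)) (uW p n (tB n Q)) (l * (Q.m + 1))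
    (sR p n Q d) (eR p n Q d) n' P' u' ι

section X

variable (hp : IsPolygon p) (hD : Encloses p S₀) (hQ : Q.Ok) (hg : Gap Q l g)
  (hδ : 0 < δ) (hδg : 4 * δ ≤ g) (hn : 16 ≤ δ * n)

include hp hD hQ hg hδ hδg hn in
theorem exists_BPf : ∃ n' P' u' ι, BPf p S₀ n Q ⌊δ * n⌋₊ n' P' u' ι :=
  exists_BP (rws_of hp hD hQ hg hδ hδg hn)

variable {n' : ℕ} {P' : ℕ → ℤ × ℤ} {u' : ℕ → ℤ} {ι : ℕ → ℕ}
  (hP : BPf p S₀ n Q ⌊δ * n⌋₊ n' P' u' ι)

include hp hD hQ hg hδ hδg hn hP in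
/-- **The position of the outer faces on the path around the rows**, first step `ι j₀`. -/
theorem pos_out {B : Set (ℤ × ℤ)}
    (hB' : (hB p Q n (⌊δ * n⌋₊ + 4) : Set (ℤ × ℤ)) ⊆ B) {j₀ i : ℕ} (hj₀ : j₀ < l * n)
    (hi : i < n') (h1 : iq P' u' (i + ι j₀) ∈ frmQ p Q n ⌊δ * n⌋₊) (h2 : iq P' u' (i + ι j₀) ∉ B) :
    ∃ m < l * n, InR (l * (Q.m + 1)) (sR p n Q ⌊δ * n⌋₊) (eR p n Q ⌊δ * n⌋₊) m ∧
      iq P' u' (i + ι j₀) = oq (pW p n (tB n Q)) (uW p n (tB n Q)) m ∧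
      P' (i + ι j₀) = pW p n (tB n Q) m + vec (uW p n (tB n Q) m - 1) ∧
      ((j₀ ≤ m ∧ i + ι j₀ = ι m ∧ u' (i + ι j₀) = uW p n (tB n Q) m) ∨
        (m < j₀ ∧ i + ι j₀ = ι m + n' ∧ u' (i + ι j₀) = uW p n (tB n Q) m + 4)) :=
  BP.pos hP (rb_frame hp hD hQ hg hδ hδg hn hB') hj₀ hi h1 h2

include hP in
theorem n'_pos (hp : IsPolygon p) (hn0 : 0 < n) : 2 < n' := by
  have h1 := hP.le
  have h2 := hp.1
  have h3 : 3 * 1 ≤ l * n := Nat.mul_le_mul (by omega) hn0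
  omega

/-- The path around the rows with the first step `c`. -/
def sP (P' : ℕ → ℤ × ℤ) (c : ℕ) : ℕ → ℤ × ℤ := fun k => P' (k + c)

/-- The directions with the first step `c`. -/
def sU (u' : ℕ → ℤ) (c : ℕ) (κ : ℤ) : ℕ → ℤ := fun k => u' (k + c) - κ

include hp hD hQ hg hδ hδg hn hP in
/-- **The exterior cell**, first step `ι j₀`. -/
theorem cellX_lit {B : Set (ℤ × ℤ)}
    (hB' : (hB p Q n (⌊δ * n⌋₊ + 4) : Set (ℤ × ℤ)) ⊆ B) {j₀ : ℕ} (hj₀ : j₀ < l * n)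
    {κ : ℤ} (hκ : κ % 4 = 0) :
    Cell (frmQ p Q n ⌊δ * n⌋₊) B
      ((enl S₀ n : Set (ℤ × ℤ)) ∪ (frmQ p Q n ⌊δ * n⌋₊ : Set (ℤ × ℤ)))ᶜ n'
      (revP n' (sP P' (ι j₀))) (revU n' (sU u' (ι j₀) κ)) (-1) := by
  have hl : 0 < l := by have := hp.1; omega
  obtain ⟨-, -, -, c4, b5⟩ := gn_big hQ hg hδg hn hl
  have h1 := (rb_frame hp hD hQ hg hδ hδg hn hB').cellX hP.bd hP.cov (n'_pos hP hp b5)
  have h2 := h1.rbase hP.bd (hP.lt j₀ hj₀) hκ
  rw [rws_frm hp hD hQ hg hδ hδg hn] at h2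
  exact h2

include hp hD hQ hg hδ hδg hn hP in
/-- The step of the reversed path. -/
theorem ixX {B : Set (ℤ × ℤ)} {b' : ℕ} (hb' : n' = b' + 1)
    (hB' : (hB p Q n (⌊δ * n⌋₊ + 4) : Set (ℤ × ℤ)) ⊆ B) {j₀ k : ℕ} (hj₀ : j₀ < l * n)
    {κ : ℤ} (hκ : κ % 4 = 0) (hk : k < n')
    (h1 : oq (revP n' (sP P' (ι j₀))) (revU n' (sU u' (ι j₀) κ)) k ∈ frmQ p Q n ⌊δ * n⌋₊)
    (h2 : oq (revP n' (sP P' (ι j₀))) (revU n' (sU u' (ι j₀) κ)) k ∉ B) :
    ∃ m < l * n, InR (l * (Q.m + 1)) (sR p n Q ⌊δ * n⌋₊) (eR p n Q ⌊δ * n⌋₊) m ∧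
      oq (revP n' (sP P' (ι j₀))) (revU n' (sU u' (ι j₀) κ)) k =
        oq (pW p n (tB n Q)) (uW p n (tB n Q)) m ∧
      M4 (revP n' (sP P' (ι j₀)) k) (revU n' (sU u' (ι j₀) κ) k) =
        M4 (pW p n (tB n Q) m + vec (uW p n (tB n Q) m - 1)) (uW p n (tB n Q) m) ∧
      ((j₀ ≤ m ∧ b' - k + ι j₀ = ι m ∧
          revU n' (sU u' (ι j₀) κ) k = uW p n (tB n Q) m - κ - 2) ∨
        (m < j₀ ∧ b' - k + ι j₀ = ι m + n' ∧
          revU n' (sU u' (ι j₀) κ) k = uW p n (tB n Q) m + 4 - κ - 2)) := by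
  subst hb'
  have hbd : Bd _ (b' + 1) (sP P' (ι j₀)) (sU u' (ι j₀) κ) 1 := bd_base hP.bd (ι j₀) hκ
  obtain ⟨r1, r2⟩ := rev_at hbd (i := k) (by omega)
  have hst := hbd.step (b' - k)
  rw [show b' - k + 1 = b' + 1 - k by omega] at hst
  have e1 : oq (revP (b' + 1) (sP P' (ι j₀))) (revU (b' + 1) (sU u' (ι j₀) κ)) k =
      iq P' u' (b' - k + ι j₀) := by
    unfold oq
    rw [r1, r2, hst, show sU u' (ι j₀) κ (b' - k) - 2 - 1 = sU u' (ι j₀) κ (b' - k) - 3 by ring]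
    rw [sqL_congr (d' := sU u' (ι j₀) κ (b' - k) + 1) (by omega), sqL_next']
    exact sqL_congr (by show (u' (b' - k + ι j₀) - κ) % 4 = _; omega)
  rw [e1] at h1 h2 ⊢
  obtain ⟨m, hm, hin, g1, g2, g3⟩ := pos_out hp hD hQ hg hδ hδg hn hP hB' hj₀ (i := b' - k)
    (by omega) h1 h2
  refine ⟨m, hm, hin, g1, ?_, ?_⟩
  · rw [r1, r2, hst]
    have e2 : M4 (sP P' (ι j₀) (b' - k) + vec (sU u' (ι j₀) κ (b' - k)))
        (sU u' (ι j₀) κ (b' - k) - 2) = M4 (sP P' (ι j₀) (b' - k)) (sU u' (ι j₀) κ (b' - k)) := by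
      rw [M4_congr (d' := sU u' (ι j₀) κ (b' - k) + 2) (by omega), M4_rev]
    rw [e2]
    show M4 (P' (b' - k + ι j₀)) (u' (b' - k + ι j₀) - κ) = _
    rw [g2]
    refine M4_congr ?_
    rcases g3 with ⟨-, -, g3⟩ | ⟨-, -, g3⟩ <;> rw [g3] <;> omega
  · rw [r2]
    show (_ ∧ _ ∧ u' (b' - k + ι j₀) - κ - 2 = _) ∨ (_ ∧ _ ∧ u' (b' - k + ι j₀) - κ - 2 = _)
    rcases g3 with ⟨g4, g5, g6⟩ | ⟨g4, g5, g6⟩
    · exact Or.inl ⟨g4, g5, by rw [g6]⟩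
    · exact Or.inr ⟨g4, g5, by rw [g6]⟩

/-- The rows have one colour: `s = 1` closed, `s = -1` open; `C0` is the phase. -/
structure OneCol (l n t : ℕ) (bc : Bc) (β C c C0 : ℝ) (s : ℝ) : Prop where
  hs : s = 1 ∨ s = -1
  ph : ∀ k < l * n, C + (if k < bc.ka l n t then 0 else β) = C0 + if s = 1 then 0 else β
  cl : ∀ k < l * n, c * (if k < bc.ka l n t then 1 else -1) = s

/-- The junction of a cell of one colour. -/
noncomputable def k1 (n' : ℕ) (s : ℝ) : ℕ := if s = 1 then n' else 0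

include hp hD hQ hg hδ hδg hn hP in
/-- **The phases of the exterior cell.** -/
theorem phsX {ι' : Type} {r : ι' → Row} {K : Finset (ℤ × ℤ)} {B : Set (ℤ × ℤ)}
    {a : Ed → Bool → ℝ} (S : Sys θ r K a) (hb : bc.Ok l Q) (ht : t < n)
    (hB' : (hB p Q n (⌊δ * n⌋₊ + 4) : Set (ℤ × ℤ)) ⊆ B) (hc : c = 1 ∨ c = -1)
    (hr : ∀ i j, i < l → j ≤ Q.m → ∃ y, r y = frowJ θ β p Q n ⌊δ * n⌋₊ t bc J C c i j)
    (hJJ : ∀ i, J i = true) {C0 s : ℝ} (hO : OneCol l n t bc β C c C0 s) {X : Set (ℤ × ℤ)}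
    (hX : Bd X n' (revP n' (sP P' (ι t))) (revU n' (sU u' (ι t) 4)) (-1))
    (hK : ∀ v ∈ K, v ∉ X)
    (hK2 : ∀ k, oq (revP n' (sP P' (ι t))) (revU n' (sU u' (ι t) 4)) k ∈ K →
      oq (revP n' (sP P' (ι t))) (revU n' (sU u' (ι t) 4)) k ∈ frmQ p Q n ⌊δ * n⌋₊) :
    Phs θ β C0 K B X n' (revP n' (sP P' (ι t))) (revU n' (sU u' (ι t) 4)) (-1) (k1 n' s) 0 0 a := by
  have hl : 0 < l := by have := hp.1; omega
  obtain ⟨-, -, -, c4, b5⟩ := gn_big hQ hg hδg hn hl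
  have ht' := tB_lt (n := n) hQ b5
  have hln : n ≤ l * n := Nat.le_mul_of_pos_left n hl
  have hn' := n'_pos hP hp b5
  refine phs_rows S hX hK fun k hk x hx h1 h2 => ?_
  obtain ⟨b', hb'⟩ : ∃ b', n' = b' + 1 := ⟨n' - 1, by omega⟩
  obtain ⟨m, hm, hin, e1, e2, e3⟩ := ixX hp hD hQ hg hδ hδg hn hP hb' hB' (j₀ := t) (by omega)
    (κ := 4) (by norm_num) hk (hK2 k h1) h2
  have hx' : P4 x = M4 (pW p n (tB n Q) m + if false then (0, 0) else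
      vec (uW p n (tB n Q) m - 1)) (uW p n (tB n Q) m) := by
    rw [show (if false then ((0, 0) : ℤ × ℤ) else vec (uW p n (tB n Q) m - 1)) =
      vec (uW p n (tB n Q) m - 1) from if_neg (by simp), ← e2]
    exact hx
  obtain ⟨i, j, i1, j1, -, v1, v2, v3⟩ := frame_vals (θ := θ) (β := β) (J := J) (C := C) (c := c)
    hp hD hQ hg hδ hδg hn hb ht hc hm hin false hx'
  obtain ⟨y, hy⟩ := hr i j i1 j1
  obtain ⟨p1, p2, p3⟩ := pos_dec hm
  have hkl : kOf l n t (m / n) (m % n) < l * n := Enl.kOf_lt p1 p2 ht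
  have o1 := hO.ph _ hkl
  have o2 := hO.cl _ hkl
  have hU : uN p n t (kOf l n t (m / n) (m % n)) = revU n' (sU u' (ι t) 4) k + 2 := by
    rw [uN_W hp hD b5 ht ht']
    rcases e3 with ⟨g1, -, g3⟩ | ⟨g1, -, g3⟩
    · rw [g3, if_neg (by omega)]; ring
    · rw [g3, if_pos g1]; ring
  refine ⟨y, by rw [hy, e1]; exact v1, ?_, ?_⟩
  · rw [hy, v2, hJJ i, hU]
    unfold psi lab hJ k1
    rw [if_neg (Nat.not_lt_zero k)]
    simp only [Bool.false_eq_true, if_false, if_true]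
    push_cast
    rcases hO.hs with hs | hs
    · rw [if_pos hs] at o1
      rw [if_pos hs, if_pos hk]
      linarith
    · have hs' : ¬ s = 1 := by rw [hs]; norm_num
      rw [if_neg hs'] at o1
      rw [if_neg hs', if_neg (Nat.not_lt_zero k)]
      linarith
  · rw [hy, v3, o2]
    rcases hO.hs with hs | hs
    · have e : decide (¬ k < k1 n' s) = false := by
        unfold k1
        rw [if_pos hs]
        simp [hk]
      rw [e, hs]
      simp [sgr]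
    · have e : decide (¬ k < k1 n' s) = true := by
        unfold k1
        rw [if_neg (by rw [hs]; norm_num)]
        simp
      rw [e, hs]
      simp [sgr]

include hp hQ hg hδg hn hP in
/-- **The base of the exterior cell has the good parity.** -/
theorem gdX {K : Finset (ℤ × ℤ)} {B : Set (ℤ × ℤ)} {s : ℝ} (ht : t < n)
    (hin : InR (l * (Q.m + 1)) (sR p n Q ⌊δ * n⌋₊) (eR p n Q ⌊δ * n⌋₊) t)
    (hpar : Even ((vp p n 0 (t : ℤ)).1 + (vp p n 0 (t : ℤ)).2) ↔ s = 1) :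
    Gd K B n' (revP n' (sP P' (ι t))) (revU n' (sU u' (ι t) 4)) (k1 n' s) 0 0 := by
  have hl : 0 < l := by have := hp.1; omega
  obtain ⟨-, -, -, c4, b5⟩ := gn_big hQ hg hδg hn hl
  have ht' := tB_lt (n := n) hQ b5
  have hln : n ≤ l * n := Nat.le_mul_of_pos_left n hl
  have hn' := n'_pos hP hp b5
  obtain ⟨b', hb'⟩ : ∃ b', n' = b' + 1 := ⟨n' - 1, by omega⟩
  have e0 : revP n' (sP P' (ι t)) 0 = P' (ι t) := by
    subst hb'
    unfold revP sP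
    simp only [Nat.add_sub_cancel, zero_add, mul_one]
    rw [show b' + 1 + ι t = ι t + (b' + 1) by ring, hP.bd.perP]
  have e1 : P' (ι t) = vp p n 0 (t : ℤ) + vec (uW p n (tB n Q) t - 1) := by
    rw [hP.far t (by omega) hin]
    have h2 := pW_vp (p := p) b5 ht' hl (i := 0) (σ := t) ht
    rw [zero_mul, zero_add] at h2
    rw [h2]
  have hpv : ∀ (v : ℤ × ℤ) (w : ℤ), Even ((v + vec w).1 + (v + vec w).2) ↔
      ¬ Even (v.1 + v.2) := by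
    intro v w
    have h1 : (v + vec w).1 + (v + vec w).2 = v.1 + v.2 + (dx w + dy w) := by
      unfold vec
      simp only [Prod.fst_add, Prod.snd_add]
      ring
    rw [h1]
    have h2 : (dx w + dy w) % 2 = 1 := by
      rcases head_cases w with ⟨-, b, c⟩ | ⟨-, b, c⟩ | ⟨-, b, c⟩ | ⟨-, b, c⟩ <;> rw [b, c] <;>
        norm_num
    rw [Int.even_iff, Int.even_iff]
    omega
  refine ⟨fun _ _ h1 _ => ?_, fun _ _ h1 _ => ?_⟩
  · rw [e0, e1, hpv, not_not]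
    rw [hpar]
    by_contra hc
    unfold k1 at h1
    rw [if_neg hc] at h1
    exact absurd h1 (lt_irrefl _)
  · rw [e0, e1, hpv, hpar]
    intro hc
    unfold k1 at h1
    rw [if_pos hc] at h1
    exact h1 (by omega)

include hp hD hQ hg hδ hδg hn hP in
/-- **The exterior cell**: boundary of the filled set, the first site. -/
theorem outX (ht : t < n)
    (hin : InR (l * (Q.m + 1)) (sR p n Q ⌊δ * n⌋₊) (eR p n Q ⌊δ * n⌋₊) t) (k : ℕ) (C0 : ℝ) :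
    (⟨n', revP n' (sP P' (ι t)), revU n' (sU u' (ι t) 4), k, 0, 0, C0⟩ : CD).Out
      (enl S₀ n ∪ frmQ p Q n ⌊δ * n⌋₊) (vp p n 0 t + dir (pdir p 0 - 1)) := by
  have hl : 0 < l := by have := hp.1; omega
  obtain ⟨-, -, -, c4, b5⟩ := gn_big hQ hg hδg hn hl
  have ht' := tB_lt (n := n) hQ b5
  have hln : n ≤ l * n := Nat.le_mul_of_pos_left n hl
  have hn' := n'_pos hP hp b5
  have hbd := hP.bd
  have hcv := hP.cov
  rw [rws_frm hp hD hQ hg hδ hδg hn] at hbd hcv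
  refine ⟨⟨sP P' (ι t), sU u' (ι t) 4, ?_, ?_, rfl, rfl⟩, hn', rfl, rfl, ?_⟩
  · have h := bd_base hbd (ι t) (κ := 4) (by norm_num)
    rw [coe_union]
    exact h
  · rw [coe_union]
    have h := hcv.shift hbd (by omega) (ι t)
    intro v d h1 h2
    obtain ⟨k, k1, k2⟩ := h v d h1 h2
    refine ⟨k, k1, ?_⟩
    show (u' (k + ι t) - 4) % 4 = d % 4
    have k3 : (u' (k + ι t)) % 4 = d % 4 := k2
    omega
  · obtain ⟨b', hb'⟩ : ∃ b', n' = b' + 1 := ⟨n' - 1, by omega⟩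
    show revP n' (sP P' (ι t)) 0 = _
    subst hb'
    unfold revP sP
    simp only [Nat.add_sub_cancel, zero_add, mul_one]
    rw [show b' + 1 + ι t = ι t + (b' + 1) by ring, hP.bd.perP, hP.far t (by omega) hin]
    have h2 := pW_vp (p := p) b5 ht' hl (i := 0) (σ := t) ht
    have h3 := uW_mod hp hD b5 ht' (i := 0) (σ := t) ht
    rw [zero_mul, zero_add] at h2 h3
    rw [h2, vec_pred h3]

/-- **The colours of the exterior cell.** -/
theorem clrX {η : Cfg} {K : Finset (ℤ × ℤ)} {B : Set (ℤ × ℤ)} {s : ℝ}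
    (hc : ∀ v ∈ frmQ p Q n ⌊δ * n⌋₊, η v = decide (s ≠ 1))
    (hK2 : ∀ k, oq (revP n' (sP P' (ι t))) (revU n' (sU u' (ι t) 4)) k ∈ K →
      oq (revP n' (sP P' (ι t))) (revU n' (sU u' (ι t) 4)) k ∈ frmQ p Q n ⌊δ * n⌋₊) :
    Clr K B n' (revP n' (sP P' (ι t))) (revU n' (sU u' (ι t) 4)) (k1 n' s) η := by
  intro k hk h1 h2
  rw [hc _ (hK2 k h1)]
  unfold k1
  by_cases hs : s = 1
  · rw [if_pos hs]
    simp [hs, hk]
  · rw [if_neg hs]
    simp [hs]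

end X

end Vale.Agent.P167.N.ID
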