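import Vale.Agent.P167.N.ID.TipD
import Vale.Agent.P167.N.ID.FrmJ

/-!
# P167, `q < 1`, START (P2T), geometry of the pictures of the killed tips: one row

* `Row.iso`: the isometry of the picture of the killed tip of a row.
* `okC`, `okF`: the pictures of the corner holes and of the flat holes.
* `tipV`: the isometry in the coordinates of the mark.
-/

set_option autoImplicit false

namespace Vale.Agent.P167.N.ID

open Finset

open Vale.Agent.P167.H262 (Rsq mem_Rsq)

/-- **The isometry of the picture of the killed tip of a row**; `f`: the upper side is the lower or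
the left side of the row. -/
def Row.iso (r : Row) (f : Bool) : Isom :=
  if r.o then ⟨false, r.p, f, (r.x.1 + if r.p then r.L else 0, r.x.2 + if f then 1 else 0)⟩
  else ⟨true, f, r.p, (r.x.1 + if f then 1 else 0, r.x.2 + if r.p then r.L else 0)⟩

/-- The height of the killed corner. -/
noncomputable def Row.hgt (r : Row) (f : Bool) : ℤ := if xor (r.gc r.p) f then 1 else 0

theorem Row.iso_V (r : Row) (f : Bool) (v : ℤ × ℤ) : (r.iso f).V v =
    if r.o then (if r.p then r.x.1 + r.L - 1 - v.1 else r.x.1 + v.1,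
      if f then r.x.2 - v.2 else r.x.2 + v.2)
    else (if f then r.x.1 - v.2 else r.x.1 + v.2,
      if r.p then r.x.2 + r.L - 1 - v.1 else r.x.2 + v.1) := by
  rw [Isom.V_apply]
  unfold Row.iso
  cases r.o <;> cases r.p <;> cases f <;>
    simp only [if_true, if_false, Bool.false_eq_true] <;> refine Prod.ext ?_ ?_ <;>
    simp only <;> ring

theorem Row.iso_mem (r : Row) (f : Bool) (v : ℤ × ℤ) : (r.iso f).V v ∈ r.I ↔
    v.2 = 0 ∧ 0 ≤ v.1 ∧ v.1 < r.L := by
  rw [Row.iso_V, Row.mem_I]
  cases r.o <;> cases r.p <;> cases f <;>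
    simp only [if_true, if_false, Bool.false_eq_true] <;> omega

theorem Row.iso_zt (r : Row) (f : Bool) : r.zt = (r.iso f).S (0, r.hgt f) := by
  rw [Isom.S_apply]
  unfold Row.zt Row.st Row.iso Row.hgt Row.ke
  cases r.o <;> cases r.p <;> cases f <;>
    cases r.gc _ <;>
    simp only [if_true, if_false, Bool.false_eq_true, Bool.xor_false, Bool.xor_true, Bool.not_true,
      Bool.not_false] <;>
    refine Prod.ext ?_ ?_ <;> simp <;> ring

theorem Row.hgt_or (r : Row) (f : Bool) : r.hgt f = 0 ∨ r.hgt f = 1 := by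
  unfold Row.hgt
  split_ifs
  · exact Or.inr rfl
  · exact Or.inl rfl

/-- The picture moves distances to distances. -/
theorem Row.iso_nm (r : Row) (f : Bool) (u v : ℤ × ℤ) :
    nm ((r.iso f).V u - (r.iso f).V v) = nm (u - v) := by
  rw [Row.iso_V, Row.iso_V]
  unfold nm
  have e1 : ∀ a b c : ℤ, |a - b - (a - c)| = |b - c| := fun a b c => by
    rw [show a - b - (a - c) = -(b - c) by ring, abs_neg]
  cases r.o <;> cases r.p <;> cases f <;>
    simp only [if_true, if_false, Bool.false_eq_true, Prod.fst_sub, Prod.snd_sub,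
      add_sub_add_left_eq_sub, e1] <;> first | rfl | exact max_comm _ _

/-! ### the pictures -/

section ok

variable {r : Row} {f : Bool} {U J : Finset (ℤ × ℤ)} {a d ρ : ℤ}

/-- The squares of the picture are near the tip. -/
theorem TipD.W_nm {t : TipD} (hρ : 16 * ρ ≤ d) (hρ0 : 0 ≤ ρ) (hd : 16 ≤ d) (ha : t.a ≤ d + 8)
    (ha0 : 0 ≤ t.a) (hb : t.b ≤ d + 8) (hb0 : 0 ≤ t.b) (hζ : t.ζ = 0 ∨ t.ζ = 1) {v : ℤ × ℤ}
    (hv : v ∈ t.W d ρ) :
    ∃ u : ℤ × ℤ, v = t.g.V u ∧ nm u ≤ 4 * d := by
  obtain ⟨u, hu, rfl⟩ := mem_image.1 hv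
  refine ⟨u, rfl, ?_⟩
  rw [nm_le_iff]
  rw [mem_union] at hu
  rcases hu with hu | hu
  · unfold bxT at hu
    rw [mem_filter, mem_Rsq] at hu
    omega
  · unfold tubT at hu
    split_ifs at hu
    · rw [mem_union, mem_union, mem_Rsq, mem_Rsq, mem_Rsq] at hu
      omega
    · rw [mem_union, mem_Rsq, mem_Rsq] at hu
      omega

/-- **The picture of a corner hole.** -/
theorem okC (hρ : 16 * ρ ≤ d) (hρ0 : 0 ≤ ρ) (hd : 16 ≤ d) (hL : 2 * ρ ≤ r.L) (ha : d - 2 ≤ a)
    (ha' : a ≤ d + 1)
    (hU : ∀ v : ℤ × ℤ, nm v ≤ 4 * d → (r.iso f).V v ∈ U → (v.2 = 0 ∧ 0 ≤ v.1) ∨ v.1 ≤ -a - 1)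
    (hJ : ∀ y, 2 * d - 1 ≤ y → y < 3 * d + 1 → (r.iso f).V (-a - 1, y) ∈ J) :
    (⟨r.iso f, false, a, d, r.hgt f⟩ : TipD).Ok U r.I J r.zt d ρ := by
  have hh := r.hgt_or f
  refine ⟨r.iso_zt f, hh, fun v hv => ?_, ⟨by simp only; omega, by simp only; omega⟩,
    ⟨by simp only; omega, by simp only; omega⟩, ?_, fun v hv => ?_⟩
  · rw [mem_Rsq] at hv
    have := r.iso_mem f v
    change (r.iso f).V v ∈ r.I ↔ _
    rw [this]
    omega
  · rw [Finset.disjoint_left]
    intro w hw hwU
    obtain ⟨u, hu, rfl⟩ := mem_image.1 hw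
    have h1 : nm u ≤ 4 * d := by
      rw [nm_le_iff]
      rw [mem_union] at hu
      rcases hu with hu | hu
      · unfold bxT at hu
        rw [mem_filter, mem_Rsq] at hu
        simp only at hu
        omega
      · unfold tubT at hu
        simp only [Bool.false_eq_true, if_false] at hu
        rw [mem_union, mem_Rsq, mem_Rsq] at hu
        omega
    have h2 := hU u h1 hwU
    rw [mem_union] at hu
    rcases hu with hu | hu
    · unfold bxT at hu
      rw [mem_filter, mem_Rsq] at hu
      omega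
    · unfold tubT at hu
      simp only [Bool.false_eq_true, if_false] at hu
      rw [mem_union, mem_Rsq, mem_Rsq] at hu
      omega
  · unfold tgT at hv
    simp only [Bool.false_eq_true, if_false] at hv
    rw [mem_Rsq] at hv
    have e : v = (-a - 1, v.2) := Prod.ext (by simp only; omega) rfl
    change (r.iso f).V v ∈ J
    rw [e]
    exact hJ _ (by omega) (by omega)

/-- **The picture of a flat hole.** -/
theorem okF (hρ : 16 * ρ ≤ d) (hρ0 : 0 ≤ ρ) (hd : 16 ≤ d) (hL : 2 * ρ ≤ r.L)
    (hU : ∀ v : ℤ × ℤ, nm v ≤ 4 * d → (r.iso f).V v ∈ U → v.2 = 0 ∧ (0 ≤ v.1 ∨ v.1 < -d))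
    (hJ : ∀ x, -3 * d - 5 ≤ x → x < -2 * d - 3 → (r.iso f).V (x, 0) ∈ J) :
    (⟨r.iso f, true, d + 4, d, r.hgt f⟩ : TipD).Ok U r.I J r.zt d ρ := by
  have hh := r.hgt_or f
  refine ⟨r.iso_zt f, hh, fun v hv => ?_, ⟨by simp only; omega, by simp only; omega⟩,
    ⟨by simp only; omega, by simp only; omega⟩, ?_, fun v hv => ?_⟩
  · rw [mem_Rsq] at hv
    have := r.iso_mem f v
    change (r.iso f).V v ∈ r.I ↔ _
    rw [this]
    omega
  · rw [Finset.disjoint_left]
    intro w hw hwU
    obtain ⟨u, hu, rfl⟩ := mem_image.1 hw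
    have h1 : nm u ≤ 4 * d := by
      rw [nm_le_iff]
      rw [mem_union] at hu
      rcases hu with hu | hu
      · unfold bxT at hu
        rw [mem_filter, mem_Rsq] at hu
        simp only at hu
        omega
      · unfold tubT at hu
        simp only [if_true] at hu
        rw [mem_union, mem_union, mem_Rsq, mem_Rsq, mem_Rsq] at hu
        omega
    have h2 := hU u h1 hwU
    rw [mem_union] at hu
    rcases hu with hu | hu
    · unfold bxT at hu
      rw [mem_filter, mem_Rsq] at hu
      omega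
    · unfold tubT at hu
      simp only [if_true] at hu
      rw [mem_union, mem_union, mem_Rsq, mem_Rsq, mem_Rsq] at hu
      omega
  · unfold tgT at hv
    simp only [if_true] at hv
    rw [mem_Rsq] at hv
    have e : v = (v.1, 0) := Prod.ext rfl (by simp only; omega)
    change (r.iso f).V v ∈ J
    rw [e]
    exact hJ _ (by omega) (by omega)

end ok

end Vale.Agent.P167.N.ID
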