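import Vale.Agent.P167.N.ID.PicsA

/-!
# P167, `q < 1`, START (P2T), geometry of the pictures of the killed tips: the marks

`markA`, `markB`: the pictures at a hole with two rows, the killed tip behind or before the mark.
-/

set_option autoImplicit false
set_option linter.unusedSimpArgs false

namespace Vale.Agent.P167.N.ID

open Finset

open Vale.Agent.P167.H262 (Rsq mem_Rsq)
open Vale.Agent.P167.E6 (dir face)
open Vale.Agent.P167.H825.Q (srow)
open Vale.Agent.P167.Enl (oz oz_eq vz vz_eq fin4_cases)

/-- The squares in the coordinates of the tip at the mark `z`: direction `k` of the side, distance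
`G` from the mark, `e`: before the mark. -/
def tipV (z : ℤ × ℤ) (k : Fin 4) (e : Bool) (G : ℤ) (f : Bool) (v : ℤ × ℤ) : ℤ × ℤ :=
  if k = 0 then (if e then z.1 - G - 1 - v.1 else z.1 + G + v.1,
    if f then z.2 - 1 - v.2 else z.2 - 1 + v.2)
  else if k = 1 then (if f then z.1 - v.2 else z.1 + v.2,
    if e then z.2 - G - 1 - v.1 else z.2 + G + v.1)
  else if k = 2 then (if e then z.1 + G + v.1 else z.1 - G - 1 - v.1,
    if f then z.2 - v.2 else z.2 + v.2)
  else (if f then z.1 - 1 - v.2 else z.1 - 1 + v.2,
    if e then z.2 + G + v.1 else z.2 - G - 1 - v.1)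

theorem tipV_eq (z : ℤ × ℤ) (e : Bool) (G : ℤ) (f : Bool) (v : ℤ × ℤ) :
    tipV z 0 e G f v = (if e then z.1 - G - 1 - v.1 else z.1 + G + v.1,
      if f then z.2 - 1 - v.2 else z.2 - 1 + v.2) ∧
    tipV z 1 e G f v = (if f then z.1 - v.2 else z.1 + v.2,
      if e then z.2 - G - 1 - v.1 else z.2 + G + v.1) ∧
    tipV z 2 e G f v = (if e then z.1 + G + v.1 else z.1 - G - 1 - v.1,
      if f then z.2 - v.2 else z.2 + v.2) ∧
    tipV z 3 e G f v = (if f then z.1 - 1 - v.2 else z.1 - 1 + v.2,
      if e then z.2 + G + v.1 else z.2 - G - 1 - v.1) := ⟨rfl, rfl, rfl, rfl⟩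

theorem tipV_nm {z : ℤ × ℤ} {k : Fin 4} {e : Bool} {G R : ℤ} {f : Bool} {v : ℤ × ℤ}
    (hG : 0 ≤ G) (h : nm v + G + 1 ≤ R) : nm (tipV z k e G f v - z) ≤ R := by
  have h1 : nm v ≤ R - G - 1 := by omega
  rw [nm_le_iff] at h1 ⊢
  obtain ⟨h0, h1', h2, h3⟩ := tipV_eq z e G f v
  rcases fin4_cases k with rfl | rfl | rfl | rfl
  · rw [h0]
    cases e <;> cases f <;>
      simp only [if_true, if_false, Bool.false_eq_true, Prod.fst_sub, Prod.snd_sub] <;> omega
  · rw [h1']
    cases e <;> cases f <;>
      simp only [if_true, if_false, Bool.false_eq_true, Prod.fst_sub, Prod.snd_sub] <;> omega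
  · rw [h2]
    cases e <;> cases f <;>
      simp only [if_true, if_false, Bool.false_eq_true, Prod.fst_sub, Prod.snd_sub] <;> omega
  · rw [h3]
    cases e <;> cases f <;>
      simp only [if_true, if_false, Bool.false_eq_true, Prod.fst_sub, Prod.snd_sub] <;> omega

section srow

variable {θ : ℝ} {z₀ z : ℤ × ℤ} {k : Fin 4} {s e jp : ℕ} {F T : ℕ → ℝ} {G : ℤ} {f : Bool}
  {v : ℤ × ℤ}

/-- The killed end is the first end of the row. -/
theorem srowJ_isoT (hse : s ≤ e) (h : vz z₀ k s = vz z k G) :
    ((srowJ θ true z₀ k s e jp F T).iso f).V v = tipV z k false G f v := by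
  rw [Row.iso_V]
  obtain ⟨a0, a1, a2, a3⟩ := vz_eq z₀ (s : ℤ)
  obtain ⟨b0, b1, b2, b3⟩ := vz_eq z G
  obtain ⟨h0, h1', h2, h3⟩ := tipV_eq z false G f v
  rcases fin4_cases k with rfl | rfl | rfl | rfl
  · rw [a0, b0, Prod.ext_iff] at h
    rw [h0]
    simp only at h
    change (z₀.1 + (s : ℤ) + v.1, if f then z₀.2 - 1 - v.2 else z₀.2 - 1 + v.2) = _
    refine Prod.ext ?_ ?_
    · simp only [if_false, Bool.false_eq_true]; omega
    · cases f <;> simp only [if_true, if_false, Bool.false_eq_true] <;> omega
  · rw [a1, b1, Prod.ext_iff] at h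
    rw [h1']
    simp only at h
    change (if f then z₀.1 - v.2 else z₀.1 + v.2, z₀.2 + (s : ℤ) + v.1) = _
    refine Prod.ext ?_ ?_
    · cases f <;> simp only [if_true, if_false, Bool.false_eq_true] <;> omega
    · simp only [if_false, Bool.false_eq_true]; omega
  · rw [a2, b2, Prod.ext_iff] at h
    rw [h2]
    simp only at h
    change (z₀.1 - (e : ℤ) + ((e - s : ℕ) : ℤ) - 1 - v.1, if f then z₀.2 - v.2 else z₀.2 + v.2) = _
    refine Prod.ext ?_ ?_
    · simp only [if_false, Bool.false_eq_true]; omega
    · cases f <;> simp only [if_true, if_false, Bool.false_eq_true] <;> omega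
  · rw [a3, b3, Prod.ext_iff] at h
    rw [h3]
    simp only at h
    change (if f then z₀.1 - 1 - v.2 else z₀.1 - 1 + v.2,
      z₀.2 - (e : ℤ) + ((e - s : ℕ) : ℤ) - 1 - v.1) = _
    refine Prod.ext ?_ ?_
    · cases f <;> simp only [if_true, if_false, Bool.false_eq_true] <;> omega
    · simp only [if_false, Bool.false_eq_true]; omega

/-- The killed end is the last end of the row. -/
theorem srowJ_isoF (hse : s ≤ e) (h : vz z₀ k e = vz z k (-G)) :
    ((srowJ θ false z₀ k s e jp F T).iso f).V v = tipV z k true G f v := by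
  rw [Row.iso_V]
  obtain ⟨a0, a1, a2, a3⟩ := vz_eq z₀ (e : ℤ)
  obtain ⟨b0, b1, b2, b3⟩ := vz_eq z (-G)
  obtain ⟨h0, h1', h2, h3⟩ := tipV_eq z true G f v
  rcases fin4_cases k with rfl | rfl | rfl | rfl
  · rw [a0, b0, Prod.ext_iff] at h
    rw [h0]
    simp only at h
    change (z₀.1 + (s : ℤ) + ((e - s : ℕ) : ℤ) - 1 - v.1,
      if f then z₀.2 - 1 - v.2 else z₀.2 - 1 + v.2) = _
    refine Prod.ext ?_ ?_
    · simp only [if_true]; omega
    · cases f <;> simp only [if_true, if_false, Bool.false_eq_true] <;> omega
  · rw [a1, b1, Prod.ext_iff] at h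
    rw [h1']
    simp only at h
    change (if f then z₀.1 - v.2 else z₀.1 + v.2,
      z₀.2 + (s : ℤ) + ((e - s : ℕ) : ℤ) - 1 - v.1) = _
    refine Prod.ext ?_ ?_
    · cases f <;> simp only [if_true, if_false, Bool.false_eq_true] <;> omega
    · simp only [if_true]; omega
  · rw [a2, b2, Prod.ext_iff] at h
    rw [h2]
    simp only at h
    change (z₀.1 - (e : ℤ) + v.1, if f then z₀.2 - v.2 else z₀.2 + v.2) = _
    refine Prod.ext ?_ ?_
    · simp only [if_true]; omega
    · cases f <;> simp only [if_true, if_false, Bool.false_eq_true] <;> omega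
  · rw [a3, b3, Prod.ext_iff] at h
    rw [h3]
    simp only at h
    change (if f then z₀.1 - 1 - v.2 else z₀.1 - 1 + v.2, z₀.2 - (e : ℤ) + v.1) = _
    refine Prod.ext ?_ ?_
    · cases f <;> simp only [if_true, if_false, Bool.false_eq_true] <;> omega
    · simp only [if_true]; omega

end srow

/-! ### the marks -/

/-- A picture of the killed tip of `r` in the box `6 d` of the mark `z`. -/
def Pic (U J : Finset (ℤ × ℤ)) (r : Row) (z : ℤ × ℤ) (d ρ : ℤ) (t : TipD) : Prop :=
  t.Ok U r.I J r.zt d ρ ∧ ∀ v ∈ t.W d ρ, nm (v - z) ≤ 6 * d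

section mark

variable {U J : Finset (ℤ × ℤ)} {r : Row} {z : ℤ × ℤ} {k : Fin 4} {e f : Bool} {G a d ρ : ℤ}

/-- The picture of a corner hole in the coordinates of the mark. -/
theorem picC (hρ : 16 * ρ ≤ d) (hρ0 : 0 ≤ ρ) (hd : 16 ≤ d) (hL : 2 * ρ ≤ r.L) (ha : d - 2 ≤ a)
    (ha' : a ≤ d + 1) (hG : 0 ≤ G) (hG' : G ≤ d + 1)
    (hr : ∀ v, (r.iso f).V v = tipV z k e G f v)
    (hU : ∀ v : ℤ × ℤ, nm v ≤ 4 * d → nm (tipV z k e G f v - z) ≤ 6 * d → tipV z k e G f v ∈ U →
      (v.2 = 0 ∧ 0 ≤ v.1) ∨ v.1 ≤ -a - 1)
    (hJ : ∀ y, 2 * d - 1 ≤ y → y < 3 * d + 1 → tipV z k e G f (-a - 1, y) ∈ J) :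
    Pic U J r z d ρ ⟨r.iso f, false, a, d, r.hgt f⟩ := by
  refine ⟨okC hρ hρ0 hd hL ha ha' (fun v hv h => ?_) (fun y h1 h2 => ?_), fun v hv => ?_⟩
  · rw [hr] at h
    exact hU v hv (tipV_nm hG (by omega)) h
  · rw [hr]
    exact hJ y h1 h2
  · obtain ⟨u, rfl, hu⟩ := TipD.W_nm hρ hρ0 hd (by simp only; omega) (by simp only; omega)
      (by simp only; omega) (by simp only; omega) (r.hgt_or f) hv
    change nm ((r.iso f).V u - z) ≤ _
    rw [hr]
    exact tipV_nm hG (by omega)

/-- The picture of a flat hole in the coordinates of the mark. -/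
theorem picF (hρ : 16 * ρ ≤ d) (hρ0 : 0 ≤ ρ) (hd : 16 ≤ d) (hL : 2 * ρ ≤ r.L)
    (hG : 0 ≤ G) (hG' : G ≤ d + 1)
    (hr : ∀ v, (r.iso f).V v = tipV z k e G f v)
    (hU : ∀ v : ℤ × ℤ, nm v ≤ 4 * d → nm (tipV z k e G f v - z) ≤ 6 * d → tipV z k e G f v ∈ U →
      v.2 = 0 ∧ (0 ≤ v.1 ∨ v.1 < -d))
    (hJ : ∀ x, -3 * d - 5 ≤ x → x < -2 * d - 3 → tipV z k e G f (x, 0) ∈ J) :
    Pic U J r z d ρ ⟨r.iso f, true, d + 4, d, r.hgt f⟩ := by
  refine ⟨okF hρ hρ0 hd hL (fun v hv h => ?_) (fun y h1 h2 => ?_), fun v hv => ?_⟩
  · rw [hr] at h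
    exact hU v hv (tipV_nm hG (by omega)) h
  · rw [hr]
    exact hJ y h1 h2
  · obtain ⟨u, rfl, hu⟩ := TipD.W_nm hρ hρ0 hd (by simp only; omega) (by simp only; omega)
      (by simp only; omega) (by simp only; omega) (r.hgt_or f) hv
    change nm ((r.iso f).V u - z) ≤ _
    rw [hr]
    exact tipV_nm hG (by omega)

variable {ra rb : Fin 4} {gA gB : ℤ}

/-- **The killed tip behind the mark.** -/
theorem markA (hρ : 16 * ρ ≤ d) (hρ0 : 0 ≤ ρ) (hd : 16 ≤ d) (hL : 2 * ρ ≤ r.L)
    (hne : ra + 2 ≠ rb) (hA : d ≤ gA ∧ gA ≤ d + 1) (hB : d ≤ gB + 1 ∧ gB ≤ d)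
    (hr : ∀ f v, (r.iso f).V v = tipV z rb false gA f v)
    (hU : ∀ v ∈ U, nm (v - z) ≤ 6 * d →
      (∃ s, gA ≤ s ∧ v = oz z rb s) ∨ ∃ s, s < -gB ∧ v = oz z ra s)
    (hJ : ∀ s, -4 * d ≤ s → s < -gB → oz z ra s ∈ J) :
    ∃ t, Pic U J r z d ρ t := by
  have v0 := fun f v => (tipV_eq z false gA f v).1
  have v1 := fun f v => (tipV_eq z false gA f v).2.1
  have v2 := fun f v => (tipV_eq z false gA f v).2.2.1
  have v3 := fun f v => (tipV_eq z false gA f v).2.2.2
  have o0 := fun s => (oz_eq z s).1
  have o1 := fun s => (oz_eq z s).2.1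
  have o2 := fun s => (oz_eq z s).2.2.1
  have o3 := fun s => (oz_eq z s).2.2.2
  rcases fin4_cases ra with rfl | rfl | rfl | rfl
  · rcases fin4_cases rb with rfl | rfl | rfl | rfl
    · refine ⟨_, picF (f := false) hρ hρ0 hd hL (by omega) (by omega) (hr false)
        (fun v hv hn h => ?_) (fun x h1 h2 => ?_)⟩
      · rcases hU _ h hn with ⟨s, hs, h⟩ | ⟨s, hs, h⟩ <;>
          (rw [v0, o0, Prod.ext_iff] at h
           simp only [Bool.false_eq_true, if_false] at h
           omega)
      · have := hJ (gA + x) (by omega) (by omega)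
        rw [o0] at this
        rw [v0]
        convert this using 2 <;> simp only [Bool.false_eq_true, if_false] <;> omega
    · refine ⟨_, picC (f := true) (a := gA) hρ hρ0 hd hL (by omega) (by omega) (by omega)
        (by omega) (hr true) (fun v hv hn h => ?_) (fun y h1 h2 => ?_)⟩
      · rcases hU _ h hn with ⟨s, hs, h⟩ | ⟨s, hs, h⟩
        · rw [v1, o1, Prod.ext_iff] at h
          simp only [if_true, Bool.false_eq_true, if_false] at h
          omega
        · rw [v1, o0, Prod.ext_iff] at h
          simp only [if_true, Bool.false_eq_true, if_false] at h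
          omega
      · have := hJ (-y) (by omega) (by omega)
        rw [o0] at this
        rw [v1]
        convert this using 2 <;> simp only [if_true, Bool.false_eq_true, if_false] <;> omega
    · exact absurd rfl hne
    · refine ⟨_, picC (f := true) (a := gA - 1) hρ hρ0 hd hL (by omega) (by omega) (by omega)
        (by omega) (hr true) (fun v hv hn h => ?_) (fun y h1 h2 => ?_)⟩
      · rcases hU _ h hn with ⟨s, hs, h⟩ | ⟨s, hs, h⟩
        · rw [v3, o3, Prod.ext_iff] at h
          simp only [if_true, Bool.false_eq_true, if_false] at h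
          omega
        · rw [v3, o0, Prod.ext_iff] at h
          simp only [if_true, Bool.false_eq_true, if_false] at h
          omega
      · have := hJ (-1 - y) (by omega) (by omega)
        rw [o0] at this
        rw [v3]
        convert this using 2 <;> simp only [if_true, Bool.false_eq_true, if_false] <;> omega
  · rcases fin4_cases rb with rfl | rfl | rfl | rfl
    · refine ⟨_, picC (f := true) (a := gA - 1) hρ hρ0 hd hL (by omega) (by omega) (by omega)
        (by omega) (hr true) (fun v hv hn h => ?_) (fun y h1 h2 => ?_)⟩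
      · rcases hU _ h hn with ⟨s, hs, h⟩ | ⟨s, hs, h⟩
        · rw [v0, o0, Prod.ext_iff] at h
          simp only [if_true, Bool.false_eq_true, if_false] at h
          omega
        · rw [v0, o1, Prod.ext_iff] at h
          simp only [if_true, Bool.false_eq_true, if_false] at h
          omega
      · have := hJ (-1 - y) (by omega) (by omega)
        rw [o1] at this
        rw [v0]
        convert this using 2 <;> simp only [if_true, Bool.false_eq_true, if_false] <;> omega
    · refine ⟨_, picF (f := false) hρ hρ0 hd hL (by omega) (by omega) (hr false)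
        (fun v hv hn h => ?_) (fun x h1 h2 => ?_)⟩
      · rcases hU _ h hn with ⟨s, hs, h⟩ | ⟨s, hs, h⟩ <;>
          (rw [v1, o1, Prod.ext_iff] at h
           simp only [Bool.false_eq_true, if_false] at h
           omega)
      · have := hJ (gA + x) (by omega) (by omega)
        rw [o1] at this
        rw [v1]
        convert this using 2 <;> simp only [Bool.false_eq_true, if_false] <;> omega
    · refine ⟨_, picC (f := true) (a := gA) hρ hρ0 hd hL (by omega) (by omega) (by omega)
        (by omega) (hr true) (fun v hv hn h => ?_) (fun y h1 h2 => ?_)⟩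
      · rcases hU _ h hn with ⟨s, hs, h⟩ | ⟨s, hs, h⟩
        · rw [v2, o2, Prod.ext_iff] at h
          simp only [if_true, Bool.false_eq_true, if_false] at h
          omega
        · rw [v2, o1, Prod.ext_iff] at h
          simp only [if_true, Bool.false_eq_true, if_false] at h
          omega
      · have := hJ (-y) (by omega) (by omega)
        rw [o1] at this
        rw [v2]
        convert this using 2 <;> simp only [if_true, Bool.false_eq_true, if_false] <;> omega
    · exact absurd rfl hne
  · rcases fin4_cases rb with rfl | rfl | rfl | rfl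
    · exact absurd rfl hne
    · refine ⟨_, picC (f := false) (a := gA - 1) hρ hρ0 hd hL (by omega) (by omega) (by omega)
        (by omega) (hr false) (fun v hv hn h => ?_) (fun y h1 h2 => ?_)⟩
      · rcases hU _ h hn with ⟨s, hs, h⟩ | ⟨s, hs, h⟩
        · rw [v1, o1, Prod.ext_iff] at h
          simp only [if_true, Bool.false_eq_true, if_false] at h
          omega
        · rw [v1, o2, Prod.ext_iff] at h
          simp only [if_true, Bool.false_eq_true, if_false] at h
          omega
      · have := hJ (-1 - y) (by omega) (by omega)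
        rw [o2] at this
        rw [v1]
        convert this using 2 <;> simp only [if_true, Bool.false_eq_true, if_false] <;> omega
    · refine ⟨_, picF (f := false) hρ hρ0 hd hL (by omega) (by omega) (hr false)
        (fun v hv hn h => ?_) (fun x h1 h2 => ?_)⟩
      · rcases hU _ h hn with ⟨s, hs, h⟩ | ⟨s, hs, h⟩ <;>
          (rw [v2, o2, Prod.ext_iff] at h
           simp only [Bool.false_eq_true, if_false] at h
           omega)
      · have := hJ (gA + x) (by omega) (by omega)
        rw [o2] at this
        rw [v2]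
        convert this using 2 <;> simp only [Bool.false_eq_true, if_false] <;> omega
    · refine ⟨_, picC (f := false) (a := gA) hρ hρ0 hd hL (by omega) (by omega) (by omega)
        (by omega) (hr false) (fun v hv hn h => ?_) (fun y h1 h2 => ?_)⟩
      · rcases hU _ h hn with ⟨s, hs, h⟩ | ⟨s, hs, h⟩
        · rw [v3, o3, Prod.ext_iff] at h
          simp only [if_true, Bool.false_eq_true, if_false] at h
          omega
        · rw [v3, o2, Prod.ext_iff] at h
          simp only [if_true, Bool.false_eq_true, if_false] at h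
          omega
      · have := hJ (-y) (by omega) (by omega)
        rw [o2] at this
        rw [v3]
        convert this using 2 <;> simp only [if_true, Bool.false_eq_true, if_false] <;> omega
  · rcases fin4_cases rb with rfl | rfl | rfl | rfl
    · refine ⟨_, picC (f := false) (a := gA) hρ hρ0 hd hL (by omega) (by omega) (by omega)
        (by omega) (hr false) (fun v hv hn h => ?_) (fun y h1 h2 => ?_)⟩
      · rcases hU _ h hn with ⟨s, hs, h⟩ | ⟨s, hs, h⟩
        · rw [v0, o0, Prod.ext_iff] at h
          simp only [if_true, Bool.false_eq_true, if_false] at h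
          omega
        · rw [v0, o3, Prod.ext_iff] at h
          simp only [if_true, Bool.false_eq_true, if_false] at h
          omega
      · have := hJ (-y) (by omega) (by omega)
        rw [o3] at this
        rw [v0]
        convert this using 2 <;> simp only [if_true, Bool.false_eq_true, if_false] <;> omega
    · exact absurd rfl hne
    · refine ⟨_, picC (f := false) (a := gA - 1) hρ hρ0 hd hL (by omega) (by omega) (by omega)
        (by omega) (hr false) (fun v hv hn h => ?_) (fun y h1 h2 => ?_)⟩
      · rcases hU _ h hn with ⟨s, hs, h⟩ | ⟨s, hs, h⟩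
        · rw [v2, o2, Prod.ext_iff] at h
          simp only [if_true, Bool.false_eq_true, if_false] at h
          omega
        · rw [v2, o3, Prod.ext_iff] at h
          simp only [if_true, Bool.false_eq_true, if_false] at h
          omega
      · have := hJ (-1 - y) (by omega) (by omega)
        rw [o3] at this
        rw [v2]
        convert this using 2 <;> simp only [if_true, Bool.false_eq_true, if_false] <;> omega
    · refine ⟨_, picF (f := false) hρ hρ0 hd hL (by omega) (by omega) (hr false)
        (fun v hv hn h => ?_) (fun x h1 h2 => ?_)⟩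
      · rcases hU _ h hn with ⟨s, hs, h⟩ | ⟨s, hs, h⟩ <;>
          (rw [v3, o3, Prod.ext_iff] at h
           simp only [Bool.false_eq_true, if_false] at h
           omega)
      · have := hJ (gA + x) (by omega) (by omega)
        rw [o3] at this
        rw [v3]
        convert this using 2 <;> simp only [Bool.false_eq_true, if_false] <;> omega

/-- **The killed tip before the mark.** -/
theorem markB (hρ : 16 * ρ ≤ d) (hρ0 : 0 ≤ ρ) (hd : 16 ≤ d) (hL : 2 * ρ ≤ r.L)
    (hne : ra + 2 ≠ rb) (hA : d ≤ gA ∧ gA ≤ d + 1) (hB : d ≤ gB + 1 ∧ gB ≤ d)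
    (hr : ∀ f v, (r.iso f).V v = tipV z ra true gB f v)
    (hU : ∀ v ∈ U, nm (v - z) ≤ 6 * d →
      (∃ s, gA ≤ s ∧ v = oz z rb s) ∨ ∃ s, s < -gB ∧ v = oz z ra s)
    (hJ : ∀ s, s ≤ 4 * d → gA ≤ s → oz z rb s ∈ J) :
    ∃ t, Pic U J r z d ρ t := by
  have v0 := fun f v => (tipV_eq z true gB f v).1
  have v1 := fun f v => (tipV_eq z true gB f v).2.1
  have v2 := fun f v => (tipV_eq z true gB f v).2.2.1
  have v3 := fun f v => (tipV_eq z true gB f v).2.2.2
  have o0 := fun s => (oz_eq z s).1
  have o1 := fun s => (oz_eq z s).2.1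
  have o2 := fun s => (oz_eq z s).2.2.1
  have o3 := fun s => (oz_eq z s).2.2.2
  rcases fin4_cases ra with rfl | rfl | rfl | rfl
  · rcases fin4_cases rb with rfl | rfl | rfl | rfl
    · refine ⟨_, picF (f := false) hρ hρ0 hd hL (by omega) (by omega) (hr false)
        (fun v hv hn h => ?_) (fun x h1 h2 => ?_)⟩
      · rcases hU _ h hn with ⟨s, hs, h⟩ | ⟨s, hs, h⟩ <;>
          (rw [v0, o0, Prod.ext_iff] at h
           simp only [if_true, Bool.false_eq_true, if_false] at h
           omega)
      · have := hJ (-gB - 1 - x) (by omega) (by omega)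
        rw [o0] at this
        rw [v0]
        convert this using 2 <;> simp only [if_true, Bool.false_eq_true, if_false] <;> omega
    · refine ⟨_, picC (f := false) (a := gB) hρ hρ0 hd hL (by omega) (by omega) (by omega)
        (by omega) (hr false) (fun v hv hn h => ?_) (fun y h1 h2 => ?_)⟩
      · rcases hU _ h hn with ⟨s, hs, h⟩ | ⟨s, hs, h⟩
        · rw [v0, o1, Prod.ext_iff] at h
          simp only [if_true, Bool.false_eq_true, if_false] at h
          omega
        · rw [v0, o0, Prod.ext_iff] at h
          simp only [if_true, Bool.false_eq_true, if_false] at h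
          omega
      · have := hJ (y - 1) (by omega) (by omega)
        rw [o1] at this
        rw [v0]
        convert this using 2 <;> simp only [if_true, Bool.false_eq_true, if_false] <;> omega
    · exact absurd rfl hne
    · refine ⟨_, picC (f := true) (a := gB - 1) hρ hρ0 hd hL (by omega) (by omega) (by omega)
        (by omega) (hr true) (fun v hv hn h => ?_) (fun y h1 h2 => ?_)⟩
      · rcases hU _ h hn with ⟨s, hs, h⟩ | ⟨s, hs, h⟩
        · rw [v0, o3, Prod.ext_iff] at h
          simp only [if_true, Bool.false_eq_true, if_false] at h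
          omega
        · rw [v0, o0, Prod.ext_iff] at h
          simp only [if_true, Bool.false_eq_true, if_false] at h
          omega
      · have := hJ (y) (by omega) (by omega)
        rw [o3] at this
        rw [v0]
        convert this using 2 <;> simp only [if_true, Bool.false_eq_true, if_false] <;> omega
  · rcases fin4_cases rb with rfl | rfl | rfl | rfl
    · refine ⟨_, picC (f := false) (a := gB - 1) hρ hρ0 hd hL (by omega) (by omega) (by omega)
        (by omega) (hr false) (fun v hv hn h => ?_) (fun y h1 h2 => ?_)⟩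
      · rcases hU _ h hn with ⟨s, hs, h⟩ | ⟨s, hs, h⟩
        · rw [v1, o0, Prod.ext_iff] at h
          simp only [if_true, Bool.false_eq_true, if_false] at h
          omega
        · rw [v1, o1, Prod.ext_iff] at h
          simp only [if_true, Bool.false_eq_true, if_false] at h
          omega
      · have := hJ (y) (by omega) (by omega)
        rw [o0] at this
        rw [v1]
        convert this using 2 <;> simp only [if_true, Bool.false_eq_true, if_false] <;> omega
    · refine ⟨_, picF (f := false) hρ hρ0 hd hL (by omega) (by omega) (hr false)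
        (fun v hv hn h => ?_) (fun x h1 h2 => ?_)⟩
      · rcases hU _ h hn with ⟨s, hs, h⟩ | ⟨s, hs, h⟩ <;>
          (rw [v1, o1, Prod.ext_iff] at h
           simp only [if_true, Bool.false_eq_true, if_false] at h
           omega)
      · have := hJ (-gB - 1 - x) (by omega) (by omega)
        rw [o1] at this
        rw [v1]
        convert this using 2 <;> simp only [if_true, Bool.false_eq_true, if_false] <;> omega
    · refine ⟨_, picC (f := true) (a := gB) hρ hρ0 hd hL (by omega) (by omega) (by omega)
        (by omega) (hr true) (fun v hv hn h => ?_) (fun y h1 h2 => ?_)⟩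
      · rcases hU _ h hn with ⟨s, hs, h⟩ | ⟨s, hs, h⟩
        · rw [v1, o2, Prod.ext_iff] at h
          simp only [if_true, Bool.false_eq_true, if_false] at h
          omega
        · rw [v1, o1, Prod.ext_iff] at h
          simp only [if_true, Bool.false_eq_true, if_false] at h
          omega
      · have := hJ (y - 1) (by omega) (by omega)
        rw [o2] at this
        rw [v1]
        convert this using 2 <;> simp only [if_true, Bool.false_eq_true, if_false] <;> omega
    · exact absurd rfl hne
  · rcases fin4_cases rb with rfl | rfl | rfl | rfl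
    · exact absurd rfl hne
    · refine ⟨_, picC (f := false) (a := gB - 1) hρ hρ0 hd hL (by omega) (by omega) (by omega)
        (by omega) (hr false) (fun v hv hn h => ?_) (fun y h1 h2 => ?_)⟩
      · rcases hU _ h hn with ⟨s, hs, h⟩ | ⟨s, hs, h⟩
        · rw [v2, o1, Prod.ext_iff] at h
          simp only [if_true, Bool.false_eq_true, if_false] at h
          omega
        · rw [v2, o2, Prod.ext_iff] at h
          simp only [if_true, Bool.false_eq_true, if_false] at h
          omega
      · have := hJ (y) (by omega) (by omega)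
        rw [o1] at this
        rw [v2]
        convert this using 2 <;> simp only [if_true, Bool.false_eq_true, if_false] <;> omega
    · refine ⟨_, picF (f := false) hρ hρ0 hd hL (by omega) (by omega) (hr false)
        (fun v hv hn h => ?_) (fun x h1 h2 => ?_)⟩
      · rcases hU _ h hn with ⟨s, hs, h⟩ | ⟨s, hs, h⟩ <;>
          (rw [v2, o2, Prod.ext_iff] at h
           simp only [if_true, Bool.false_eq_true, if_false] at h
           omega)
      · have := hJ (-gB - 1 - x) (by omega) (by omega)
        rw [o2] at this
        rw [v2]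
        convert this using 2 <;> simp only [if_true, Bool.false_eq_true, if_false] <;> omega
    · refine ⟨_, picC (f := true) (a := gB) hρ hρ0 hd hL (by omega) (by omega) (by omega)
        (by omega) (hr true) (fun v hv hn h => ?_) (fun y h1 h2 => ?_)⟩
      · rcases hU _ h hn with ⟨s, hs, h⟩ | ⟨s, hs, h⟩
        · rw [v2, o3, Prod.ext_iff] at h
          simp only [if_true, Bool.false_eq_true, if_false] at h
          omega
        · rw [v2, o2, Prod.ext_iff] at h
          simp only [if_true, Bool.false_eq_true, if_false] at h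
          omega
      · have := hJ (y - 1) (by omega) (by omega)
        rw [o3] at this
        rw [v2]
        convert this using 2 <;> simp only [if_true, Bool.false_eq_true, if_false] <;> omega
  · rcases fin4_cases rb with rfl | rfl | rfl | rfl
    · refine ⟨_, picC (f := false) (a := gB) hρ hρ0 hd hL (by omega) (by omega) (by omega)
        (by omega) (hr false) (fun v hv hn h => ?_) (fun y h1 h2 => ?_)⟩
      · rcases hU _ h hn with ⟨s, hs, h⟩ | ⟨s, hs, h⟩
        · rw [v3, o0, Prod.ext_iff] at h
          simp only [if_true, Bool.false_eq_true, if_false] at h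
          omega
        · rw [v3, o3, Prod.ext_iff] at h
          simp only [if_true, Bool.false_eq_true, if_false] at h
          omega
      · have := hJ (y - 1) (by omega) (by omega)
        rw [o0] at this
        rw [v3]
        convert this using 2 <;> simp only [if_true, Bool.false_eq_true, if_false] <;> omega
    · exact absurd rfl hne
    · refine ⟨_, picC (f := true) (a := gB - 1) hρ hρ0 hd hL (by omega) (by omega) (by omega)
        (by omega) (hr true) (fun v hv hn h => ?_) (fun y h1 h2 => ?_)⟩
      · rcases hU _ h hn with ⟨s, hs, h⟩ | ⟨s, hs, h⟩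
        · rw [v3, o2, Prod.ext_iff] at h
          simp only [if_true, Bool.false_eq_true, if_false] at h
          omega
        · rw [v3, o3, Prod.ext_iff] at h
          simp only [if_true, Bool.false_eq_true, if_false] at h
          omega
      · have := hJ (y) (by omega) (by omega)
        rw [o2] at this
        rw [v3]
        convert this using 2 <;> simp only [if_true, Bool.false_eq_true, if_false] <;> omega
    · refine ⟨_, picF (f := false) hρ hρ0 hd hL (by omega) (by omega) (hr false)
        (fun v hv hn h => ?_) (fun x h1 h2 => ?_)⟩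
      · rcases hU _ h hn with ⟨s, hs, h⟩ | ⟨s, hs, h⟩ <;>
          (rw [v3, o3, Prod.ext_iff] at h
           simp only [if_true, Bool.false_eq_true, if_false] at h
           omega)
      · have := hJ (-gB - 1 - x) (by omega) (by omega)
        rw [o3] at this
        rw [v3]
        convert this using 2 <;> simp only [if_true, Bool.false_eq_true, if_false] <;> omega

end mark

end Vale.Agent.P167.N.ID
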