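import Vale.Agent.P167.N.ID.PicsB
import Vale.Agent.P167.N.ID.GeoP

/-!
# P167, `q < 1`, START (P2T), geometry of the pictures of the killed tips: the marks of a polygon

`pic_aft`, `pic_bef`: the pictures of the killed tips of the rows behind and before a mark.
-/

set_option autoImplicit false

namespace Vale.Agent.P167.N.ID

open Finset

open Vale.Agent.P167.H262 (Rsq mem_Rsq)
open Vale.Agent.P167.E6 (IsPolygon Encloses dir face)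
open Vale.Agent.P167.H825 (pdir Marks)
open Vale.Agent.P167.H825.Q (Bc)
open Vale.Agent.P167.H199 (Gap)
open Vale.Agent.P167.H662 (hsite)
open Vale.Agent.P167.Enl (sW eW mem_rowP vp oz vz vz_eq oz_eq fin4_cases frmQ mem_frmQ
  iB jB pA pB gA gB iB_lt jB_le vp_pA vp_pB row_pos rows_long frm_box op_near nm_tri nm_sub_comm
  rows_marks gn_big)

variable {l : ℕ} {p : ZMod l → ℤ × ℤ} {n t : ℕ} {S₀ : Finset (ℤ × ℤ)} {Q : Marks} {bc : Bc}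
  {θ β C c : ℝ} {Js : ℕ → Bool} {U : Finset (ℤ × ℤ)}

theorem vz_vz (z : ℤ × ℤ) (r : Fin 4) (q s : ℤ) : vz (vz z r q) r s = vz z r (q + s) := by
  unfold vz
  rw [add_assoc, ← add_smul]

section poly

variable (hp : IsPolygon p) (hD : Encloses p S₀) (hQ : Q.Ok) {g δ : ℝ} (hg : Gap Q l g)
  (hδ : 0 < δ) (hδg : 64 * δ ≤ g) (hn : 16 ≤ δ * n) (x : Fin l × Fin (Q.m + 1))

theorem six_d {n : ℕ} {g δ : ℝ} (hδg : 64 * δ ≤ g) (hn : 16 ≤ δ * n) : ((2 * (6 * ⌊δ * n⌋₊ + 1 : ℤ) : ℤ) : ℝ) + 8 < g * n := by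
  have hn0 : (0 : ℝ) ≤ n := Nat.cast_nonneg n
  have h1 : (⌊δ * n⌋₊ : ℝ) ≤ δ * n := Nat.floor_le (by positivity)
  have h2 : 64 * δ * n ≤ g * n := mul_le_mul_of_nonneg_right hδg hn0
  push_cast
  linarith

include hp hQ hg hδ hδg hn in
/-- The frozen squares near a mark. -/
theorem rays_near {v : ℤ × ℤ} (hv : v ∈ frmQ p Q n ⌊δ * n⌋₊)
    (h : nm (v - hsite p Q n x) ≤ 6 * ⌊δ * n⌋₊) :
    (∃ s : ℤ, (gA p n Q ⌊δ * n⌋₊ x : ℤ) ≤ s ∧ v = oz (hsite p Q n x) (pdir p x.1) s) ∨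
      ∃ s : ℤ, s < -(gB p n Q ⌊δ * n⌋₊ x : ℤ) ∧
        v = oz (hsite p Q n x) (pdir p (iB l x)) s := by
  have h6 := six_d hδg hn
  have hδg4 : 4 * δ ≤ g := by linarith
  obtain ⟨y, σ, h1, h2, rfl⟩ := mem_frmQ.1 hv
  obtain ⟨⟨p1, p2, p3⟩, ⟨p4, p5, p6⟩⟩ := row_pos (p := p) hQ hg hδ hδg4 hn x
  have h3 : nm (vp p n y.1 σ - hsite p Q n x) ≤ 6 * ⌊δ * n⌋₊ + 1 := by
    have a2 := op_near (p := p) (n := n) y.1 σ
    have a3 := nm_tri (vp p n y.1 σ) (Enl.op p n y.1 σ) (hsite p Q n x)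
    rw [nm_sub_comm (vp p n y.1 σ) (Enl.op p n y.1 σ)] at a3
    omega
  rcases frm_box (m := 6 * ⌊δ * n⌋₊ + 1) hp hQ hg hδ hδg4 hn
    (by push_cast at h6 ⊢; linarith) h1 h2 h3 with ⟨rfl, h4, h5⟩ | ⟨h4, h5, h6, h7⟩
  · left
    refine ⟨(σ : ℤ) - pA n Q y, by omega, ?_⟩
    rw [← op_after, add_sub_cancel]
  · right
    refine ⟨(σ : ℤ) - pB n Q x, by omega, ?_⟩
    rw [← op_before hp hQ, add_sub_cancel, h4]

include hQ hg hδ hδg hn in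
theorem rows_six : sW p n Q ⌊δ * n⌋₊ (iB l x) (jB x) + 6 * ⌊δ * n⌋₊ + 2 ≤ pB n Q x ∧
    pA n Q x + 6 * ⌊δ * n⌋₊ + 2 ≤ eW p n Q ⌊δ * n⌋₊ x.1 x.2 := by
  have h6 := six_d hδg hn
  exact rows_long (p := p) hQ hg hδ (by linarith) hn (R := 6 * ⌊δ * n⌋₊)
    (by push_cast at h6 ⊢; linarith) x

include hQ hg hδ hδg hn in
/-- The squares of the row behind a mark. -/
theorem row_aft {s : ℤ} (h1 : (gA p n Q ⌊δ * n⌋₊ x : ℤ) ≤ s) (h2 : s ≤ 6 * ⌊δ * n⌋₊) :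
    oz (hsite p Q n x) (pdir p x.1) s ∈
      Enl.rowP p n x.1 (sW p n Q ⌊δ * n⌋₊ x.1 x.2) (eW p n Q ⌊δ * n⌋₊ x.1 x.2) := by
  obtain ⟨⟨p1, p2, p3⟩, ⟨p4, p5, p6⟩⟩ := row_pos (p := p) hQ hg hδ (by linarith) hn x
  obtain ⟨q1, q2⟩ := rows_six (p := p) hQ hg hδ hδg hn x
  rw [← op_after]
  refine mem_rowP.2 ⟨pA n Q x + s.toNat, by omega, by omega, ?_⟩
  congr 1
  push_cast
  omega

include hp hQ hg hδ hδg hn in
/-- The squares of the row before a mark. -/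
theorem row_bef {s : ℤ} (h1 : s < -(gB p n Q ⌊δ * n⌋₊ x : ℤ)) (h2 : -(6 * ⌊δ * n⌋₊) ≤ s) :
    oz (hsite p Q n x) (pdir p (iB l x)) s ∈
      Enl.rowP p n (iB l x) (sW p n Q ⌊δ * n⌋₊ (iB l x) (jB x))
        (eW p n Q ⌊δ * n⌋₊ (iB l x) (jB x)) := by
  obtain ⟨⟨p1, p2, p3⟩, ⟨p4, p5, p6⟩⟩ := row_pos (p := p) hQ hg hδ (by linarith) hn x
  obtain ⟨q1, q2⟩ := rows_six (p := p) hQ hg hδ hδg hn x
  rw [← op_before hp hQ]
  refine mem_rowP.2 ⟨((pB n Q x : ℤ) + s).toNat, ?_, ?_, ?_⟩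
  · omega
  · omega
  · congr 1
    omega

variable {ρ : ℤ} (hρ : 16 * ρ ≤ ⌊δ * n⌋₊) (hρ0 : 0 ≤ ρ)

include hp hD hQ hg hδ hδg hn hρ hρ0 in
/-- **The killed tip behind a mark of a polygon.** -/
theorem pic_aft (hJ : Js x.1 = true)
    (hU : ∀ v ∈ U, nm (v - hsite p Q n x) ≤ 6 * ⌊δ * n⌋₊ → v ∈ frmQ p Q n ⌊δ * n⌋₊) :
    ∃ t', Pic U (frowJ θ β p Q n ⌊δ * n⌋₊ t bc Js C c (iB l x) (jB x)).I
      (frowJ θ β p Q n ⌊δ * n⌋₊ t bc Js C c x.1 x.2) (hsite p Q n x) ⌊δ * n⌋₊ ρ t' := by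
  have hδg4 : 4 * δ ≤ g := by linarith
  obtain ⟨⟨p1, p2, p3⟩, ⟨p4, p5, p6⟩⟩ := row_pos (p := p) hQ hg hδ hδg4 hn x
  obtain ⟨q1, q2⟩ := rows_six (p := p) hQ hg hδ hδg hn x
  have hd : 16 ≤ ⌊δ * n⌋₊ := Nat.le_floor (by push_cast; linarith)
  refine markA (ra := pdir p (iB l x)) (rb := pdir p x.1) (gA := gA p n Q ⌊δ * n⌋₊ x)
    (gB := gB p n Q ⌊δ * n⌋₊ x) hρ hρ0 (by exact_mod_cast hd) ?_
    (no_back hp hD hQ hg hδg4 hn x) ⟨by omega, by omega⟩ ⟨by omega, by omega⟩ ?_ ?_ ?_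
  · rw [frowJ_L]
    omega
  · intro f v
    unfold frowJ
    rw [hJ]
    refine srowJ_isoT (by omega) ?_
    rw [← vp_pA]
    unfold vp
    rw [vz_vz, ← p4]
    congr 1
    push_cast
    ring
  · intro v hv h
    exact rays_near hp hQ hg hδ hδg hn x (hU v hv h) h
  · intro s h1 h2
    rw [frowJ_I, shp_I]
    exact row_bef hp hQ hg hδ hδg hn x h2 (by omega)

include hp hD hQ hg hδ hδg hn hρ hρ0 in
/-- **The killed tip before a mark of a polygon.** -/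
theorem pic_bef (hJ : Js (iB l x) = false)
    (hU : ∀ v ∈ U, nm (v - hsite p Q n x) ≤ 6 * ⌊δ * n⌋₊ → v ∈ frmQ p Q n ⌊δ * n⌋₊) :
    ∃ t', Pic U (frowJ θ β p Q n ⌊δ * n⌋₊ t bc Js C c x.1 x.2).I
      (frowJ θ β p Q n ⌊δ * n⌋₊ t bc Js C c (iB l x) (jB x)) (hsite p Q n x) ⌊δ * n⌋₊ ρ t' := by
  have hδg4 : 4 * δ ≤ g := by linarith
  obtain ⟨⟨p1, p2, p3⟩, ⟨p4, p5, p6⟩⟩ := row_pos (p := p) hQ hg hδ hδg4 hn x
  obtain ⟨q1, q2⟩ := rows_six (p := p) hQ hg hδ hδg hn x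
  have hd : 16 ≤ ⌊δ * n⌋₊ := Nat.le_floor (by push_cast; linarith)
  refine markB (ra := pdir p (iB l x)) (rb := pdir p x.1) (gA := gA p n Q ⌊δ * n⌋₊ x)
    (gB := gB p n Q ⌊δ * n⌋₊ x) hρ hρ0 (by exact_mod_cast hd) ?_
    (no_back hp hD hQ hg hδg4 hn x) ⟨by omega, by omega⟩ ⟨by omega, by omega⟩ ?_ ?_ ?_
  · rw [frowJ_L]
    omega
  · intro f v
    unfold frowJ
    rw [hJ]
    refine srowJ_isoF (by omega) ?_
    rw [← vp_pB hp hQ]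
    unfold vp
    rw [vz_vz, ← p1]
    congr 1
    push_cast
    ring
  · intro v hv h
    exact rays_near hp hQ hg hδ hδg hn x (hU v hv h) h
  · intro s h1 h2
    rw [frowJ_I, shp_I]
    exact row_aft hQ hg hδ hδg hn x h2 (by omega)

end poly

end Vale.Agent.P167.N.ID
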