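import Vale.Agent.P167.N.ID.PicsP
import Vale.Agent.P167.N.ID.GeoSG

/-!
# P167, `q < 1`, START (P2T): the pictures of the killed tips of the Dobrushin frames, the rows

* `nxK`: the mark behind a row; `hkD`: the hole of the killed tip; `JD_T`: only the hole `T` has two
  killed tips.
* `DobN.uP`, `uT`, `uQ`, `uF`: the frozen squares near the holes.
* `DobN.row_foot`: near the foot the row of the box is not cut.
-/

set_option autoImplicit false

namespace Vale.Agent.P167.N.ID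

open Finset Filter Topology

open Vale.Agent.P167.E6 (IsPolygon Encloses dir face)
open Vale.Agent.P167.H825 (pdir Marks Box)
open Vale.Agent.P167.H825.Q (Bc)
open Vale.Agent.P167.H199 (Gap mks mks_ok Gen exists_Gap c0)
open Vale.Agent.P167.H662 (hsite)
open Vale.Agent.P167.H680.T (uI mem_uI)
open Vale.Agent.P167.Enl (sW eW mem_rowP vp oz vz vz_eq oz_eq frmQ mem_frmQ iB jB iB_lt jB_le nm_tri
  nm_sub_comm hsite_far gn_big BGap gA gB gap_step rows_marks row_pos)

variable {l : ℕ} {p : ZMod l → ℤ × ℤ} {n : ℕ} {S₀ : Finset (ℤ × ℤ)} {θ β : ℝ} {b : Box}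
  {tp : ℝ} {g δ : ℝ} {ia : ℕ} {ta : ℝ}

/-! ### the index of the hole -/

/-- The mark behind a row. -/
def nxK (hl : 0 < l) (y : Fin l × Fin 3) : Fin l × Fin 3 :=
  if h : (y.2 : ℕ) = 2 then (if h2 : (y.1 : ℕ) + 1 < l then (⟨y.1 + 1, h2⟩, 0) else (⟨0, hl⟩, 0))
  else (y.1, ⟨y.2 + 1, by have := y.2.2; omega⟩)

theorem nxK_iB (hl : 0 < l) (y : Fin l × Fin 3) : iB l (nxK hl y) = y.1 ∧ jB (nxK hl y) = y.2 := by
  have h1 := y.1.2
  have h2 := y.2.2
  by_cases h : (y.2 : ℕ) = 2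
  · by_cases h' : (y.1 : ℕ) + 1 < l
    · have e : nxK hl y = (⟨y.1 + 1, h'⟩, 0) := by
        unfold nxK
        rw [dif_pos h, dif_pos h']
      rw [e]
      constructor
      · change (if (0 : ℕ) = 0 then (if (y.1 : ℕ) + 1 = 0 then l - 1 else (y.1 : ℕ) + 1 - 1)
          else (y.1 : ℕ) + 1) = y.1
        rw [if_pos rfl, if_neg (by omega)]
        omega
      · change (if (0 : ℕ) = 0 then 2 else 0 - 1) = (y.2 : ℕ)
        rw [if_pos rfl]
        omega
    · have e : nxK hl y = (⟨0, hl⟩, 0) := by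
        unfold nxK
        rw [dif_pos h, dif_neg h']
      rw [e]
      constructor
      · change (if (0 : ℕ) = 0 then (if (0 : ℕ) = 0 then l - 1 else 0 - 1) else 0) = (y.1 : ℕ)
        rw [if_pos rfl, if_pos rfl]
        omega
      · change (if (0 : ℕ) = 0 then 2 else 0 - 1) = (y.2 : ℕ)
        rw [if_pos rfl]
        omega
  · have e : nxK hl y = (y.1, ⟨y.2 + 1, by omega⟩) := by
      unfold nxK
      rw [dif_neg h]
    rw [e]
    constructor
    · change (if (y.2 : ℕ) + 1 = 0 then (if (y.1 : ℕ) = 0 then l - 1 else (y.1 : ℕ) - 1)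
        else (y.1 : ℕ)) = y.1
      rw [if_neg (by omega)]
    · change (if (y.2 : ℕ) + 1 = 0 then 2 else (y.2 : ℕ) + 1 - 1) = (y.2 : ℕ)
      rw [if_neg (by omega)]
      omega

/-- The mark behind a row determines the row. -/
theorem nxK_inj (hl : 0 < l) {y y' : Fin l × Fin 3} (h : nxK hl y = nxK hl y') : y = y' := by
  obtain ⟨a1, a2⟩ := nxK_iB hl y
  obtain ⟨b1, b2⟩ := nxK_iB hl y'
  rw [h] at a1 a2
  exact Prod.ext (Fin.ext (a1.symm.trans b1)) (Fin.ext (a2.symm.trans b2))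

theorem JD_iff (i : ℕ) : JD p ia i = true ↔ ((1 ≤ iT p ∧ iT p ≤ ia) ∧ iT p ≤ i) ∨
    (¬ (1 ≤ iT p ∧ iT p ≤ ia) ∧ iT p = 0 ∧ i = 0) ∨
    (¬ (1 ≤ iT p ∧ iT p ≤ ia) ∧ iT p ≠ 0 ∧ (iT p ≤ i ∨ i = 0)) := by
  change _ ↔ (clT p ia ∧ iT p ≤ i) ∨ (¬ clT p ia ∧ iT p = 0 ∧ i = 0) ∨
    (¬ clT p ia ∧ iT p ≠ 0 ∧ (iT p ≤ i ∨ i = 0))
  unfold JD
  by_cases h : clT p ia
  · rw [if_pos h]
    simp [h]
  · rw [if_neg h]
    by_cases h0 : iT p = 0
    · rw [if_pos h0]
      simp [h, h0]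
    · rw [if_neg h0]
      simp [h, h0]

/-- Only the hole `T` has two killed tips. -/
theorem JD_T (hp : IsPolygon p) {Q : Marks} {y : Fin l × Fin (Q.m + 1)} (h1 : JD p ia y.1 = true)
    (h2 : JD p ia (iB l y) = false) : y = xT hp Q := by
  have hiT := (lowV_iT hp).lt
  have hy1 := y.1.2
  have hne : iB l y ≠ y.1 := by
    intro h
    rw [h, h1] at h2
    exact Bool.noConfusion h2
  have hy2 : (y.2 : ℕ) = 0 := by
    by_contra hc
    apply hne
    unfold iB
    rw [if_neg hc]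
  have h3 : (y.1 : ℕ) = iT p := by
    unfold iB at h2
    rw [if_pos hy2] at h2
    rw [JD_iff] at h1
    rw [← Bool.not_eq_true, JD_iff] at h2
    split_ifs at h2 <;> omega
  exact Prod.ext (Fin.ext h3) (Fin.ext hy2)

/-- The signs at `T`. -/
theorem JD_xT (hp : IsPolygon p) (hia : 0 < ia) {Q : Marks} :
    JD p ia (iT p) = true ∧ JD p ia (iB l (xT hp Q)) = false := by
  have hiT := (lowV_iT hp).lt
  have hl := hp.1
  rw [iB_xT hp Q]
  rw [← Bool.not_eq_true, JD_iff, JD_iff]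
  constructor
  · omega
  · split_ifs <;> omega

/-- The hole of the killed tip of a row. -/
noncomputable def hkD (p : ZMod l → ℤ × ℤ) (ia : ℕ) (hl : 0 < l) : IxD l → HxD l
  | .inl y => .inl (if JD p ia y.1 = true then y else nxK hl y)
  | .inr (.inl y) => .inr (.inl y)
  | .inr (.inr _) => .inr (.inr ())

/-- **Two rows with killed tips at the same hole**: the rows at `T`. -/
theorem hkD_inj (hl : 0 < l) {i j : IxD l}
    (hij : i ≠ j) (h : hkD p ia hl i = hkD p ia hl j) :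
    ∃ y y' : Fin l × Fin 3, ((i = .inl y ∧ j = .inl y') ∨ (i = .inl y' ∧ j = .inl y)) ∧
      JD p ia y.1 = true ∧ JD p ia y'.1 = false ∧ nxK hl y' = y := by
  rcases i with y | y | y <;> rcases j with y' | y' | y'
  · have h' : (if JD p ia y.1 = true then y else nxK hl y) =
        if JD p ia y'.1 = true then y' else nxK hl y' := Sum.inl.inj h
    split_ifs at h' with h1 h2 h2
    · exact absurd (by rw [h']) hij
    · exact ⟨y, y', Or.inl ⟨rfl, rfl⟩, h1, by simpa using h2, h'.symm⟩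
    · exact ⟨y', y, Or.inr ⟨rfl, rfl⟩, h2, by simpa using h1, h'⟩
    · exact absurd (by rw [nxK_inj hl h']) hij
  all_goals first
    | (exfalso; exact Sum.inl_ne_inr h)
    | (exfalso; exact Sum.inr_ne_inl h)
    | skip
  · have h' := Sum.inl.inj (Sum.inr.inj h)
    exact absurd (by rw [h']) hij
  · exact absurd (Sum.inr.inj h) Sum.inl_ne_inr
  · exact absurd (Sum.inr.inj h) Sum.inr_ne_inl
  · exact absurd rfl hij

end Vale.Agent.P167.N.ID
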