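import Vale.Agent.P167.N.ID.PicsD

/-!
# P167, `q < 1`, START (P2T): the Dobrushin frames near the holes

* `DobN.uP`, `uT`, `uQ`, `uF`: the frozen squares near the holes.
* `DobN.row_foot`: near the foot the row of the box is not cut.
-/

set_option autoImplicit false

namespace Vale.Agent.P167.N.ID

open Finset Filter Topology

open Vale.Agent.P167.E6 (IsPolygon Encloses dir face)
open Vale.Agent.P167.H825 (pdir Marks Box)
open Vale.Agent.P167.H825.Q (Bc)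
open Vale.Agent.P167.H199 (Gap mks mks_ok Gen exists_Gap c0)
open Vale.Agent.P167.H662 (hsite)
open Vale.Agent.P167.H680.T (uI mem_uI)
open Vale.Agent.P167.Enl (sW eW mem_rowP vp oz vz vz_eq oz_eq frmQ mem_frmQ iB jB iB_lt jB_le nm_tri
  nm_sub_comm hsite_far gn_big BGap gA gB gap_step rows_marks row_pos)

variable {l : ℕ} {p : ZMod l → ℤ × ℤ} {n : ℕ} {S₀ : Finset (ℤ × ℤ)} {θ β : ℝ} {b : Box}
  {tp : ℝ} {g δ : ℝ} {ia : ℕ} {ta : ℝ}

namespace DobN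

/-- The scales. -/
theorem big (H : DobN p S₀ b tp g δ n) (hδg : 512 * δ ≤ g) :
    16 ≤ (⌊δ * n⌋₊ : ℤ) ∧ 512 * (⌊δ * n⌋₊ : ℤ) ≤ n ∧ (512 * ⌊δ * n⌋₊ : ℝ) ≤ g * n := by
  obtain ⟨b1, b3, b5, b6, b7⟩ := H.basic
  obtain ⟨d1, d2, d3⟩ := dfl H.hn
  have hn0 : (0 : ℝ) ≤ n := Nat.cast_nonneg n
  have h1 : 512 * δ * n ≤ g * n := mul_le_mul_of_nonneg_right hδg hn0
  have h2 : g * n ≤ 1 * n := mul_le_mul_of_nonneg_right b3 hn0
  refine ⟨by exact_mod_cast d1, ?_, by linarith⟩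
  have : (512 : ℝ) * ⌊δ * n⌋₊ ≤ n := by linarith
  exact_mod_cast this

theorem hδ64 (hδ : 0 < δ) (hδg : 512 * δ ≤ g) : 64 * δ ≤ g := by linarith

/-- The frozen squares near a mark of the polygon. -/
theorem uP (H : DobN p S₀ b tp g δ n) (hδg : 512 * δ ≤ g) {x : Fin l × Fin 3} {v : ℤ × ℤ}
    (hv : v ∈ uI (shD p b tp n ⌊δ * n⌋₊))
    (h : nm (v - hsite p (mks p b tp) n x) ≤ 6 * ⌊δ * n⌋₊) :
    v ∈ frmQ p (mks p b tp) n ⌊δ * n⌋₊ ∨ (v ∈ (spk p n ⌊δ * n⌋₊).I ∧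
      x = xT H.hp (mks p b tp)) := by
  obtain ⟨b1, b3, b5, b6, b7⟩ := H.basic
  obtain ⟨e1, e2, e3⟩ := H.big hδg
  have hx1 := H.hsP x
  rw [nm_le_iff] at h
  simp only [Prod.fst_sub, Prod.snd_sub] at h
  rcases mem_shD.1 hv with hv | hv | hv
  · exact Or.inl hv
  · exfalso
    obtain ⟨y, hy⟩ := frmQ_row (tp := tp) hv
    have h2 := H.rowQ_mem' hy
    omega
  · right
    refine ⟨hv, ?_⟩
    by_contra hx
    have h2 := H.spk_mem' (x := ()) hv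
    have hκ : ∀ i < l, ∀ j ≤ (mks p b tp).m,
        g ≤ (mks p b tp).θ i (j + 1) - (mks p b tp).θ i j :=
      fun i hi j hj => by linarith [H.hg.1 i hi j hj]
    have h3 := hsite_far (n := n) (Q := mks p b tp) H.hQ hκ H.hp b3 hx
    rw [hsT H.hp H.hQ] at h3
    have h4 : nm (hsite p (mks p b tp) n x - (n * (p (iT p)).1, n * (p (iT p)).2)) ≤
        12 * ⌊δ * n⌋₊ := by
      rw [nm_le_iff]
      simp only [Prod.fst_sub, Prod.snd_sub]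
      omega
    have h5 : (nm (hsite p (mks p b tp) n x - (n * (p (iT p)).1, n * (p (iT p)).2)) : ℝ) ≤
      12 * ⌊δ * n⌋₊ := by exact_mod_cast h4
    linarith

/-- The frozen squares near a mark of the box. -/
theorem uQ (H : DobN p S₀ b tp g δ n) (hδg : 512 * δ ≤ g) {x : Fin 4 × Fin 3} {v : ℤ × ℤ}
    (hv : v ∈ uI (shD p b tp n ⌊δ * n⌋₊))
    (h : nm (v - hsite pQ (mksQ p b) (bM p * n) x) ≤ 6 * ⌊δ * n⌋₊) :
    v ∈ frmQ pQ (mksQ p b) (bM p * n) ⌊δ * n⌋₊ := by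
  obtain ⟨b1, b3, b5, b6, b7⟩ := H.basic
  obtain ⟨e1, e2, e3⟩ := H.big hδg
  have hn0 : (0 : ℝ) ≤ n := Nat.cast_nonneg n
  have hx1 := H.hsQ' x
  rw [nm_le_iff] at h
  simp only [Prod.fst_sub, Prod.snd_sub] at h
  rcases mem_shD.1 hv with hv | hv | hv
  · exfalso
    obtain ⟨y, hy⟩ := frmP_row hv
    have h2 := H.rowP_mem hy
    omega
  · exact hv
  · exfalso
    have h2 := H.spk_mem' (x := ()) hv
    have h3 := foot_far H.hp H.hD H.hN H.hb H.hQ' b5 x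
    have h4 : nm (ftD p n - hsite pQ (mksQ p b) (bM p * n) x) ≤ 12 * ⌊δ * n⌋₊ := by
      have h5 := ft_mem (n := n) H.hp H.hN
      rw [nm_le_iff]
      simp only [Prod.fst_sub, Prod.snd_sub]
      omega
    have h5 : (nm (ftD p n - hsite pQ (mksQ p b) (bM p * n) x) : ℝ) ≤ 12 * ⌊δ * n⌋₊ := by
      exact_mod_cast h4
    have h6 : g * n ≤ c0 b * n := mul_le_mul_of_nonneg_right H.hc hn0
    linarith

/-- The frozen squares near the foot. -/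
theorem uF (H : DobN p S₀ b tp g δ n) (hδg : 512 * δ ≤ g) {v : ℤ × ℤ}
    (hv : v ∈ uI (shD p b tp n ⌊δ * n⌋₊)) (h : nm (v - ftD p n) ≤ 6 * ⌊δ * n⌋₊) :
    v.2 = -1 ∨ v ∈ (spk p n ⌊δ * n⌋₊).I := by
  obtain ⟨b1, b3, b5, b6, b7⟩ := H.basic
  obtain ⟨e1, e2, e3⟩ := H.big hδg
  obtain ⟨z2, z1, z3, z4⟩ := ft_mem (n := n) H.hp H.hN
  have hB : (2 : ℤ) * n ≤ bM p * n := by
    have : (2 : ℤ) ≤ bM p := by exact_mod_cast b7
    nlinarith
  rw [nm_le_iff] at h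
  simp only [Prod.fst_sub, Prod.snd_sub] at h
  rcases mem_shD.1 hv with hv | hv | hv
  · exfalso
    obtain ⟨y, hy⟩ := frmP_row hv
    have h2 := H.rowP_mem hy
    omega
  · left
    obtain ⟨y, hy⟩ := frmQ_row (tp := tp) hv
    have h2 := H.rowQ_mem' hy
    omega
  · exact Or.inr hv

/-- **Near the foot the row of the box is not cut.** -/
theorem row_foot (H : DobN p S₀ b tp g δ n) (hδg : 512 * δ ≤ g) :
    ∃ y : Fin 4 × Fin 3, ∀ x : ℤ, |x - n * (p (iT p)).1| ≤ 6 * ⌊δ * n⌋₊ →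
      (x, -1) ∈ (shp pQ (mksQ p b) (bM p * n) ⌊δ * n⌋₊ y.1 y.2).I := by
  obtain ⟨b1, b3, b5, b6, b7⟩ := H.basic
  obtain ⟨e1, e2, e3⟩ := H.big hδg
  obtain ⟨c1, c2, c3, c4⟩ := H.box
  obtain ⟨z2, z1, z3, z4⟩ := ft_mem (n := n) H.hp H.hN
  have hn0 : (0 : ℝ) ≤ n := Nat.cast_nonneg n
  have hrow := rows_marks (p := pQ) H.hQ' H.hg' c1 c2 c3
  rw [c4] at hrow
  have d1 : 16 ≤ ⌊δ * n⌋₊ := by exact_mod_cast e1
  -- no mark near the foot
  have step : ∀ σ : ℕ, |(σ : ℤ) - n * (p (iT p)).1| ≤ 6 * ⌊δ * n⌋₊ →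
      ∃ y : Fin 4 × Fin 3, (y.1 : ℕ) = 2 ∧
        sW pQ (bM p * n) (mksQ p b) ⌊δ * n⌋₊ y.1 y.2 ≤ σ ∧
        σ < eW pQ (bM p * n) (mksQ p b) ⌊δ * n⌋₊ y.1 y.2 := by
    intro σ hσ
    rw [abs_le] at hσ
    have hvN : σ < bM p * n := by
      have : (σ : ℤ) < ((bM p * n : ℕ) : ℤ) := by push_cast; omega
      exact_mod_cast this
    rcases gap_step (p := pQ) (d := ⌊δ * n⌋₊) pQ_poly H.hQ' (i := 2) (by norm_num) hvN with
      ⟨y, hy1, hy2, hy3⟩ | ⟨x, hx⟩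
    · exact ⟨y, hy1, hy2, hy3⟩
    · exfalso
      have h3 := foot_far H.hp H.hD H.hN H.hb H.hQ' b5 x
      have h4 : nm (ftD p n - hsite pQ (mksQ p b) (bM p * n) x) ≤ 7 * ⌊δ * n⌋₊ := by
        have h5 : vp pQ (bM p * n) 2 (σ : ℤ) = ((σ : ℤ), 0) := by
          unfold vp
          have e2 : pQ ((2 : ℕ) : ZMod 4) = (0, 0) := rfl
          rw [pdir_pQ.2.2.1, e2, (vz_eq _ _).1]
          simp
        rw [h5] at hx
        have h8 := nm_tri (ftD p n) ((σ : ℤ), 0) (hsite pQ (mksQ p b) (bM p * n) x)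
        have h9 : nm (ftD p n - ((σ : ℤ), 0)) ≤ 6 * ⌊δ * n⌋₊ := by
          rw [nm_le_iff]
          simp only [Prod.fst_sub, Prod.snd_sub]
          omega
        change nm (((σ : ℤ), 0) - hsite pQ (mksQ p b) (bM p * n) x) ≤ _ at hx
        omega
      have h5 : (nm (ftD p n - hsite pQ (mksQ p b) (bM p * n) x) : ℝ) ≤ 7 * ⌊δ * n⌋₊ := by
        exact_mod_cast h4
      have h6 : g * n ≤ c0 b * n := mul_le_mul_of_nonneg_right H.hc hn0
      linarith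
  obtain ⟨s, hs⟩ : ∃ s : ℕ, (s : ℤ) = n * (p (iT p)).1 - 6 * ⌊δ * n⌋₊ :=
    ⟨(n * (p (iT p)).1 - 6 * (⌊δ * n⌋₊ : ℤ)).toNat, Int.toNat_of_nonneg (by omega)⟩
  obtain ⟨y, y1, y2, y3⟩ := step s (by rw [hs, abs_le]; omega)
  have ind : ∀ k : ℕ, k ≤ 12 * ⌊δ * n⌋₊ →
      sW pQ (bM p * n) (mksQ p b) ⌊δ * n⌋₊ y.1 y.2 ≤ s + k ∧
        s + k < eW pQ (bM p * n) (mksQ p b) ⌊δ * n⌋₊ y.1 y.2 := by
    intro k
    induction k with
    | zero => exact fun _ => ⟨y2, y3⟩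
    | succ k ih =>
      intro hk
      obtain ⟨i1, i2⟩ := ih (by omega)
      obtain ⟨y', y1', y2', y3'⟩ := step (s + (k + 1)) (by
        push_cast
        rw [hs, abs_le]
        omega)
      by_cases hyy : y = y'
      · rw [← hyy] at y2' y3'
        exact ⟨by omega, by omega⟩
      · exfalso
        have h1 := hrow.dis y y' hyy (by rw [y1, y1'])
        omega
  refine ⟨y, fun x hx => ?_⟩
  rw [abs_le] at hx
  rw [shp_I]
  obtain ⟨i1, i2⟩ := ind (x - s).toNat (by omega)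
  refine mem_rowP.2 ⟨s + (x - s).toNat, i1, i2, ?_⟩
  rw [y1]
  rcases opQ (N := bM p * n) (i := 2) (by norm_num) ((s + (x - s).toNat : ℕ) : ℤ) with
    ⟨h', -⟩ | ⟨h', -⟩ | ⟨-, h'⟩ | ⟨h', -⟩
  · omega
  · omega
  · rw [h']
    ext
    · simp only; omega
    · rfl
  · omega

end DobN

end Vale.Agent.P167.N.ID
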