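import Vale.Agent.P167.N.ID.PicsE
import Vale.Agent.P167.N.ID.FrmS

/-!
# P167, `q < 1`, START (P2T): the pictures of the killed tips of the Dobrushin frames
-/

set_option autoImplicit false

namespace Vale.Agent.P167.N.ID

open Finset Filter Topology

open Vale.Agent.P167.H262 (Rsq mem_Rsq)
open Vale.Agent.P167.E6 (IsPolygon Encloses dir face)
open Vale.Agent.P167.H825 (pdir Marks Box)
open Vale.Agent.P167.H825.Q (Bc)
open Vale.Agent.P167.H199 (Gap mks mks_ok Gen exists_Gap c0)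
open Vale.Agent.P167.H662 (hsite)
open Vale.Agent.P167.H680.T (uI mem_uI)
open Vale.Agent.P167.Enl (sW eW mem_rowP vp oz vz vz_eq oz_eq frmQ mem_frmQ iB jB iB_lt jB_le nm_tri
  nm_sub_comm hsite_far gn_big BGap pA pB gA gB gap_step rows_marks row_pos vp_pA vp_pB)

variable {l : ℕ} {p : ZMod l → ℤ × ℤ} {n : ℕ} {S₀ : Finset (ℤ × ℤ)} {θ β : ℝ} {b : Box}
  {tp : ℝ} {g δ : ℝ} {ia : ℕ} {ta : ℝ} {U : Finset (ℤ × ℤ)} {ρ : ℤ}

/-- The coordinates of the tip behind a mark. -/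
theorem iso_aft {Q : Marks} {t : ℕ} {bc : Bc} {Js : ℕ → Bool} {C c : ℝ} (hQ : Q.Ok)
    (hg : Gap Q l g) (hδ : 0 < δ) (hδg : 64 * δ ≤ g) (hn : 16 ≤ δ * n)
    (x : Fin l × Fin (Q.m + 1)) (hJ : Js x.1 = true) (f : Bool) (v : ℤ × ℤ) :
    ((frowJ θ β p Q n ⌊δ * n⌋₊ t bc Js C c x.1 x.2).iso f).V v =
      tipV (hsite p Q n x) (pdir p x.1) false (gA p n Q ⌊δ * n⌋₊ x) f v := by
  obtain ⟨⟨p1, p2, p3⟩, ⟨p4, p5, p6⟩⟩ := row_pos (p := p) hQ hg hδ (by linarith) hn x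
  obtain ⟨q1, q2⟩ := rows_six (p := p) hQ hg hδ hδg hn x
  unfold frowJ
  rw [hJ]
  refine srowJ_isoT (by omega) ?_
  rw [← vp_pA]
  unfold vp
  rw [vz_vz, ← p4]
  congr 1
  push_cast
  ring

/-- The coordinates of the tip before a mark. -/
theorem iso_bef {Q : Marks} {t : ℕ} {bc : Bc} {Js : ℕ → Bool} {C c : ℝ} (hp : IsPolygon p)
    (hQ : Q.Ok) (hg : Gap Q l g) (hδ : 0 < δ) (hδg : 64 * δ ≤ g) (hn : 16 ≤ δ * n)
    (x : Fin l × Fin (Q.m + 1)) (hJ : Js (iB l x) = false) (f : Bool) (v : ℤ × ℤ) :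
    ((frowJ θ β p Q n ⌊δ * n⌋₊ t bc Js C c (iB l x) (jB x)).iso f).V v =
      tipV (hsite p Q n x) (pdir p (iB l x)) true (gB p n Q ⌊δ * n⌋₊ x) f v := by
  obtain ⟨⟨p1, p2, p3⟩, ⟨p4, p5, p6⟩⟩ := row_pos (p := p) hQ hg hδ (by linarith) hn x
  obtain ⟨q1, q2⟩ := rows_six (p := p) hQ hg hδ hδg hn x
  unfold frowJ
  rw [hJ]
  refine srowJ_isoF (by omega) ?_
  rw [← vp_pB hp hQ]
  unfold vp
  rw [vz_vz, ← p1]
  congr 1
  push_cast
  ring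

/-- **The pictures of the two killed tips at `T` are disjoint.** -/
theorem T_disj {r r' : Row} {z : ℤ × ℤ} {d gA' gB' : ℤ} (hρ : 16 * ρ ≤ d) (hρ0 : 0 ≤ ρ)
    (hd : 16 ≤ d) (hA : d ≤ gA' ∧ gA' ≤ d + 1) (hB : d ≤ gB' + 1 ∧ gB' ≤ d)
    (hr : ∀ v, (r.iso true).V v = tipV z 0 false gA' true v)
    (hr' : ∀ v, (r'.iso false).V v = tipV z 3 true gB' false v) :
    Disjoint ((⟨r.iso true, false, gA' - 1, d, r.hgt true⟩ : TipD).W d ρ)
      ((⟨r'.iso false, false, gB', d, r'.hgt false⟩ : TipD).W d ρ) := by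
  have h1 := r.hgt_or true
  have h2 := r'.hgt_or false
  rw [Finset.disjoint_left]
  intro v hv hv'
  obtain ⟨u, hu, rfl⟩ := mem_image.1 hv
  obtain ⟨u', hu', he⟩ := mem_image.1 hv'
  change (r'.iso false).V u' = (r.iso true).V u at he
  rw [hr, hr', (tipV_eq z false gA' true u).1, (tipV_eq z true gB' false u').2.2.2,
    Prod.ext_iff] at he
  simp only [if_true, Bool.false_eq_true, if_false] at he
  rw [mem_union] at hu hu'
  have k1 : -ρ ≤ u.2 ∧ ((u.1 < ρ ∧ u.2 < 2 * ρ) ∨ 1 ≤ u.2) := by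
    rcases hu with hu | hu
    · unfold bxT at hu
      rw [mem_filter, mem_Rsq] at hu
      simp only at hu
      omega
    · unfold tubT at hu
      simp only [Bool.false_eq_true, if_false] at hu
      rw [mem_union, mem_Rsq, mem_Rsq] at hu
      omega
  have k2 : -ρ ≤ u'.1 ∨ (-gB' ≤ u'.1 ∧ 2 * d ≤ u'.2) := by
    rcases hu' with hu' | hu'
    · unfold bxT at hu'
      rw [mem_filter, mem_Rsq] at hu'
      simp only at hu'
      omega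
    · unfold tubT at hu'
      simp only [Bool.false_eq_true, if_false] at hu'
      rw [mem_union, mem_Rsq, mem_Rsq] at hu'
      omega
  omega

namespace DobN

section pics

variable (H : DobN p S₀ b tp g δ n) (hδg : 512 * δ ≤ g) (hρ : 16 * ρ ≤ ⌊δ * n⌋₊) (hρ0 : 0 ≤ ρ)
  (hU : ∀ v ∈ U, v ∈ uI (shD p b tp n ⌊δ * n⌋₊))

include H hδg hρ hρ0 hU in
/-- The killed tip behind a mark of the polygon. -/
theorem picA {y : Fin l × Fin 3} (hJ : JD p ia y.1 = true) (hy : y ≠ xT H.hp (mks p b tp)) :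
    ∃ y' : Fin l × Fin 3, y' ≠ y ∧ ∃ t', Pic U (rD θ β p b tp ia ta n ⌊δ * n⌋₊ (.inl y')).I
      (rD θ β p b tp ia ta n ⌊δ * n⌋₊ (.inl y)) (hsite p (mks p b tp) n y) ⌊δ * n⌋₊ ρ t' := by
  have hl : 2 ≤ l := by have := H.hp.1; omega
  refine ⟨_, iBjB_ne hl (Q := mks p b tp) y, ?_⟩
  exact pic_aft (Q := mks p b tp) (Js := JD p ia) H.hp H.hD H.hQ H.hg H.hδ (hδ64 H.hδ hδg) H.hn y
    hρ hρ0 hJ fun v hv h => (H.uP hδg (hU v hv) h).resolve_right fun h' => hy h'.2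

include H hδg hρ hρ0 hU in
/-- The killed tip before a mark of the polygon. -/
theorem picB (hl : 0 < l) {y : Fin l × Fin 3} (hJ : JD p ia y.1 = false)
    (hy : nxK hl y ≠ xT H.hp (mks p b tp)) :
    ∃ t', Pic U (rD θ β p b tp ia ta n ⌊δ * n⌋₊ (.inl (nxK hl y))).I
      (rD θ β p b tp ia ta n ⌊δ * n⌋₊ (.inl y)) (hsite p (mks p b tp) n (nxK hl y))
        ⌊δ * n⌋₊ ρ t' := by
  obtain ⟨e1, e2⟩ := nxK_iB hl y
  have h := pic_bef (θ := θ) (β := β) (Q := mks p b tp) (Js := JD p ia) (t := ⌊tp * n⌋₊)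
    (bc := .dob ia ta) (C := 0) (c := 1) (U := U) H.hp H.hD H.hQ H.hg H.hδ (hδ64 H.hδ hδg) H.hn
    (nxK hl y) hρ hρ0 (by
      change JD p ia (iB l (nxK hl y)) = false
      rw [e1]; exact hJ) fun v hv h => (H.uP hδg (hU v hv) h).resolve_right fun h' => hy h'.2
  change ∃ t', Pic U _ (frowJ θ β p (mks p b tp) n ⌊δ * n⌋₊ ⌊tp * n⌋₊ (.dob ia ta) (JD p ia) 0 1
    (iB l (nxK hl y)) (jB (nxK hl y))) _ _ _ t' at h
  rw [e1, e2] at h
  exact h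

include H hδg hρ hρ0 hU in
/-- The killed tips of the box. -/
theorem picQ (y : Fin 4 × Fin 3) :
    ∃ y' : Fin 4 × Fin 3, y' ≠ y ∧ ∃ t', Pic U
      (rD θ β p b tp ia ta n ⌊δ * n⌋₊ (.inr (.inl y'))).I
      (rD θ β p b tp ia ta n ⌊δ * n⌋₊ (.inr (.inl y)))
      (hsite pQ (mksQ p b) (bM p * n) y) ⌊δ * n⌋₊ ρ t' := by
  obtain ⟨c1, c2, c3, c4⟩ := H.box
  have hM : (1 : ℝ) ≤ bM p := by exact_mod_cast hM (p := p)
  have h64 : 64 * (δ / bM p) ≤ g := by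
    have : δ / bM p ≤ δ := div_le_self H.hδ.le hM
    linarith [hδ64 H.hδ hδg]
  refine ⟨_, iBjB_ne (by norm_num) (Q := mksQ p b) y, ?_⟩
  have h := pic_aft (θ := θ) (β := β) (p := pQ) (n := bM p * n) (Q := mksQ p b)
    (Js := fun _ => true)
    (t := tG pQ (bM p * n) (tqB (bQ b (bM p))) (cT p ia)) (bc := .free) (C := CQ θ β p ia)
    (c := cT p ia) (U := U) (ρ := ρ) pQ_poly pQ_encl H.hQ' H.hg' c1 h64 c3 y
    (by rw [c4]; exact hρ) hρ0 rfl fun v hv h => by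
      rw [c4] at h ⊢
      exact H.uQ hδg (hU v hv) h
  rw [c4] at h
  exact h

include H hδg hρ hρ0 hU in
/-- The killed tip at the foot. -/
theorem picS : ∃ y : Fin 4 × Fin 3, ∃ t', Pic U
      (rD θ β p b tp ia ta n ⌊δ * n⌋₊ (.inr (.inl y))).I
      (rD θ β p b tp ia ta n ⌊δ * n⌋₊ (.inr (.inr ()))) (ftD p n) ⌊δ * n⌋₊ ρ t' := by
  obtain ⟨b1, b3, b5, b6, b7⟩ := H.basic
  obtain ⟨e1, e2, e3⟩ := H.big hδg
  obtain ⟨y, hy⟩ := H.row_foot hδg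
  have hyT : 2 * (n : ℤ) ≤ n * (p (iT p)).2 := by nlinarith [H.hN (iT p)]
  have hr : ∀ v, ((rD θ β p b tp ia ta n ⌊δ * n⌋₊ (.inr (.inr ()))).iso false).V v =
      tipV (ftD p n) 1 false ⌊δ * n⌋₊ false v := by
    intro v
    rw [Row.iso_V]
    change ((n : ℤ) * (p (iT p)).1 + v.2, ((⌊δ * n⌋₊ : ℕ) : ℤ) + v.1) =
      ((n : ℤ) * (p (iT p)).1 + v.2, 0 + ((⌊δ * n⌋₊ : ℕ) : ℤ) + v.1)
    rw [zero_add]
  have hL : 2 * ρ ≤ ((rD θ β p b tp ia ta n ⌊δ * n⌋₊ (.inr (.inr ()))).L : ℤ) := by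
    change 2 * ρ ≤ (((n * (p (iT p)).2).toNat - 2 * ⌊δ * n⌋₊ : ℕ) : ℤ)
    omega
  refine ⟨y, _, picC (k := 1) (e := false) (f := false) (G := ⌊δ * n⌋₊) (a := ⌊δ * n⌋₊) hρ hρ0 e1
    hL (by omega) (by omega) (by omega) (by omega) hr (fun v hv hn h => ?_) fun x h1 h2 => ?_⟩
  · have h3 := H.uF hδg (hU _ h) hn
    rw [(tipV_eq (ftD p n) false _ false v).2.1, mem_spk] at h3
    simp only [Bool.false_eq_true, if_false] at h3
    change (0 + (⌊δ * n⌋₊ : ℤ) + v.1 = -1) ∨ (n * (p (iT p)).1 + v.2 = n * (p (iT p)).1 ∧ _ ≤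
      0 + (⌊δ * n⌋₊ : ℤ) + v.1 ∧ _) at h3
    omega
  · rw [(tipV_eq (ftD p n) false _ false _).2.1]
    have h3 := hy (n * (p (iT p)).1 + x) (by rw [abs_le]; omega)
    change _ ∈ (frowJ θ β pQ (mksQ p b) (bM p * n) ⌊δ * n⌋₊ _ .free (fun _ => true) _ _ _ _).I
    rw [frowJ_I]
    convert h3 using 1
    refine Prod.ext ?_ ?_
    · simp only [Bool.false_eq_true, if_false]
      rfl
    · simp only [Bool.false_eq_true, if_false]
      change 0 + (⌊δ * n⌋₊ : ℤ) + (-(⌊δ * n⌋₊ : ℤ) - 1) = -1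
      omega

end pics

end DobN

end Vale.Agent.P167.N.ID
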