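import Vale.Agent.P167.N.ID.RowF
import Vale.Agent.P167.N.ID.LabPos

/-!
# P167, `0 < q < 1`, block 2A: the factors of the rows are positive for some configuration

`fpos_row`: `FPos (rowF hθ)`. `zlab_row_pos`: the labels `Zlab` of the rows are positive (form for
`clR_ok`).
-/

set_option autoImplicit false

namespace Vale.Agent.P167.N.ID

open Finset MeasureTheory Filter
open Vale.Agent.P167 Vale.Agent.P167.N
open Vale.Agent.P167.FK
open Vale.Agent.P167.H519 (IsLim)

variable {θ : ℝ}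

/-- The diagonal rays from the sites of a row, off the row. -/
theorem Row.dg_off (r : Row) (b : Bool) (m k : ℕ) : dg (r.st b m) b b k ∉ r.I := by
  rw [Row.mem_I]
  unfold dg Row.st
  cases r.o <;> cases b <;> simp only [Bool.false_eq_true, if_false, if_true] <;> omega

/-- An arm from a site of a row, for one configuration with the frozen squares of the row. -/
theorem Row.exists_AZ (r : Row) (b : Bool) (m : ℕ) (e : Bool) (R : ℤ) :
    ∃ σ : Cfg, (∀ v ∈ r.I, σ v = r.toRow.fr v) ∧ σ ∈ AZ e r.I (r.st b m) R := by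
  classical
  refine ⟨fun v => if v ∈ r.I then r.toRow.fr v else e, fun v hv => if_pos hv,
    AZ_diag b b (fun k _ => r.dg_off b m k) fun k _ => ?_⟩
  exact if_neg (r.dg_off b m k)

/-- **The factors of the rows are positive for some configuration.** -/
theorem fpos_row (h0 : 0 ≤ Real.cos θ) (hθ : 0 < Real.cos θ) : FPos (rowF h0) := by
  intro r k ρ hv hk hm
  have key : ∀ (b : Bool) (m : ℕ), ∃ σ : Cfg, (∀ v ∈ r.I, σ v = r.toRow.fr v) ∧
      0 < TK r.I (r.st b m) ρ σ := by
    intro b m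
    obtain ⟨σ, h1, h2⟩ := r.exists_AZ b m (cz (r.st b m)) ρ
    refine ⟨σ, h1, ?_⟩
    unfold TK
    rw [Set.indicator_of_mem h2]
    exact one_pos
  show ∃ σ : Cfg, (∀ v ∈ r.I, σ v = r.toRow.fr v) ∧ 0 < r.T θ r.I k ρ σ
  unfold Row.T
  cases k
  · simp only [Bool.false_eq_true, if_false]
    split_ifs with h1 h2
    · exact ⟨r.toRow.fr, fun v _ => rfl, one_pos⟩
    · exact ⟨r.toRow.fr, fun v _ => rfl, pow_pos (by linarith) _⟩
    · exact key _ _
  · simp only [if_true]
    exact key _ _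

/-- **The labels of the rows are positive**, in the form for `clR_ok`. -/
theorem zlab_row_pos (h1 : Ang θ) (h0 : 0 ≤ Real.cos θ) {P : Measure Cfg}
    (hP : IsLim (2 * Real.cos θ) P) (hg : ∀ᵐ ω ∂P, Good ω) (S : TyS (rowF h0) P) {κ : ℝ}
    (hκ : 0 < κ) : ∀ᶠ n : ℕ in atTop, ∀ r : Row, r.Ok θ κ n → 0 < Zlab S θ n r := by
  have hc : 0 < Real.cos θ := by linarith [h1.kit.pos]
  filter_upwards [zlab_pos S h1.sin_pos h1.kit hP hg (fpos_row h0 hc)
    (Ok := fun κ n r => r.Ok θ κ n ∧ 0 ≤ κ * n) (fun h => ⟨h.1.val h.2, h.1.mg h.2⟩) hκ] with n hn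
  exact fun r hr => hn r ⟨hr, by positivity⟩

/-- The same with the factor of the inner sum (the labels of `clR`). -/
theorem zrow_row_pos (h1 : Ang θ) (h0 : 0 ≤ Real.cos θ) {P : Measure Cfg}
    (hP : IsLim (2 * Real.cos θ) P) (hg : ∀ᵐ ω ∂P, Good ω) (S : TyS (rowF h0) P) {κ : ℝ}
    (hκ : 0 < κ) : ∀ᶠ n : ℕ in atTop, ∀ r : Row, r.Ok θ κ n →
      0 < (rowS θ).Zrow θ (Zlab S θ) n r := by
  filter_upwards [zlab_row_pos h1 h0 hP hg S hκ] with n hn r hr
  unfold RSys.Zrow
  have hlt := h1.lt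
  have := Real.cos_pos_of_mem_Ioo (x := θ / 4)
    ⟨by linarith [Real.pi_pos, h1.gt], by linarith [Real.pi_pos]⟩
  have h2 := hn r hr
  positivity

end Vale.Agent.P167.N.ID
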