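import Vale.Agent.P167.N.ID.PsFd

/-!
# P167, block ID, (P2S): chains of rectangles, generic part
-/

set_option autoImplicit false

namespace Vale.Agent.P167.H433

open Finset Filter Vale.Agent.P167 Vale.Agent.P167.FK Vale.Agent.P167.N Vale.Agent.P167.N.BAR
  Vale.Agent.P167.N.ID
open Vale.Agent.P167.H262 (Rsq mem_Rsq)
open Vale.Agent.P167.H825.Q (Bc)
open Vale.Agent.P167.H825 (Box enl pdir)
open Vale.Agent.P167.E6 (IsPolygon Encloses dir face)
open Vale.Agent.P167.Enl (vp vz oz vz_eq oz_eq face0 face1 face2 face3 dir0 dir1 dir2 dir3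
  mem_enl_div fin4_cases pdir_step)

/-! ### chains -/

theorem ch_app : ∀ (L : List Crs) (X : Crs) (L' : List Crs), Ch X L → Ch (lst X L) L' →
    Ch X (L ++ L')
  | [], _, _, _, h => h
  | Y :: L, _, L', h, h' => ⟨h.1, ch_app L Y L' h.2 h'⟩

theorem lst_app : ∀ (L : List Crs) (X : Crs) (L' : List Crs), lst X (L ++ L') = lst (lst X L) L'
  | [], _, _ => rfl
  | _ :: L, _, L' => lst_app L _ L'

/-- A chain can be reversed. -/
theorem ch_rev : ∀ (L : List Crs) (X : Crs), Ch X L → ∃ L', Ch (lst X L) L' ∧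
    lst (lst X L) L' = X ∧ L'.length = L.length ∧ ∀ Y ∈ L', Y ∈ X :: L
  | [], X, _ => ⟨[], trivial, rfl, rfl, fun Y hY => by simp at hY⟩
  | Y :: L, X, h => by
    obtain ⟨L', h1, h2, h3, h4⟩ := ch_rev L Y h.2
    refine ⟨L' ++ [X], ch_app L' _ [X] h1 ?_, ?_, by simp [h3], fun Z hZ => ?_⟩
    · have e : lst (lst X (Y :: L)) L' = Y := h2
      rw [e]
      exact ⟨h.1.symm, trivial⟩
    · rw [lst_app]
      rfl
    · rw [List.mem_append, List.mem_singleton] at hZ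
      rcases hZ with hZ | rfl
      · exact List.mem_cons_of_mem _ (h4 Z hZ)
      · exact List.mem_cons_self

/-! ### local coordinates -/

/-- The local coordinates of a square. -/
def lu (r : Fin 4) (z v : ℤ × ℤ) : ℤ :=
  ![z.1 - v.1 - 1, z.2 - v.2 - 1, v.1 - z.1, v.2 - z.2] r

/-- The local coordinates of a square. -/
def lv (r : Fin 4) (z v : ℤ × ℤ) : ℤ :=
  ![z.2 - v.2 - 1, v.1 - z.1, v.2 - z.2, z.1 - v.1 - 1] r

theorem mem_LQ {r : Fin 4} {z v : ℤ × ℤ} {a b p q : ℤ} :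
    v ∈ LQ r z a b p q ↔ (a ≤ lu r z v ∧ lu r z v < b) ∧ p ≤ lv r z v ∧ lv r z v < q := by
  unfold LQ
  rw [mem_Rsq]
  rcases fin4_cases r with rfl | rfl | rfl | rfl <;> simp [LR, lu, lv] <;> omega

theorem mt_LR {r : Fin 4} {z : ℤ × ℤ} {a b p q a' b' p' q' : ℤ} (h1 : a ≤ a') (h2 : b' ≤ b)
    (h3 : p' ≤ p) (h4 : q ≤ q') : Mt (LR r z true a b p q) (LR r z false a' b' p' q') := by
  rcases fin4_cases r with rfl | rfl | rfl | rfl <;> simp [LR, Mt] <;> omega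

theorem LR_ok {r : Fin 4} {z : ℤ × ℤ} {d : Bool} {a b p q s : ℤ} {κ : ℕ} {A : Finset (ℤ × ℤ)}
    (hab : a ≤ b) (hpq : p ≤ q)
    (h1 : if d then s ≤ q - p ∧ b - a ≤ κ * s else s ≤ b - a ∧ q - p ≤ κ * s)
    (h2 : ∀ v, a ≤ lu r z v → lu r z v < b → p ≤ lv r z v → lv r z v < q → v ∈ A) :
    (LR r z d a b p q).Ok s κ A := by
  rcases fin4_cases r with rfl | rfl | rfl | rfl
  · refine ⟨?_, ?_, ?_, ?_⟩
    · simp [LR]; omega
    · simp [LR]; omega
    · cases d <;> simp [LR] at h1 ⊢ <;> constructor <;> linarith [h1.1, h1.2]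
    · intro v a1 a2 a3 a4
      simp [LR] at a1 a2 a3 a4
      exact h2 v (by simp [lu]; omega) (by simp [lu]; omega) (by simp [lv]; omega)
        (by simp [lv]; omega)
  · refine ⟨?_, ?_, ?_, ?_⟩
    · simp [LR]; omega
    · simp [LR]; omega
    · cases d <;> simp [LR] at h1 ⊢ <;> constructor <;> linarith [h1.1, h1.2]
    · intro v a1 a2 a3 a4
      simp [LR] at a1 a2 a3 a4
      exact h2 v (by simp [lu]; omega) (by simp [lu]; omega) (by simp [lv]; omega)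
        (by simp [lv]; omega)
  · refine ⟨?_, ?_, ?_, ?_⟩
    · simp [LR]; omega
    · simp [LR]; omega
    · cases d <;> simp [LR] at h1 ⊢ <;> constructor <;> linarith [h1.1, h1.2]
    · intro v a1 a2 a3 a4
      simp [LR] at a1 a2 a3 a4
      exact h2 v (by simp [lu]; omega) (by simp [lu]; omega) (by simp [lv]; omega)
        (by simp [lv]; omega)
  · refine ⟨?_, ?_, ?_, ?_⟩
    · simp [LR]; omega
    · simp [LR]; omega
    · cases d <;> simp [LR] at h1 ⊢ <;> constructor <;> linarith [h1.1, h1.2]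
    · intro v a1 a2 a3 a4
      simp [LR] at a1 a2 a3 a4
      exact h2 v (by simp [lu]; omega) (by simp [lu]; omega) (by simp [lv]; omega)
        (by simp [lv]; omega)

/-- The squares of the cell `c` at distance at least `D` from its sides. -/
def InC (n : ℤ) (c : ℤ × ℤ) (D : ℤ) (v : ℤ × ℤ) : Prop :=
  (n * c.1 + D ≤ v.1 ∧ v.1 + D < n * c.1 + n) ∧ n * c.2 + D ≤ v.2 ∧ v.2 + D < n * c.2 + n

/-- The centre of the cell `c`. -/
def sqc (n w : ℤ) (c : ℤ × ℤ) (d : Bool) : Crs :=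
  ⟨d, n * c.1 + n / 2 - w, n * c.1 + n / 2 + w, n * c.2 + n / 2 - w, n * c.2 + n / 2 + w⟩

theorem sqc_mt {n w : ℤ} {c : ℤ × ℤ} (d : Bool) : Mt (sqc n w c d) (sqc n w c (!d)) := by
  cases d <;> simp [sqc, Mt]

section cell

variable {l : ℕ} {p : ZMod l → ℤ × ℤ}

/-- The cell outside of the side, in coordinates. -/
theorem op_one (i : ℕ) : (pdir p i = 0 → Enl.op p 1 i 0 = ((p i).1, (p i).2 - 1)) ∧
    (pdir p i = 1 → Enl.op p 1 i 0 = p i) ∧
    (pdir p i = 2 → Enl.op p 1 i 0 = ((p i).1 - 1, (p i).2)) ∧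
    (pdir p i = 3 → Enl.op p 1 i 0 = ((p i).1 - 1, (p i).2 - 1)) := by
  have h := oz_eq (((1 : ℕ) : ℤ) • p i) 0
  simp only [Nat.cast_one, one_smul, add_zero, sub_zero] at h
  refine ⟨fun e => ?_, fun e => ?_, fun e => ?_, fun e => ?_⟩ <;>
    (unfold Enl.op; rw [e]; simp only [Nat.cast_one, one_smul])
  · exact h.1
  · exact h.2.1
  · exact h.2.2.1
  · exact h.2.2.2

/-- The points of a side, in coordinates. -/
theorem vp_eq (n i : ℕ) (σ : ℤ) : (pdir p i = 0 → vp p n i σ = (n * (p i).1 + σ, n * (p i).2)) ∧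
    (pdir p i = 1 → vp p n i σ = (n * (p i).1, n * (p i).2 + σ)) ∧
    (pdir p i = 2 → vp p n i σ = (n * (p i).1 - σ, n * (p i).2)) ∧
    (pdir p i = 3 → vp p n i σ = (n * (p i).1, n * (p i).2 - σ)) := by
  have h := vz_eq ((n : ℤ) • p i) σ
  simp only [Prod.smul_fst, Prod.smul_snd, smul_eq_mul] at h
  refine ⟨fun e => ?_, fun e => ?_, fun e => ?_, fun e => ?_⟩ <;> (unfold vp; rw [e])
  · exact h.1
  · exact h.2.1
  · exact h.2.2.1
  · exact h.2.2.2

/-- The cell in local coordinates at a site of its side. -/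
theorem inC_loc {n i : ℕ} {t D : ℤ} {v : ℤ × ℤ}
    (h1 : t - n + D ≤ lu (pdir p i) (lc (pdir p i) (vp p n i t) 0 1) v)
    (h2 : lu (pdir p i) (lc (pdir p i) (vp p n i t) 0 1) v + D < t)
    (h3 : D - 1 ≤ lv (pdir p i) (lc (pdir p i) (vp p n i t) 0 1) v)
    (h4 : lv (pdir p i) (lc (pdir p i) (vp p n i t) 0 1) v + D + 1 < n) :
    InC n (Enl.op p 1 i 0) D v := by
  obtain ⟨o0, o1, o2, o3⟩ := op_one (p := p) i
  obtain ⟨v0, v1, v2, v3⟩ := vp_eq (p := p) n i t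
  rcases fin4_cases (pdir p i) with e | e | e | e
  · rw [o0 e]
    rw [v0 e, e] at h1 h2 h3 h4
    simp [lu, lv, lc] at h1 h2 h3 h4
    unfold InC
    simp only
    refine ⟨⟨?_, ?_⟩, ?_, ?_⟩ <;> linarith
  · rw [o1 e]
    rw [v1 e, e] at h1 h2 h3 h4
    simp [lu, lv, lc] at h1 h2 h3 h4
    unfold InC
    refine ⟨⟨?_, ?_⟩, ?_, ?_⟩ <;> linarith
  · rw [o2 e]
    rw [v2 e, e] at h1 h2 h3 h4
    simp [lu, lv, lc] at h1 h2 h3 h4
    unfold InC
    simp only
    refine ⟨⟨?_, ?_⟩, ?_, ?_⟩ <;> linarith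
  · rw [o3 e]
    rw [v3 e, e] at h1 h2 h3 h4
    simp [lu, lv, lc] at h1 h2 h3 h4
    unfold InC
    simp only
    refine ⟨⟨?_, ?_⟩, ?_, ?_⟩ <;> linarith

/-- The centre in local coordinates. -/
theorem sqc_loc (n i : ℕ) (t w : ℤ) : ∃ (uc vc : ℤ) (f : Bool),
    (uc = t - n / 2 ∨ uc = t - n + n / 2) ∧
    (vc = n - 1 - n / 2 ∨ vc = n / 2 - 1) ∧ ∀ d, sqc n w (Enl.op p 1 i 0) (xor f d) =
      LR (pdir p i) (lc (pdir p i) (vp p n i t) 0 1) d (uc - w) (uc + w) (vc - w) (vc + w) := by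
  obtain ⟨o0, o1, o2, o3⟩ := op_one (p := p) i
  obtain ⟨v0, v1, v2, v3⟩ := vp_eq (p := p) n i t
  rcases fin4_cases (pdir p i) with e | e | e | e
  · refine ⟨t - n / 2, n - 1 - n / 2, false, Or.inl rfl, Or.inl rfl, fun d => ?_⟩
    rw [o0 e, v0 e, e]
    simp only [sqc, LR, lc, Matrix.cons_val_zero, Crs.mk.injEq]
    refine ⟨by simp, ?_, ?_, ?_, ?_⟩ <;> ring
  · refine ⟨t - n / 2, n / 2 - 1, true, Or.inl rfl, Or.inr rfl, fun d => ?_⟩
    rw [o1 e, v1 e, e]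
    simp only [sqc, LR, lc, Matrix.cons_val_zero, Matrix.cons_val_one, Crs.mk.injEq]
    refine ⟨by simp, ?_, ?_, ?_, ?_⟩ <;> ring
  · refine ⟨t - n + n / 2, n / 2 - 1, false, Or.inr rfl, Or.inr rfl, fun d => ?_⟩
    rw [o2 e, v2 e, e]
    simp only [sqc, LR, lc, Matrix.cons_val, Crs.mk.injEq]
    refine ⟨by simp, ?_, ?_, ?_, ?_⟩ <;> ring
  · refine ⟨t - n + n / 2, n - 1 - n / 2, true, Or.inr rfl, Or.inl rfl, fun d => ?_⟩
    rw [o3 e, v3 e, e]
    simp only [sqc, LR, lc, Matrix.cons_val, Crs.mk.injEq]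
    refine ⟨by simp, ?_, ?_, ?_, ?_⟩ <;> ring

end cell

/-! ### distances from the sides -/

section off

variable {l : ℕ} {p : ZMod l → ℤ × ℤ} {S₀ : Finset (ℤ × ℤ)} {n : ℕ}

theorem grid_no {n a b : ℤ} (h1 : n * a < n * b) (h2 : n * b < n * a + n) : False := by
  have hn : 0 < n := by linarith
  have h3 : a < b := lt_of_mul_lt_mul_left h1 hn.le
  have h4 : n * b < n * (a + 1) := by linarith
  have h5 : b < a + 1 := lt_of_mul_lt_mul_left h4 hn.le
  omega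

theorem nm_lt {v w : ℤ × ℤ} {D : ℤ} (h : nm (v - w) < D) : |v.1 - w.1| < D ∧ |v.2 - w.2| < D := by
  unfold nm at h
  exact max_lt_iff.1 h

/-- Near the interior of a vertical unit segment of the grid there are only vertical sides. -/
theorem near_ver {j σ : ℕ} {D b : ℤ} {v : ℤ × ℤ} (hσ : σ ≤ n) (h1 : n * b + D ≤ v.2)
    (h2 : v.2 + D < n * b + n) (h : nm (v - vp p n j σ) < D) :
    ((pdir p j = 1 ∧ (p j).2 = b) ∨ (pdir p j = 3 ∧ (p j).2 = b + 1)) ∧
      |v.1 - n * (p j).1| < D := by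
  obtain ⟨v0, v1, v2, v3⟩ := vp_eq (p := p) n j σ
  obtain ⟨a1, a2⟩ := nm_lt h
  rw [abs_lt] at a1 a2
  have hσ' : (σ : ℤ) ≤ n := by exact_mod_cast hσ
  have hσ0 : (0 : ℤ) ≤ σ := Int.natCast_nonneg σ
  have hn : (0 : ℤ) < n := by linarith
  rcases fin4_cases (pdir p j) with e | e | e | e
  · rw [v0 e] at a1 a2
    simp only at a1 a2
    exact (grid_no (n := n) (a := b) (b := (p j).2) (by linarith) (by linarith)).elim
  · rw [v1 e] at a1 a2
    simp only at a1 a2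
    refine ⟨Or.inl ⟨e, ?_⟩, by rw [abs_lt]; constructor <;> linarith⟩
    have k1 : (n : ℤ) * (p j).2 < n * (b + 1) := by linarith
    have k2 : (n : ℤ) * b < n * ((p j).2 + 1) := by linarith
    have := lt_of_mul_lt_mul_left k1 hn.le
    have := lt_of_mul_lt_mul_left k2 hn.le
    omega
  · rw [v2 e] at a1 a2
    simp only at a1 a2
    exact (grid_no (n := n) (a := b) (b := (p j).2) (by linarith) (by linarith)).elim
  · rw [v3 e] at a1 a2
    simp only at a1 a2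
    refine ⟨Or.inr ⟨e, ?_⟩, by rw [abs_lt]; constructor <;> linarith⟩
    have k1 : (n : ℤ) * (p j).2 < n * (b + 2) := by linarith
    have k2 : (n : ℤ) * b < n * (p j).2 := by linarith
    have := lt_of_mul_lt_mul_left k1 hn.le
    have := lt_of_mul_lt_mul_left k2 hn.le
    omega

/-- Near the interior of a horizontal unit segment of the grid there are only horizontal sides. -/
theorem near_hor {j σ : ℕ} {D a : ℤ} {v : ℤ × ℤ} (hσ : σ ≤ n) (h1 : n * a + D ≤ v.1)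
    (h2 : v.1 + D < n * a + n) (h : nm (v - vp p n j σ) < D) :
    ((pdir p j = 0 ∧ (p j).1 = a) ∨ (pdir p j = 2 ∧ (p j).1 = a + 1)) ∧
      |v.2 - n * (p j).2| < D := by
  obtain ⟨v0, v1, v2, v3⟩ := vp_eq (p := p) n j σ
  obtain ⟨a1, a2⟩ := nm_lt h
  rw [abs_lt] at a1 a2
  have hσ' : (σ : ℤ) ≤ n := by exact_mod_cast hσ
  have hσ0 : (0 : ℤ) ≤ σ := Int.natCast_nonneg σ
  have hn : (0 : ℤ) < n := by linarith
  rcases fin4_cases (pdir p j) with e | e | e | e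
  · rw [v0 e] at a1 a2
    simp only at a1 a2
    refine ⟨Or.inl ⟨e, ?_⟩, by rw [abs_lt]; constructor <;> linarith⟩
    have k1 : (n : ℤ) * (p j).1 < n * (a + 1) := by linarith
    have k2 : (n : ℤ) * a < n * ((p j).1 + 1) := by linarith
    have := lt_of_mul_lt_mul_left k1 hn.le
    have := lt_of_mul_lt_mul_left k2 hn.le
    omega
  · rw [v1 e] at a1 a2
    simp only at a1 a2
    exact (grid_no (n := n) (a := a) (b := (p j).1) (by linarith) (by linarith)).elim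
  · rw [v2 e] at a1 a2
    simp only at a1 a2
    refine ⟨Or.inr ⟨e, ?_⟩, by rw [abs_lt]; constructor <;> linarith⟩
    have k1 : (n : ℤ) * (p j).1 < n * (a + 2) := by linarith
    have k2 : (n : ℤ) * a < n * (p j).1 := by linarith
    have := lt_of_mul_lt_mul_left k1 hn.le
    have := lt_of_mul_lt_mul_left k2 hn.le
    omega
  · rw [v3 e] at a1 a2
    simp only at a1 a2
    exact (grid_no (n := n) (a := a) (b := (p j).1) (by linarith) (by linarith)).elim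

/-- The squares in the middle of a cell are far from all sides. -/
theorem off_inC [NeZero l] {c v : ℤ × ℤ} {D : ℤ} (h : InC n c D v) : Off p n D v := by
  intro j hj σ hσ
  by_contra hc
  rw [not_le] at hc
  obtain ⟨h1, -⟩ := near_hor hσ h.1.1 h.1.2 hc
  obtain ⟨h2, -⟩ := near_ver hσ h.2.1 h.2.2 hc
  rcases h1 with ⟨h1, -⟩ | ⟨h1, -⟩ <;> rcases h2 with ⟨h2, -⟩ | ⟨h2, -⟩ <;> rw [h1] at h2 <;>
    exact absurd h2 (by decide)

/-- The squares on the left and on the right of a side. -/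
theorem side_faces (hp : IsPolygon p) (hD : Encloses p S₀) (j : ℕ) :
    face (p j) (pdir p j) ∈ S₀ ∧ face (p j) (pdir p j - 1) ∉ S₀ :=
  (hD (p j) (pdir p j)).1 ⟨j, rfl, pdir_step hp j⟩

/-- The squares between the centres of two neighbouring cells off `S₀` are far from all sides. -/
theorem off_segH [NeZero l] (hp : IsPolygon p) (hD : Encloses p S₀) {c v : ℤ × ℤ} {D : ℤ}
    (hc : c ∉ S₀) (hc' : c + (1, 0) ∉ S₀) (h1 : n * c.1 + D ≤ v.1)
    (h2 : v.1 + D < n * c.1 + 2 * n) (h3 : n * c.2 + D ≤ v.2) (h4 : v.2 + D < n * c.2 + n) :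
    Off p n D v := by
  intro j hj σ hσ
  by_contra hcc
  rw [not_le] at hcc
  obtain ⟨h5, h6⟩ := near_ver hσ h3 h4 hcc
  rw [abs_lt] at h6
  have h7 : 0 < D := by linarith [h6.1, h6.2]
  have hn0 : (0 : ℤ) < n := by linarith
  have k1 : (n : ℤ) * c.1 < n * (p j).1 := by linarith
  have k2 : (n : ℤ) * (p j).1 < n * (c.1 + 2) := by linarith
  have k3 := lt_of_mul_lt_mul_left k1 hn0.le
  have k4 := lt_of_mul_lt_mul_left k2 hn0.le
  obtain ⟨f1, f2⟩ := side_faces hp hD j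
  rcases h5 with ⟨h5, h8⟩ | ⟨h5, h8⟩
  · rw [h5, face1] at f1
    have e : ((p j).1 - 1, (p j).2) = c := by ext <;> simp only <;> omega
    rw [e] at f1
    exact hc f1
  · rw [h5, face3] at f1
    have e : ((p j).1, (p j).2 - 1) = c + (1, 0) := by ext <;> simp <;> omega
    rw [e] at f1
    exact hc' f1

/-- The squares between the centres of two neighbouring cells off `S₀` are far from all sides. -/
theorem off_segV [NeZero l] (hp : IsPolygon p) (hD : Encloses p S₀) {c v : ℤ × ℤ} {D : ℤ}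
    (hc : c ∉ S₀) (hc' : c + (0, 1) ∉ S₀) (h1 : n * c.2 + D ≤ v.2)
    (h2 : v.2 + D < n * c.2 + 2 * n) (h3 : n * c.1 + D ≤ v.1) (h4 : v.1 + D < n * c.1 + n) :
    Off p n D v := by
  intro j hj σ hσ
  by_contra hcc
  rw [not_le] at hcc
  obtain ⟨h5, h6⟩ := near_hor hσ h3 h4 hcc
  rw [abs_lt] at h6
  have h7 : 0 < D := by linarith [h6.1, h6.2]
  have hn0 : (0 : ℤ) < n := by linarith
  have k1 : (n : ℤ) * c.2 < n * (p j).2 := by linarith
  have k2 : (n : ℤ) * (p j).2 < n * (c.2 + 2) := by linarith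
  have k3 := lt_of_mul_lt_mul_left k1 hn0.le
  have k4 := lt_of_mul_lt_mul_left k2 hn0.le
  obtain ⟨f1, f2⟩ := side_faces hp hD j
  rcases h5 with ⟨h5, h8⟩ | ⟨h5, h8⟩
  · rw [h5, face0] at f1
    have e : p j = c + (0, 1) := by ext <;> simp <;> omega
    rw [e] at f1
    exact hc' f1
  · rw [h5, face2] at f1
    have e : ((p j).1 - 1, (p j).2 - 1) = c := by ext <;> simp only <;> omega
    rw [e] at f1
    exact hc f1

theorem idx_eq [NeZero l] (hp : IsPolygon p) {i j : ℕ} (hi : i < l) (hj : j < l)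
    (h : p (j : ZMod l) = p (i : ZMod l)) : j = i := by
  have h1 := hp.2.1 h
  have h2 := congrArg ZMod.val h1
  rwa [ZMod.val_natCast_of_lt hj, ZMod.val_natCast_of_lt hi] at h2

/-- The squares of the cell outside of a side, far from the other three sides of the cell, are far
from all other sides. -/
theorem off_side [NeZero l] (hp : IsPolygon p) (hD : Encloses p S₀) {i j : ℕ} (hi : i < l)
    (hj : j < l) (hij : j ≠ i) {t D : ℤ} {v : ℤ × ℤ}
    (h1 : t - n + D ≤ lu (pdir p i) (lc (pdir p i) (vp p n i t) 0 1) v)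
    (h2 : lu (pdir p i) (lc (pdir p i) (vp p n i t) 0 1) v + D < t)
    (h3 : -1 ≤ lv (pdir p i) (lc (pdir p i) (vp p n i t) 0 1) v)
    (h4 : lv (pdir p i) (lc (pdir p i) (vp p n i t) 0 1) v + D + 1 < n) {σ : ℕ} (hσ : σ ≤ n) :
    D ≤ nm (v - vp p n j σ) := by
  by_contra hcc
  rw [not_le] at hcc
  obtain ⟨f1, -⟩ := side_faces hp hD j
  obtain ⟨-, g1⟩ := side_faces hp hD i
  obtain ⟨v0, v1, v2, v3⟩ := vp_eq (p := p) n i t
  have hidx : ¬ ((p j).1 = (p i).1 ∧ (p j).2 = (p i).2) := fun h =>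
    hij (idx_eq hp hi hj (Prod.ext h.1 h.2))
  rcases fin4_cases (pdir p i) with e | e | e | e
  · rw [v0 e, e] at h1 h2 h3 h4
    simp [lu, lv, lc] at h1 h2 h3 h4
    rw [e, show (0 : Fin 4) - 1 = 3 from rfl, face3] at g1
    obtain ⟨h5, h6⟩ := near_hor hσ (a := (p i).1) (by linarith) (by linarith) hcc
    rw [abs_lt] at h6
    have hn0 : (0 : ℤ) < n := by linarith
    have k1 : (n : ℤ) * ((p i).2 - 1) < n * (p j).2 := by linarith
    have k2 : (n : ℤ) * (p j).2 < n * ((p i).2 + 1) := by linarith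
    have k3 := lt_of_mul_lt_mul_left k1 hn0.le
    have k4 := lt_of_mul_lt_mul_left k2 hn0.le
    rcases h5 with ⟨h5, h8⟩ | ⟨h5, h8⟩
    · exact hidx ⟨by omega, by omega⟩
    · rw [h5, face2, show (p j).1 - 1 = (p i).1 by omega, show (p j).2 = (p i).2 by omega] at f1
      exact g1 f1
  · rw [v1 e, e] at h1 h2 h3 h4
    simp [lu, lv, lc] at h1 h2 h3 h4
    rw [e, show (1 : Fin 4) - 1 = 0 from rfl, face0] at g1
    obtain ⟨h5, h6⟩ := near_ver hσ (b := (p i).2) (by linarith) (by linarith) hcc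
    rw [abs_lt] at h6
    have hn0 : (0 : ℤ) < n := by linarith
    have k1 : (n : ℤ) * ((p i).1 - 1) < n * (p j).1 := by linarith
    have k2 : (n : ℤ) * (p j).1 < n * ((p i).1 + 1) := by linarith
    have k3 := lt_of_mul_lt_mul_left k1 hn0.le
    have k4 := lt_of_mul_lt_mul_left k2 hn0.le
    rcases h5 with ⟨h5, h8⟩ | ⟨h5, h8⟩
    · exact hidx ⟨by omega, by omega⟩
    · rw [h5, face3, show (p j).1 = (p i).1 by omega, show (p j).2 - 1 = (p i).2 by omega] at f1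
      exact g1 f1
  · rw [v2 e, e] at h1 h2 h3 h4
    simp [lu, lv, lc] at h1 h2 h3 h4
    rw [e, show (2 : Fin 4) - 1 = 1 from rfl, face1] at g1
    obtain ⟨h5, h6⟩ := near_hor hσ (a := (p i).1 - 1) (by linarith) (by linarith) hcc
    rw [abs_lt] at h6
    have hn0 : (0 : ℤ) < n := by linarith
    have k1 : (n : ℤ) * ((p i).2 - 1) < n * (p j).2 := by linarith
    have k2 : (n : ℤ) * (p j).2 < n * ((p i).2 + 1) := by linarith
    have k3 := lt_of_mul_lt_mul_left k1 hn0.le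
    have k4 := lt_of_mul_lt_mul_left k2 hn0.le
    rcases h5 with ⟨h5, h8⟩ | ⟨h5, h8⟩
    · rw [h5, face0] at f1
      have e2 : p j = ((p i).1 - 1, (p i).2) := Prod.ext (by simp only; omega) (by simp only; omega)
      rw [e2] at f1
      exact g1 f1
    · exact hidx ⟨by omega, by omega⟩
  · rw [v3 e, e] at h1 h2 h3 h4
    simp [lu, lv, lc] at h1 h2 h3 h4
    rw [e, show (3 : Fin 4) - 1 = 2 from rfl, face2] at g1
    obtain ⟨h5, h6⟩ := near_ver hσ (b := (p i).2 - 1) (by linarith) (by linarith) hcc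
    rw [abs_lt] at h6
    have hn0 : (0 : ℤ) < n := by linarith
    have k1 : (n : ℤ) * ((p i).1 - 1) < n * (p j).1 := by linarith
    have k2 : (n : ℤ) * (p j).1 < n * ((p i).1 + 1) := by linarith
    have k3 := lt_of_mul_lt_mul_left k1 hn0.le
    have k4 := lt_of_mul_lt_mul_left k2 hn0.le
    rcases h5 with ⟨h5, h8⟩ | ⟨h5, h8⟩
    · rw [h5, face1, show (p j).1 = (p i).1 by omega, show (p j).2 = (p i).2 - 1 by omega] at f1
      exact g1 f1
    · exact hidx ⟨by omega, by omega⟩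

/-- The squares of the column at a site are near to the site. -/
theorem col_near {i : ℕ} {t m : ℤ} {v : ℤ × ℤ}
    (h : v ∈ LQ (pdir p i) (lc (pdir p i) (vp p n i t) 0 1) (-m) m 0 (3 * m)) :
    nm (v - vp p n i t) ≤ 3 * m + 1 := by
  rw [mem_LQ] at h
  obtain ⟨⟨h1, h2⟩, h3, h4⟩ := h
  obtain ⟨v0, v1, v2, v3⟩ := vp_eq (p := p) n i t
  unfold nm
  rw [max_le_iff, abs_le, abs_le]
  rcases fin4_cases (pdir p i) with e | e | e | e
  · rw [v0 e, e] at h1 h2 h3 h4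
    rw [v0 e]
    simp [lu, lv, lc] at h1 h2 h3 h4 ⊢
    refine ⟨⟨?_, ?_⟩, ?_, ?_⟩ <;> linarith
  · rw [v1 e, e] at h1 h2 h3 h4
    rw [v1 e]
    simp [lu, lv, lc] at h1 h2 h3 h4 ⊢
    refine ⟨⟨?_, ?_⟩, ?_, ?_⟩ <;> linarith
  · rw [v2 e, e] at h1 h2 h3 h4
    rw [v2 e]
    simp [lu, lv, lc] at h1 h2 h3 h4 ⊢
    refine ⟨⟨?_, ?_⟩, ?_, ?_⟩ <;> linarith
  · rw [v3 e, e] at h1 h2 h3 h4
    rw [v3 e]
    simp [lu, lv, lc] at h1 h2 h3 h4 ⊢
    refine ⟨⟨?_, ?_⟩, ?_, ?_⟩ <;> linarith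

/-- The squares of the box at a site are near to the site. -/
theorem box_near {i : ℕ} {t m : ℤ} {v : ℤ × ℤ}
    (h : v ∈ Bq (lc (pdir p i) (vp p n i t) 0 1) m) : nm (v - vp p n i t) ≤ m + 1 := by
  unfold Bq at h
  rw [mem_product, mem_Ico, mem_Ico] at h
  obtain ⟨⟨h1, h2⟩, h3, h4⟩ := h
  obtain ⟨v0, v1, v2, v3⟩ := vp_eq (p := p) n i t
  unfold nm
  rw [max_le_iff, abs_le, abs_le]
  rcases fin4_cases (pdir p i) with e | e | e | e
  · rw [v0 e, e] at h1 h2 h3 h4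
    rw [v0 e]
    simp [lc] at h1 h2 h3 h4 ⊢
    refine ⟨⟨?_, ?_⟩, ?_, ?_⟩ <;> linarith
  · rw [v1 e, e] at h1 h2 h3 h4
    rw [v1 e]
    simp [lc] at h1 h2 h3 h4 ⊢
    refine ⟨⟨?_, ?_⟩, ?_, ?_⟩ <;> linarith
  · rw [v2 e, e] at h1 h2 h3 h4
    rw [v2 e]
    simp [lc] at h1 h2 h3 h4 ⊢
    refine ⟨⟨?_, ?_⟩, ?_, ?_⟩ <;> linarith
  · rw [v3 e, e] at h1 h2 h3 h4
    rw [v3 e]
    simp [lc] at h1 h2 h3 h4 ⊢
    refine ⟨⟨?_, ?_⟩, ?_, ?_⟩ <;> linarith

/-- A square of the box at the site in local coordinates. -/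
theorem box_lu {r : Fin 4} {z v : ℤ × ℤ} {m : ℤ} (h : v ∈ Bq z m) :
    -m ≤ lu r z v ∧ lu r z v < m := by
  unfold Bq at h
  rw [mem_product, mem_Ico, mem_Ico] at h
  obtain ⟨⟨h1, h2⟩, h3, h4⟩ := h
  rcases fin4_cases r with rfl | rfl | rfl | rfl <;> simp [lu] <;> omega

end off

/-! ### strips, centres and paths of cells -/

/-- The sizes. -/
structure Par (n w m D t : ℤ) : Prop where
  w0 : 0 ≤ w
  m1 : 2 ≤ m
  D1 : 3 * m + 4 ≤ D
  wD : 2 * (D + w + 2) ≤ n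
  t1 : D + 3 * m ≤ t
  t2 : t + D + 3 * m ≤ n

section path

variable {l : ℕ} {p : ZMod l → ℤ × ℤ} {n w m D t s : ℤ} {κ : ℕ} {A : Finset (ℤ × ℤ)}

theorem sqc_ok {c : ℤ × ℤ} {d : Bool} (w0 : 0 ≤ w) (hs : s ≤ 2 * w) (hκ : 2 * w ≤ κ * s)
    (hw : 2 * (D + w + 2) ≤ n) (hA : ∀ v, InC n c D v → v ∈ A) :
    (sqc n w c d).Ok s κ A := by
  have h0 : D + w + 2 ≤ n / 2 := by omega
  have h00 : 2 * (n / 2) ≤ n := by omega
  refine ⟨?_, ?_, ?_, fun v h1 h2 h3 h4 => hA v ?_⟩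
  · simp only [sqc]; linarith
  · simp only [sqc]; linarith
  · cases d <;> simp only [sqc] <;> simp <;> constructor <;> linarith
  · simp only [sqc] at h1 h2 h3 h4
    refine ⟨⟨?_, ?_⟩, ?_, ?_⟩ <;> linarith

/-- **The strip at a site and the centre of the cell.** -/
theorem strip {n : ℕ} {i : ℕ} (P : Par n w m D t) {a b p0 : ℤ}
    (hab : (a = 2 * m ∧ b = 3 * m) ∨ (a = -(3 * m) ∧ b = -(2 * m))) (h0 : 0 ≤ p0) (h1 : p0 ≤ 2 * m)
    (hs : s ≤ m) (hs' : s ≤ 2 * w) (hκ : 2 * (n : ℤ) ≤ κ * s)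
    (hA : ∀ v, a ≤ lu (pdir p i) (lc (pdir p i) (vp p n i t) 0 1) v →
      lu (pdir p i) (lc (pdir p i) (vp p n i t) 0 1) v < b →
      p0 ≤ lv (pdir p i) (lc (pdir p i) (vp p n i t) 0 1) v →
      lv (pdir p i) (lc (pdir p i) (vp p n i t) 0 1) v < n / 2 → v ∈ A)
    (hB : ∀ v, InC n (Enl.op p 1 i 0) D v → v ∈ A) :
    ∃ (V : ℤ) (L : List Crs), 3 * m ≤ V ∧
      Ch (LR (pdir p i) (lc (pdir p i) (vp p n i t) 0 1) false a b p0 V) L ∧
      lst (LR (pdir p i) (lc (pdir p i) (vp p n i t) 0 1) false a b p0 V) L =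
        sqc n w (Enl.op p 1 i 0) false ∧ L.length ≤ 3 ∧
      ∀ Y ∈ LR (pdir p i) (lc (pdir p i) (vp p n i t) 0 1) false a b p0 V :: L, Y.Ok s κ A := by
  obtain ⟨uc, vc, f, hu, hv, hsq⟩ := sqc_loc (p := p) n i t w
  obtain ⟨w0, m1, D1, wD, t1, t2⟩ := P
  have e0 : D + w + 2 ≤ (n : ℤ) / 2 := by omega
  have e00 : 2 * ((n : ℤ) / 2) ≤ n := by omega
  have e01 : (n : ℤ) ≤ 2 * ((n : ℤ) / 2) + 1 := by omega
  set r := pdir p i with hr
  set z := lc r (vp p n i t) 0 1 with hz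
  have hC : sqc n w (Enl.op p 1 i 0) f = LR r z false (uc - w) (uc + w) (vc - w) (vc + w) := by
    have := hsq false
    rwa [Bool.xor_false] at this
  have m1' : Mt (LR r z false a b p0 (vc + w))
      (LR r z true (min a (uc - w)) (max b (uc + w)) (vc - w) (vc + w)) :=
    (mt_LR (by omega) (by omega) (by omega) (by omega)).symm
  have m2' : Mt (LR r z true (min a (uc - w)) (max b (uc + w)) (vc - w) (vc + w))
      (sqc n w (Enl.op p 1 i 0) f) := by
    rw [hC]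
    exact mt_LR (by omega) (by omega) le_rfl le_rfl
  have o1 : (LR r z false a b p0 (vc + w)).Ok s κ A := by
    refine LR_ok (by omega) (by omega) ?_ fun v k1 k2 k3 k4 => ?_
    · rw [if_neg (by simp)]
      exact ⟨by omega, by omega⟩
    · by_cases hlv : lv r z v < n / 2
      · exact hA v k1 k2 k3 hlv
      · refine hB v (inC_loc (t := t) ?_ ?_ ?_ ?_) <;> rw [← hr, ← hz] <;> omega
  have o2 : (LR r z true (min a (uc - w)) (max b (uc + w)) (vc - w) (vc + w)).Ok s κ A := by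
    refine LR_ok (by omega) (by omega) ?_ fun v k1 k2 k3 k4 => ?_
    · rw [if_pos rfl]
      exact ⟨by omega, by omega⟩
    · refine hB v (inC_loc (t := t) ?_ ?_ ?_ ?_) <;> rw [← hr, ← hz] <;> omega
  have o3 : ∀ d, (sqc n w (Enl.op p 1 i 0) d).Ok s κ A := fun d =>
    sqc_ok w0 hs' (by omega) wD hB
  cases f
  · refine ⟨vc + w, [LR r z true (min a (uc - w)) (max b (uc + w)) (vc - w) (vc + w),
      sqc n w (Enl.op p 1 i 0) false], by omega, ⟨m1', m2', trivial⟩, rfl, by simp, ?_⟩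
    intro Y hY
    simp only [List.mem_cons, List.not_mem_nil, or_false] at hY
    rcases hY with rfl | rfl | rfl
    · exact o1
    · exact o2
    · exact o3 _
  · refine ⟨vc + w, [LR r z true (min a (uc - w)) (max b (uc + w)) (vc - w) (vc + w),
      sqc n w (Enl.op p 1 i 0) true, sqc n w (Enl.op p 1 i 0) false], by omega,
      ⟨m1', m2', sqc_mt true, trivial⟩, rfl, by simp, ?_⟩
    intro Y hY
    simp only [List.mem_cons, List.not_mem_nil, or_false] at hY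
    rcases hY with rfl | rfl | rfl | rfl
    · exact o1
    · exact o2
    · exact o3 _
    · exact o3 _

/-- One step of a path of cells. -/
theorem seg_step {c c' : ℤ × ℤ} (w0 : 0 ≤ w) (hw : 2 * (D + w + 2) ≤ n) (hD0 : 0 ≤ D)
    (hs' : s ≤ 2 * w) (hκ : 2 * n ≤ κ * s)
    (hadj : c' = c + (1, 0) ∨ c = c' + (1, 0) ∨ c' = c + (0, 1) ∨ c = c' + (0, 1))
    (hA : ∀ v, InC n c' D v → v ∈ A) (hA0 : ∀ v, InC n c D v → v ∈ A)
    (hH : ∀ c0 v : ℤ × ℤ, (c0 = c ∧ c0 + (1, 0) = c' ∨ c0 = c' ∧ c0 + (1, 0) = c) →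
      n * c0.1 + D ≤ v.1 → v.1 + D < n * c0.1 + 2 * n → n * c0.2 + D ≤ v.2 →
      v.2 + D < n * c0.2 + n → v ∈ A)
    (hV : ∀ c0 v : ℤ × ℤ, (c0 = c ∧ c0 + (0, 1) = c' ∨ c0 = c' ∧ c0 + (0, 1) = c) →
      n * c0.2 + D ≤ v.2 → v.2 + D < n * c0.2 + 2 * n → n * c0.1 + D ≤ v.1 →
      v.1 + D < n * c0.1 + n → v ∈ A) :
    ∃ L, Ch (sqc n w c false) L ∧ lst (sqc n w c false) L = sqc n w c' false ∧ L.length ≤ 4 ∧
      ∀ Y ∈ L, Y.Ok s κ A := by
  have e0 : D + w + 2 ≤ n / 2 := by omega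
  have e00 : 2 * (n / 2) ≤ n := by omega
  have o3 : ∀ d, (sqc n w c' d).Ok s κ A := fun d => sqc_ok w0 hs' (by omega) hw hA
  have o4 : ∀ d, (sqc n w c d).Ok s κ A := fun d => sqc_ok w0 hs' (by omega) hw hA0
  -- the horizontal step between `c0` and `c0 + (1, 0)`
  have HH : ∀ c0 : ℤ × ℤ, (c0 = c ∧ c0 + (1, 0) = c' ∨ c0 = c' ∧ c0 + (1, 0) = c) →
      ∃ L, Ch (sqc n w c false) L ∧ lst (sqc n w c false) L = sqc n w c' false ∧ L.length ≤ 4 ∧
        ∀ Y ∈ L, Y.Ok s κ A := by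
    intro c0 h0
    have hok : (Crs.mk true (n * c0.1 + n / 2 - w) (n * c0.1 + n + n / 2 + w)
        (n * c0.2 + n / 2 - w) (n * c0.2 + n / 2 + w)).Ok s κ A := by
      refine Crs.ok_H (by omega) (by omega) (by omega) (by omega) fun v a1 a2 a3 a4 => ?_
      exact hH c0 v h0 (by omega) (by omega) (by omega) (by omega)
    have mm : ∀ c1 : ℤ × ℤ, (c1 = c0 ∨ c1 = c0 + (1, 0)) → Mt (Crs.mk true (n * c0.1 + n / 2 - w)
        (n * c0.1 + n + n / 2 + w) (n * c0.2 + n / 2 - w) (n * c0.2 + n / 2 + w))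
        (sqc n w c1 false) := by
      intro c1 hc1
      left
      rcases hc1 with rfl | rfl
      · simp only [sqc]; refine ⟨trivial, trivial, ?_, ?_, ?_, ?_⟩ <;> omega
      · simp only [sqc, Prod.fst_add, Prod.snd_add, add_zero, mul_add, mul_one]
        refine ⟨trivial, trivial, ?_, ?_, ?_, ?_⟩ <;> omega
    refine ⟨[_, sqc n w c' false], ⟨(mm c ?_).symm, mm c' ?_, trivial⟩, rfl, by simp, ?_⟩
    · rcases h0 with ⟨h, h'⟩ | ⟨h, h'⟩
      · exact Or.inl h.symm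
      · exact Or.inr h'.symm
    · rcases h0 with ⟨h, h'⟩ | ⟨h, h'⟩
      · exact Or.inr h'.symm
      · exact Or.inl h.symm
    · intro Y hY
      simp only [List.mem_cons, List.not_mem_nil, or_false] at hY
      rcases hY with rfl | rfl
      · exact hok
      · exact o3 _
  have HV : ∀ c0 : ℤ × ℤ, (c0 = c ∧ c0 + (0, 1) = c' ∨ c0 = c' ∧ c0 + (0, 1) = c) →
      ∃ L, Ch (sqc n w c false) L ∧ lst (sqc n w c false) L = sqc n w c' false ∧ L.length ≤ 4 ∧
        ∀ Y ∈ L, Y.Ok s κ A := by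
    intro c0 h0
    have hok : (Crs.mk false (n * c0.1 + n / 2 - w) (n * c0.1 + n / 2 + w)
        (n * c0.2 + n / 2 - w) (n * c0.2 + n + n / 2 + w)).Ok s κ A := by
      refine Crs.ok_V (by omega) (by omega) (by omega) (by omega) fun v a1 a2 a3 a4 => ?_
      exact hV c0 v h0 (by omega) (by omega) (by omega) (by omega)
    have mm : ∀ c1 : ℤ × ℤ, (c1 = c0 ∨ c1 = c0 + (0, 1)) → Mt (Crs.mk false (n * c0.1 + n / 2 - w)
        (n * c0.1 + n / 2 + w) (n * c0.2 + n / 2 - w) (n * c0.2 + n + n / 2 + w))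
        (sqc n w c1 true) := by
      intro c1 hc1
      right
      rcases hc1 with rfl | rfl
      · simp only [sqc]; refine ⟨trivial, trivial, ?_, ?_, ?_, ?_⟩ <;> omega
      · simp only [sqc, Prod.fst_add, Prod.snd_add, add_zero, mul_add, mul_one]
        refine ⟨trivial, trivial, ?_, ?_, ?_, ?_⟩ <;> omega
    refine ⟨[sqc n w c true, _, sqc n w c' true, sqc n w c' false],
      ⟨sqc_mt false, (mm c ?_).symm, mm c' ?_, sqc_mt true, trivial⟩, rfl, by simp, ?_⟩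
    · rcases h0 with ⟨h, h'⟩ | ⟨h, h'⟩
      · exact Or.inl h.symm
      · exact Or.inr h'.symm
    · rcases h0 with ⟨h, h'⟩ | ⟨h, h'⟩
      · exact Or.inr h'.symm
      · exact Or.inl h.symm
    · intro Y hY
      simp only [List.mem_cons, List.not_mem_nil, or_false] at hY
      rcases hY with rfl | rfl | rfl | rfl
      · exact o4 _
      · exact hok
      · exact o3 _
      · exact o3 _
  rcases hadj with h | h | h | h
  · exact HH c (Or.inl ⟨rfl, h.symm⟩)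
  · exact HH c' (Or.inr ⟨rfl, h.symm⟩)
  · exact HV c (Or.inl ⟨rfl, h.symm⟩)
  · exact HV c' (Or.inr ⟨rfl, h.symm⟩)

/-- **A path of cells gives a chain of rectangles.** -/
theorem path {S : Finset (ℤ × ℤ)} {c : ℕ → ℤ × ℤ} {k : ℕ} (h : CP S c k) (w0 : 0 ≤ w)
    (hw : 2 * (D + w + 2) ≤ n) (hD0 : 0 ≤ D) (hs' : s ≤ 2 * w) (hκ : 2 * n ≤ κ * s)
    (hA : ∀ i ≤ k, ∀ v, InC n (c i) D v → v ∈ A)
    (hH : ∀ i < k, ∀ c0 v : ℤ × ℤ,
      (c0 = c i ∧ c0 + (1, 0) = c (i + 1) ∨ c0 = c (i + 1) ∧ c0 + (1, 0) = c i) →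
      n * c0.1 + D ≤ v.1 → v.1 + D < n * c0.1 + 2 * n → n * c0.2 + D ≤ v.2 →
      v.2 + D < n * c0.2 + n → v ∈ A)
    (hV : ∀ i < k, ∀ c0 v : ℤ × ℤ,
      (c0 = c i ∧ c0 + (0, 1) = c (i + 1) ∨ c0 = c (i + 1) ∧ c0 + (0, 1) = c i) →
      n * c0.2 + D ≤ v.2 → v.2 + D < n * c0.2 + 2 * n → n * c0.1 + D ≤ v.1 →
      v.1 + D < n * c0.1 + n → v ∈ A) :
    ∀ j ≤ k, ∃ L, Ch (sqc n w (c 0) false) L ∧ lst (sqc n w (c 0) false) L = sqc n w (c j) false ∧
      L.length ≤ 4 * j ∧ ∀ Y ∈ L, Y.Ok s κ A := by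
  intro j
  induction j with
  | zero => exact fun _ => ⟨[], trivial, rfl, by simp, fun Y hY => by simp at hY⟩
  | succ j ih =>
    intro hj
    obtain ⟨L, h1, h2, h3, h4⟩ := ih (by omega)
    obtain ⟨L', k1, k2, k3, k4⟩ := seg_step w0 hw hD0 hs' hκ (h.adj j (by omega))
      (hA (j + 1) hj) (hA j (by omega)) (hH j (by omega)) (hV j (by omega))
    refine ⟨L ++ L', ch_app L _ L' h1 (by rw [h2]; exact k1), ?_, ?_, fun Y hY => ?_⟩
    · rw [lst_app, h2, k2]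
    · rw [List.length_append]
      omega
    · rw [List.mem_append] at hY
      rcases hY with hY | hY
      · exact h4 Y hY
      · exact k4 Y hY

end path

end Vale.Agent.P167.H433
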