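import Vale.Agent.P167.H433.PsDef

/-!
# P167, block ID, (P2S): squares far from the sides of the polygon

`FarP p n G v`: the square `v` is at distance `≥ G` from the sides of the enlargement. `farP_cell`,
`farP_hor`, `farP_ver`: the squares of a cell, of two neighbour cells off the polygon. `enl_cell`.
-/

set_option autoImplicit false

namespace Vale.Agent.P167.N.ID

open Finset
open Vale.Agent.P167.E6 (IsPolygon Encloses dir face)
open Vale.Agent.P167.H825 (pdir enl)
open Vale.Agent.P167.Enl (vp vz)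

variable {l : ℕ} {p : ZMod l → ℤ × ℤ} {S₀ : Finset (ℤ × ℤ)} {n : ℕ}

/-- Far from the sides of the polygon. -/
def FarP (p : ZMod l → ℤ × ℤ) (n : ℕ) (G : ℤ) (v : ℤ × ℤ) : Prop :=
  ∀ i < l, ∀ σ : ℕ, σ ≤ n → G ≤ nm (v - vp p n i σ)

theorem FarP.mono {G G' : ℤ} {v : ℤ × ℤ} (h : FarP p n G v) (hG : G' ≤ G) : FarP p n G' v :=
  fun i hi σ hσ => hG.trans (h i hi σ hσ)

theorem ps_vp (p : ZMod l → ℤ × ℤ) (n i σ : ℕ) : vp p n i σ =
    (n * (p i).1 + σ * (dir (pdir p i)).1, n * (p i).2 + σ * (dir (pdir p i)).2) := by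
  unfold vp vz
  ext <;> simp

/-- Off a grid line. -/
theorem ps_far {n : ℕ} {K x c m y : ℤ} (h1 : n * c + K ≤ x) (h2 : x + K ≤ n * (c + m))
    (h : y ≤ n * c ∨ n * (c + m) ≤ y) : K ≤ |x - y| := by
  rcases h with h | h
  · exact (by linarith : K ≤ x - y).trans (le_abs_self _)
  · exact (by linarith : K ≤ -(x - y)).trans (neg_le_abs _)

theorem ps_grid {n : ℕ} {c a : ℤ} : (n : ℤ) * a ≤ n * c ∨ (n : ℤ) * (c + 1) ≤ n * a := by
  rcases le_or_gt a c with h | h
  · exact Or.inl (mul_le_mul_of_nonneg_left h (by positivity))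
  · exact Or.inr (mul_le_mul_of_nonneg_left (by omega) (by positivity))

theorem ps_grid2 {n : ℕ} {c a : ℤ} (h : a ≠ c + 1) :
    (n : ℤ) * a ≤ n * c ∨ (n : ℤ) * (c + 2) ≤ n * a := by
  rcases le_or_gt a c with h' | h'
  · exact Or.inl (mul_le_mul_of_nonneg_left h' (by positivity))
  · exact Or.inr (mul_le_mul_of_nonneg_left (by omega) (by positivity))

/-- A point of a unit side which is not `[n c, n (c + 1)]`. -/
theorem ps_up {n σ : ℕ} {c b : ℤ} (hσ : σ ≤ n) (h : b ≠ c) :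
    (n : ℤ) * b + σ ≤ n * c ∨ (n : ℤ) * (c + 1) ≤ n * b + σ := by
  have hs : (σ : ℤ) ≤ n := by exact_mod_cast hσ
  have hs0 : (0 : ℤ) ≤ σ := by positivity
  rcases lt_or_gt_of_ne h with h' | h'
  · have : (n : ℤ) * (b + 1) ≤ n * c := mul_le_mul_of_nonneg_left (by omega) (by positivity)
    exact Or.inl (by linarith)
  · have : (n : ℤ) * (c + 1) ≤ n * b := mul_le_mul_of_nonneg_left (by omega) (by positivity)
    exact Or.inr (by linarith)

theorem ps_dn {n σ : ℕ} {c b : ℤ} (hσ : σ ≤ n) (h : b ≠ c + 1) :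
    (n : ℤ) * b + -σ ≤ n * c ∨ (n : ℤ) * (c + 1) ≤ n * b + -σ := by
  have hs : (σ : ℤ) ≤ n := by exact_mod_cast hσ
  have hs0 : (0 : ℤ) ≤ σ := by positivity
  rcases lt_or_gt_of_ne h with h' | h'
  · have : (n : ℤ) * b ≤ n * c := mul_le_mul_of_nonneg_left (by omega) (by positivity)
    exact Or.inl (by linarith)
  · have : (n : ℤ) * (c + 2) ≤ n * b := mul_le_mul_of_nonneg_left (by omega) (by positivity)
    exact Or.inr (by linarith)

/-- The squares of one cell. -/
theorem farP_cell {c v : ℤ × ℤ} {K : ℤ} (h1 : n * c.1 + K ≤ v.1) (h2 : v.1 + K ≤ n * (c.1 + 1))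
    (h3 : n * c.2 + K ≤ v.2) (h4 : v.2 + K ≤ n * (c.2 + 1)) : FarP p n K v := by
  intro i _ σ _
  rw [ps_vp]
  unfold nm
  obtain ⟨r, hr⟩ : ∃ r, r = pdir p i := ⟨_, rfl⟩
  rw [← hr]
  have hx : ∀ y : ℤ, y = n * (p (i : ZMod l)).1 → K ≤ |v.1 - y| := by
    rintro y rfl
    exact ps_far h1 h2 ps_grid
  have hy : ∀ y : ℤ, y = n * (p (i : ZMod l)).2 → K ≤ |v.2 - y| := by
    rintro y rfl
    exact ps_far h3 h4 ps_grid
  fin_cases r
  · exact le_max_of_le_right (hy _ (by simp [dir]))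
  · exact le_max_of_le_left (hx _ (by simp [dir]))
  · exact le_max_of_le_right (hy _ (by simp [dir]))
  · exact le_max_of_le_left (hx _ (by simp [dir]))

/-- The squares of two cells side by side. -/
theorem farP_hor (hp : IsPolygon p) (hD : Encloses p S₀) {c v : ℤ × ℤ} (hc : c ∉ S₀)
    (hc' : c + (1, 0) ∉ S₀) {K : ℤ} (h1 : n * c.1 + K ≤ v.1) (h2 : v.1 + K ≤ n * (c.1 + 2))
    (h3 : n * c.2 + K ≤ v.2) (h4 : v.2 + K ≤ n * (c.2 + 1)) : FarP p n K v := by
  intro i _ σ hσ
  have hin := ((hD (p i) (pdir p i)).1 ⟨i, rfl, Enl.pdir_step hp i⟩).1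
  rw [ps_vp]
  unfold nm
  obtain ⟨r, hr⟩ : ∃ r, r = pdir p i := ⟨_, rfl⟩
  rw [← hr] at hin ⊢
  have hx : (p (i : ZMod l)).1 ≠ c.1 + 1 → ∀ y : ℤ, y = n * (p (i : ZMod l)).1 →
      K ≤ |v.1 - y| := by
    rintro hne y rfl
    exact ps_far h1 h2 (ps_grid2 hne)
  have hy : ∀ y : ℤ, y = n * (p (i : ZMod l)).2 → K ≤ |v.2 - y| := by
    rintro y rfl
    exact ps_far h3 h4 ps_grid
  obtain ⟨w, hw⟩ : ∃ w, w = p (i : ZMod l) := ⟨_, rfl⟩
  rw [← hw] at hin hx hy ⊢
  fin_cases r
  · exact le_max_of_le_right (hy _ (by simp [dir]))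
  · by_cases hne : w.1 = c.1 + 1
    · have hb : w.2 ≠ c.2 := by
        intro hb
        refine hc ?_
        have : face w 1 = c := by
          unfold face
          ext <;> simp <;> omega
        rw [← this]
        exact hin
      have := ps_far (m := 1) (x := v.2) h3 h4 (ps_up (n := n) hσ hb)
      exact le_max_of_le_right (by simpa [dir] using this)
    · exact le_max_of_le_left (hx hne _ (by simp [dir]))
  · exact le_max_of_le_right (hy _ (by simp [dir]))
  · by_cases hne : w.1 = c.1 + 1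
    · have hb : w.2 ≠ c.2 + 1 := by
        intro hb
        refine hc' ?_
        have : face w 3 = c + (1, 0) := by
          unfold face
          ext <;> simp <;> omega
        rw [← this]
        exact hin
      have := ps_far (m := 1) (x := v.2) h3 h4 (ps_dn (n := n) hσ hb)
      exact le_max_of_le_right (by simpa [dir] using this)
    · exact le_max_of_le_left (hx hne _ (by simp [dir]))

/-- The squares of two cells, one above the other. -/
theorem farP_ver (hp : IsPolygon p) (hD : Encloses p S₀) {c v : ℤ × ℤ} (hc : c ∉ S₀)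
    (hc' : c + (0, 1) ∉ S₀) {K : ℤ} (h1 : n * c.1 + K ≤ v.1) (h2 : v.1 + K ≤ n * (c.1 + 1))
    (h3 : n * c.2 + K ≤ v.2) (h4 : v.2 + K ≤ n * (c.2 + 2)) : FarP p n K v := by
  intro i _ σ hσ
  have hin := ((hD (p i) (pdir p i)).1 ⟨i, rfl, Enl.pdir_step hp i⟩).1
  rw [ps_vp]
  unfold nm
  obtain ⟨r, hr⟩ : ∃ r, r = pdir p i := ⟨_, rfl⟩
  rw [← hr] at hin ⊢
  have hy : (p (i : ZMod l)).2 ≠ c.2 + 1 → ∀ y : ℤ, y = n * (p (i : ZMod l)).2 →
      K ≤ |v.2 - y| := by
    rintro hne y rfl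
    exact ps_far h3 h4 (ps_grid2 hne)
  have hx : ∀ y : ℤ, y = n * (p (i : ZMod l)).1 → K ≤ |v.1 - y| := by
    rintro y rfl
    exact ps_far h1 h2 ps_grid
  obtain ⟨w, hw⟩ : ∃ w, w = p (i : ZMod l) := ⟨_, rfl⟩
  rw [← hw] at hin hx hy ⊢
  fin_cases r
  · by_cases hne : w.2 = c.2 + 1
    · have hb : w.1 ≠ c.1 := by
        intro hb
        refine hc' ?_
        have : face w 0 = c + (0, 1) := by
          unfold face
          ext <;> simp <;> omega
        rw [← this]
        exact hin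
      have := ps_far (m := 1) (x := v.1) h1 h2 (ps_up (n := n) hσ hb)
      exact le_max_of_le_left (by simpa [dir] using this)
    · exact le_max_of_le_right (hy hne _ (by simp [dir]))
  · exact le_max_of_le_left (hx _ (by simp [dir]))
  · by_cases hne : w.2 = c.2 + 1
    · have hb : w.1 ≠ c.1 + 1 := by
        intro hb
        refine hc ?_
        have : face w 2 = c := by
          unfold face
          ext <;> simp <;> omega
        rw [← this]
        exact hin
      have := ps_far (m := 1) (x := v.1) h1 h2 (ps_dn (n := n) hσ hb)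
      exact le_max_of_le_left (by simpa [dir] using this)
    · exact le_max_of_le_right (hy hne _ (by simp [dir]))
  · exact le_max_of_le_left (hx _ (by simp [dir]))

/-- The squares of a cell outside. -/
theorem enl_cell {c v : ℤ × ℤ} (hc : c ∉ S₀) (h1 : n * c.1 ≤ v.1) (h2 : v.1 < n * (c.1 + 1))
    (h3 : n * c.2 ≤ v.2) (h4 : v.2 < n * (c.2 + 1)) : v ∉ enl S₀ n := by
  have hn' : (0 : ℤ) < n := by
    by_contra h
    have h0 : (n : ℤ) = 0 := by omega
    rw [h0] at h1 h2
    omega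
  have hn : 0 < n := by exact_mod_cast hn'
  rw [Enl.mem_enl_div hn]
  have e1 : v.1 / n = c.1 := le_antisymm
    (Int.lt_add_one_iff.1 ((Int.ediv_lt_iff_lt_mul hn').2 (by linarith)))
    ((Int.le_ediv_iff_mul_le hn').2 (by linarith))
  have e2 : v.2 / n = c.2 := le_antisymm
    (Int.lt_add_one_iff.1 ((Int.ediv_lt_iff_lt_mul hn').2 (by linarith)))
    ((Int.le_ediv_iff_mul_le hn').2 (by linarith))
  rwa [e1, e2]

end Vale.Agent.P167.N.ID
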