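import Vale.Agent.P167.H433.PsDef
import Vale.Agent.P167.N.ID.FrmG
import Vale.Agent.P167.N.ID.PhB

/-!
# P167, block ID, (P2S): the special points and the factors of the frames

* `PolN`: the parameters of a polygon at one scale; `polN_of`, `dobN_of`: they exist.
* `Tj_frP`, `Tj_frD`: the factors off the holes.
-/

set_option autoImplicit false

namespace Vale.Agent.P167.N.ID

open Finset Filter Topology
open Vale.Agent.P167.FK (Bq)
open Vale.Agent.P167.E6 (IsPolygon Encloses dir face region)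
open Vale.Agent.P167.H825 (pdir ptau enl domP Box dirOf Marks FlowIn epos rnd bsite)
open Vale.Agent.P167.H825.Q (srow Bc mem_srow stΦ stτ stτ_or jpos osq srow_L Cst)
open Vale.Agent.P167.H662 (hsite)
open Vale.Agent.P167.H199 (mks Gap exists_Gap c0)
open Vale.Agent.P167.H680.T (uI mem_uI par)
open Vale.Agent.P167.H433 (lc LR LQ Flat3 Fre FreD zP zA zB)
open Vale.Agent.P167.Enl (sW eW tB kOf uN lt_n BGap exists_BGap vp rb_of RB uN_kOf ptau_l kOf_lt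
  kOf_lt_kOf stΦ_eq stΦ_eq' dob_lt gn_big fin4_cases theta_mono)

variable {l : ℕ} {p : ZMod l → ℤ × ℤ} {S₀ : Finset (ℤ × ℤ)} {b : Box} {tp : ℝ} {bc : Bc}
  {ia : ℕ} {ta : ℝ} {θ β g δ : ℝ} {n : ℕ}

/-! ### the parameters -/

/-- **The parameters of a polygon at one scale.** -/
structure PolN (p : ZMod l → ℤ × ℤ) (S₀ : Finset (ℤ × ℤ)) (b : Box) (tp : ℝ) (bc : Bc)
    (g δ : ℝ) (n : ℕ) : Prop where
  hp : IsPolygon p
  hD : Encloses p S₀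
  hN : Nrm p
  hQ : (mks p b tp).Ok
  hg : Gap (mks p b tp) l g
  hbg : BGap l (mks p b tp) g bc
  hδ : 0 < δ
  hδg : 4 * δ ≤ g
  hn : 16 ≤ δ * n

theorem gap_le_one {Q : Marks} (hQ : Q.Ok) (hl : 0 < l) (hg : Gap Q l g) : g ≤ 1 := by
  have a1 := hg.1 0 hl 0 (Nat.zero_le _)
  have a2 := Enl.theta_nonneg hQ 0 (j := 0) (by omega)
  have a3 := Enl.theta_le_one hQ 0 (j := 0 + 1) (by omega)
  linarith

theorem polN_of (hp : IsPolygon p) (hD : Encloses p S₀) (hN : Nrm p) (hb : b.Ok S₀) (h0 : 0 < tp)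
    (h1 : tp < 1)
    (ht : ∀ i : ℤ, ∀ y ∈ ({b.xl, b.xr, b.yb, b.yt} : Set ℝ), y ≠ i + tp ∧ y ≠ i - tp)
    (hbc : bc.Ok l (mks p b tp)) : ∃ g : ℝ, 0 < g ∧ g ≤ 1 ∧ ∀ g' : ℝ, 0 < g' → g' ≤ g →
      ∀ δ : ℝ, 0 < δ → 4 * δ ≤ g' → ∀ᶠ n : ℕ in atTop, PolN p S₀ b tp bc g' δ n := by
  have hgen : H199.Gen b := ⟨hb.gx, hb.gy⟩
  have hl : 0 < l := by have := hp.1; omega
  have hQ := H199.mks_ok p hgen h0 h1 ht
  obtain ⟨g1, hg1, hG⟩ := exists_Gap hQ l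
  obtain ⟨g2, hg2, hB⟩ := exists_BGap hbc
  refine ⟨min g1 g2, lt_min hg1 hg2, (min_le_left _ _).trans (gap_le_one hQ hl hG),
    fun g' _ hg' δ hδ hδg => ?_⟩
  filter_upwards [(tendsto_natCast_atTop_atTop.const_mul_atTop hδ).eventually_ge_atTop (16 : ℝ)]
    with n hn
  exact ⟨hp, hD, hN, hQ, hG.mono (hg'.trans (min_le_left _ _)),
    hB.mono (hg'.trans (min_le_right _ _)), hδ, hδg, hn⟩

theorem dobN_of (hp : IsPolygon p) (hD : Encloses p S₀) (hN : Nrm p) (hb : b.Ok S₀) (h0 : 0 < tp)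
    (h1 : tp < 1)
    (ht : ∀ i : ℤ, ∀ y ∈ ({b.xl, b.xr, b.yb, b.yt} : Set ℝ), y ≠ i + tp ∧ y ≠ i - tp)
    (hbc : (Bc.dob ia ta).Ok l (mks p b tp)) : ∃ g : ℝ, 0 < g ∧ g ≤ 1 ∧ ∀ g' : ℝ, 0 < g' → g' ≤ g →
      ∀ δ : ℝ, 0 < δ → 4 * δ ≤ g' → ∀ᶠ n : ℕ in atTop, DobN p S₀ b tp g' δ n ∧
        BGap l (mks p b tp) g' (.dob ia ta) := by
  obtain ⟨g1, hg1, hG, -, hH⟩ := exists_dobN hp hD hN hb h0 h1 ht
  obtain ⟨g2, hg2, hB⟩ := exists_BGap hbc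
  have hl : 0 < l := by have := hp.1; omega
  have hQ := H199.mks_ok p (⟨hb.gx, hb.gy⟩ : H199.Gen b) h0 h1 ht
  refine ⟨min g1 g2, lt_min hg1 hg2, (min_le_left _ _).trans (gap_le_one hQ hl hG),
    fun g' h0' hg' δ hδ hδg => ?_⟩
  filter_upwards [hH g' h0' (hg'.trans (min_le_left _ _)) δ hδ hδg] with n hn
  exact ⟨hn, hB.mono (hg'.trans (min_le_right _ _))⟩

/-- The polygon of a Dobrushin frame. -/
theorem DobN.pol (H : DobN p S₀ b tp g δ n) (hbg : BGap l (mks p b tp) g bc) :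
    PolN p S₀ b tp bc g δ n := ⟨H.hp, H.hD, H.hN, H.hQ, H.hg, hbg, H.hδ, H.hδg, H.hn⟩

/-! ### rows along a side -/

theorem lc01 (r : Fin 4) (v : ℤ × ℤ) : lc r v 0 1 = v + dir (r - 1) := by
  obtain ⟨x, y⟩ := v
  rcases fin4_cases r with rfl | rfl | rfl | rfl
  · show ((x - 0, y - 1) : ℤ × ℤ) = (x, y) + (0, -1)
    simp [sub_eq_add_neg]
  · show ((x + 1, y - 0) : ℤ × ℤ) = (x, y) + (1, 0)
    simp
  · show ((x + 0, y + 1) : ℤ × ℤ) = (x, y) + (0, 1)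
    simp
  · show ((x - 1, y + 0) : ℤ × ℤ) = (x, y) + (-1, 0)
    simp [sub_eq_add_neg]

section side

variable {J : Bool} {z : ℤ × ℤ} {r : Fin 4} {s e jp : ℕ} {F T : ℕ → ℝ}

/-- **The site of the special point** of a row along a side with a negative jump is outside. -/
theorem srowJ_zm (hs : s ≤ jp) (he : jp ≤ e) (hF : F (e - 1) < F s) :
    (srowJ θ J z r s e jp F T).zm = lc r (z + (jp : ℤ) • dir r) 0 1 := by
  rw [lc01]
  show (srowJ θ J z r s e jp F T).st (srowJ θ J z r s e jp F T).kf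
    (srowJ θ J z r s e jp F T).k0 = _
  obtain ⟨x, y⟩ := z
  obtain ⟨s0, s1, s2, s3⟩ := sdv_eq x y false jp
  simp only [Bool.false_eq_true, if_false] at s0 s1 s2 s3
  have d1 : ¬ 0 < F (e - 1) - hJ θ J - (F s - hJ θ J) := by linarith
  have d2 : 0 < F s - hJ θ J - (F (e - 1) - hJ θ J) := by linarith
  rcases fin4_cases r with rfl | rfl | rfl | rfl
  · have e1 : (srowJ θ J (x, y) 0 s e jp F T).kf = false := by
      show (if 0 < F (e - 1) - hJ θ J - (F s - hJ θ J) then _ else !true) = false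
      rw [if_neg d1]
      rfl
    rw [e1]
    refine Eq.trans ?_ s0.symm
    show ((x + (s : ℤ) + ((jp - s : ℕ) : ℤ), y - 1 + 0) : ℤ × ℤ) = _
    rw [Prod.mk.injEq]
    omega
  · have e1 : (srowJ θ J (x, y) 1 s e jp F T).kf = true := by
      show (if 0 < F (e - 1) - hJ θ J - (F s - hJ θ J) then _ else !false) = true
      rw [if_neg d1]
      rfl
    rw [e1]
    refine Eq.trans ?_ s1.symm
    show ((x + 1, y + (s : ℤ) + ((jp - s : ℕ) : ℤ)) : ℤ × ℤ) = _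
    rw [Prod.mk.injEq]
    omega
  · have e1 : (srowJ θ J (x, y) 2 s e jp F T).kf = true := by
      show (if 0 < F s - hJ θ J - (F (e - 1) - hJ θ J) then true else _) = true
      rw [if_pos d2]
    rw [e1]
    refine Eq.trans ?_ s2.symm
    show ((x - (e : ℤ) + ((e - jp : ℕ) : ℤ), y + 1) : ℤ × ℤ) = _
    rw [Prod.mk.injEq]
    omega
  · have e1 : (srowJ θ J (x, y) 3 s e jp F T).kf = false := by
      show (if 0 < F s - hJ θ J - (F (e - 1) - hJ θ J) then false else _) = false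
      rw [if_pos d2]
    rw [e1]
    refine Eq.trans ?_ s3.symm
    show ((x - 1 + 0, y - (e : ℤ) + ((e - jp : ℕ) : ℤ)) : ℤ × ℤ) = _
    rw [Prod.mk.injEq]
    omega

theorem srowJ_η : (srowJ θ J z r s e jp F T).η = T s * T (e - 1) := by
  rcases fin4_cases r with rfl | rfl | rfl | rfl <;> rfl

theorem srowJ_j : (srowJ θ J z r s e jp F T).j = F (e - 1) - F s ∨
    (srowJ θ J z r s e jp F T).j = -(F (e - 1) - F s) := by
  have h1 : F (e - 1) - hJ θ J - (F s - hJ θ J) = F (e - 1) - F s := by ring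
  have h2 : F s - hJ θ J - (F (e - 1) - hJ θ J) = -(F (e - 1) - F s) := by ring
  rcases fin4_cases r with rfl | rfl | rfl | rfl
  · exact Or.inl h1
  · exact Or.inl h1
  · exact Or.inr h2
  · exact Or.inr h2

theorem srowJ_plain (hF : F s = F (e - 1)) (hT : T s = T (e - 1)) (h1 : T s * T s = 1) :
    (srowJ θ J z r s e jp F T).Plain := by
  refine ⟨?_, ?_⟩
  · rcases srowJ_j (θ := θ) (J := J) (z := z) (r := r) (s := s) (e := e) (jp := jp) (F := F)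
      (T := T) with h | h
    · rw [h, hF, sub_self]
    · rw [h, hF, sub_self, neg_zero]
  · rw [srowJ_η, ← hT, h1]

end side

/-! ### the phases and colours at the ends of the rows of a polygon -/

section ends

variable {t s e i : ℕ} {C c : ℝ}

theorem fJ_same {ka : ℕ} (hi : i < l) (ht : t < n) (hs : s < n)
    (he : e - 1 < n) (h1 : t ≤ i * n + s ↔ t ≤ i * n + (e - 1))
    (h2 : kOf l n t i s < ka ↔ kOf l n t i (e - 1) < ka) :
    fJ θ β C p n t ka i s = fJ θ β C p n t ka i (e - 1) ∧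
      tJ c l n t ka i s = tJ c l n t ka i (e - 1) := by
  have h3 : uN p n t (kOf l n t i s) = uN p n t (kOf l n t i (e - 1)) := by
    rw [uN_kOf hi ht hs, uN_kOf hi ht he]
    by_cases h : t ≤ i * n + s
    · rw [if_pos h, if_pos (h1.1 h)]
    · rw [if_neg h, if_neg fun h' => h (h1.2 h')]
  unfold fJ tJ
  by_cases h : kOf l n t i s < ka
  · have a1 := stΦ_eq (θ := θ) (β := β) (u := uN p n t) h
    have a2 := stΦ_eq (θ := θ) (β := β) (u := uN p n t) (h2.1 h)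
    rw [a1.1, a1.2, a2.1, a2.2, h3]
    exact ⟨rfl, rfl⟩
  · have h' : ¬ kOf l n t i (e - 1) < ka := fun h' => h (h2.2 h')
    have a1 := stΦ_eq' (θ := θ) (β := β) (u := uN p n t) h
    have a2 := stΦ_eq' (θ := θ) (β := β) (u := uN p n t) h'
    rw [a1.1, a1.2, a2.1, a2.2, h3]
    exact ⟨rfl, rfl⟩

/-- The directions before and after the base. -/
theorem uN_base (hp : IsPolygon p) (hD : Encloses p S₀) (hl : 0 < l) (ht : t < n) (hs : s < n)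
    (he : e - 1 < n) (r5 : s < t) (r6 : t < e) :
    uN p n t (kOf l n t 0 s) = (((pdir p 0).val : ℕ) : ℤ) + 4 ∧
      uN p n t (kOf l n t 0 (e - 1)) = (((pdir p 0).val : ℕ) : ℤ) := by
  constructor
  · have := uN_kOf (p := p) hl ht hs
    rw [if_neg (by omega), add_zero, ptau_l hp hD] at this
    exact this
  · have := uN_kOf (p := p) hl ht he
    rw [if_pos (by omega)] at this
    rw [this]
    show _ + ptau p 0 = _
    have : ptau p 0 = 0 := rfl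
    rw [this, add_zero]

/-- The base of the free and wired boundary conditions. -/
theorem fJ_base (hp : IsPolygon p) (hD : Encloses p S₀) (hbc : bc = .free ∨ bc = .wired)
    (hl : 0 < l) (ht : t < n) (hs : s < n) (he : e - 1 < n) (r5 : s < t) (r6 : t < e) :
    fJ θ β C p n t (bc.ka l n t) 0 (e - 1) = fJ θ β C p n t (bc.ka l n t) 0 s - θ ∧
      tJ c l n t (bc.ka l n t) 0 s = tJ c l n t (bc.ka l n t) 0 (e - 1) := by
  obtain ⟨u1, u2⟩ := uN_base hp hD hl ht hs he r5 r6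
  unfold fJ tJ
  rcases hbc with rfl | rfl
  · have a1 := stΦ_eq (θ := θ) (β := β) (u := uN p n t) (kOf_lt hl hs ht)
    have a2 := stΦ_eq (θ := θ) (β := β) (u := uN p n t) (kOf_lt hl he ht)
    show C + stΦ θ β (uN p n t) (l * n) _ = C + stΦ θ β (uN p n t) (l * n) _ - θ ∧
      c * stτ (l * n) _ = c * stτ (l * n) _
    rw [a1.1, a1.2, a2.1, a2.2, u1, u2]
    refine ⟨?_, rfl⟩
    push_cast
    ring
  · have a1 := stΦ_eq' (θ := θ) (β := β) (u := uN p n t) (Nat.not_lt_zero (kOf l n t 0 s))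
    have a2 := stΦ_eq' (θ := θ) (β := β) (u := uN p n t) (Nat.not_lt_zero (kOf l n t 0 (e - 1)))
    show C + stΦ θ β (uN p n t) 0 _ = C + stΦ θ β (uN p n t) 0 _ - θ ∧
      c * stτ 0 _ = c * stτ 0 _
    rw [a1.1, a1.2, a2.1, a2.2, u1, u2]
    refine ⟨?_, rfl⟩
    push_cast
    ring

/-- The base of the Dobrushin boundary conditions. -/
theorem fJ_dob (hp : IsPolygon p) (hD : Encloses p S₀) (hl : 0 < l) (ht : t < n) (hs : s < n)
    (he : e - 1 < n) (r5 : s < t) (r6 : t < e) (k1 : 0 < ia) (k2 : ia < l) (k3 : 0 < ta)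
    (k4 : ta < 1) :
    fJ θ β C p n t ((Bc.dob ia ta).ka l n t) 0 (e - 1) =
      fJ θ β C p n t ((Bc.dob ia ta).ka l n t) 0 s - (β + θ) ∧
      tJ c l n t ((Bc.dob ia ta).ka l n t) 0 s = -tJ c l n t ((Bc.dob ia ta).ka l n t) 0 (e - 1) := by
  obtain ⟨u1, u2⟩ := uN_base hp hD hl ht hs he r5 r6
  have h6 := dob_lt (n := n) k3 k4 (by omega)
  have h7 : 1 * n ≤ ia * n := Nat.mul_le_mul_right n k1
  have b1 : ¬ kOf l n t 0 s < kOf l n t ia ⌊ta * n⌋₊ := by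
    rw [kOf_lt_kOf hl ht hs k1 k2 h6]
    omega
  have b2 : kOf l n t 0 (e - 1) < kOf l n t ia ⌊ta * n⌋₊ := by
    rw [kOf_lt_kOf hl ht he k1 k2 h6]
    omega
  have a1 := stΦ_eq' (θ := θ) (β := β) (u := uN p n t) b1
  have a2 := stΦ_eq (θ := θ) (β := β) (u := uN p n t) b2
  unfold fJ tJ
  show C + stΦ θ β (uN p n t) (kOf l n t ia ⌊ta * n⌋₊) _ =
      C + stΦ θ β (uN p n t) (kOf l n t ia ⌊ta * n⌋₊) _ - _ ∧
    c * stτ (kOf l n t ia ⌊ta * n⌋₊) _ = - (c * stτ (kOf l n t ia ⌊ta * n⌋₊) _)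
  rw [a1.1, a1.2, a2.1, a2.2, u1, u2]
  refine ⟨?_, by ring⟩
  push_cast
  ring

/-- The junction of the Dobrushin boundary conditions. -/
theorem fJ_jun {a : ℕ} (hi : i < l) (hi0 : 0 < i) (ht : t < n) (hs : s < n) (he : e - 1 < n)
    (r5 : s < a) (r6 : a < e) (ha : a < n) :
    fJ θ β C p n t (kOf l n t i a) i (e - 1) = fJ θ β C p n t (kOf l n t i a) i s + β ∧
      tJ c l n t (kOf l n t i a) i s = -tJ c l n t (kOf l n t i a) i (e - 1) := by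
  have h8 : 1 * n ≤ i * n := Nat.mul_le_mul_right n hi0
  have b1 : kOf l n t i s < kOf l n t i a := by rw [kOf_lt_kOf hi ht hs hi0 hi ha]; omega
  have b2 : ¬ kOf l n t i (e - 1) < kOf l n t i a := by
    rw [kOf_lt_kOf hi ht he hi0 hi ha]; omega
  have a1 := stΦ_eq (θ := θ) (β := β) (u := uN p n t) b1
  have a2 := stΦ_eq' (θ := θ) (β := β) (u := uN p n t) b2
  have u1 := uN_kOf (p := p) hi ht hs
  have u2 := uN_kOf (p := p) hi ht he
  rw [if_pos (by omega)] at u1 u2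
  unfold fJ tJ
  rw [a1.1, a1.2, a2.1, a2.2, u1, u2]
  exact ⟨by ring, by ring⟩

theorem tJ_sqr {ka σ : ℕ} (hc : c = 1 ∨ c = -1) : tJ c l n t ka i σ * tJ c l n t ka i σ = 1 := by
  unfold tJ
  rcases hc with rfl | rfl <;> rcases stτ_or ka (kOf l n t i σ) with h | h <;> rw [h] <;> norm_num

end ends

/-! ### the rows with special points -/

section rows

variable {Q : Marks} {t : ℕ} {C c : ℝ} {J : ℕ → Bool}

/-- Two rows of a side are disjoint. -/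
theorem row_uniq (hQ : Q.Ok) (hg : Gap Q l g) (hδ : 0 < δ) (hδg : 4 * δ ≤ g) (hn : 16 ≤ δ * n)
    {i j j' : ℕ} (hi : i < l) (hj : j ≤ Q.m) (hj' : j' ≤ Q.m)
    (h1 : sW p n Q ⌊δ * n⌋₊ i j < t) (h2 : t < eW p n Q ⌊δ * n⌋₊ i j)
    (h3 : sW p n Q ⌊δ * n⌋₊ i j' < t) (h4 : t < eW p n Q ⌊δ * n⌋₊ i j') : j = j' := by
  have a := rb_of (p := p) hQ hg hδ hδg hn hi hj
  have a' := rb_of (p := p) hQ hg hδ hδg hn hi hj'
  have a1 := a.s3
  have a2 := a.e3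
  have a3 := a'.s3
  have a4 := a'.e3
  have mono : ∀ {k k' : ℕ}, k ≤ k' → k' ≤ Q.m + 1 → ⌊Q.θ i k * n⌋₊ ≤ ⌊Q.θ i k' * n⌋₊ :=
    fun h h' => Nat.floor_le_floor (mul_le_mul_of_nonneg_right (theta_mono hQ i h h')
      (Nat.cast_nonneg n))
  rcases lt_trichotomy j j' with h | h | h
  · have := mono (k := j + 1) (k' := j') h (by omega)
    omega
  · exact h
  · have := mono (k := j' + 1) (k' := j) h (by omega)
    omega

/-- **Rows without special points** are plain. -/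
theorem frowJ_plain (hQ : Q.Ok) (hg : Gap Q l g) (hδ : 0 < δ) (hδg : 4 * δ ≤ g)
    (hn : 16 ≤ δ * n) (hc : c = 1 ∨ c = -1) (ht : t < n) {i j : ℕ} (hi : i < l) (hj : j ≤ Q.m)
    (h0 : i = 0 → ¬ (sW p n Q ⌊δ * n⌋₊ i j < t ∧ t < eW p n Q ⌊δ * n⌋₊ i j))
    (h1 : ∀ ia ta, bc = .dob ia ta → 0 < ia ∧ ia < l ∧ 0 < ta ∧ ta < 1 ∧ (i = ia →
      ¬ (sW p n Q ⌊δ * n⌋₊ i j < ⌊ta * n⌋₊ ∧ ⌊ta * n⌋₊ < eW p n Q ⌊δ * n⌋₊ i j))) :
    (frowJ θ β p Q n ⌊δ * n⌋₊ t bc J C c i j).Plain := by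
  have h := rb_of (p := p) hQ hg hδ hδg hn hi hj
  have hse := h.se
  have hsn := h.sn
  have hen := h.en
  have both : t ≤ i * n + sW p n Q ⌊δ * n⌋₊ i j ↔ t ≤ i * n + (eW p n Q ⌊δ * n⌋₊ i j - 1) := by
    rcases Nat.eq_zero_or_pos i with rfl | hi0
    · have := h0 rfl
      omega
    · have h8 : 1 * n ≤ i * n := Nat.mul_le_mul_right n hi0
      omega
  have hs := fJ_same (θ := θ) (β := β) (C := C) (c := c) (p := p) (ka := bc.ka l n t) hi ht hsn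
    hen both (Enl.ka_same hi ht hsn hen fun ia ta hb => ?_)
  · exact srowJ_plain hs.1 hs.2 (tJ_sqr hc)
  · obtain ⟨k1, k2, k3, k4, k5⟩ := h1 ia ta hb
    refine ⟨k1, k2, k3, k4, ?_⟩
    have h10 := dob_lt k3 k4 h.n0
    rcases lt_trichotomy i ia with hlt | rfl | hgt
    · have h9 : (i + 1) * n ≤ ia * n := Nat.mul_le_mul_right n hlt
      rw [add_mul, one_mul] at h9
      have := h0
      rcases Nat.eq_zero_or_pos i with rfl | hi0
      · have := h0 rfl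
        omega
      · have h8 : 1 * n ≤ i * n := Nat.mul_le_mul_right n hi0
        omega
    · have h8 : 1 * n ≤ i * n := Nat.mul_le_mul_right n k1
      have := k5 rfl
      omega
    · have h9 : (ia + 1) * n ≤ i * n := Nat.mul_le_mul_right n hgt
      rw [add_mul, one_mul] at h9
      have h8 : 1 * n ≤ i * n := Nat.mul_le_mul_right n (by omega)
      omega

/-- **The row of the base** of one colour. -/
theorem frowJ_free (hp : IsPolygon p) (hD : Encloses p S₀) (hQ : Q.Ok) (hg : Gap Q l g)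
    (hδ : 0 < δ) (hδg : 4 * δ ≤ g) (hn : 16 ≤ δ * n) (hc : c = 1 ∨ c = -1)
    (hbc : bc = .free ∨ bc = .wired) (hθ : 0 < θ) (t1 : tB n Q ≤ t) (t2 : t ≤ tB n Q + 1) :
    ∃ j₀ ≤ Q.m, (∀ i < l, ∀ j ≤ Q.m, ¬ (i = 0 ∧ j = j₀) →
      (frowJ θ β p Q n ⌊δ * n⌋₊ t bc J C c i j).Plain) ∧
      ¬ (frowJ θ β p Q n ⌊δ * n⌋₊ t bc J C c 0 j₀).Plain ∧
      ¬ (frowJ θ β p Q n ⌊δ * n⌋₊ t bc J C c 0 j₀).K2 θ ∧
      (frowJ θ β p Q n ⌊δ * n⌋₊ t bc J C c 0 j₀).zm = lc (pdir p 0) (vp p n 0 t) 0 1 := by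
  have hl : 0 < l := by have := hp.1; omega
  obtain ⟨j₀, hj₀, m1, m2⟩ := mid_row (p := p) hQ hg hδ hδg hn hl hQ.tp0.le hQ.tp1.le hg.2 t1 t2
  have ht : t < n := t_lt hQ hg hδg hn t2
  have h := rb_of (p := p) hQ hg hδ hδg hn hl hj₀
  have hse := h.se
  have hsn := h.sn
  have hen := h.en
  obtain ⟨a1, a2⟩ := fJ_base (θ := θ) (β := β) (C := C) (c := c) hp hD hbc hl ht hsn hen
    (by omega) (by omega)
  have hη : (frowJ θ β p Q n ⌊δ * n⌋₊ t bc J C c 0 j₀).η = 1 := by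
    refine srowJ_η.trans ?_
    change tJ c l n t (bc.ka l n t) 0 _ * tJ c l n t (bc.ka l n t) 0 _ = 1
    rw [← a2, tJ_sqr hc]
  have hj : (frowJ θ β p Q n ⌊δ * n⌋₊ t bc J C c 0 j₀).j ≠ 0 := by
    intro h0
    rcases srowJ_j (θ := θ) (J := J 0) (z := (n : ℤ) • p (0 : ℕ)) (r := pdir p 0)
      (s := sW p n Q ⌊δ * n⌋₊ 0 j₀) (e := eW p n Q ⌊δ * n⌋₊ 0 j₀) (jp := jpos n t bc 0)
      (F := fJ θ β C p n t (bc.ka l n t) 0) (T := tJ c l n t (bc.ka l n t) 0) with h1 | h1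
    · have h2 := h1.symm.trans h0
      linarith
    · have h2 := h1.symm.trans h0
      linarith
  refine ⟨j₀, hj₀, fun i hi j hj' hne => ?_, fun h' => hj h'.1, fun h' => ?_, ?_⟩
  · refine frowJ_plain hQ hg hδ hδg hn hc ht hi hj' (fun h0 hcon => ?_) fun ia ta hb => ?_
    · subst h0
      exact hne ⟨rfl, row_uniq (p := p) hQ hg hδ hδg hn hi hj' hj₀ hcon.1 hcon.2 (by omega)
        (by omega)⟩
    · rcases hbc with rfl | rfl <;> simp at hb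
  · have := h'.1
    rw [hη] at this
    norm_num at this
  · refine srowJ_zm (jp := t) (by omega) (by omega) ?_
    change fJ θ β C p n t (bc.ka l n t) 0 _ < fJ θ β C p n t (bc.ka l n t) 0 _
    linarith

/-- **The rows of the base and of the junction** of the Dobrushin boundary conditions. -/
theorem frowJ_dob (hp : IsPolygon p) (hD : Encloses p S₀) (hQ : Q.Ok) (hg : Gap Q l g)
    (hbg : BGap l Q g (.dob ia ta)) (hδ : 0 < δ) (hδg : 4 * δ ≤ g) (hn : 16 ≤ δ * n)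
    (hc : c = 1 ∨ c = -1) (hθ : Real.pi < 3 * θ) (hθ' : θ < Real.pi / 2)
    (hβ : β = (θ - Real.pi) / 2) (t1 : tB n Q ≤ t) (t2 : t ≤ tB n Q + 1) :
    ∃ j₀ ≤ Q.m, ∃ j₁ ≤ Q.m, (∀ i < l, ∀ j ≤ Q.m, ¬ (i = 0 ∧ j = j₀) → ¬ (i = ia ∧ j = j₁) →
      (frowJ θ β p Q n ⌊δ * n⌋₊ t (.dob ia ta) J C c i j).Plain) ∧
      (¬ (frowJ θ β p Q n ⌊δ * n⌋₊ t (.dob ia ta) J C c 0 j₀).Plain ∧
      (frowJ θ β p Q n ⌊δ * n⌋₊ t (.dob ia ta) J C c 0 j₀).K2 θ ∧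
      (frowJ θ β p Q n ⌊δ * n⌋₊ t (.dob ia ta) J C c 0 j₀).zm =
        lc (pdir p 0) (vp p n 0 t) 0 1) ∧
      ¬ (frowJ θ β p Q n ⌊δ * n⌋₊ t (.dob ia ta) J C c ia j₁).Plain ∧
      ¬ (frowJ θ β p Q n ⌊δ * n⌋₊ t (.dob ia ta) J C c ia j₁).K2 θ ∧
      (frowJ θ β p Q n ⌊δ * n⌋₊ t (.dob ia ta) J C c ia j₁).zm =
        lc (pdir p ia) (vp p n ia ⌊ta * n⌋₊) 0 1 := by
  have hl : 0 < l := by have := hp.1; omega
  have hpi := Real.pi_pos
  obtain ⟨k1, k2, k3, k4, k5⟩ := hbg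
  obtain ⟨j₀, hj₀, m1, m2⟩ := mid_row (p := p) hQ hg hδ hδg hn hl hQ.tp0.le hQ.tp1.le hg.2 t1 t2
  obtain ⟨j₁, hj₁, m3, m4⟩ := mid_row (p := p) hQ hg hδ hδg hn k2 k3.le k4.le k5 le_rfl
    (Nat.le_succ _)
  have ht : t < n := t_lt hQ hg hδg hn t2
  have h := rb_of (p := p) hQ hg hδ hδg hn hl hj₀
  have hse := h.se
  have hsn := h.sn
  have hen := h.en
  have h' := rb_of (p := p) hQ hg hδ hδg hn k2 hj₁
  have hse' := h'.se
  have hsn' := h'.sn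
  have hen' := h'.en
  have han := dob_lt k3 k4 h.n0
  obtain ⟨a1, a2⟩ := fJ_dob (θ := θ) (β := β) (C := C) (c := c) hp hD hl ht hsn hen
    (by omega) (by omega) k1 k2 k3 k4
  obtain ⟨b1, b2⟩ := fJ_jun (θ := θ) (β := β) (C := C) (c := c) (p := p) k2 k1 ht hsn' hen'
    (by omega) (by omega) han
  have sq : ∀ {x y : ℝ}, x = -y → x * x = 1 → x * y = -1 := by
    intro x y h1 h2
    have : y = -x := by linarith
    rw [this]
    linarith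
  have hη : (frowJ θ β p Q n ⌊δ * n⌋₊ t (.dob ia ta) J C c 0 j₀).η = -1 :=
    srowJ_η.trans (sq a2 (tJ_sqr hc))
  have hη' : (frowJ θ β p Q n ⌊δ * n⌋₊ t (.dob ia ta) J C c ia j₁).η = -1 :=
    srowJ_η.trans (sq b2 (tJ_sqr hc))
  have hj : |(frowJ θ β p Q n ⌊δ * n⌋₊ t (.dob ia ta) J C c 0 j₀).j| = (3 * θ - Real.pi) / 2 := by
    have key : fJ θ β C p n t ((Bc.dob ia ta).ka l n t) 0 (eW p n Q ⌊δ * n⌋₊ 0 j₀ - 1) -
      fJ θ β C p n t ((Bc.dob ia ta).ka l n t) 0 (sW p n Q ⌊δ * n⌋₊ 0 j₀) =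
        -((3 * θ - Real.pi) / 2) := by
      rw [a1, hβ]
      ring
    rcases srowJ_j (θ := θ) (J := J 0) (z := (n : ℤ) • p (0 : ℕ)) (r := pdir p 0)
      (s := sW p n Q ⌊δ * n⌋₊ 0 j₀) (e := eW p n Q ⌊δ * n⌋₊ 0 j₀) (jp := jpos n t (.dob ia ta) 0)
      (F := fJ θ β C p n t ((Bc.dob ia ta).ka l n t) 0)
      (T := tJ c l n t ((Bc.dob ia ta).ka l n t) 0) with h1 | h1
    · rw [key] at h1
      refine (congrArg abs h1).trans ?_
      rw [abs_neg, abs_of_nonneg (by linarith)]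
    · rw [key, neg_neg] at h1
      refine (congrArg abs h1).trans ?_
      rw [abs_of_nonneg (by linarith)]
  have hj' : |(frowJ θ β p Q n ⌊δ * n⌋₊ t (.dob ia ta) J C c ia j₁).j| = (Real.pi - θ) / 2 := by
    have key : fJ θ β C p n t ((Bc.dob ia ta).ka l n t) ia (eW p n Q ⌊δ * n⌋₊ ia j₁ - 1) -
      fJ θ β C p n t ((Bc.dob ia ta).ka l n t) ia (sW p n Q ⌊δ * n⌋₊ ia j₁) =
        -((Real.pi - θ) / 2) := by
      refine (congrArg (· - fJ θ β C p n t ((Bc.dob ia ta).ka l n t) ia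
        (sW p n Q ⌊δ * n⌋₊ ia j₁)) b1).trans ?_
      show fJ θ β C p n t ((Bc.dob ia ta).ka l n t) ia (sW p n Q ⌊δ * n⌋₊ ia j₁) + β -
        fJ θ β C p n t ((Bc.dob ia ta).ka l n t) ia (sW p n Q ⌊δ * n⌋₊ ia j₁) = _
      rw [hβ]
      ring
    rcases srowJ_j (θ := θ) (J := J ia) (z := (n : ℤ) • p (ia : ℕ)) (r := pdir p ia)
      (s := sW p n Q ⌊δ * n⌋₊ ia j₁) (e := eW p n Q ⌊δ * n⌋₊ ia j₁) (jp := jpos n t (.dob ia ta) ia)
      (F := fJ θ β C p n t ((Bc.dob ia ta).ka l n t) ia)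
      (T := tJ c l n t ((Bc.dob ia ta).ka l n t) ia) with h1 | h1
    · rw [key] at h1
      refine (congrArg abs h1).trans ?_
      rw [abs_neg, abs_of_nonneg (by linarith)]
    · rw [key, neg_neg] at h1
      refine (congrArg abs h1).trans ?_
      rw [abs_of_nonneg (by linarith)]
  have npl : ∀ {r : Row}, r.η = -1 → ¬ r.Plain := fun h1 h2 => by
    rw [h2.2] at h1
    norm_num at h1
  refine ⟨j₀, hj₀, j₁, hj₁, fun i hi j hjm hne hne' => ?_,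
    ⟨npl hη, ⟨hη, ?_⟩, ?_⟩, npl hη', fun h1 => h1.2 hj', ?_⟩
  · refine frowJ_plain hQ hg hδ hδg hn hc ht hi hjm (fun h0 hcon => ?_) fun ia' ta' hb => ?_
    · subst h0
      exact hne ⟨rfl, row_uniq (p := p) hQ hg hδ hδg hn hi hjm hj₀ hcon.1 hcon.2 (by omega)
        (by omega)⟩
    · obtain ⟨rfl, rfl⟩ := Bc.dob.inj hb
      refine ⟨k1, k2, k3, k4, fun h0 hcon => ?_⟩
      subst h0
      exact hne' ⟨rfl, row_uniq (p := p) hQ hg hδ hδg hn hi hjm hj₁ hcon.1 hcon.2 (by omega)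
        (by omega)⟩
  · rw [hj]
    intro h1
    linarith
  · refine srowJ_zm (jp := t) (by omega) (by omega) ?_
    change fJ θ β C p n t ((Bc.dob ia ta).ka l n t) 0 _ <
      fJ θ β C p n t ((Bc.dob ia ta).ka l n t) 0 _
    rw [a1, hβ]
    linarith
  · have e1 : jpos n t (.dob ia ta) ia = ⌊ta * n⌋₊ := if_neg k1.ne'
    unfold frowJ
    rw [e1]
    refine srowJ_zm (by omega) (by omega) ?_
    change fJ θ β C p n t (kOf l n t ia ⌊ta * n⌋₊) ia _ < fJ θ β C p n t (kOf l n t ia ⌊ta * n⌋₊) ia _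
    rw [b1, hβ]
    linarith

end rows

/-! ### the factors -/

/-- The product of the factors off the holes. -/
theorem Tj_row {Φ : FrS Row} (hc : 0 ≤ Real.cos θ) (δ : ℝ) (n : ℕ) (ρ : ℤ) (ω : Cfg) :
    Φ.Tj (rowS θ) (rowF hc) {true} δ n ρ ω =
      ∏ i, (Φ.r δ n i).T θ (Φ.U (rowS θ) δ n) false ρ ω := by
  unfold FrS.Tj
  refine prod_congr rfl fun i _ => ?_
  rw [show ({true} : Finset Bool)ᶜ = {false} by decide, prod_singleton]
  rfl

theorem Row.T_spP {I : Finset (ℤ × ℤ)} {r : Row} {ρ : ℤ} {ω : Cfg} (h : r.Plain) :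
    r.T θ I false ρ ω = 1 := by
  unfold Row.T
  rw [if_neg Bool.false_ne_true, if_pos h]

theorem Row.T_spK2 {I : Finset (ℤ × ℤ)} {r : Row} {ρ : ℤ} {ω : Cfg} (h : ¬ r.Plain) (h2 : r.K2 θ) :
    r.T θ I false ρ ω = r.T2 θ I ρ ω := by
  unfold Row.T
  rw [if_neg Bool.false_ne_true, if_neg h, if_pos h2]

theorem Row.T_spK {I : Finset (ℤ × ℤ)} {r : Row} {ρ : ℤ} {ω : Cfg} (h : ¬ r.Plain) (h2 : ¬ r.K2 θ) :
    r.T θ I false ρ ω = TK I r.zm ρ ω := by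
  unfold Row.T
  rw [if_neg Bool.false_ne_true, if_neg h, if_neg h2]

/-- The rows of the free and wired frames. -/
theorem rP_rows (H : PolN p S₀ b tp bc g δ n) (hbc : bc = .free ∨ bc = .wired) (hθ : 0 < θ) :
    ∃ x₀ : Fin l × Fin 3, (∀ x, x ≠ x₀ → (rP θ β p b tp bc n ⌊δ * n⌋₊ x).Plain) ∧
      ¬ (rP θ β p b tp bc n ⌊δ * n⌋₊ x₀).Plain ∧ ¬ (rP θ β p b tp bc n ⌊δ * n⌋₊ x₀).K2 θ ∧
      (rP θ β p b tp bc n ⌊δ * n⌋₊ x₀).zm = zP p n tp bc := by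
  have hl : 0 < l := by have := H.hp.1; omega
  obtain ⟨j₀, hj₀, h1, h2, h3, h4⟩ := frowJ_free (θ := θ) (β := β) (J := fun _ => true) (C := 0)
    (c := 1) H.hp H.hD H.hQ H.hg H.hδ H.hδg H.hn (Or.inl rfl) hbc hθ (tP_le p n tp bc).1
    (tP_le p n tp bc).2
  refine ⟨(⟨0, hl⟩, ⟨j₀, Nat.lt_succ_of_le hj₀⟩), fun x hx => ?_, h2, h3, h4⟩
  refine h1 x.1 x.1.2 x.2 (Nat.lt_succ_iff.1 x.2.2) fun h => hx ?_
  exact Prod.ext (Fin.ext h.1) (Fin.ext h.2)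

/-- **The factors off the holes**: free and wired frames. -/
theorem Tj_frP [NeZero l] (H : PolN p S₀ b tp bc g δ n) (hbc : bc = .free ∨ bc = .wired)
    (hc : 0 ≤ Real.cos θ) (hθ : 0 < θ) (ρ : ℤ) (ω : Cfg) :
    (frP θ β p S₀ b tp bc).Tj (rowS θ) (rowF hc) {true} δ n ρ ω =
      TK ((frP θ β p S₀ b tp bc).U (rowS θ) δ n) (zP p n tp bc) ρ ω := by
  obtain ⟨x₀, h1, h2, h3, h4⟩ := rP_rows (β := β) H hbc hθ
  have key : (frP θ β p S₀ b tp bc).Tj (rowS θ) (rowF hc) {true} δ n ρ ω =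
      ∏ x : Fin l × Fin 3, (rP θ β p b tp bc n ⌊δ * n⌋₊ x).T θ
        ((frP θ β p S₀ b tp bc).U (rowS θ) δ n) false ρ ω := Tj_row hc δ n ρ ω
  rw [key, Fintype.prod_eq_single x₀ fun x hx => Row.T_spP (h1 x hx), Row.T_spK h2 h3, h4]

/-- The killed site of the base of the box. -/
noncomputable def zBx (p : ZMod l → ℤ × ℤ) (b : Box) (n ia : ℕ) : ℤ × ℤ :=
  lc (pdir pQ 0) (vp pQ (bM p * n) 0 (tG pQ (bM p * n) (tqB (bQ b (bM p))) (cT p ia))) 0 1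

/-- The rows of the Dobrushin frames. -/
theorem rD_rows (H : DobN p S₀ b tp g δ n) (hbg : BGap l (mks p b tp) g (.dob ia ta))
    (hθ : Real.pi < 3 * θ) (hθ' : θ < Real.pi / 2) (hβ : β = (θ - Real.pi) / 2) :
    ∃ x y z : IxD l, x ≠ y ∧ x ≠ z ∧ y ≠ z ∧
      (∀ w, w ≠ x → w ≠ y → w ≠ z → (rD θ β p b tp ia ta n ⌊δ * n⌋₊ w).Plain) ∧
      (¬ (rD θ β p b tp ia ta n ⌊δ * n⌋₊ x).Plain ∧ (rD θ β p b tp ia ta n ⌊δ * n⌋₊ x).K2 θ ∧
        (rD θ β p b tp ia ta n ⌊δ * n⌋₊ x).zm = zB p n tp) ∧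
      (¬ (rD θ β p b tp ia ta n ⌊δ * n⌋₊ y).Plain ∧ ¬ (rD θ β p b tp ia ta n ⌊δ * n⌋₊ y).K2 θ ∧
        (rD θ β p b tp ia ta n ⌊δ * n⌋₊ y).zm = zA p n ia ta) ∧
      ¬ (rD θ β p b tp ia ta n ⌊δ * n⌋₊ z).Plain ∧ ¬ (rD θ β p b tp ia ta n ⌊δ * n⌋₊ z).K2 θ ∧
        (rD θ β p b tp ia ta n ⌊δ * n⌋₊ z).zm = zBx p b n ia := by
  have hl : 0 < l := by have := H.hp.1; omega
  have hpi := Real.pi_pos
  obtain ⟨c1, c2, c3, c4⟩ := H.box
  obtain ⟨k1, k2, -⟩ := id hbg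
  obtain ⟨j₀, hj₀, j₁, hj₁, h1, h2, h3⟩ := frowJ_dob (θ := θ) (β := β) (J := JD p ia) (C := 0)
    (c := 1) (t := ⌊tp * n⌋₊) H.hp H.hD H.hQ H.hg hbg H.hδ H.hδg H.hn (Or.inl rfl) hθ hθ' hβ le_rfl
    (Nat.le_succ _)
  obtain ⟨j₂, hj₂, q1, q2, q3, q4⟩ := frowJ_free (θ := θ) (β := β) (J := fun _ => true)
    (C := CQ θ β p ia) (c := cT p ia) pQ_poly pQ_encl H.hQ' H.hg' c1 c2 c3 (cT_or p ia) (Or.inl rfl)
    (by linarith) (tG_le pQ (bM p * n) (tqB (bQ b (bM p))) (cT p ia)).1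
    (tG_le pQ (bM p * n) (tqB (bQ b (bM p))) (cT p ia)).2
  rw [c4] at q1 q2 q3 q4
  refine ⟨.inl (⟨0, hl⟩, ⟨j₀, Nat.lt_succ_of_le hj₀⟩), .inl (⟨ia, k2⟩, ⟨j₁, Nat.lt_succ_of_le hj₁⟩),
    .inr (.inl (⟨0, by norm_num⟩, ⟨j₂, Nat.lt_succ_of_le hj₂⟩)), ?_, ?_, ?_, ?_, h2, h3, q2, q3,
    q4⟩
  · intro h
    have h4 := congrArg (fun x : Fin l × Fin 3 => (x.1 : ℕ)) (Sum.inl.inj h)
    simp only at h4
    omega
  · intro h
    exact absurd h (by simp)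
  · intro h
    exact absurd h (by simp)
  · rintro (w | w | w) w1 w2 w3
    · refine h1 w.1 w.1.2 w.2 (Nat.lt_succ_iff.1 w.2.2) (fun h => w1 ?_) fun h => w2 ?_
      · exact congrArg Sum.inl (Prod.ext (Fin.ext h.1) (Fin.ext h.2))
      · exact congrArg Sum.inl (Prod.ext (Fin.ext h.1) (Fin.ext h.2))
    · refine q1 w.1 w.1.2 w.2 (Nat.lt_succ_iff.1 w.2.2) fun h => w3 ?_
      exact congrArg (fun v => Sum.inr (Sum.inl v)) (Prod.ext (Fin.ext h.1) (Fin.ext h.2))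
    · exact ⟨rfl, rfl⟩

/-- **The factors off the holes**: Dobrushin frames. -/
theorem Tj_frD [NeZero l] (H : DobN p S₀ b tp g δ n) (hbg : BGap l (mks p b tp) g (.dob ia ta))
    (hc : 0 ≤ Real.cos θ) (hθ : Real.pi < 3 * θ) (hθ' : θ < Real.pi / 2)
    (hβ : β = (θ - Real.pi) / 2) :
    ∃ x : IxD l, (rD θ β p b tp ia ta n ⌊δ * n⌋₊ x).zm = zB p n tp ∧
      (rD θ β p b tp ia ta n ⌊δ * n⌋₊ x).K2 θ ∧ ¬ (rD θ β p b tp ia ta n ⌊δ * n⌋₊ x).Plain ∧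
      ∀ (ρ : ℤ) (ω : Cfg),
      (frD θ β p S₀ b tp ia ta).Tj (rowS θ) (rowF hc) {true} δ n ρ ω =
        (rD θ β p b tp ia ta n ⌊δ * n⌋₊ x).T2 θ ((frD θ β p S₀ b tp ia ta).U (rowS θ) δ n) ρ ω *
        TK ((frD θ β p S₀ b tp ia ta).U (rowS θ) δ n) (zA p n ia ta) ρ ω *
        TK ((frD θ β p S₀ b tp ia ta).U (rowS θ) δ n) (zBx p b n ia) ρ ω := by
  classical
  obtain ⟨x, y, z, n1, n2, n3, h0, ⟨hx1, hx2, hx3⟩, ⟨hy1, hy2, hy3⟩, hz1, hz2, hz3⟩ :=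
    rD_rows H hbg hθ hθ' hβ
  refine ⟨x, hx3, hx2, hx1, fun ρ ω => ?_⟩
  have key : (frD θ β p S₀ b tp ia ta).Tj (rowS θ) (rowF hc) {true} δ n ρ ω =
      ∏ x : IxD l, (rD θ β p b tp ia ta n ⌊δ * n⌋₊ x).T θ
        ((frD θ β p S₀ b tp ia ta).U (rowS θ) δ n) false ρ ω := Tj_row hc δ n ρ ω
  rw [key, ← prod_subset (subset_univ ({x, y, z} : Finset (IxD l))) fun w _ hw => by
    simp only [mem_insert, mem_singleton, not_or] at hw
    exact Row.T_spP (h0 w hw.1 hw.2.1 hw.2.2)]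
  rw [prod_insert (by simp [n1, n2]), prod_insert (by simp [n3]), prod_singleton, ← mul_assoc,
    Row.T_spK2 hx1 hx2, Row.T_spK hy1 hy2, Row.T_spK hz1 hz2, hy3, hz3]

end Vale.Agent.P167.N.ID
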