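import Vale.Agent.P167.N.ID.PsCell
import Vale.Agent.P167.N.ID.FrmG

/-!
# P167, block ID, (P2S): free squares far from the polygon

`free_P`, `free_D`: squares off the enlargement, far from the sides of the polygon (and of the box, and
not on the spoke) are free squares of the frames.
-/

set_option autoImplicit false

namespace Vale.Agent.P167.N.ID

open Finset
open Vale.Agent.P167.FK (Bq)
open Vale.Agent.P167.E6 (IsPolygon Encloses dir face)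
open Vale.Agent.P167.H825 (pdir enl Box)
open Vale.Agent.P167.H825.Q (Bc)
open Vale.Agent.P167.H662 (hsite)
open Vale.Agent.P167.H199 (mks)
open Vale.Agent.P167.H680.T (uI mem_uI)
open Vale.Agent.P167.H433 (LQ Fre FreD zP zA zB)
open Vale.Agent.P167.Enl (sW eW vp mem_rowP op_near lt_n mem_Bq' pA pA_lt vp_pA nm_tri)

variable {l : ℕ} {p : ZMod l → ℤ × ℤ} {S₀ : Finset (ℤ × ℤ)} {b : Box} {tp : ℝ} {bc : Bc}
  {ia : ℕ} {ta : ℝ} {θ β g δ : ℝ} {n : ℕ}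

theorem FarP.row {K : ℤ} {v : ℤ × ℤ} (h : FarP p n K v) (hK : 2 ≤ K) {i s e : ℕ} (hi : i < l)
    (he : ∀ σ, s ≤ σ → σ < e → σ ≤ n) : v ∉ Enl.rowP p n i s e := by
  intro hv
  obtain ⟨σ, h1, h2, h3⟩ := mem_rowP.1 hv
  have h4 := h i hi σ (he σ h1 h2)
  have h5 := op_near (p := p) (n := n) i σ
  rw [← h3] at h5
  omega

theorem FarP.ps_hole {G : ℤ} {v : ℤ × ℤ} (h : FarP p n (G + 2) v) {Q : H825.Marks} (hQ : Q.Ok)
    (hn : 0 < n) (x : Fin l × Fin (Q.m + 1)) : v ∉ Bq (hsite p Q n x) G := by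
  intro hv
  have h1 := mem_Bq' hv
  have h2 := h x.1 x.1.2 (pA n Q x) (pA_lt hQ hn x).le
  rw [vp_pA] at h2
  omega

/-- The frozen squares of the free and wired frames. -/
theorem mem_frP_U [NeZero l] {v : ℤ × ℤ} : v ∈ (frP θ β p S₀ b tp bc).U (rowS θ) δ n ↔
    ∃ x : Fin l × Fin 3, v ∈ Enl.rowP p n x.1 (sW p n (mks p b tp) ⌊δ * n⌋₊ x.1 x.2)
      (eW p n (mks p b tp) ⌊δ * n⌋₊ x.1 x.2) := by
  have hI : ∀ x : Fin l × Fin 3, (rP θ β p b tp bc n ⌊δ * n⌋₊ x).I =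
      (shp p (mks p b tp) n ⌊δ * n⌋₊ x.1 x.2).I := fun x => frowJ_I
  have hU : (frP θ β p S₀ b tp bc).U (rowS θ) δ n =
      uI (fun x : Fin l × Fin ((mks p b tp).m + 1) => shp p (mks p b tp) n ⌊δ * n⌋₊ x.1 x.2) :=
    uI_of (θ := θ) (r := fun x : Fin l × Fin 3 => rP θ β p b tp bc n ⌊δ * n⌋₊ x) hI
  rw [hU, mem_uI]
  simp only [shp_I]
  rfl

/-- The frozen squares of the Dobrushin frames. -/
theorem frD_Usq [NeZero l] : (frD θ β p S₀ b tp ia ta).U (rowS θ) δ n =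
    uI (shD p b tp n ⌊δ * n⌋₊) :=
  uI_of (θ := θ) (r := fun x : IxD l => rD θ β p b tp ia ta n ⌊δ * n⌋₊ x) fun x => rD_I x _

/-- Free squares of the free and wired frames. -/
theorem free_Pc [NeZero l] {G m R₀ : ℤ} {v : ℤ × ℤ} (hv : v ∉ enl S₀ n)
    (hr : ∀ x : Fin l × Fin 3, v ∉ Enl.rowP p n x.1 (sW p n (mks p b tp) ⌊δ * n⌋₊ x.1 x.2)
      (eW p n (mks p b tp) ⌊δ * n⌋₊ x.1 x.2))
    (hh : ∀ x : Fin l × Fin 3, v ∉ Bq (hsite p (mks p b tp) n x) G) (hR : v ∈ Bq 0 R₀)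
    (hm : v ∉ LQ (pdir p 0) (zP p n tp bc) (-m) m 0 (3 * m)) :
    v ∈ Fre (frP θ β p S₀ b tp bc) θ S₀ δ n G (pdir p 0) (zP p n tp bc) m R₀ := by
  unfold Fre
  simp only [mem_sdiff]
  refine ⟨⟨⟨⟨hR, fun h => ?_⟩, hv⟩, fun h => ?_⟩, hm⟩
  · obtain ⟨x, hx⟩ := mem_frP_U.1 h
    exact hr x hx
  · unfold FrS.hB at h
    obtain ⟨x, -, hx⟩ := mem_biUnion.1 h
    exact hh x hx

/-- Free squares of the Dobrushin frames. -/
theorem free_Dc [NeZero l] (H : DobN p S₀ b tp g δ n) {G m : ℤ} (hG : 0 ≤ G) {v : ℤ × ℤ}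
    (hv : v ∉ enl S₀ n)
    (hr : ∀ x : Fin l × Fin 3, v ∉ Enl.rowP p n x.1 (sW p n (mks p b tp) ⌊δ * n⌋₊ x.1 x.2)
      (eW p n (mks p b tp) ⌊δ * n⌋₊ x.1 x.2))
    (hh : ∀ x : Fin l × Fin 3, v ∉ Bq (hsite p (mks p b tp) n x) G)
    (hx : G + 2 ≤ v.1 ∧ v.1 + G + 2 ≤ bM p * n) (hy : G + 2 ≤ v.2 ∧ v.2 + G + 2 ≤ bM p * n)
    (hT : v.1 = n * (p (iT p)).1 → n * (p (iT p)).2 ≤ v.2) (hB : v ∉ Bq (zB p n tp) (m + 2))
    (hm : v ∉ LQ (pdir p ia) (zA p n ia ta) (-m) m 0 (3 * m)) :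
    v ∈ FreD θ β p S₀ b tp ia ta δ n G m := by
  unfold FreD
  rw [mem_filter]
  refine ⟨?_, ⟨by omega, by omega⟩, by omega, by omega⟩
  rw [mem_sdiff]
  refine ⟨?_, hB⟩
  unfold Fre
  simp only [mem_sdiff]
  refine ⟨⟨⟨⟨?_, fun h => ?_⟩, hv⟩, fun h => ?_⟩, hm⟩
  · unfold Bq
    rw [mem_product, mem_Ico, mem_Ico]
    simp only [Prod.fst_zero, Prod.snd_zero]
    omega
  · rw [frD_Usq, mem_uI] at h
    obtain ⟨x | x | x, h⟩ := h
    · change v ∈ (shp p (mks p b tp) n ⌊δ * n⌋₊ x.1 x.2).I at h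
      rw [shp_I] at h
      exact hr x h
    · have := H.rowQ_mem' h
      omega
    · have := H.spk_mem' h
      have := hT (this.1.1)
      omega
  · unfold FrS.hB at h
    obtain ⟨x, -, hx'⟩ := mem_biUnion.1 h
    rcases x with x | x | x
    · exact hh x hx'
    · have h1 := H.hsQ' x
      have h2 : v ∈ Bq (hsite pQ (mksQ p b) (bM p * n) x) G := hx'
      unfold Bq at h2
      rw [mem_product, mem_Ico, mem_Ico] at h2
      omega
    · have h2 : v ∈ Bq (ftD p n) G := hx'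
      unfold Bq ftD at h2
      rw [mem_product, mem_Ico, mem_Ico] at h2
      simp only at h2
      omega

/-- **Free squares far from the polygon**: free and wired frames. -/
theorem free_P [NeZero l] (hQ : (mks p b tp).Ok) (hd : 1 ≤ ⌊δ * n⌋₊) {G m R₀ : ℤ} (hG : 0 ≤ G)
    {v : ℤ × ℤ} (hv : v ∉ enl S₀ n) (hf : FarP p n (G + 2) v) (hR : v ∈ Bq 0 R₀)
    (hm : v ∉ LQ (pdir p 0) (zP p n tp bc) (-m) m 0 (3 * m)) :
    v ∈ Fre (frP θ β p S₀ b tp bc) θ S₀ δ n G (pdir p 0) (zP p n tp bc) m R₀ := by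
  have hn : 0 < n := by
    rcases Nat.eq_zero_or_pos n with h | h
    · rw [h] at hd
      simp at hd
    · exact h
  refine free_Pc hv (fun x => ?_) (fun x => hf.ps_hole hQ hn x) hR hm
  have hj : (x.2 : ℕ) ≤ (mks p b tp).m := by
    have := x.2.2
    show (x.2 : ℕ) ≤ 2
    omega
  refine hf.row (by omega) x.1.2 ?_
  intro σ h1 h2
  exact (lt_n hQ hd hj h1 h2).le

/-- **Free squares far from the polygon**: Dobrushin frames. -/
theorem free_frD [NeZero l] (H : DobN p S₀ b tp g δ n) {G m : ℤ} (hG : 0 ≤ G) {v : ℤ × ℤ}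
    (hv : v ∉ enl S₀ n) (hf : FarP p n (G + 2) v)
    (hx : G + 2 ≤ v.1 ∧ v.1 + G + 2 ≤ bM p * n) (hy : G + 2 ≤ v.2 ∧ v.2 + G + 2 ≤ bM p * n)
    (hT : v.1 = n * (p (iT p)).1 → n * (p (iT p)).2 ≤ v.2) (hB : v ∉ Bq (zB p n tp) (m + 2))
    (hm : v ∉ LQ (pdir p ia) (zA p n ia ta) (-m) m 0 (3 * m)) :
    v ∈ FreD θ β p S₀ b tp ia ta δ n G m := by
  obtain ⟨-, -, hn, -⟩ := H.basic
  have hd : 1 ≤ ⌊δ * n⌋₊ := by
    rw [Nat.one_le_floor_iff]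
    linarith [H.hn]
  refine free_Dc H hG hv (fun x => ?_) (fun x => hf.ps_hole H.hQ hn x) hx hy hT hB hm
  have hj : (x.2 : ℕ) ≤ (mks p b tp).m := by
    have := x.2.2
    show (x.2 : ℕ) ≤ 2
    omega
  refine hf.row (by omega) x.1.2 ?_
  intro σ h1 h2
  exact (lt_n H.hQ hd hj h1 h2).le

end Vale.Agent.P167.N.ID
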