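import Vale.Agent.P167.N.ID.PsFree

/-!
# P167, block ID, (P2S): free squares next to a side of the polygon

`near_side`: the squares of a box outside of a side. `near_P`, `near_zA`, `near_zB`: they are free
squares of the frames.
-/

set_option autoImplicit false

namespace Vale.Agent.P167.N.ID

open Finset
open Vale.Agent.P167.FK (Bq)
open Vale.Agent.P167.E6 (IsPolygon Encloses dir face)
open Vale.Agent.P167.H825 (pdir enl Box)
open Vale.Agent.P167.H825.Q (Bc)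
open Vale.Agent.P167.H662 (hsite)
open Vale.Agent.P167.H199 (mks Gap)
open Vale.Agent.P167.H262 (mem_Rsq)
open Vale.Agent.P167.H680.T (uI mem_uI)
open Vale.Agent.P167.H433 (lc LR LQ Fre FreD zP zA zB)
open Vale.Agent.P167.Enl (sW eW vp mem_rowP op_near lt_n mem_Bq' pA pA_lt vp_pA nm_tri BGap oz_eq)

variable {l : ℕ} {p : ZMod l → ℤ × ℤ} {S₀ : Finset (ℤ × ℤ)} {b : Box} {tp : ℝ} {bc : Bc}
  {ia : ℕ} {ta : ℝ} {θ β g δ : ℝ} {n : ℕ}

/-- A side which is not the common side of two cells side by side. -/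
theorem side_hor {c v : ℤ × ℤ} {K : ℤ} {i σ : ℕ} (hσ : σ ≤ n) (h1 : n * c.1 + K ≤ v.1)
    (h2 : v.1 + K ≤ n * (c.1 + 2)) (h3 : n * c.2 + K ≤ v.2) (h4 : v.2 + K ≤ n * (c.2 + 1))
    (hs1 : pdir p i = 1 → p (i : ZMod l) ≠ (c.1 + 1, c.2))
    (hs3 : pdir p i = 3 → p (i : ZMod l) ≠ (c.1 + 1, c.2 + 1)) : K ≤ nm (v - vp p n i σ) := by
  rw [ps_vp]
  unfold nm
  obtain ⟨r, hr⟩ : ∃ r, r = pdir p i := ⟨_, rfl⟩
  rw [← hr] at hs1 hs3 ⊢
  have hx : (p (i : ZMod l)).1 ≠ c.1 + 1 → ∀ y : ℤ, y = n * (p (i : ZMod l)).1 →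
      K ≤ |v.1 - y| := by
    rintro hne y rfl
    exact ps_far h1 h2 (ps_grid2 hne)
  have hy : ∀ y : ℤ, y = n * (p (i : ZMod l)).2 → K ≤ |v.2 - y| := by
    rintro y rfl
    exact ps_far h3 h4 ps_grid
  obtain ⟨w, hw⟩ : ∃ w, w = p (i : ZMod l) := ⟨_, rfl⟩
  rw [← hw] at hs1 hs3 hx hy ⊢
  fin_cases r
  · exact le_max_of_le_right (hy _ (by simp [dir]))
  · by_cases hne : w.1 = c.1 + 1
    · have hb : w.2 ≠ c.2 := fun hb => hs1 rfl (Prod.ext hne hb)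
      have := ps_far (m := 1) (x := v.2) h3 h4 (ps_up (n := n) hσ hb)
      exact le_max_of_le_right (by simpa [dir] using this)
    · exact le_max_of_le_left (hx hne _ (by simp [dir]))
  · exact le_max_of_le_right (hy _ (by simp [dir]))
  · by_cases hne : w.1 = c.1 + 1
    · have hb : w.2 ≠ c.2 + 1 := fun hb => hs3 rfl (Prod.ext hne hb)
      have := ps_far (m := 1) (x := v.2) h3 h4 (ps_dn (n := n) hσ hb)
      exact le_max_of_le_right (by simpa [dir] using this)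
    · exact le_max_of_le_left (hx hne _ (by simp [dir]))

/-- A side which is not the common side of two cells, one above the other. -/
theorem side_ver {c v : ℤ × ℤ} {K : ℤ} {i σ : ℕ} (hσ : σ ≤ n) (h1 : n * c.1 + K ≤ v.1)
    (h2 : v.1 + K ≤ n * (c.1 + 1)) (h3 : n * c.2 + K ≤ v.2) (h4 : v.2 + K ≤ n * (c.2 + 2))
    (hs0 : pdir p i = 0 → p (i : ZMod l) ≠ (c.1, c.2 + 1))
    (hs2 : pdir p i = 2 → p (i : ZMod l) ≠ (c.1 + 1, c.2 + 1)) : K ≤ nm (v - vp p n i σ) := by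
  rw [ps_vp]
  unfold nm
  obtain ⟨r, hr⟩ : ∃ r, r = pdir p i := ⟨_, rfl⟩
  rw [← hr] at hs0 hs2 ⊢
  have hy : (p (i : ZMod l)).2 ≠ c.2 + 1 → ∀ y : ℤ, y = n * (p (i : ZMod l)).2 →
      K ≤ |v.2 - y| := by
    rintro hne y rfl
    exact ps_far h3 h4 (ps_grid2 hne)
  have hx : ∀ y : ℤ, y = n * (p (i : ZMod l)).1 → K ≤ |v.1 - y| := by
    rintro y rfl
    exact ps_far h1 h2 ps_grid
  obtain ⟨w, hw⟩ : ∃ w, w = p (i : ZMod l) := ⟨_, rfl⟩
  rw [← hw] at hs0 hs2 hx hy ⊢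
  fin_cases r
  · by_cases hne : w.2 = c.2 + 1
    · have hb : w.1 ≠ c.1 := fun hb => hs0 rfl (Prod.ext hb hne)
      have := ps_far (m := 1) (x := v.1) h1 h2 (ps_up (n := n) hσ hb)
      exact le_max_of_le_left (by simpa [dir] using this)
    · exact le_max_of_le_right (hy hne _ (by simp [dir]))
  · exact le_max_of_le_left (hx _ (by simp [dir]))
  · by_cases hne : w.2 = c.2 + 1
    · have hb : w.1 ≠ c.1 + 1 := fun hb => hs2 rfl (Prod.ext hb hne)
      have := ps_far (m := 1) (x := v.1) h1 h2 (ps_dn (n := n) hσ hb)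
      exact le_max_of_le_left (by simpa [dir] using this)
    · exact le_max_of_le_right (hy hne _ (by simp [dir]))
  · exact le_max_of_le_left (hx _ (by simp [dir]))

theorem mem_LQ {r : Fin 4} {z v : ℤ × ℤ} {a b p q : ℤ} : v ∈ LQ r z a b p q ↔
    (r = 0 → (z.1 - b ≤ v.1 ∧ v.1 < z.1 - a) ∧ z.2 - q ≤ v.2 ∧ v.2 < z.2 - p) ∧
    (r = 1 → (z.1 + p ≤ v.1 ∧ v.1 < z.1 + q) ∧ z.2 - b ≤ v.2 ∧ v.2 < z.2 - a) ∧
    (r = 2 → (z.1 + a ≤ v.1 ∧ v.1 < z.1 + b) ∧ z.2 + p ≤ v.2 ∧ v.2 < z.2 + q) ∧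
    (r = 3 → (z.1 - q ≤ v.1 ∧ v.1 < z.1 - p) ∧ z.2 + a ≤ v.2 ∧ v.2 < z.2 + b) := by
  unfold LQ LR
  rw [mem_Rsq]
  fin_cases r <;> simp [and_assoc]

/-- The same side. -/
theorem side_eq (hp : IsPolygon p) {i i' : ℕ} (hi : i < l) (hi' : i' < l)
    (h : p (i : ZMod l) = p (i' : ZMod l)) : i = i' := by
  have h1 := hp.2.1 h
  rwa [ZMod.natCast_eq_natCast_iff', Nat.mod_eq_of_lt hi, Nat.mod_eq_of_lt hi'] at h1

/-- **The squares outside of a side.** -/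
theorem near_side (hp : IsPolygon p) (hD : Encloses p S₀) {i₀ : ℕ} (hi₀ : i₀ < l) {t K G H : ℤ}
    {v : ℤ × ℤ} (hv : v ∈ LQ (pdir p i₀) (lc (pdir p i₀) (vp p n i₀ t) 0 1) (-G) G 0 H)
    (h1 : K + G ≤ t) (h2 : t + G + K ≤ n) (h3 : H + 1 + K ≤ n) (h4 : 1 ≤ K) :
    (∃ c, c = face (p i₀) (pdir p i₀ - 1) ∧ c ∉ S₀ ∧ (n * c.1 + 1 ≤ v.1 ∧ v.1 + 1 ≤ n * (c.1 + 1)) ∧
      n * c.2 + 1 ≤ v.2 ∧ v.2 + 1 ≤ n * (c.2 + 1)) ∧ (∀ i < l, i ≠ i₀ → ∀ σ : ℕ, σ ≤ n → K ≤ nm (v - vp p n i σ)) ∧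
      (∀ σ : ℤ, |σ - t| - G ≤ nm (v - vp p n i₀ σ)) ∧ ∀ s e, v ∉ Enl.rowP p n i₀ s e := by
  have hout := (hD (p i₀) (pdir p i₀)).1 ⟨i₀, rfl, Enl.pdir_step hp i₀⟩
  have hoth : ∀ i : ℕ, face (p i) (pdir p i) ∈ S₀ ∧ face (p i) (pdir p i - 1) ∉ S₀ := fun i =>
    (hD (p i) (pdir p i)).1 ⟨i, rfl, Enl.pdir_step hp i⟩
  have hsame : ∀ i < l, i ≠ i₀ → p (i : ZMod l) ≠ p (i₀ : ZMod l) := fun i hi hne he =>
    hne (side_eq hp hi hi₀ he)
  obtain ⟨w, hw⟩ : ∃ w, w = p (i₀ : ZMod l) := ⟨_, rfl⟩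
  obtain ⟨r, hr⟩ : ∃ r, r = pdir p i₀ := ⟨_, rfl⟩
  have hvp : ∀ σ : ℤ, vp p n i₀ σ = (n * w.1 + σ * (dir r).1, n * w.2 + σ * (dir r).2) := by
    intro σ
    rw [hw, hr]
    unfold vp Enl.vz
    ext <;> simp
  have hrow : ∀ s e, v ∈ Enl.rowP p n i₀ s e → ∃ σ : ℤ, v = Enl.oz ((n : ℤ) • w) r σ := by
    intro s e h
    obtain ⟨σ, -, -, h5⟩ := mem_rowP.1 h
    refine ⟨σ, ?_⟩
    rw [hw, hr]
    exact h5
  rw [← hr, hvp, mem_LQ] at hv
  rw [← hw, ← hr] at hout ⊢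
  rw [← hw] at hsame
  have hns : ∀ σ, Enl.oz ((n : ℤ) • w) r σ =
      ![(n * w.1 + σ, n * w.2 - 1), (n * w.1, n * w.2 + σ), (n * w.1 - σ - 1, n * w.2),
        (n * w.1 - 1, n * w.2 - σ - 1)] r := by
    intro σ
    obtain ⟨e0, e1, e2, e3⟩ := oz_eq ((n : ℤ) • w) σ
    fin_cases r
    · exact e0
    · exact e1
    · exact e2
    · exact e3
  have hab : ∀ x y σ : ℤ, y - G ≤ x → x < y + G → ∀ z : ℤ, z = x - y → |σ - t| - G ≤ |z - σ + t| := by
    intro x y σ k1 k2 z hz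
    rcases abs_cases (σ - t) with ⟨e1, k3⟩ | ⟨e1, k3⟩ <;>
      rcases abs_cases (z - σ + t) with ⟨e2, k4⟩ | ⟨e2, k4⟩ <;> rw [e1, e2] <;> omega
  have hab' : ∀ x y σ : ℤ, y - G ≤ x → x < y + G → ∀ z : ℤ, z = x - y → |σ - t| - G ≤ |z + σ - t| := by
    intro x y σ k1 k2 z hz
    rcases abs_cases (σ - t) with ⟨e1, k3⟩ | ⟨e1, k3⟩ <;>
      rcases abs_cases (z + σ - t) with ⟨e2, k4⟩ | ⟨e2, k4⟩ <;> rw [e1, e2] <;> omega
  rcases Enl.fin4_cases r with rfl | rfl | rfl | rfl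
  · have hv' := hv.1 rfl
    simp only [lc, dir, Matrix.cons_val_zero] at hv'
    have ho : (w.1, w.2 - 1) ∉ S₀ := by
      have := hout.2
      rwa [Enl.m01, Enl.face3] at this
    refine ⟨?_, fun i hi hne σ hσ => ?_, fun σ => ?_, fun s e h => ?_⟩
    · refine ⟨(w.1, w.2 - 1), by rw [Enl.m01, Enl.face3], ho, ⟨?_, ?_⟩, ?_, ?_⟩
      all_goals simp only; nlinarith
    · refine side_ver (c := (w.1, w.2 - 1)) hσ ?_ ?_ ?_ ?_ (fun h5 h6 => ?_) fun h5 h6 => ?_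
      any_goals simp only; nlinarith
      · exact hsame i hi hne (h6.trans (by ext <;> simp))
      · have h7 := (hoth i).1
        rw [h5, h6, Enl.face2] at h7
        exact ho (by simpa using h7)
    · rw [hvp]
      have := hab v.1 (n * w.1 + t) σ (by linarith [hv'.1.1]) (by linarith [hv'.1.2]) _ rfl
      refine le_max_of_le_left (this.trans_eq ?_)
      congr 1
      simp [dir]
      ring
    · obtain ⟨σ, h5⟩ := hrow s e h
      rw [hns] at h5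
      have h6 : v.2 = n * w.2 - 1 := congrArg Prod.snd h5
      have := hv'.2.2
      omega
  · have hv' := hv.2.1 rfl
    simp only [lc, dir, Matrix.cons_val_zero, Matrix.cons_val_one] at hv'
    have ho : (w.1, w.2) ∉ S₀ := by
      have := hout.2
      rwa [Enl.m11, Enl.face0] at this
    refine ⟨?_, fun i hi hne σ hσ => ?_, fun σ => ?_, fun s e h => ?_⟩
    · refine ⟨(w.1, w.2), by rw [Enl.m11, Enl.face0], ho, ⟨?_, ?_⟩, ?_, ?_⟩
      all_goals simp only; nlinarith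
    · refine side_hor (c := (w.1 - 1, w.2)) hσ ?_ ?_ ?_ ?_ (fun h5 h6 => ?_) fun h5 h6 => ?_
      any_goals simp only; nlinarith
      · exact hsame i hi hne (h6.trans (by ext <;> simp))
      · have h7 := (hoth i).1
        rw [h5, h6, Enl.face3] at h7
        exact ho (by simpa using h7)
    · rw [hvp]
      have := hab v.2 (n * w.2 + t) σ (by linarith [hv'.2.1]) (by linarith [hv'.2.2]) _ rfl
      refine le_max_of_le_right (this.trans_eq ?_)
      congr 1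
      simp [dir]
      ring
    · obtain ⟨σ, h5⟩ := hrow s e h
      rw [hns] at h5
      have h6 : v.1 = n * w.1 := congrArg Prod.fst h5
      have := hv'.1.1
      omega
  · have hv' := hv.2.2.1 rfl
    simp [lc, dir] at hv'
    have ho : (w.1 - 1, w.2) ∉ S₀ := by
      have := hout.2
      rwa [Enl.m21, Enl.face1] at this
    refine ⟨?_, fun i hi hne σ hσ => ?_, fun σ => ?_, fun s e h => ?_⟩
    · refine ⟨(w.1 - 1, w.2), by rw [Enl.m21, Enl.face1], ho, ⟨?_, ?_⟩, ?_, ?_⟩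
      all_goals simp only; nlinarith
    · refine side_ver (c := (w.1 - 1, w.2 - 1)) hσ ?_ ?_ ?_ ?_ (fun h5 h6 => ?_) fun h5 h6 => ?_
      any_goals simp only; nlinarith
      · have h7 := (hoth i).1
        rw [h5, h6, Enl.face0] at h7
        exact ho (by simpa using h7)
      · exact hsame i hi hne (h6.trans (by ext <;> simp))
    · rw [hvp]
      have := hab' v.1 (n * w.1 - t) σ (by linarith [hv'.1.1]) (by linarith [hv'.1.2]) _ rfl
      refine le_max_of_le_left (this.trans_eq ?_)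
      congr 1
      simp [dir]
      ring
    · obtain ⟨σ, h5⟩ := hrow s e h
      rw [hns] at h5
      have h6 : v.2 = n * w.2 := congrArg Prod.snd h5
      have := hv'.2.1
      omega
  · have hv' := hv.2.2.2 rfl
    simp [lc, dir] at hv'
    have ho : (w.1 - 1, w.2 - 1) ∉ S₀ := by
      have := hout.2
      rwa [Enl.m31, Enl.face2] at this
    refine ⟨?_, fun i hi hne σ hσ => ?_, fun σ => ?_, fun s e h => ?_⟩
    · refine ⟨(w.1 - 1, w.2 - 1), by rw [Enl.m31, Enl.face2], ho, ⟨?_, ?_⟩, ?_, ?_⟩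
      all_goals simp only; nlinarith
    · refine side_hor (c := (w.1 - 1, w.2 - 1)) hσ ?_ ?_ ?_ ?_ (fun h5 h6 => ?_) fun h5 h6 => ?_
      any_goals simp only; nlinarith
      · have h7 := (hoth i).1
        rw [h5, h6, Enl.face1] at h7
        exact ho (by simpa using h7)
      · exact hsame i hi hne (h6.trans (by ext <;> simp))
    · rw [hvp]
      have := hab' v.2 (n * w.2 - t) σ (by linarith [hv'.2.1]) (by linarith [hv'.2.2]) _ rfl
      refine le_max_of_le_right (this.trans_eq ?_)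
      congr 1
      simp [dir]
      ring
    · obtain ⟨σ, h5⟩ := hrow s e h
      rw [hns] at h5
      have h6 : v.1 = n * w.1 - 1 := congrArg Prod.fst h5
      have := hv'.1.2
      omega

end Vale.Agent.P167.N.ID
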