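import Vale.Agent.P167.N.ID.CellR

/-!
# P167, `q < 1`, START: cells, change of the first step and of the direction by a multiple of `4`
-/

set_option autoImplicit false

namespace Vale.Agent.P167.N.ID

open Finset
open Vale.Agent.P167.Top
open Vale.Agent.P167.H871
open Vale.Agent.P167.H871.Q

variable {K : Finset (ℤ × ℤ)} {B E : Set (ℤ × ℤ)} {n : ℕ} {P : ℕ → ℤ × ℤ} {u : ℕ → ℤ} {τ κ : ℤ}

/-- Shift of the index and of the directions of a closed path. -/
theorem bd_base (hb : Bd E n P u τ) (c : ℕ) (hκ : κ % 4 = 0) :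
    Bd E n (fun k => P (k + c)) (fun k => u (k + c) - κ) τ := by
  refine ⟨fun k => ?_, fun k => ?_, fun k => ?_, fun k => ?_, fun k l h1 h2 => ?_, fun k => ?_,
    fun k => ?_⟩
  · show P (k + 1 + c) = _
    rw [show k + 1 + c = k + c + 1 by ring, hb.step]
    congr 1
    exact vec_congr (by omega)
  · show |u (k + 1 + c) - κ - (u (k + c) - κ)| ≤ 1
    rw [show k + 1 + c = k + c + 1 by ring, sub_sub_sub_cancel_right]
    exact hb.turn _
  · show u (k + n + c) - κ = u (k + c) - κ + 4 * τ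
    rw [show k + n + c = k + c + n by ring, hb.per]
    ring
  · show P (k + n + c) = P (k + c)
    rw [show k + n + c = k + c + n by ring]
    exact hb.perP _
  · exact hb.inj _ _ (by omega) (by omega)
  · show sqL (P (k + c)) (u (k + c) - κ) ∈ E
    rw [sqL_congr (d' := u (k + c)) (by omega)]
    exact hb.left _
  · show sqL (P (k + c)) (u (k + c) - κ - 1) ∉ E
    rw [sqL_congr (d' := u (k + c) - 1) (by omega)]
    exact hb.right _

theorem cov_base (hc : Cov E P u) (hb : Bd E n P u τ) (hn : 0 < n) (c : ℕ) (hκ : κ % 4 = 0) :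
    Cov E (fun k => P (k + c)) (fun k => u (k + c) - κ) := by
  intro v t h1 h2
  obtain ⟨k, h3, h4⟩ := hc v t h1 h2
  obtain ⟨g1, g2⟩ := hb.perN k c
  obtain ⟨k', hk⟩ : ∃ k', k' + c = k + n * c := by
    refine ⟨k + n * c - c, Nat.sub_add_cancel ?_⟩
    have := Nat.le_mul_of_pos_left c hn
    omega
  refine ⟨k', ?_, ?_⟩
  · show P (k' + c) = v
    rw [hk, g2, h3]
  · show (u (k' + c) - κ) % 4 = t % 4
    rw [hk, g1, ← h4, mul_assoc]
    omega

/-- **Change of the first step and of the directions of a cell.** -/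
theorem Cell.base (h : Cell K B E n P u τ) (c : ℕ) (hκ : κ % 4 = 0) :
    Cell K B E n (fun k => P (k + c)) (fun k => u (k + c) - κ) τ := by
  have hn : 0 < n := by have := h.hn; omega
  have hmod : ∀ k, ∃ r < n, ∃ q, k + c = r + n * q := fun k =>
    ⟨(k + c) % n, Nat.mod_lt _ hn, (k + c) / n, (Nat.mod_add_div (k + c) n).symm⟩
  have hoq : ∀ k, oq (fun k => P (k + c)) (fun k => u (k + c) - κ) k = oq P u (k + c) :=
    fun k => sqL_congr (show (u (k + c) - κ - 1) % 4 = (u (k + c) - 1) % 4 by omega)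
  have hiq : ∀ k, iq (fun k => P (k + c)) (fun k => u (k + c) - κ) k = iq P u (k + c) :=
    fun k => sqL_congr (show (u (k + c) - κ) % 4 = u (k + c) % 4 by omega)
  have hiqp : ∀ k q, iq P u (k + n * q) = iq P u k := fun k q => by
    obtain ⟨h1, h2⟩ := h.bd.perN k q
    unfold iq
    rw [h1, h2]
    exact sqL_congr (by rw [mul_assoc]; omega)
  have hvec : ∀ x : ℤ, vec (x - κ) = vec x := fun x => vec_congr (by omega)
  refine ⟨h.hn, bd_base h.bd c hκ, cov_base h.cov h.bd hn c hκ, h.dis, fun k _ => ?_,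
    fun k => ?_, fun k => ?_, fun k _ => ?_⟩
  · obtain ⟨r, hr, q, e⟩ := hmod k
    rw [hoq, hiq, e, oq_per h.bd, hiqp]
    exact h.sid r hr
  · rw [hoq, hoq]
    show oq P u (k + c) ∈ K → oq P u (k + c) ∉ B →
      oq P u (k + c) + vec (u (k + c) - κ) ∉ B →
      oq P u (k + 1 + c) ∈ K ∧ u (k + 1 + c) - κ = u (k + c) - κ
    rw [show k + 1 + c = k + c + 1 by ring, hvec]
    intro h1 h2 h3
    obtain ⟨h4, h5⟩ := h.fwd _ h1 h2 h3
    exact ⟨h4, by rw [h5]⟩
  · rw [hoq, hoq]
    show oq P u (k + 1 + c) ∈ K → oq P u (k + 1 + c) ∉ B →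
      oq P u (k + 1 + c) - vec (u (k + 1 + c) - κ) ∉ B →
      oq P u (k + c) ∈ K ∧ u (k + 1 + c) - κ = u (k + c) - κ
    rw [show k + 1 + c = k + c + 1 by ring, hvec]
    intro h1 h2 h3
    obtain ⟨h4, h5⟩ := h.bwd _ h1 h2 h3
    exact ⟨h4, by rw [h5]⟩
  · obtain ⟨r, hr, q, e⟩ := hmod k
    rw [hoq]
    show oq P u (k + c) ∈ K → oq P u (k + c) ∉ B → oq P u (k + c) + vec (u (k + c) - κ - 1) ∉ K
    have e2 : vec (u (k + c) - κ - 1) = vec (u r - 1) := by
      rw [e, (h.bd.perN r q).1]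
      exact vec_congr (by rw [mul_assoc]; omega)
    rw [e2, e, oq_per h.bd]
    exact h.thin r hr

/-- The reversed path of a path with another first step. -/
theorem revP_base (hb : Bd E n P u 1) {c : ℕ} (hc : c < n) (κ : ℤ) (k : ℕ) :
    revP n (fun k => P (k + c)) k = revP n P (k + (n - c)) ∧
      revU n (fun k => u (k + c) - κ) k = revU n u (k + (n - c)) - (κ - 4) := by
  obtain ⟨m, rfl⟩ : ∃ m, n = c + m + 1 := ⟨n - c - 1, by omega⟩
  unfold revP revU
  have e1 : (c + m + 1 - 1) * (k + (c + m + 1 - c) + 1) + 1 =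
      (c + m + 1 - 1) * (k + 1) + 1 + c + (c + m + 1) * m := by
    rw [show c + m + 1 - 1 = c + m by omega, show c + m + 1 - c = m + 1 by omega]
    ring
  have e2 : (c + m + 1 - 1) * (k + (c + m + 1 - c) + 1) =
      (c + m + 1 - 1) * (k + 1) + c + (c + m + 1) * m := by
    rw [show c + m + 1 - 1 = c + m by omega, show c + m + 1 - c = m + 1 by omega]
    ring
  rw [e1, e2, (hb.perN _ m).2, (hb.perN _ m).1, show c + m + 1 - c = m + 1 by omega]
  refine ⟨rfl, ?_⟩
  push_cast
  ring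

/-- **The reversed cell with another first step.** -/
theorem Cell.rbase {F : Set (ℤ × ℤ)} (h : Cell K B Fᶜ n (revP n P) (revU n u) (-1))
    (hb : Bd F n P u 1) {c : ℕ} (hc : c < n) (hκ : κ % 4 = 0) :
    Cell K B Fᶜ n (revP n fun k => P (k + c)) (revU n fun k => u (k + c) - κ) (-1) := by
  have h1 := h.base (n - c) (κ := κ - 4) (by omega)
  have e1 : (revP n fun k => P (k + c)) = fun k => revP n P (k + (n - c)) :=
    funext fun k => (revP_base hb hc κ k).1
  have e2 : (revU n fun k => u (k + c) - κ) = fun k => revU n u (k + (n - c)) - (κ - 4) :=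
    funext fun k => (revP_base hb hc κ k).2
  rw [e1, e2]
  exact h1

end Vale.Agent.P167.N.ID
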