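import Vale.Agent.P167.N.Kit
import Vale.Agent.P167.N.QX.Thick
import Vale.Agent.P167.N.H825.Q.Start
import Vale.Agent.P167.H680.T.RedP

/-!
# P167, `q < 1`, block 2A: the values of configurations of straight walls with arbitrary phases

The reduction of `H680/T/{Red,RedP}` for walls which cut all sides of a straight row of squares, with
arbitrary phases on the outer halves and the phase `0` on the inner halves. Only the shape of the rows
is used: it is given by an old row `g i : H825.Q.Row` (fields `o`, `x`, `L`).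

* `wx_redG`: the value `WX θ P W` is `∏ 2 (2 cos (θ / 4)) ^ (2 L)` times the expectation of `RT` on
  the event that the rows are frozen.
-/

set_option autoImplicit false

namespace Vale.Agent.P167.N.ID

open Finset Filter Topology MeasureTheory

open Vale.Agent.P167 Vale.Agent.P167.N

open Vale.Agent.P167.H592

open Vale.Agent.P167.H519 (IsLim)

open Vale.Agent.P167.H825 (dv epos)

open Vale.Agent.P167.H825.Q (Row WX)

open Vale.Agent.P167.XDL (bS mem_bS)

open Vale.Agent.P167.QX (rhoT RT XcQ)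

open Vale.Agent.P167.H506.Q (fz)

open Vale.Agent.P167.FK (Good)

open Vale.Agent.P167.H680.T (WCG WallG Fc sq et et_sq et_pos et_mem Sepd In0 uI mem_uI nm_sq nm_ht
  bS_biUnion rhoT_biUnion rhoT_row fs_ph fr_eq_fz)

/-- The wall `w` cuts all sides of the squares of the row `g` (only the shape of `g` matters), with
the phase `0` on the inner halves. -/
structure Cuts (g : Row) (w : WallG) : Prop where
  /-- the cut edges -/
  S : w.S = bS g.I
  /-- the inner halves -/
  in0 : ∀ e b, sq e b ∈ g.I → w.a e b = 0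
  /-- the row is not empty -/
  L : 1 ≤ g.L

section

variable {ι : Type} [Fintype ι] {W : WCG ι} {κ R B θ : ℝ} {n : ℕ} {g : ι → Row}

omit [Fintype ι] in
/-- The rows of an admissible configuration are separate. -/
theorem sepd_of (hW : W.Adm κ R B n) (hn : 1 < κ * n) (hg : ∀ i, Cuts (g i) (W.w i)) {i j : ι}
    (hij : i ≠ j) : Sepd (g i).I (g j).I := by
  have hS : ∀ k, (W.w k).S = bS (g k).I := fun k => (hg k).S
  have key : ∀ u ∈ (g i).I, ∀ v ∈ (g j).I, κ * n ≤ (nm (u - v) : ℝ) := by
    intro u hu v hv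
    have h1 := hW.sep i j hij (et (g i) u) (by rw [hS]; exact et_mem hu) (et (g j) v)
      (by rw [hS]; exact et_mem hv)
    rwa [et_pos, et_pos] at h1
  refine ⟨?_, fun e h1 h2 => ?_, fun e h1 h2 => ?_⟩
  · rw [Finset.disjoint_left]
    intro v hv hv'
    have h1 := key v hv v hv'
    rw [sub_self] at h1
    have : nm (0 : ℤ × ℤ) = 0 := by simp [nm]
    rw [this] at h1
    norm_num at h1
    linarith
  · have h3 := key _ h1 _ h2
    have h4 : (nm (hdv e - tlv e) : ℝ) ≤ 1 := by exact_mod_cast nm_ht e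
    linarith
  · have h3 := key _ h1 _ h2
    have h4 : (nm (tlv e - hdv e) : ℝ) ≤ 1 := by
      rw [← H199.nm_neg, neg_sub]
      exact_mod_cast nm_ht e
    linarith

theorem S_of (hW : W.Adm κ R B n) (hn : 1 < κ * n) (hg : ∀ i, Cuts (g i) (W.w i)) :
    W.S = bS (uI g) := by
  classical
  have h : bS (uI g) = univ.biUnion fun i => bS (g i).I :=
    bS_biUnion univ fun i _ j _ hij => sepd_of hW hn hg hij
  rw [h]
  unfold WCG.S
  exact biUnion_congr rfl fun i _ => (hg i).S

/-- The phases of an admissible configuration vanish inside the rows. -/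
theorem in0_of (hW : W.Adm κ R B n) (hn : 1 < κ * n) (hg : ∀ i, Cuts (g i) (W.w i)) :
    In0 (uI g) W.ph := by
  have hS : ∀ k, (W.w k).S = bS (g k).I := fun k => (hg k).S
  intro e b hb
  obtain ⟨i, hi⟩ := mem_uI.1 hb
  have hd : (nm (epos e - sq e b) : ℝ) ≤ 1 := by exact_mod_cast nm_sq e b
  have hc : W.c e = 0 := by
    by_contra hne
    have h1 := (hW.csup e hne).2 i (et (g i) (sq e b)) (by rw [hS]; exact et_mem hi)
    rw [et_pos] at h1
    linarith
  show ∑ k, (W.w k).a e b + W.c e / 2 = 0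
  rw [hc, zero_div, add_zero]
  refine sum_eq_zero fun k _ => ?_
  by_cases hk : k = i
  · subst hk
    exact (hg k).in0 e b hi
  · by_cases he : e ∈ (W.w k).S
    · have h1 := hW.sep k i hk e he (et (g i) (sq e b)) (by rw [hS]; exact et_mem hi)
      rw [et_pos] at h1
      linarith
    · rw [(W.w k).off e he]
      rfl

/-- The inner sum of an admissible configuration. -/
theorem rho_of (hW : W.Adm κ R B n) (hn : 1 < κ * n) (hg : ∀ i, Cuts (g i) (W.w i)) :
    rhoT θ (uI g) W.ph = ∏ i, 2 * (2 * Real.cos (θ / 4)) ^ (2 * (g i).L) := by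
  classical
  unfold uI
  rw [rhoT_biUnion univ fun i _ j _ hij => sepd_of hW hn hg hij]
  refine prod_congr rfl fun i _ => rhoT_row (fun e b he => ?_) (hg i).L
  exact in0_of hW hn hg e b (mem_uI.2 ⟨i, he⟩)

end

variable {θ : ℝ} {P : Measure Cfg}

/-- **The value of an admissible configuration of straight walls.** -/
theorem wx_redG (hP : IsLim (2 * Real.cos θ) P) (hgd : ∀ᵐ ω ∂P, Good ω)
    (hθ : Kit (2 * Real.cos θ)) {ι : Type} [Fintype ι] {W : WCG ι} (hc : Fc W) {κ R B : ℝ} {n : ℕ}
    (hW : W.Adm κ R B n) (hn : 1 < κ * n) {g : ι → Row} (hg : ∀ i, Cuts (g i) (W.w i)) (σ : Cfg) :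
    WX θ P W = (∏ i, 2 * (2 * Real.cos (θ / 4)) ^ (2 * (g i).L)) *
      ∫ ω, fz (uI g) σ ω * RT θ (uI g) W.ph ω ∂P := by
  classical
  have := hP.1
  unfold WX
  rw [S_of hW hn hg]
  have h0 := (fs_ph hc).off
  have h1 := Vale.Agent.P167.N.QX.int_thick (D := uI g) (a := W.ph)
    (E := Set.Finite.toFinset (fs_ph hc)) hP hgd hθ
    (fun e he b => by rw [h0 e he]; rfl) σ (G := fun _ => 1) (fun _ _ _ => rfl)
    (QX.QL.of_loc (B := ∅) (F := fun _ => (1 : ℝ)) fun _ _ _ => rfl) (M := 1)
    (fun _ _ => by norm_num)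
  simp only [one_mul] at h1
  rw [h1, rho_of hW hn hg]
  congr 1
  exact integral_congr_ae (Eventually.of_forall fun ω => by
    show QX.fr (uI g) σ ω * _ = fz (uI g) σ ω * _
    rw [fr_eq_fz])

theorem rho_posG (h0 : 0 < θ) (h1 : Ang θ) (L : ℕ) : 0 < 2 * (2 * Real.cos (θ / 4)) ^ (2 * L) := by
  have hlt := h1.lt
  have := Real.cos_pos_of_mem_Ioo (x := θ / 4)
    ⟨by linarith [Real.pi_pos], by linarith [Real.pi_pos]⟩
  positivity

end Vale.Agent.P167.N.ID
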