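import Vale.Agent.P167.N.ID.ArmPot
import Vale.Agent.P167.H871.Q.Val
import Vale.Agent.P167.QX.TS

/-!
# P167, the range `0 < q < 1`: arms and strands at a site of a row

`r` a row, `b` a face, `z = rqr r b t` a corner of the contour which starts with the face `b`, far from
the start of the contour; `B = Bq z ρ`; `c` the colour of the parity of `z`.

* `foot_of_not_AZ`: without an arm of colour `c` from `z` to distance `ρ`, there is a strand over `z`
  which stays in `B` (`z` dual: it goes back, `z` primal: it goes forward along the contour).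
* `not_over_row`: with an arm there is no strand over `z` which stays in `B`.
-/

namespace Vale.Agent.P167.N.ID

open Finset Relation
open Vale.Agent.P167
open Vale.Agent.P167.FK
open Vale.Agent.P167.E6 (IsPolygon Encloses dir)
open Vale.Agent.P167.H871 (IsC Bd)
open Vale.Agent.P167.Top
open Vale.Agent.P167.H632 (cs pr nm_le le_nm)
open Vale.Agent.P167.H192.TA (Pw)
open Vale.Agent.P167.BR (be)
open Vale.Agent.P167.XDL (bS mem_bS)
open Vale.Agent.P167.H199 (strand ret Returns ret_min ret_le)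
open Vale.Agent.P167.QX (exc mem_exc exc_nx exc_last ExtPot out_stays InB)
open Vale.Agent.P167.H871.Q (Foot Stays Rays rqr w0 w1 fz0 fd)

variable {ρ : ℤ} {ω : Cfg} {c : Bool} {e : Ed} {t i j k : ℕ} {r : H825.Q.Row} {b : Bool}
  {v z : ℤ × ℤ}

/-- The site before the column `k` on the face `b` (`true`: upper/right). -/
def cst (r : H825.Q.Row) (b : Bool) (k : ℕ) : ℤ × ℤ :=
  if r.o then (r.x.1 + k, r.x.2 + if b then 1 else 0) else (r.x.1 + (if b then 1 else 0), r.x.2 + k)

/-- The sites of the first half of the contour. -/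
theorem rqr_cst (hL : 1 ≤ r.L) (ht : t ≤ r.L) :
    rqr r b (t : ZMod (2 * r.L + 2)) = cst r b (if r.o = b then r.L - t else t) := by
  rw [H871.Q.rqr_nat hL, H871.Q.P1_eq (by omega)]
  unfold H871.Q.P0 cst H871.Q.Ls fz0 fd
  rw [if_pos ht]
  rcases hb : b with _ | _ <;> rcases ho : r.o with _ | _ <;> simp [dx, dy] <;> omega

/-- The first site of the second half of the contour. -/
theorem rqr_cst' (hL : 1 ≤ r.L) :
    rqr r b ((r.L + 1 : ℕ) : ZMod (2 * r.L + 2)) = cst r (!b) (if r.o = b then 0 else r.L) := by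
  rw [H871.Q.rqr_nat hL, H871.Q.P1_eq (by omega)]
  have e1 : H871.Q.P0 r.L (r.L + 1) = ((r.L : ℤ), 1) := by
    unfold H871.Q.P0
    rw [if_neg (show ¬ r.L + 1 ≤ r.L by omega), if_pos (show r.L + 1 ≤ 2 * r.L + 1 by omega)]
    ext
    · push_cast
      ring
    · rfl
  rw [e1]
  unfold cst H871.Q.Ls fz0 fd
  rcases hb : b with _ | _ <;> rcases ho : r.o with _ | _ <;> simp [dx, dy]

/-- The start of the contour. -/
theorem rqr_zero (hL : 1 ≤ r.L) : rqr r b 0 = cst r b (if r.o = b then r.L else 0) := by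
  have h := rqr_cst (r := r) (b := b) hL (Nat.zero_le _)
  rw [Nat.cast_zero] at h
  rw [h, Nat.sub_zero]

/-- The sites `t ≤ L + 1` of the contour. -/
theorem rqr_ex (hL : 1 ≤ r.L) (ht : t ≤ r.L + 1) :
    ∃ b' k, rqr r b (t : ZMod (2 * r.L + 2)) = cst r b' k ∧ k ≤ r.L ∧
      (if r.o = b then k + min t r.L = r.L else k = min t r.L) := by
  rcases Nat.lt_or_ge r.L t with h | h
  · obtain rfl : t = r.L + 1 := by omega
    refine ⟨!b, if r.o = b then 0 else r.L, rqr_cst' hL, ?_, ?_⟩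
    · split_ifs <;> omega
    · split_ifs <;> omega
  · refine ⟨b, if r.o = b then r.L - t else t, rqr_cst hL h, ?_, ?_⟩
    · split_ifs <;> omega
    · split_ifs <;> omega

/-- The contour near its start is far from the position `t`. -/
theorem far_start (hL : 1 ≤ r.L) (ht : t ≤ r.L + 1) (h1 : ρ < t) (h2 : ρ < r.L) :
    w0 r b ∉ Bq (rqr r b (t : ZMod (2 * r.L + 2))) ρ ∧
      (∀ v, IsC v (rqr r b 0) → v ∉ Bq (rqr r b (t : ZMod (2 * r.L + 2))) ρ) := by
  have h3 : ∀ v, IsC v (rqr r b 0) → v ∉ Bq (rqr r b (t : ZMod (2 * r.L + 2))) ρ := by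
    intro v hv hB
    obtain ⟨b', k, e1, hk, hk'⟩ := rqr_ex (r := r) (b := b) hL ht
    rw [e1, mem_Bz] at hB
    rw [rqr_zero hL] at hv
    obtain ⟨h4, h5⟩ := hv
    unfold cst at hB h4 h5
    by_cases hb : r.o = b
    · rw [if_pos hb] at hk' h4 h5
      rcases ho : r.o with _ | _ <;> simp only [ho, Bool.false_eq_true, if_false, if_true] at hB h4 h5
      · omega
      · omega
    · rw [if_neg hb] at hk' h4 h5
      rcases ho : r.o with _ | _ <;> simp only [ho, Bool.false_eq_true, if_false, if_true] at hB h4 h5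
      · omega
      · omega
  exact ⟨h3 _ (H871.Q.isC_w0 hL), h3⟩

/-- Rays off a box around a site of the row. -/
theorem rays_cst {b' : Bool} (hρ : 1 ≤ ρ) : Rays r.I (Bq (cst r b' k) ρ : Set (ℤ × ℤ)) := by
  apply H871.Q.rays_box
  rcases ho : r.o with _ | _
  · right
    refine ⟨r.x.1, fun v hv => ?_, ?_⟩
    · rw [H871.Q.mem_rI, ho] at hv
      simpa using hv.1
    · unfold cst
      rw [ho]
      simp only [Bool.false_eq_true, if_false]
      split_ifs <;> omega
  · left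
    refine ⟨r.x.2, fun v hv => ?_, ?_⟩
    · rw [H871.Q.mem_rI, ho] at hv
      simpa using hv.1
    · unfold cst
      rw [ho]
      simp only [if_true]
      split_ifs <;> omega

theorem rays_rqr (hL : 1 ≤ r.L) (ht : t ≤ r.L + 1) (hρ : 1 ≤ ρ) :
    Rays r.I (Bq (rqr r b (t : ZMod (2 * r.L + 2))) ρ : Set (ℤ × ℤ)) := by
  obtain ⟨b', k, e1, -, -⟩ := rqr_ex (r := r) (b := b) hL ht
  rw [e1]
  exact rays_cst hρ

/-- The inner square of a side is at both corners of the side. -/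
theorem isC_inner (hL : 1 ≤ r.L) (m : ℕ) :
    (∀ w, (w = hdv (be (rqr r b) (m : ZMod (2 * r.L + 2))) ∨
      w = tlv (be (rqr r b) (m : ZMod (2 * r.L + 2)))) →
      IsC w (rqr r b (m : ZMod (2 * r.L + 2))) ∧
        IsC w (rqr r b ((m + 1 : ℕ) : ZMod (2 * r.L + 2)))) := by
  intro w hw
  have hq := H871.Q.rqr_polygon (r := r) (b := b) hL
  have hI := H871.Q.rqr_encloses (r := r) (b := b) hL
  by_cases h : Even ((rqr r b (m : ZMod (2 * r.L + 2))).1 + (rqr r b (m : ZMod (2 * r.L + 2))).2)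
  · obtain ⟨h1, h2, -, -⟩ := BR.be_even hq hI h
    rw [Nat.cast_succ, ← h1, ← h2]
    have h3 := sc_isC true (be (rqr r b) (m : ZMod (2 * r.L + 2)))
    have h4 := sc_isC false (be (rqr r b) (m : ZMod (2 * r.L + 2)))
    rcases hw with rfl | rfl
    · exact ⟨h3.1, h4.1⟩
    · exact ⟨h3.2, h4.2⟩
  · obtain ⟨h1, h2, -, -⟩ := BR.be_odd hq hI h
    rw [Nat.cast_succ, ← h1, ← h2]
    have h3 := sc_isC true (be (rqr r b) (m : ZMod (2 * r.L + 2)))
    have h4 := sc_isC false (be (rqr r b) (m : ZMod (2 * r.L + 2)))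
    rcases hw with rfl | rfl
    · exact ⟨h4.1, h3.1⟩
    · exact ⟨h4.2, h3.2⟩

/-- **A strand which stays in the box is in the box**, and its feet. -/
theorem inB_of_stays (hL : 1 ≤ r.L) {B : Finset (ℤ × ℤ)} (hR : Rays r.I (B : Set (ℤ × ℤ)))
    (h0 : w0 r b ∉ B) (F : Foot (rqr r b) r.I ω e i j)
    (hs : Stays r.I (B : Set (ℤ × ℤ)) ω e) :
    InB B r.I ω e ∧ i < 2 * r.L + 1 ∧ j < 2 * r.L + 1 := by
  have hq := H871.Q.rqr_polygon (r := r) (b := b) hL
  have hI := H871.Q.rqr_encloses (r := r) (b := b) hL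
  obtain ⟨i', j', F', hi', hj', -, hB⟩ := H871.Q.row_cls (b := b) hL hR h0 F.out F.tl F.rt hs
  have e1 : i' = i := by
    by_contra hne
    exact XDL.be_ne hq F'.hi F.hi hne (F'.e1.symm.trans F.e1)
  have e2 : j' = j := by
    by_contra hne
    exact XDL.be_ne hq F'.hj F.hj hne (F'.e2.symm.trans F.e2)
  subst e1 e2
  have hne := F.ne hq hI
  refine ⟨⟨F.rt, ?_, fun k hk => ?_⟩, hi', hj'⟩
  · have h1 := isC_inner (r := r) (b := b) hL i' (tlv e) (Or.inr (by rw [F.e1]))
    rcases lt_or_gt_of_ne hne with h | h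
    · exact hB (i' + 1) (by omega) (by omega) (by omega) _ h1.2
    · exact hB i' (by omega) (by omega) (by omega) _ h1.1
  · rcases Nat.lt_or_ge k (ret (nx ω) (bS r.I) e) with h | h
    · exact mem_coe.1 (hs k h)
    · obtain rfl : k = ret (nx ω) (bS r.I) e := by omega
      have h1 := isC_inner (r := r) (b := b) hL j'
        (hdv ((nx ω)^[ret (nx ω) (bS r.I) e] e)) (Or.inl (by rw [F.e2]))
      rcases lt_or_gt_of_ne hne with h | h
      · exact hB j' (by omega) (by omega) (by omega) _ h1.1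
      · exact hB (j' + 1) (by omega) (by omega) (by omega) _ h1.2

theorem noArm_of (h : ω ∉ AZ c r.I z ρ) : NoArm c r.I (Bq z ρ) z ω := by
  intro s v hs hv
  by_contra hB
  exact h ⟨s, far_of_isC hB hv, hs⟩

/-- **(a) Without an arm there is a strand over the site.** -/
theorem foot_of_not_AZ (hg : Good ω) (hρ : 1 ≤ ρ) (ht : t ≤ r.L + 1) (h1 : ρ < t) (h2 : ρ < r.L)
    (hc : ((rqr r b (t : ZMod (2 * r.L + 2))).1 + (rqr r b (t : ZMod (2 * r.L + 2))).2) % 2 = pr c)
    (h : ω ∉ AZ c r.I (rqr r b (t : ZMod (2 * r.L + 2))) ρ) :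
    ∃ e i j, Foot (rqr r b) r.I ω e i j ∧
      Stays r.I (Bq (rqr r b (t : ZMod (2 * r.L + 2))) ρ : Set (ℤ × ℤ)) ω e ∧
      InB (Bq (rqr r b (t : ZMod (2 * r.L + 2))) ρ) r.I ω e ∧
      (if c then i < t ∧ t ≤ j else j < t ∧ t ≤ i) ∧ i < 2 * r.L + 1 ∧ j < 2 * r.L + 1 := by
  have hL : 1 ≤ r.L := by omega
  have hq := H871.Q.rqr_polygon (r := r) (b := b) hL
  have hI := H871.Q.rqr_encloses (r := r) (b := b) hL
  have hu := H871.Q.rqr_bd (r := r) (b := b) hL
  obtain ⟨hw0, hst⟩ := far_start (r := r) (b := b) hL ht h1 h2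
  have hR := rays_rqr (r := r) (b := b) hL ht hρ
  have hN := noArm_of h
  cases c with
  | false =>
    have hodd : ¬ Even ((rqr r b (t : ZMod (2 * r.L + 2))).1 +
        (rqr r b (t : ZMod (2 * r.L + 2))).2) := by
      rw [Int.even_iff]
      simp only [pr, Bool.false_eq_true, if_false] at hc
      omega
    obtain ⟨e, i, j, F, g1, g2, hs⟩ := chain_odd hq hI hu hg (by omega) hodd hN (by
      intro w hw hwI
      rw [show 2 * r.L + 2 - 1 = 2 * r.L + 1 by omega] at hw
      rw [H871.Q.outer_end hL ⟨hw, hwI⟩]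
      exact hw0)
    obtain ⟨g3, g4, g5⟩ := inB_of_stays hL hR hw0 F hs
    exact ⟨e, i, j, F, hs, g3, by simpa using ⟨g2, g1⟩, g4, g5⟩
  | true =>
    have hev : Even ((rqr r b (t : ZMod (2 * r.L + 2))).1 +
        (rqr r b (t : ZMod (2 * r.L + 2))).2) := by
      rw [Int.even_iff]
      simp only [pr, if_true] at hc
      exact hc
    obtain ⟨e, i, j, F, g1, g2, hs⟩ := chain_even hq hI hu hg (by omega) (by omega) hev hN (by
      intro w hw _
      refine hst w ?_
      have h3 := isC_inner (r := r) (b := b) hL 0 w (by rw [Nat.cast_zero]; exact hw)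
      rw [Nat.cast_zero] at h3
      exact h3.1)
    obtain ⟨g3, g4, g5⟩ := inB_of_stays hL hR hw0 F hs
    exact ⟨e, i, j, F, hs, g3, by simpa using ⟨g1, g2⟩, g4, g5⟩

/-- **(b) With an arm no strand which stays in the box is over the site.** -/
theorem not_over_row (hρ : 1 ≤ ρ) (ht : t ≤ r.L + 1) (h1 : ρ < t) (h2 : ρ < r.L)
    (hc : ((rqr r b (t : ZMod (2 * r.L + 2))).1 + (rqr r b (t : ZMod (2 * r.L + 2))).2) % 2 = pr c)
    (h : ω ∈ AZ c r.I (rqr r b (t : ZMod (2 * r.L + 2))) ρ) (F : Foot (rqr r b) r.I ω e i j)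
    (hs : Stays r.I (Bq (rqr r b (t : ZMod (2 * r.L + 2))) ρ : Set (ℤ × ℤ)) ω e) :
    ¬ (min i j < t ∧ t ≤ max i j) := by
  have hL : 1 ≤ r.L := by omega
  obtain ⟨hw0, -⟩ := far_start (r := r) (b := b) hL ht h1 h2
  obtain ⟨s, hs1, hs2⟩ := h
  obtain ⟨v, hv, hvs⟩ := isC_of_far hs1
  exact not_over (H871.Q.rqr_polygon hL) (H871.Q.rqr_encloses hL) (H871.Q.rqr_bd hL)
    (rays_rqr hL ht hρ) hw0 (H871.Q.isC_w0 hL) F hs (by omega) hc
    (A := Bq (rqr r b (t : ZMod (2 * r.L + 2))) ρ \ r.I)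
    (fun v hv => (mem_sdiff.1 hv).2) hs2 hv hvs

end Vale.Agent.P167.N.ID
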