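import Vale.Agent.P167.N.ID.RowAZ
import Vale.Agent.P167.N.ID.Row

/-!
# P167, the range `0 < q < 1`: the killed sites of a row as positions of the contour
-/

namespace Vale.Agent.P167.N.ID

open Vale.Agent.P167.FK
open Vale.Agent.P167.H680.T (par)
open Vale.Agent.P167.H632 (pr)
open Vale.Agent.P167.H871.Q (rqr)

variable {r : Row} {b : Bool} {k : ℕ}

theorem Row.st_cst (r : Row) (b : Bool) (k : ℕ) : r.st b k = cst r.toRow b k := rfl

/-- The killed site of the tip in the contour of the face with the bigger phase. -/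
theorem Row.zt_rqr (hL : 1 ≤ r.L) : ∃ t : ℕ, (t = r.L ∨ t = r.L + 1) ∧
    r.zt = rqr r.toRow r.g (t : ZMod (2 * r.L + 2)) := by
  have e1 : r.ke r.p = if r.o = r.g then 0 else r.L := by
    unfold Row.ke Row.p
    rcases r.o with _ | _ <;> rcases r.g with _ | _ <;> simp
  by_cases h : r.gc r.p = r.g
  · refine ⟨r.L, Or.inl rfl, ?_⟩
    rw [rqr_cst hL le_rfl, Nat.sub_self]
    show cst r.toRow (r.gc r.p) (r.ke r.p) = _
    rw [h, e1]
  · refine ⟨r.L + 1, Or.inr rfl, ?_⟩
    rw [rqr_cst' hL]
    show cst r.toRow (r.gc r.p) (r.ke r.p) = _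
    rw [show r.gc r.p = !r.g by cases h1 : r.gc r.p <;> cases h2 : r.g <;> simp_all, e1]

/-- A site of a face in the contour of this face. -/
theorem Row.st_rqr (hL : 1 ≤ r.L) (hk : k ≤ r.L) : r.st b k =
    rqr r.toRow b ((if r.o = b then r.L - k else k : ℕ) : ZMod (2 * r.L + 2)) := by
  rw [rqr_cst hL (by split_ifs <;> omega)]
  show cst r.toRow b k = _
  congr 1
  split_ifs <;> omega

theorem par_eq_neg_one {z : ℤ × ℤ} : par z = -1 ↔ (z.1 + z.2) % 2 = pr false := by
  unfold par
  split_ifs with h
  · rw [Int.even_iff] at h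
    simp only [pr, Bool.false_eq_true, if_false, h]
    norm_num
  · rw [Int.even_iff] at h
    simp only [pr, Bool.false_eq_true, if_false]
    constructor
    · intro; omega
    · intro; norm_num

theorem par_eq_one {z : ℤ × ℤ} : par z = 1 ↔ (z.1 + z.2) % 2 = pr true := by
  unfold par
  split_ifs with h
  · rw [Int.even_iff] at h
    simp [pr, h]
  · rw [Int.even_iff] at h
    simp only [pr, if_true]
    constructor
    · intro h; norm_num at h
    · intro; omega

theorem Row.par_st (r : Row) (b : Bool) (k : ℕ) : par (r.st (!b) k) = - par (r.st b k) := by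
  unfold par Row.st
  rcases b with _ | _ <;> rcases r.o with _ | _ <;>
    simp only [Bool.not_false, Bool.not_true, if_true, Bool.false_eq_true, if_false] <;>
    split_ifs with h1 h2 h2 <;> rw [Int.even_iff] at h1 h2 <;> first | (norm_num; done) | omega

/-- The killed site of the tip is good. -/
theorem Row.par_zt (hs : r.s = 1 ∨ r.s = -1) (hη : r.η = 1 ∨ r.η = -1) :
    par r.zt * r.se r.p = -1 := by
  have h1 : r.se r.p = 1 ∨ r.se r.p = -1 := by
    unfold Row.se
    split_ifs
    · rcases hs with h | h <;> rcases hη with h' | h' <;> rw [h, h'] <;> norm_num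
    · exact hs
  have h2 : par (r.st true (r.ke r.p)) = 1 ∨ par (r.st true (r.ke r.p)) = -1 := by
    unfold par
    split_ifs
    · exact Or.inl rfl
    · exact Or.inr rfl
  unfold Row.zt
  by_cases h : par (r.st true (r.ke r.p)) * r.se r.p = -1
  · rw [show r.gc r.p = true from decide_eq_true h]
    exact h
  · rw [show r.gc r.p = false from decide_eq_false h]
    rw [show r.st false (r.ke r.p) = r.st (!true) (r.ke r.p) from rfl, r.par_st]
    rcases h1 with h1 | h1 <;> rcases h2 with h2 | h2 <;> rw [h1, h2] at h ⊢ <;>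
      first | (norm_num; done) | (exfalso; apply h; norm_num)

end Vale.Agent.P167.N.ID
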