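import Vale.Agent.P167.N.ID.RowTy

/-!
# P167, `0 < q < 1`: the labels of the rows are invariant

`zinv_lab : ZInvR θ (Zlab (rowTy ..) θ)`.
-/

set_option autoImplicit false

namespace Vale.Agent.P167.N.ID

open Finset MeasureTheory

open Vale.Agent.P167 Vale.Agent.P167.N

open Vale.Agent.P167.FK

open Vale.Agent.P167.H519 (IsLim)

open Vale.Agent.P167.H506.Q (fz EF)

open Vale.Agent.P167.H135 (fx)

open Vale.Agent.P167.H680.T (par par_cases mem_img mem_image_add mem_image_inv rx rd rx_rx rd_rd)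

variable {P : Measure Cfg} {Q θ κ : ℝ} {n : ℕ} {r : Row}

/-- The probability of frozen squares is invariant under isometries. -/
theorem fz_int_mv (g : Isom) (hQ : 0 < Q) (hP : IsLim Q P) {I I' : Finset (ℤ × ℤ)} {f f' : Cfg}
    (hI : ∀ v, g.V v ∈ I' ↔ v ∈ I) (hf : ∀ v ∈ I, f' (g.V v) = fx g.b (f v)) :
    ∫ ω, fz I' f' ω ∂P = ∫ ω, fz I f ω ∂P := by
  have hI' : I' = I.image g.V := by
    ext u
    obtain ⟨v, rfl⟩ := g.V.surjective u
    rw [mem_img, hI]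
  have h := g.fz_integral hQ hP hf (T := fun _ => 1) (T' := fun _ => 1) (fun _ => rfl)
  simp only [mul_one] at h
  rw [hI', h]

theorem c1_of (hv : r.Val θ) : (r.c1 = r.c0 ∧ r.η = 1) ∨ (r.c1 = !r.c0) ∧ r.η = -1 := by
  unfold Row.c1 Row.c0
  rcases hv.eta with h | h
  · left
    rw [h, mul_one]
    exact ⟨rfl, rfl⟩
  · right
    refine ⟨?_, h⟩
    rcases hv.s with h1 | h1 <;> rw [h, h1] <;> norm_num

theorem not_dec {s : ℝ} (h : s = 1 ∨ s = -1) : decide (-s = -1) = !decide (s = -1) := by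
  rcases h with h | h <;> rw [h] <;> norm_num

/-- Translations. -/
theorem fz_tr (hQ : 0 < Q) (hP : IsLim Q P) (hv : r.Val θ) (v : ℤ × ℤ) :
    ∫ ω, fz (r.tr v).I (r.tr v).fr ω ∂P = ∫ ω, fz r.I r.fr ω ∂P := by
  have hV : ∀ u, (⟨false, false, false, v⟩ : Isom).V u = (u.1 + v.1, u.2 + v.2) := fun u => by
    rw [Isom.V_apply]
    simp only [Bool.false_eq_true, if_false]
  have hI : ∀ u, (⟨false, false, false, v⟩ : Isom).V u ∈ (r.tr v).I ↔ u ∈ r.I := by
    intro u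
    rw [hV, Row.mem_I, Row.mem_I]
    show (if r.o then u.2 + v.2 = r.x.2 + v.2 ∧ r.x.1 + v.1 ≤ u.1 + v.1 ∧
      u.1 + v.1 < r.x.1 + v.1 + r.L else u.1 + v.1 = r.x.1 + v.1 ∧ r.x.2 + v.2 ≤ u.2 + v.2 ∧
      u.2 + v.2 < r.x.2 + v.2 + r.L) ↔ _
    cases r.o
    · simp only [Bool.false_eq_true, if_false]
      omega
    · simp only [if_true]
      omega
  refine fz_int_mv ⟨false, false, false, v⟩ hQ hP hI fun u hu => ?_
  rw [Row.fr_mem ((hI u).2 hu), Row.fr_mem hu, hV]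
  have hb : (⟨false, false, false, v⟩ : Isom).b = !decide (Even (v.1 + v.2)) := rfl
  have h0 : (r.tr v).c0 = fx (!decide (Even (v.1 + v.2))) r.c0 := by
    show decide (par v * r.s = -1) = fx _ (decide (r.s = -1))
    unfold par
    by_cases h : Even (v.1 + v.2)
    · rw [if_pos h, decide_eq_true h, one_mul]
      rfl
    · rw [if_neg h, decide_eq_false h, neg_one_mul, not_dec hv.s]
      rfl
  have h1 : (r.tr v).c1 = fx (!decide (Even (v.1 + v.2))) r.c1 := by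
    show decide (par v * r.s * r.η = -1) = fx _ (decide (r.s * r.η = -1))
    have hs : r.s * r.η = 1 ∨ r.s * r.η = -1 := by
      rcases hv.s with h | h <;> rcases hv.eta with h' | h' <;> rw [h, h'] <;> norm_num
    unfold par
    by_cases h : Even (v.1 + v.2)
    · rw [if_pos h, decide_eq_true h, one_mul]
      rfl
    · rw [if_neg h, decide_eq_false h, neg_one_mul, neg_mul, not_dec hs]
      rfl
  have h2 : (((r.tr v).k0 : ℤ) ≤ (if (r.tr v).o then u.1 + v.1 - (r.tr v).x.1 else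
      u.2 + v.2 - (r.tr v).x.2)) ↔ ((r.k0 : ℤ) ≤ if r.o then u.1 - r.x.1 else u.2 - r.x.2) := by
    show ((r.k0 : ℤ) ≤ (if r.o then u.1 + v.1 - (r.x.1 + v.1) else u.2 + v.2 - (r.x.2 + v.2))) ↔ _
    cases r.o
    · simp only [Bool.false_eq_true, if_false]
      omega
    · simp only [if_true]
      omega
  dsimp only at h2 ⊢
  rw [hb, h0, h1]
  by_cases h3 : (r.k0 : ℤ) ≤ if r.o then u.1 - r.x.1 else u.2 - r.x.2
  · rw [if_pos h3, if_pos (h2.2 h3)]
  · rw [if_neg h3, if_neg fun h => h3 (h2.1 h)]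

/-- Reflection in the diagonal. -/
theorem fz_rD (hQ : 0 < Q) (hP : IsLim Q P) (hv : r.Val θ) :
    ∫ ω, fz r.rD.I r.rD.fr ω ∂P = ∫ ω, fz r.I r.fr ω ∂P := by
  set g : Isom := if r.o then ⟨true, true, false, (2 * r.x.2 + 1, 0)⟩ else
    ⟨true, false, true, (0, 2 * r.x.1 + 1)⟩ with hg
  have hV : ∀ u ∈ r.I, g.V u = (u.2, u.1) := fun u hu => by
    rw [Isom.V_apply, hg]
    rw [Row.mem_I] at hu
    cases ho : r.o <;> rw [ho] at hu <;>
      simp only [Bool.false_eq_true, if_false, if_true] at hu ⊢ <;> refine Prod.ext ?_ ?_ <;>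
      dsimp only <;> omega
  have hb : g.b = true := by
    rw [hg]
    unfold Isom.b
    cases r.o
    · simp only [Bool.false_eq_true, if_false]
      have : ¬ Even (0 + (2 * r.x.1 + 1)) := by
        rw [Int.even_iff]
        omega
      rw [decide_eq_false this]
      rfl
    · simp only [if_true]
      have : ¬ Even (2 * r.x.2 + 1 + 0) := by
        rw [Int.even_iff]
        omega
      rw [decide_eq_false this]
      rfl
  have hI : ∀ u, g.V u ∈ r.rD.I ↔ u ∈ r.I := by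
    intro u
    rw [Isom.V_apply, hg, Row.mem_I, Row.mem_I]
    show (if (!r.o) = true then _ = r.x.1 ∧ r.x.2 ≤ _ ∧ _ < r.x.2 + r.L
      else _ = r.x.2 ∧ r.x.1 ≤ _ ∧ _ < r.x.1 + r.L) ↔ _
    cases r.o <;> simp only [Bool.false_eq_true, if_false, if_true, Bool.not_false, Bool.not_true] <;>
      omega
  refine fz_int_mv g hQ hP hI fun u hu => ?_
  rw [Row.fr_mem ((hI u).2 hu), Row.fr_mem hu, hV u hu, hb]
  have h0 : r.rD.c0 = !r.c0 := not_dec hv.s
  have h1 : r.rD.c1 = !r.c1 := by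
    show decide (-r.s * r.η = -1) = !decide (r.s * r.η = -1)
    have hs : r.s * r.η = 1 ∨ r.s * r.η = -1 := by
      rcases hv.s with h | h <;> rcases hv.eta with h' | h' <;> rw [h, h'] <;> norm_num
    rw [neg_mul, not_dec hs]
  have h2 : ((r.rD.k0 : ℤ) ≤ (if r.rD.o then u.2 - r.rD.x.1 else u.1 - r.rD.x.2)) ↔
      ((r.k0 : ℤ) ≤ if r.o then u.1 - r.x.1 else u.2 - r.x.2) := by
    show ((r.k0 : ℤ) ≤ (if (!r.o) = true then u.2 - r.x.2 else u.1 - r.x.1)) ↔ _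
    cases r.o
    · rfl
    · rfl
  dsimp only at h2 ⊢
  rw [h0, h1]
  by_cases h3 : (r.k0 : ℤ) ≤ if r.o then u.1 - r.x.1 else u.2 - r.x.2
  · rw [if_pos h3, if_pos (h2.2 h3)]
    rfl
  · rw [if_neg h3, if_neg fun h => h3 (h2.1 h)]
    rfl

/-- Reflection in the columns, vertical rows. -/
theorem fz_rXf (hQ : 0 < Q) (hP : IsLim Q P) (hv : r.Val θ) (ho : r.o = false) :
    ∫ ω, fz r.rX.I r.rX.fr ω ∂P = ∫ ω, fz r.I r.fr ω ∂P := by
  set g : Isom := ⟨false, false, false, (1 - 2 * r.x.1, 0)⟩ with hg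
  have hV : ∀ u, g.V u = (u.1 + (1 - 2 * r.x.1), u.2 + 0) := fun u => by
    rw [Isom.V_apply, hg]
    simp only [Bool.false_eq_true, if_false]
  have hb : g.b = true := by
    rw [hg]
    unfold Isom.b
    have : ¬ Even (1 - 2 * r.x.1 + 0) := by
      rw [Int.even_iff]
      omega
    rw [decide_eq_false this]
    rfl
  have hI : ∀ u, g.V u ∈ r.rX.I ↔ u ∈ r.I := by
    intro u
    rw [hV, Row.mem_I, Row.mem_I, Row.rX_f ho]
    dsimp only
    rw [ho]
    simp only [Bool.false_eq_true, if_false]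
    omega
  refine fz_int_mv g hQ hP hI fun u hu => ?_
  rw [Row.fr_mem ((hI u).2 hu), Row.fr_mem hu, hV u, hb]
  rw [Row.rX_f ho]
  have h0 : decide (-r.s = -1) = !decide (r.s = -1) := not_dec hv.s
  have h1 : decide (-r.s * r.η = -1) = !decide (r.s * r.η = -1) := by
    have hs : r.s * r.η = 1 ∨ r.s * r.η = -1 := by
      rcases hv.s with h | h <;> rcases hv.eta with h' | h' <;> rw [h, h'] <;> norm_num
    rw [neg_mul, not_dec hs]
  unfold Row.c1 Row.c0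
  dsimp only
  rw [ho]
  simp only [Bool.false_eq_true, if_false]
  rw [h0, h1, add_zero]
  split_ifs <;> rfl

/-- Reflection in the columns, horizontal rows. -/
theorem fz_rXt (hQ : 0 < Q) (hP : IsLim Q P) (hv : r.Val θ) (ho : r.o = true) :
    ∫ ω, fz r.rX.I r.rX.fr ω ∂P = ∫ ω, fz r.I r.fr ω ∂P := by
  set g : Isom := ⟨false, true, true, (2, 2 * r.x.2 + 1)⟩ with hg
  have hV : ∀ u, g.V u = (-1 - u.1 + 2, -1 - u.2 + (2 * r.x.2 + 1)) := fun u => by
    rw [Isom.V_apply, hg]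
    simp only [Bool.false_eq_true, if_false, if_true]
  have hb : g.b = true := by
    rw [hg]
    unfold Isom.b
    have : ¬ Even (2 + (2 * r.x.2 + 1)) := by
      rw [Int.even_iff]
      omega
    rw [decide_eq_false this]
    rfl
  have hI : ∀ u, g.V u ∈ r.rX.I ↔ u ∈ r.I := by
    intro u
    rw [hV, Row.mem_I, Row.mem_I, Row.rX_t ho]
    dsimp only
    rw [ho]
    simp only [if_true]
    omega
  refine fz_int_mv g hQ hP hI fun u hu => ?_
  have hk : r.c1 = r.c0 ∨ r.k0 ≤ r.L := by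
    rcases hv.kind with h | ⟨-, h⟩
    · exact Or.inl (Row.c0_of h.2).symm
    · exact Or.inr h
  have hco := co_I hu
  rw [Row.fr_mem ((hI u).2 hu), Row.fr_mem hu, hV u, hb]
  rw [Row.rX_t ho]
  have h0 : decide (-(r.s * r.η) = -1) = !decide (r.s * r.η = -1) := by
    have hs : r.s * r.η = 1 ∨ r.s * r.η = -1 := by
      rcases hv.s with h | h <;> rcases hv.eta with h' | h' <;> rw [h, h'] <;> norm_num
    rw [not_dec hs]
  have h1 : decide (-(r.s * r.η) * r.η = -1) = !decide (r.s = -1) := by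
    have hη : r.η * r.η = 1 := by rcases hv.eta with h' | h' <;> rw [h'] <;> norm_num
    have : -(r.s * r.η) * r.η = -r.s := by linear_combination (-r.s) * hη
    rw [this, not_dec hv.s]
  unfold Row.co at hco
  unfold Row.c1 Row.c0 at hk ⊢
  dsimp only
  rw [ho] at hco ⊢
  simp only [if_true] at hco ⊢
  rw [h0, h1]
  show (if ((r.L - r.k0 : ℕ) : ℤ) ≤ -1 - u.1 + 2 - (2 - r.x.1 - r.L) then !decide (r.s = -1)
    else !decide (r.s * r.η = -1)) = !(if (r.k0 : ℤ) ≤ u.1 - r.x.1 then decide (r.s * r.η = -1)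
      else decide (r.s = -1))
  rcases hk with hk | hk
  · rw [hk, ite_self, ite_self]
  · have h3 : (((r.L - r.k0 : ℕ) : ℤ) ≤ -1 - u.1 + 2 - (2 - r.x.1 - r.L)) ↔
        ¬ (r.k0 : ℤ) ≤ u.1 - r.x.1 := by omega
    by_cases h4 : (r.k0 : ℤ) ≤ u.1 - r.x.1
    · rw [if_pos h4, if_neg fun h => h3.1 h h4]
    · rw [if_neg h4, if_pos (h3.2 h4)]

theorem fz_rX (hQ : 0 < Q) (hP : IsLim Q P) (hv : r.Val θ) :
    ∫ ω, fz r.rX.I r.rX.fr ω ∂P = ∫ ω, fz r.I r.fr ω ∂P := by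
  cases ho : r.o
  · exact fz_rXf hQ hP hv ho
  · exact fz_rXt hQ hP hv ho

/-! ### the labels -/

theorem Zlab_congr {F : Fct (rowS θ) Bool} (S : TyS F P) {r' : Row} (hL : r'.L = r.L)
    (hI : ∫ ω, fz r'.I r'.fr ω ∂P = ∫ ω, fz r.I r.fr ω ∂P) (hS : ∀ k, F.Sp r' k ↔ F.Sp r k)
    (hm : F.mg r' = F.mg r) (ht : ∀ k, S.ty r' k = S.ty r k) :
    Zlab S θ n r' = Zlab S θ n r := by
  classical
  have e1 : (rowS θ).shape r' = r'.toRow := rfl
  have e2 : (rowS θ).shape r = r.toRow := rfl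
  have e3 : ∫ ω, fz ((rowS θ).I r') ((rowS θ).fr r') ω ∂P =
      ∫ ω, fz ((rowS θ).I r) ((rowS θ).fr r) ω ∂P := hI
  unfold Zlab
  rw [e1, e2, hL, e3, hm]
  congr 2
  refine prod_congr rfl fun k _ => ?_
  by_cases h : F.Sp r k
  · rw [if_pos h, if_pos ((hS k).2 h), ht]
  · rw [if_neg h, if_neg fun h' => h ((hS k).1 h')]

theorem plain_rX (r : Row) : r.rX.Plain ↔ r.Plain := by
  cases ho : r.o
  · rw [Row.rX_f ho]
    exact Iff.rfl
  · rw [Row.rX_t ho]
    show -r.j = 0 ∧ r.η = 1 ↔ r.j = 0 ∧ r.η = 1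
    rw [neg_eq_zero]

theorem rX_j (r : Row) : |r.rX.j| = |r.j| ∧ r.rX.η = r.η ∧ r.rX.L = r.L := by
  cases ho : r.o
  · rw [Row.rX_f ho]
    exact ⟨rfl, rfl, rfl⟩
  · rw [Row.rX_t ho]
    exact ⟨abs_neg _, rfl, rfl⟩

theorem K2_rX (r : Row) : r.rX.K2 θ ↔ r.K2 θ := by
  obtain ⟨h1, h2, -⟩ := rX_j r
  unfold Row.K2
  rw [h1, h2]

theorem mg_rX (hk : r.Plain ∨ r.k0 ≤ r.L) : r.rX.mg = r.mg := by
  obtain ⟨-, -, h3⟩ := rX_j r
  by_cases hp : r.Plain
  · rw [Row.mg_plain hp, Row.mg_plain ((plain_rX r).2 hp), h3]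
  · rw [Row.mg_not hp, Row.mg_not fun h => hp ((plain_rX r).1 h), h3]
    have hk := hk.resolve_left hp
    cases ho : r.o
    · rw [Row.rX_f ho]
    · rw [Row.rX_t ho]
      show min (r.L - r.k0) (r.L - (r.L - r.k0)) = min r.k0 (r.L - r.k0)
      omega

theorem ty_rX (r : Row) (k : Bool) : Row.ty θ r.rX k = Row.ty θ r k := by
  obtain ⟨-, h2, -⟩ := rX_j r
  unfold Row.ty
  by_cases h : k = true
  · rw [if_pos h, if_pos h]
  · rw [if_neg h, if_neg h, h2]
    by_cases h1 : r.η = 1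
    · rw [if_pos h1, if_pos h1]
    · rw [if_neg h1, if_neg h1]
      by_cases h3 : r.K2 θ
      · rw [if_pos h3, if_pos ((K2_rX r).2 h3)]
      · rw [if_neg h3, if_neg fun h => h3 ((K2_rX r).1 h)]

/-- **The labels of the rows are invariant.** -/
theorem zinv_lab (hθ : 0 ≤ Real.cos θ) (hQ : 0 < Q) (hP : IsLim Q P) :
    ZInvR θ (Zlab (rowTy (θ := θ) hθ hQ hP) θ) where
  tr v hκ hr := Zlab_congr _ rfl (fz_tr hQ hP (hr.val hκ) v) (fun _ => Iff.rfl) rfl fun _ => rfl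
  rD hκ hr := Zlab_congr _ rfl (fz_rD hQ hP (hr.val hκ)) (fun _ => Iff.rfl) rfl fun _ => rfl
  rX {κ n r} hκ hr := by
    have hv := hr.val hκ
    refine Zlab_congr _ (rX_j r).2.2 (fz_rX hQ hP hv) (fun k => ?_) (mg_rX ?_) fun k => ty_rX r k
    · show (k = true ∨ ¬ r.rX.Plain) ↔ (k = true ∨ ¬ r.Plain)
      rw [plain_rX]
    · rcases hv.kind with h | ⟨-, h⟩
      · exact Or.inl h
      · exact Or.inr h

/-- Invariance of the labels of the walls. -/
theorem zinv_zrow {Zp : ℕ → Row → ℝ} (h : ZInvR θ Zp) :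
    ZInvR θ fun n r => (rowS θ).Zrow θ Zp n r where
  tr {κ n r} v hκ hr := by
    show 2 * (2 * Real.cos (θ / 4)) ^ (2 * r.L) * Zp n (r.tr v) =
      2 * (2 * Real.cos (θ / 4)) ^ (2 * r.L) * Zp n r
    rw [h.tr v hκ hr]
  rD {κ n r} hκ hr := by
    show 2 * (2 * Real.cos (θ / 4)) ^ (2 * r.L) * Zp n r.rD =
      2 * (2 * Real.cos (θ / 4)) ^ (2 * r.L) * Zp n r
    rw [h.rD hκ hr]
  rX {κ n r} hκ hr := by
    show 2 * (2 * Real.cos (θ / 4)) ^ (2 * r.rX.L) * Zp n r.rX =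
      2 * (2 * Real.cos (θ / 4)) ^ (2 * r.L) * Zp n r
    rw [h.rX hκ hr, (rX_j r).2.2]

/-- **The labels of the walls of the rows are invariant.** -/
theorem zinv_zw (hθ : 0 ≤ Real.cos θ) (hQ : 0 < Q) (hP : IsLim Q P) :
    ZInvR θ fun n r => (rowS θ).Zrow θ (Zlab (rowTy (θ := θ) hθ hQ hP) θ) n r :=
  zinv_zrow (zinv_lab hθ hQ hP)

end Vale.Agent.P167.N.ID
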