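import Vale.Agent.P167.N.ID.LabRat
import Vale.Agent.P167.N.ID.RowCut

/-!
# P167, `0 < q < 1`: ratio mixing around the special points of the rows

`rat_rows : RATg (rowS θ) (rowF hθ) θ`.
-/

set_option autoImplicit false

namespace Vale.Agent.P167.N.ID

open Finset

open Vale.Agent.P167 Vale.Agent.P167.N

open Vale.Agent.P167.FK

variable {θ : ℝ}

/-- The bounds from the margin. -/
theorem Row.mg_bd {r : Row} {R : ℤ} (hv : r.Val θ) (h : R ≤ r.mg) :
    R ≤ r.L ∧ (r.Plain ∨ (¬ r.Plain ∧ R ≤ r.k0 ∧ (r.k0 : ℤ) + R ≤ r.L)) := by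
  by_cases hp : r.Plain
  · rw [Row.mg_plain hp] at h
    exact ⟨h, Or.inl hp⟩
  · have h0 := hv.k0_le hp
    rw [Row.mg_not hp] at h
    refine ⟨by omega, Or.inr ⟨hp, by omega, by omega⟩⟩

/-- **Ratio mixing around the special points of the rows.** -/
theorem rat_rows (hQ : Kit (2 * Real.cos θ)) (hθ : 0 ≤ Real.cos θ) :
    RATg (rowS θ) (rowF (θ := θ) hθ) θ := by
  refine ratg_of _ hQ 1 ?_
  intro r k ρ s hv hk h1 hs hm
  have hv' : r.Val θ := hv
  have hm' : 8 * ρ ≤ (r.mg : ℤ) := hm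
  obtain ⟨hL, h2⟩ := Row.mg_bd (R := 4 * ρ) hv' (by omega)
  cases k
  · have hp : ¬ r.Plain := Or.resolve_left hk Bool.false_ne_true
    obtain ⟨-, h3, h4⟩ := h2.resolve_left hp
    exact ⟨Row.mid_shp (r := r) (s := s) (R := 4 * ρ) r.kf h1 h3 h4 (by omega),
      Row.mid_arc (r := r) r.kf h3 h4 (by omega)⟩
  · refine ⟨Row.tip_shp (r := r) r.p (r.gc r.p) h1 hL, Row.tip_arc (r := r) r.p (r.gc r.p) hL ?_ ?_⟩
    · rcases h2 with h2 | ⟨-, h3, h4⟩
      · exact Or.inl (Row.c0_of h2.2)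
      · exact Or.inr ⟨h3, h4⟩
    · rcases h2 with h2 | ⟨h2, -⟩
      · exact Or.inl (Row.c0_of h2.2)
      · exact Or.inr (hv'.k0_le h2)

end Vale.Agent.P167.N.ID
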