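import Vale.Agent.P167.N.ID.RowRat
import Vale.Agent.P167.N.ID.RowIso

/-!
# P167, `0 < q < 1`: the types of the special points of the rows

`rowTy : TyS (rowF hθ) P`: four types (tip, base, killed junction, power junction).
-/

set_option autoImplicit false

namespace Vale.Agent.P167.N.ID

open Finset MeasureTheory

open Vale.Agent.P167 Vale.Agent.P167.N

open Vale.Agent.P167.FK

open Vale.Agent.P167.XDL (bS mem_bS)

open Vale.Agent.P167.H519 (IsLim)

open Vale.Agent.P167.H506.Q (fz EF)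

open Vale.Agent.P167.H199 (cang strand ret Returns mem_strand)

open Vale.Agent.P167.H680.T (par)

open Vale.Agent.P167.H635 (mem_Bq bq_mono)

open Vale.Agent.P167.H945.Q (face faces lrs mem_lrs lrs_row faces_sub tl_face)

variable {P : Measure Cfg} {Q θ : ℝ} {r : Row} {R : ℤ} {l : ℕ}

/-! ### strands of cut rows -/

/-- Only the sides near the box count. -/
theorem lrs_sets {I A A' C C' B : Finset _} {ω : Cfg} (hA : A ⊆ C) (hA' : A' ⊆ C')
    (h1 : ∀ e ∈ C, hdv e ∈ B → e ∈ A) (h2 : ∀ e ∈ C', tlv e ∈ B → e ∈ A') :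
    lrs I C C' B ω = lrs I A A' B ω := by
  ext e
  rw [mem_lrs, mem_lrs]
  constructor
  · rintro ⟨a1, a2, a3, a4, a5, a6⟩
    obtain ⟨h7, -⟩ := a4.spec
    have h0 : hdv e ∈ B := a6 e (mem_strand.2 ⟨0, by omega, rfl⟩)
    refine ⟨h1 e a1 h0, a2, a3, a4, h2 _ a5 ?_, a6⟩
    obtain ⟨m, hm⟩ : ∃ m, ret (nx ω) (bS I) e = m + 1 := ⟨_, (Nat.sub_add_cancel h7).symm⟩
    have h8 := a6 _ (mem_strand.2 ⟨m, by omega, rfl⟩)
    rw [hm, Function.iterate_succ_apply', tlv_nx]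
    exact h8
  · rintro ⟨a1, a2, a3, a4, a5, a6⟩
    exact ⟨hA a1, a2, a3, a4, hA' a5, a6⟩

/-- The coordinate along the row. -/
def Row.co (r : Row) (v : ℤ × ℤ) : ℤ := if r.o then v.1 - r.x.1 else v.2 - r.x.2

theorem face_co (r : Row) (b : Bool) (k : ℕ) :
    r.co (hdv (face r.toRow b k)) = k ∧ r.co (tlv (face r.toRow b k)) = k := by
  unfold Row.co face H825.Q.Row.sq hdv tlv
  cases r.o <;> cases b <;> simp only [Bool.false_eq_true, if_false, if_true] <;> split_ifs <;>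
    refine ⟨?_, ?_⟩ <;> simp

theorem co_box {b : Bool} {k : ℕ} {R : ℤ} {v : ℤ × ℤ} (hv : v ∈ Bq (r.st b k) R) :
    (k : ℤ) - R ≤ r.co v ∧ r.co v < k + R := Row.box_st hv

theorem co_I {v : ℤ × ℤ} (hv : v ∈ r.I) : 0 ≤ r.co v ∧ r.co v < r.L := by
  rw [Row.mem_I] at hv
  unfold Row.co
  cases ho : r.o <;> rw [ho] at hv <;>
    simp only [Bool.false_eq_true, if_false, if_true] at hv ⊢ <;> omega

theorem sq_cutJ (i : ℕ) : (r.cutJ l).sq i = r.sq (r.k0 - l + i) := by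
  unfold H825.Q.Row.sq
  show (if r.o then ((r.sq (r.k0 - l)).1 + (i : ℤ), (r.sq (r.k0 - l)).2)
    else ((r.sq (r.k0 - l)).1, (r.sq (r.k0 - l)).2 + (i : ℤ))) = _
  unfold H825.Q.Row.sq
  cases r.o
  · simp only [Bool.false_eq_true, if_false]
    push_cast
    rw [add_assoc]
  · simp only [if_true]
    push_cast
    rw [add_assoc]

theorem face_cutJ (b : Bool) (i : ℕ) :
    face (r.cutJ l).toRow b i = face r.toRow b (r.k0 - l + i) := by
  unfold face
  rw [sq_cutJ]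
  rfl

theorem mem_cutJ (hl : l ≤ r.k0) (hL : r.k0 + l ≤ r.L) {v : ℤ × ℤ} :
    v ∈ (r.cutJ l).I ↔ v ∈ r.I ∧ (r.k0 : ℤ) - l ≤ r.co v ∧ r.co v < r.k0 + l := by
  have e0 : (r.cutJ l).o = r.o := rfl
  have e1 : (r.cutJ l).x = r.sq (r.k0 - l) := rfl
  have e2 : (r.cutJ l).L = 2 * l := rfl
  rw [Row.mem_I, Row.mem_I, e0, e1, e2]
  unfold H825.Q.Row.sq Row.co
  cases r.o
  · simp only [Bool.false_eq_true, if_false]
    push_cast [Nat.cast_sub hl]
    omega
  · simp only [if_true]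
    push_cast [Nat.cast_sub hl]
    omega

theorem T2_cutJ {ω : Cfg} (hl : l ≤ r.k0) (hL : r.k0 + l ≤ r.L) (hR : R ≤ l) :
    (r.cutJ l).T2 θ (r.cutJ l).I R ω = r.T2 θ r.I R ω := by
  unfold Row.T2
  have hz : (r.cutJ l).zm = r.zm := Row.zb_cutJ hl
  have e0 : (r.cutJ l).kf = r.kf := rfl
  have e1 : (r.cutJ l).k0 = l := rfl
  have e2 : (r.cutJ l).L = 2 * l := rfl
  rw [hz, e0, e1, e2]
  have hs1 : faces (r.cutJ l).toRow r.kf 0 l ⊆ faces r.toRow r.kf 0 r.k0 := by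
    intro e he
    obtain ⟨i, hi, rfl⟩ := mem_image.1 he
    rw [mem_Ico] at hi
    rw [face_cutJ]
    exact mem_image_of_mem _ (mem_Ico.2 (by omega))
  have hs2 : faces (r.cutJ l).toRow r.kf l (2 * l) ⊆ faces r.toRow r.kf r.k0 r.L := by
    intro e he
    obtain ⟨i, hi, rfl⟩ := mem_image.1 he
    rw [mem_Ico] at hi
    rw [face_cutJ]
    exact mem_image_of_mem _ (mem_Ico.2 (by omega))
  have hn1 : ∀ e ∈ faces r.toRow r.kf 0 r.k0, (∃ v ∈ Bq r.zm R, v = hdv e ∨ v = tlv e) →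
      e ∈ faces (r.cutJ l).toRow r.kf 0 l := by
    intro e he h
    obtain ⟨k, hk, rfl⟩ := mem_image.1 he
    rw [mem_Ico] at hk
    obtain ⟨v, h1, h2⟩ := h
    have h3 := co_box h1
    have h4 : r.co v = k := by
      rcases h2 with rfl | rfl
      · exact (face_co r r.kf k).1
      · exact (face_co r r.kf k).2
    refine mem_image.2 ⟨k - (r.k0 - l), mem_Ico.2 (by omega), ?_⟩
    rw [face_cutJ]
    congr 1
    omega
  have hn2 : ∀ e ∈ faces r.toRow r.kf r.k0 r.L, (∃ v ∈ Bq r.zm R, v = hdv e ∨ v = tlv e) →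
      e ∈ faces (r.cutJ l).toRow r.kf l (2 * l) := by
    intro e he h
    obtain ⟨k, hk, rfl⟩ := mem_image.1 he
    rw [mem_Ico] at hk
    obtain ⟨v, h1, h2⟩ := h
    have h3 := co_box h1
    have h4 : r.co v = k := by
      rcases h2 with rfl | rfl
      · exact (face_co r r.kf k).1
      · exact (face_co r r.kf k).2
    refine mem_image.2 ⟨k - (r.k0 - l), mem_Ico.2 (by omega), ?_⟩
    rw [face_cutJ]
    congr 1
    omega
  rw [lrs_sets hs1 hs2 (fun e he h => hn1 e he ⟨_, h, Or.inl rfl⟩)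
      (fun e he h => hn2 e he ⟨_, h, Or.inr rfl⟩),
    lrs_sets hs2 hs1 (fun e he h => hn2 e he ⟨_, h, Or.inl rfl⟩)
      (fun e he h => hn1 e he ⟨_, h, Or.inr rfl⟩)]
  have hJ : (r.cutJ l).I ⊆ r.I := fun v hv => ((mem_cutJ hl hL).1 hv).1
  have hB : ∀ v ∈ Bq r.zm R, v ∈ r.I → v ∈ (r.cutJ l).I := fun v hv hI => by
    have h1 := co_box hv
    exact (mem_cutJ hl hL).2 ⟨hI, by omega, by omega⟩
  have ht : ∀ lo hi : ℕ, hi ≤ 2 * l → ∀ e ∈ faces (r.cutJ l).toRow r.kf lo hi,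
      tlv e ∈ r.I → tlv e ∈ (r.cutJ l).I := by
    intro lo hi h e he h1
    obtain ⟨i, hi', rfl⟩ := mem_image.1 he
    rw [mem_Ico] at hi'
    rw [face_cutJ] at h1 ⊢
    have h2 := (face_co r r.kf (r.k0 - l + i)).2
    exact (mem_cutJ hl hL).2 ⟨h1, by omega, by omega⟩
  rw [lrs_row hJ hB (faces_sub (r := (r.cutJ l).toRow) (show 2 * l ≤ 2 * l from le_rfl))
      (ht 0 l (by omega)),
    lrs_row hJ hB (faces_sub (r := (r.cutJ l).toRow) (show l ≤ 2 * l by omega))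
      (ht l (2 * l) le_rfl)]

theorem mem_cutT (hl : l ≤ r.L) {v : ℤ × ℤ} :
    v ∈ (r.cutT l).I ↔ v ∈ r.I ∧ if r.p then (r.L : ℤ) - l ≤ r.co v else r.co v < l := by
  have e0 : (r.cutT l).o = r.o := rfl
  have e1 : (r.cutT l).x = if r.p then r.sq (r.L - l) else r.x := rfl
  have e2 : (r.cutT l).L = l := rfl
  rw [Row.mem_I, Row.mem_I, e0, e1, e2]
  unfold H825.Q.Row.sq Row.co
  cases r.o <;> cases r.p <;> simp only [Bool.false_eq_true, if_false, if_true] <;>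
    push_cast [Nat.cast_sub hl] <;> omega

/-! ### the special points look the same in the cut rows -/

theorem fr_cutT {v : ℤ × ℤ} (hv : v ∈ (r.cutT l).I) : (r.cutT l).fr v = decide (r.se r.p = -1) := by
  rw [Row.fr_mem hv, ← Row.c0_of (r := r.cutT l) rfl, ite_self]
  rfl

theorem val_cutT (hv : r.Val θ) : (r.cutT l).Val θ where
  s := by
    show r.se r.p = 1 ∨ r.se r.p = -1
    unfold Row.se
    rcases hv.s with h1 | h1 <;> rcases hv.eta with h2 | h2 <;> rw [h1, h2] <;> split_ifs <;>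
      norm_num
  kind := Or.inl ⟨rfl, rfl⟩
  gd _ h := absurd rfl h

theorem val_cutJ (hl : l ≤ r.k0) (hv : r.Val θ) (hp : ¬ r.Plain) : (r.cutJ l).Val θ where
  s := hv.s
  kind := by
    rcases hv.kind with h | ⟨h, -⟩
    · exact absurd h hp
    · exact Or.inr ⟨h, show l ≤ 2 * l by omega⟩
  gd h1 h2 := by
    have h3 := hv.gd h1 h2
    have h4 : (r.cutJ l).st (r.cutJ l).kf (r.cutJ l).k0 = r.st r.kf r.k0 := Row.st_cutJ hl r.kf
    rw [h4]
    exact h3

variable {hθ : 0 ≤ Real.cos θ} {ρ : ℤ}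

theorem grm_cutT (hv : r.Val θ) (hl : (l : ℤ) = 8 * ρ) (hm : 8 * ρ ≤ (r.mg : ℤ)) :
    Grm (rowF (θ := θ) hθ) r true (r.cutT l) true ρ := by
  obtain ⟨hL, h2⟩ := Row.mg_bd hv hm
  have hlL : l ≤ r.L := by omega
  have hI : ∀ v ∈ Bq r.zt (4 * ρ), v ∈ (r.cutT l).I ↔ v ∈ r.I := by
    intro v hv
    rw [mem_cutT hlL]
    have h1 := co_box hv
    constructor
    · exact fun h => h.1
    · intro h
      refine ⟨h, ?_⟩
      unfold Row.ke at h1
      cases hp : r.p <;> rw [hp] at h1 <;>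
        simp only [Bool.false_eq_true, if_false, if_true] at h1 ⊢
      · push_cast at h1
        omega
      · omega
  refine ⟨Row.zt_cutT hlL, hI, fun v hv1 hv2 => ?_, fun ρ' hρ' ω _ _ => ?_⟩
  · have h1 := co_box (show v ∈ Bq (r.st (r.gc r.p) (r.ke r.p)) (4 * ρ) from hv1)
    have h3 := (hI v hv1).2 hv2
    show (r.cutT l).fr v = r.fr v
    rw [fr_cutT h3, Row.fr_mem hv2]
    unfold Row.ke at h1
    have h4 : (if r.o then v.1 - r.x.1 else v.2 - r.x.2) = r.co v := rfl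
    rw [h4]
    unfold Row.se Row.c1 Row.c0
    rcases h2 with h2 | ⟨-, h5, h6⟩
    · rw [h2.2, mul_one, ite_self, ite_self]
    · cases hp : r.p <;> rw [hp] at h1 <;>
        simp only [Bool.false_eq_true, if_false, if_true] at h1 ⊢
      · rw [if_neg]
        push_cast at h1
        omega
      · rw [if_pos]
        omega
  · show TK (r.cutT l).I (r.cutT l).zt ρ' ω = TK r.I r.zt ρ' ω
    rw [Row.zt_cutT hlL]
    exact TK_own (fun v hv => hI v (bq_mono (by omega) hv)) ω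

theorem grm_cutJ (hv : r.Val θ) (hp : ¬ r.Plain) (hl : (l : ℤ) = 8 * ρ)
    (hm : 8 * ρ ≤ (r.mg : ℤ)) : Grm (rowF (θ := θ) hθ) r false (r.cutJ l) false ρ := by
  obtain ⟨-, h2⟩ := Row.mg_bd hv hm
  obtain ⟨-, h3, h4⟩ := h2.resolve_left hp
  have hl0 : l ≤ r.k0 := by omega
  have hlL : r.k0 + l ≤ r.L := by omega
  have hI : ∀ v ∈ Bq r.zm (4 * ρ), v ∈ (r.cutJ l).I ↔ v ∈ r.I := by
    intro v hv
    rw [mem_cutJ hl0 hlL]
    have h1 := co_box hv
    constructor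
    · exact fun h => h.1
    · exact fun h => ⟨h, by omega, by omega⟩
  refine ⟨Row.zb_cutJ hl0, hI, fun v hv1 hv2 => ?_, fun ρ' hρ' ω _ _ => ?_⟩
  · have h5 := (hI v hv1).2 hv2
    show (r.cutJ l).fr v = r.fr v
    rw [Row.fr_mem h5, Row.fr_mem hv2]
    have e1 : (r.cutJ l).c1 = r.c1 := rfl
    have e2 : (r.cutJ l).c0 = r.c0 := rfl
    have e3 : ((r.cutJ l).k0 : ℤ) ≤ (if (r.cutJ l).o then v.1 - (r.cutJ l).x.1 else
        v.2 - (r.cutJ l).x.2) ↔ (r.k0 : ℤ) ≤ (if r.o then v.1 - r.x.1 else v.2 - r.x.2) := by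
      show (l : ℤ) ≤ (if r.o then v.1 - (r.sq (r.k0 - l)).1 else v.2 - (r.sq (r.k0 - l)).2) ↔ _
      unfold H825.Q.Row.sq
      cases r.o
      · simp only [Bool.false_eq_true, if_false]
        push_cast [Nat.cast_sub hl0]
        omega
      · simp only [if_true]
        push_cast [Nat.cast_sub hl0]
        omega
    rw [e1, e2]
    by_cases h6 : (r.k0 : ℤ) ≤ (if r.o then v.1 - r.x.1 else v.2 - r.x.2)
    · rw [if_pos h6, if_pos (e3.2 h6)]
    · rw [if_neg h6, if_neg fun h => h6 (e3.1 h)]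
  · show (r.cutJ l).T θ (r.cutJ l).I false ρ' ω = r.T θ r.I false ρ' ω
    have hp' : ¬ (r.cutJ l).Plain := hp
    have hK : (r.cutJ l).K2 θ ↔ r.K2 θ := Iff.rfl
    unfold Row.T
    rw [if_neg Bool.false_ne_true, if_neg Bool.false_ne_true, if_neg hp, if_neg hp']
    by_cases h7 : r.K2 θ
    · rw [if_pos h7, if_pos (hK.2 h7)]
      exact T2_cutJ hl0 hlL (by omega)
    · rw [if_neg h7, if_neg fun h => h7 (hK.1 h)]
      show TK (r.cutJ l).I (r.cutJ l).zb ρ' ω = _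
      rw [Row.zb_cutJ hl0]
      exact TK_own (fun v hv => hI v (bq_mono (by omega) hv)) ω

/-! ### the types -/

/-- **The types of the special points**: tip, base, junction with a killed site, power junction. -/
inductive PtTy
  | tip
  | base
  | kil
  | pow

/-- The one-point quantities. -/
noncomputable def PtTy.a (θ : ℝ) (P : Measure Cfg) (t : PtTy) (ρ : ℤ) : ℝ :=
  match t with
  | .tip => EF P (lI 0 (8 * ρ)) (fun _ => false) (TK (lI 0 (8 * ρ)) (0, 1) ρ)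
  | .base => EF P (lI (-(8 * ρ)) (8 * ρ)) (fun _ => false) (TK (lI (-(8 * ρ)) (8 * ρ)) (0, 1) ρ)
  | .kil => EF P (lI (-(8 * ρ)) (8 * ρ)) (fun v => decide (0 ≤ v.1))
      (TK (lI (-(8 * ρ)) (8 * ρ)) (0, 1) ρ)
  | .pow => EF P (lI (-(8 * ρ)) (8 * ρ)) (fun v => decide (0 ≤ v.1)) (T2r θ (8 * ρ) ρ)

open Classical in
/-- The type of a special point. -/
noncomputable def Row.ty (θ : ℝ) (r : Row) (k : Bool) : PtTy :=
  if k then .tip else if r.η = 1 then .base else if r.K2 θ then .pow else .kil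

/-- **The system of types.** -/
noncomputable def rowTy (hθ : 0 ≤ Real.cos θ) (hQ : 0 < Q) (hP : IsLim Q P) :
    TyS (rowF (θ := θ) hθ) P where
  Ty := PtTy
  ty := Row.ty θ
  a := PtTy.a θ P
  ρ₀ := 1
  ref := by
    intro r k ρ hv hk hρ hm
    have hv' : r.Val θ := hv
    have hρ' : 1 ≤ ρ := by exact_mod_cast hρ
    have hm' : 8 * ρ ≤ (r.mg : ℤ) := hm
    obtain ⟨l, hl⟩ : ∃ l : ℕ, (l : ℤ) = 8 * ρ := ⟨(8 * ρ).toNat, by omega⟩
    cases k
    · have hp : ¬ r.Plain := Or.resolve_left hk Bool.false_ne_true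
      obtain ⟨-, h2⟩ := Row.mg_bd hv' hm'
      obtain ⟨-, h3, h4⟩ := h2.resolve_left hp
      have hl0 : l ≤ r.k0 := by omega
      have hp' : ¬ (r.cutJ l).Plain := hp
      have hvJ := val_cutJ hl0 hv' hp
      refine ⟨r.cutJ l, false, hvJ, Or.inr hp, ?_, grm_cutJ hv' hp hl hm', ?_⟩
      · show 8 * ρ ≤ ((r.cutJ l).mg : ℤ)
        rw [Row.mg_not hp']
        show 8 * ρ ≤ ((min l (2 * l - l) : ℕ) : ℤ)
        omega
      · show EF P (r.cutJ l).I (r.cutJ l).fr ((r.cutJ l).T θ (r.cutJ l).I false ρ) = _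
        unfold Row.ty
        rw [if_neg Bool.false_ne_true]
        by_cases h5 : r.η = 1
        · rw [if_pos h5]
          have h6 : (r.cutJ l).j ≠ 0 := fun h => hp ⟨h, h5⟩
          rw [EF_base hQ hP hvJ h5 h6 (l := l) rfl rfl, hl]
          rfl
        · rw [if_neg h5]
          have h6 : r.η = -1 := hv'.eta.resolve_left h5
          by_cases h7 : r.K2 θ
          · rw [if_pos h7, EF_K2 hQ hP hvJ h7 (l := l) rfl rfl, hl]
            rfl
          · rw [if_neg h7, EF_K1 hQ hP hvJ h6 h7 (l := l) rfl rfl, hl]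
            rfl
    · have hp' : (r.cutT l).Plain := ⟨rfl, rfl⟩
      refine ⟨r.cutT l, true, val_cutT hv', Or.inl rfl, ?_, grm_cutT hv' hl hm', ?_⟩
      · show 8 * ρ ≤ ((r.cutT l).mg : ℤ)
        rw [Row.mg_plain hp']
        exact hl.ge
      · show EF P (r.cutT l).I (r.cutT l).fr ((r.cutT l).T θ (r.cutT l).I true ρ) = _
        rw [EF_tip hQ hP (val_cutT hv') hp']
        show EF P (lI 0 l) (fun _ => false) (TK (lI 0 l) (0, 1) ρ) = _
        rw [hl]
        rfl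

end Vale.Agent.P167.N.ID
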