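import Vale.Agent.P167.N.ID.Ovr
import Vale.Agent.P167.N.ID.P2Tc
import Vale.Agent.P167.N.ID.PicsH

/-!
# P167, `q < 1`, START (P2T): strands of one row

`W.reg_ne`, `reg_sys`: a strand with both ends on one row, in a box without the killed end, has a
weight `≠ 0`. `Row.walk`: paths along a row. `GeoN.same_ne`, `same_row`: a strand with both ends on one
row, at a hole, has a weight `≠ 0` if the killed corner of the row is joined to another row.
-/

set_option autoImplicit false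

namespace Vale.Agent.P167.N.ID.W

open Finset
open Vale.Agent.P167 Vale.Agent.P167.N.ID
open Vale.Agent.P167.Top
open Vale.Agent.P167.E6 (IsPolygon Encloses dir)
open Vale.Agent.P167.BR (be be_even be_odd)
open Vale.Agent.P167.XDL (bS mem_bS)
open Vale.Agent.P167.FK
open Vale.Agent.P167.H199 (strand ret Returns mem_strand ret_min ret_le)
open Vale.Agent.P167.QX (exc mem_exc exc_last ExtPot out_stays returns_good rS natS ClT lst wS)
open Vale.Agent.P167.H945.Q (face faces natw relw Plain tj jn lrs)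
open Vale.Agent.P167.H871 (IsC)
open Vale.Agent.P167.H871.Q hiding ah_thk at_thk thk_off cang_thk rS_eq

variable {r : H825.Q.Row} {b g : Bool} {ω : Cfg} {B : Finset (ℤ × ℤ)} {e : Ed} {i j t : ℕ}
  {θ z : ℝ} {Φ sa : Ed → ℝ}

/-- **A strand in a box which does not contain the killed end has a weight `≠ 0`.** -/
theorem reg_ne (hP : Ph r θ g Φ sa) (h0 : 0 < θ) (h1 : θ < Real.pi / 2) (hθ : 0 < Real.sin θ)
    (hθ2 : 0 < Real.sin (2 * θ))
    (hL : 1 ≤ r.L) (hR : Rays r.I (B : Set (ℤ × ℤ))) (hw : w0 r (!g) ∉ B) (hf : Frz r ω)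
    (hk0 : Plain r ∨ r.sq r.k0 ∉ B) (hs : Str r.I ω e) (hst : Stays r.I (B : Set (ℤ × ℤ)) ω e) :
    rS θ r.I (thk r.I Φ sa z).a ω e ≠ 0 := by
  intro hz
  have hg : (!g) ≠ g := by cases g <;> decide
  have hfar : Plain r ∨ (0 < r.k0 → r.k0 < r.L → ¬ (r.sq r.k0 ∈ B ∧ r.sq (r.k0 - 1) ∈ B)) :=
    hk0.imp_right fun h _ _ h' => h h'.1
  rcases outs (z := z) hP hθ hθ2 hL hR hw hf hs hst (fun _ => hfar) with h1 |
    ⟨b', -, -, -, hp', hB⟩ | ⟨b', -, -, -, hp', hB⟩ | ⟨i, j, hg', -, -, -, -⟩ | hfin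
  · rw [h1] at hz
    norm_num at hz
  · exact absurd hB (hk0.resolve_left hp')
  · exact absurd hB (hk0.resolve_left hp')
  · exact hg hg'
  · obtain ⟨i, j, F, hi, hj, htr, hB⟩ := row_cls (b := !g) hL hR hw hs.out hs.tl hs.rt hst
    have hq := rqr_polygon (r := r) (b := !g) hL
    have hI := rqr_encloses (r := r) (b := !g) hL
    have hend : i = r.L ∨ j = r.L := by
      rcases hfin with h1 | h1
      · left
        by_contra hne
        exact XDL.be_ne hq F.hi (show r.L < 2 * r.L + 2 by omega) hne (F.e1.symm.trans h1)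
      · right
        by_contra hne
        have h2 : be (rqr r (!g)) (j : ZMod (2 * r.L + 2)) = ee r (!g) := F.e2.symm.trans h1
        exact XDL.be_ne hq F.hj (show r.L < 2 * r.L + 2 by omega) hne h2
    have hne := F.ne hq hI
    have hlo : min i j ≤ r.L := by omega
    have hhi : r.L ≤ max i j := by omega
    have s1 := side_te hL hfar hB hlo hhi (min_le_left _ _) (le_max_left _ _) hi
    have s2 := side_te hL hfar hB hlo hhi (min_le_right _ _) (le_max_right _ _) hj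
    obtain ⟨e1, e2⟩ := side_eq (r := r) s1
    obtain ⟨e3, e4⟩ := side_eq (r := r) s2
    rw [rS_idx (z := z) hP hθ hL hR hw hf F hst hi hj, e1, e2, e3, e4, htr] at hz
    have hnz : ∀ x y : ℝ, 0 < y → (Real.cos x = Real.sin (θ / 2) ∨
        Real.cos x = Real.sin (3 * θ / 2)) → ¬ |Real.cos x| / y = 0 := by
      intro x y hy hx h
      have p1 : 0 < Real.sin (θ / 2) :=
        Real.sin_pos_of_pos_of_lt_pi (by linarith) (by linarith [Real.pi_pos])
      have p2 : 0 < Real.sin (3 * θ / 2) :=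
        Real.sin_pos_of_pos_of_lt_pi (by linarith) (by linarith [Real.pi_pos])
      have p3 : 0 < Real.cos x := by rcases hx with hx | hx <;> rw [hx] <;> assumption
      exact (div_pos (abs_pos.2 p3.ne') hy).ne' h
    refine hnz _ _ (natw_pos hθ hθ2 _ _ _) ?_ hz
    have hJ : sJ θ g (!g) = -(θ / 4) := if_neg hg
    have c1 : Real.cos (3 * θ / 2 - Real.pi / 2) = Real.sin (3 * θ / 2) :=
      Real.cos_sub_pi_div_two _
    have c2 : Real.cos (-(3 * θ / 2 - Real.pi / 2)) = Real.sin (3 * θ / 2) := by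
      rw [Real.cos_neg, c1]
    have c3 : Real.cos (θ / 2 - Real.pi / 2) = Real.sin (θ / 2) := Real.cos_sub_pi_div_two _
    have c4 : Real.cos (-(θ / 2 - Real.pi / 2)) = Real.sin (θ / 2) := by
      rw [Real.cos_neg, c3]
    have cas : ∀ t x y : ℝ, ((t = 3 ∧ x = 0 ∧ y = θ / 4) ∨ (t = -3 ∧ x = 0 ∧ y = -(θ / 4)) ∨
        (t = 3 ∧ x = -(θ / 4) ∧ y = 0) ∨ (t = -3 ∧ x = θ / 4 ∧ y = 0)) →
        ∀ s k : ℝ, (s = 1 ∨ s = -1) → k = θ - Real.pi / 2 →
        Real.cos (θ / 4 * t + (x - y) + s * k) = Real.sin (θ / 2) ∨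
          Real.cos (θ / 4 * t + (x - y) + s * k) = Real.sin (3 * θ / 2) := by
      rintro t x y h s k hs rfl
      rcases h with ⟨rfl, rfl, rfl⟩ | ⟨rfl, rfl, rfl⟩ | ⟨rfl, rfl, rfl⟩ | ⟨rfl, rfl, rfl⟩ <;>
      rcases hs with rfl | rfl
      · right
        refine (congrArg Real.cos ?_).trans c1
        ring
      · left
        refine (congrArg Real.cos ?_).trans c4
        ring
      · left
        refine (congrArg Real.cos ?_).trans c3
        ring
      · right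
        refine (congrArg Real.cos ?_).trans c2
        ring
      · right
        refine (congrArg Real.cos ?_).trans c1
        ring
      · left
        refine (congrArg Real.cos ?_).trans c4
        ring
      · left
        refine (congrArg Real.cos ?_).trans c3
        ring
      · right
        refine (congrArg Real.cos ?_).trans c2
        ring
    have fin := cas ((U1 r.L j - U1 r.L i + if i < j then 2 else -2 : ℤ) : ℝ)
      (offi r θ g (!g) i) (offi r θ g (!g) j) ?_ (r.τ (r.sq (te r !g))) (kapi r θ i + kapi r θ j)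
      (hf.col _) ?_
    · rwa [mul_add, ← add_sub_add_left_eq_sub _ _ (r.Φ (r.sq (te r !g)))] at fin
    · unfold offi
      rw [hJ]
      rcases hend with rfl | rfl
      · rcases lt_or_gt_of_ne hne with h5 | h5
        · left
          rw [U1_gt (i := j) (by omega) hj, if_neg (lt_irrefl _), if_pos rfl, if_pos h5,
            if_neg (show ¬ j < r.L by omega), if_neg (show ¬ j = r.L by omega),
            U1_eq (by omega), U0, if_neg (lt_irrefl _), if_pos rfl]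
          norm_num
        · right; left
          rw [U1_lt h5, if_neg (lt_irrefl _), if_pos rfl, if_neg (show ¬ r.L < j by omega),
            if_pos h5, U1_eq (by omega), U0, if_neg (lt_irrefl _), if_pos rfl]
          norm_num
      · rcases lt_or_gt_of_ne hne with h5 | h5
        · right; right; left
          rw [U1_lt h5, if_pos h5, if_pos h5, if_neg (lt_irrefl _), if_pos rfl,
            U1_eq (by omega), U0, if_neg (lt_irrefl _), if_pos rfl]
          norm_num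
        · right; right; right
          rw [U1_gt (i := i) (by omega) hi, if_neg (show ¬ i < r.L by omega),
            if_neg (show ¬ i < r.L by omega), if_neg (show ¬ i = r.L by omega),
            if_neg (lt_irrefl _), if_pos rfl, U1_eq (by omega), U0, if_neg (lt_irrefl _),
            if_pos rfl]
          norm_num
    · unfold kapi
      rcases hend with rfl | rfl
      · rw [if_pos rfl, if_neg (fun h => hne h.symm)]
        ring
      · rw [if_pos rfl, if_neg hne]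
        ring

end Vale.Agent.P167.N.ID.W

namespace Vale.Agent.P167.N.ID

open Finset
open Vale.Agent.P167
open Vale.Agent.P167.Top
open Vale.Agent.P167.A (plane)
open Vale.Agent.P167.E6 (IsPolygon Encloses)
open Vale.Agent.P167.XDL (bS mem_bS)
open Vale.Agent.P167.FK
open Vale.Agent.P167.H199 (strand ret Returns ret_min ret_le cang ah at')
open Vale.Agent.P167.H632 (cs pr pr_or)
open Vale.Agent.P167.H192.TA (Pw)
open Vale.Agent.P167.H680.S (nxt)
open Vale.Agent.P167.H680.T (par)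
open Vale.Agent.P167.H871 (IsC)
open Vale.Agent.P167.QX (exc_last out_stays rS natS wS)
open Vale.Agent.P167.H871.Q (Foot rqr w0 Stays Rays Frz te cang_strand)
open Vale.Agent.P167.Enl (nm_tri nm_sub_comm mem_Bq')
open Vale.Agent.P167.N.ID.W

variable {U I : Finset (ℤ × ℤ)} {ω : Cfg} {e : Ed} {θ z κ : ℝ} {n : ℕ} {ι : Type} {r : ι → Row}
  {a : Ed → Bool → ℝ} {B : Finset (ℤ × ℤ)} {i : ι}

/-- **A strand of a system, which leaves a row and returns to it in a box without the killed end,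
has a weight `≠ 0`.** -/
theorem reg_sys (S : Sys θ r U a) (hU : ∀ i, (r i).I ⊆ U) (h13 : Real.pi / 3 ≤ θ)
    (h12 : θ < Real.pi / 2) (h : (r i).Ok θ κ n) (hκ : 0 < κ * n)
    (hfr : ∀ v ∈ (r i).I, ω v = (r i).toRow.fr v) (hR : Rays (r i).I (B : Set (ℤ × ℤ)))
    (hw : w0 (r i).toRow (!(r i).g) ∉ B) (hk0 : (r i).Plain ∨ (r i).sq (r i).k0 ∉ B)
    (h2 : tlv e ∈ (r i).I) (h1 : hdv e ∉ U) (hr : Returns (nx ω) (bS U) e)
    (hl : hdv (nxt (bS U) ω e) ∈ (r i).I)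
    (hst : ∀ k < ret (nx ω) (bS U) e, hdv ((nx ω)^[k] e) ∈ B) : wS θ U a ω e ≠ 0 := by
  have hpi := Real.pi_pos
  have hs : 0 < Real.sin θ := Real.sin_pos_of_pos_of_lt_pi (by linarith) (by linarith)
  have hc : 0 < Real.cos θ := Real.cos_pos_of_mem_Ioo ⟨by linarith, h12⟩
  have hs2 : 0 < Real.sin (2 * θ) := by rw [Real.sin_two_mul]; positivity
  have hL : 1 ≤ (r i).L := by
    have h3 := hκ.trans_le h.len
    have : 0 < (r i).L := by exact_mod_cast h3
    omega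
  have hk : (r i).Plain ∨ (0 < (r i).k0 ∧ (r i).k0 < (r i).L) := by
    rcases h.kind with h3 | ⟨-, h3, h4⟩
    · exact Or.inl h3
    · right
      have h5 := hκ.trans_le h3
      have h6 : ((r i).k0 : ℝ) < (r i).L := by linarith
      exact ⟨by exact_mod_cast h5, by exact_mod_cast h6⟩
  have hP : Ph (r i).toRow θ (r i).g ((r i).Φ θ) ((r i).σ θ) := ph_rowW hL hk
  have hη : (r i).η = 1 ∨ (r i).η = -1 := h.eta
  have hf : Frz (r i).toRow ω := ⟨h.s, hη, hfr⟩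
  obtain ⟨hR', hret⟩ := ret_row (hU i) h1 hr hl
  have h1' : hdv e ∉ (r i).I := fun h => h1 (hU i h)
  have hst' : Stays (r i).I (B : Set (ℤ × ℤ)) ω e := fun k hk => hst k (by rw [← hret]; exact hk)
  have key := reg_ne (z := 0) hP (by linarith) h12 hs hs2 hL hR hw hf hk0 ⟨h1', h2, hR'⟩ hst'
  intro hz
  refine key ?_
  show rS θ (r i).I ((r i).wall θ 0).a ω e = 0
  unfold rS
  rw [← wS_row (z := 0) S hU h2 h1 hr hl, hz, abs_zero, zero_div]

end Vale.Agent.P167.N.ID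

namespace Vale.Agent.P167.N.ID

open Vale.Agent.P167.H871 (IsC)
open Vale.Agent.P167.H192.TA (Pw)

/-- Along a chain of neighbouring squares. -/
theorem sq_walk {F : Set (ℤ × ℤ)} {v : ℕ → ℤ × ℤ} {m : ℕ}
    (hadj : ∀ j < m, v (j + 1) = ((v j).1 + 1, (v j).2) ∨ v (j + 1) = ((v j).1 - 1, (v j).2) ∨
      v (j + 1) = ((v j).1, (v j).2 + 1) ∨ v (j + 1) = ((v j).1, (v j).2 - 1))
    (hF : ∀ j < m, v j ∈ F) {s : ℤ × ℤ} (hs : IsC (v 0) s) : ∃ s', IsC (v m) s' ∧ Pw F s s' := by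
  induction m with
  | zero => exact ⟨s, hs, Relation.ReflTransGen.refl⟩
  | succ m ih =>
    obtain ⟨s', h1, h2⟩ := ih (fun j hj => hadj j (by omega)) (fun j hj => hF j (by omega))
    by_cases h3 : IsC (v (m + 1)) s'
    · exact ⟨s', h3, h2⟩
    have h4 := hadj m (by omega)
    have h5 := hF m (by omega)
    have h6 : Vale.Agent.P145.FB.PStep F s' (2 * (v m).1 + 1 - s'.1, 2 * (v m).2 + 1 - s'.2) := by
      obtain ⟨a1, a2⟩ := h1
      have e : (min s'.1 (2 * (v m).1 + 1 - s'.1), min s'.2 (2 * (v m).2 + 1 - s'.2)) = v m := by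
        refine Prod.ext ?_ ?_
        · show min s'.1 (2 * (v m).1 + 1 - s'.1) = (v m).1
          omega
        · show min s'.2 (2 * (v m).2 + 1 - s'.2) = (v m).2
          omega
      refine ⟨?_, ?_, ?_⟩
      · show 2 * (v m).1 + 1 - s'.1 = s'.1 + 1 ∨ 2 * (v m).1 + 1 - s'.1 = s'.1 - 1
        omega
      · show 2 * (v m).2 + 1 - s'.2 = s'.2 + 1 ∨ 2 * (v m).2 + 1 - s'.2 = s'.2 - 1
        omega
      · show (min s'.1 (2 * (v m).1 + 1 - s'.1), min s'.2 (2 * (v m).2 + 1 - s'.2)) ∈ F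
        rw [e]
        exact h5
    refine ⟨_, ?_, h2.tail h6⟩
    unfold IsC at h1 h3 ⊢
    rcases h4 with h4 | h4 | h4 | h4 <;> rw [h4] at h3 ⊢ <;> dsimp only at h3 ⊢ <;> omega

end Vale.Agent.P167.N.ID

namespace Vale.Agent.P167.N.ID

open Finset
open Vale.Agent.P167
open Vale.Agent.P167.Top
open Vale.Agent.P167.A (plane)
open Vale.Agent.P167.E6 (IsPolygon Encloses)
open Vale.Agent.P167.XDL (bS mem_bS)
open Vale.Agent.P167.FK
open Vale.Agent.P167.H199 (strand ret Returns ret_min ret_le cang ah at')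
open Vale.Agent.P167.H632 (cs pr pr_or)
open Vale.Agent.P167.H192.TA (Pw)
open Vale.Agent.P167.H680.S (nxt)
open Vale.Agent.P167.H680.T (par sq_mem)
open Vale.Agent.P167.H871 (IsC)
open Vale.Agent.P167.QX (exc_last out_stays rS natS wS)
open Vale.Agent.P167.H871.Q (Foot rqr w0 sqm Stays Rays Frz te cang_strand isC_w0 rays_box
  rqr_polygon rqr_encloses rqr_bd)
open Vale.Agent.P167.Enl (nm_tri nm_sub_comm mem_Bq')
open Vale.Agent.P167.H262 (Rsq mem_Rsq)

variable {r : Row}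

/-- The outer square at the far end is far from the killed corner. -/
theorem Row.w0_far (r : Row) : (r.L : ℤ) ≤ nm (w0 r.toRow r.g - r.zt) := by
  unfold w0 sqm Row.zt Row.st Row.ke Row.p nm
  rcases ho : r.o with _ | _ <;> rcases hg : r.g with _ | _ <;> simp
  · right
    rw [le_abs]
    omega
  · left
    rw [le_abs]
    omega

/-- The outer square at the killed end is near the killed corner. -/
theorem Row.w0_near (r : Row) : nm (w0 r.toRow (!r.g) - r.zt) ≤ 1 := by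
  unfold w0 sqm Row.zt Row.st Row.ke Row.p nm
  rcases ho : r.o with _ | _ <;> rcases hg : r.g with _ | _ <;> simp <;> split_ifs <;> norm_num

/-- The squares of a row in order. -/
theorem Row.sq_succ (r : Row) (k : ℕ) : r.sq (k + 1) =
    if r.o then ((r.sq k).1 + 1, (r.sq k).2) else ((r.sq k).1, (r.sq k).2 + 1) := by
  unfold H825.Q.Row.sq
  cases r.o
  · simp only [Bool.false_eq_true, if_false]
    push_cast
    rw [add_assoc]
  · simp only [if_true]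
    push_cast
    rw [add_assoc]

theorem Row.sq_nm (r : Row) (k m : ℕ) : nm (r.sq k - r.sq m) = |(k : ℤ) - m| := by
  unfold H825.Q.Row.sq nm
  cases r.o <;> simp

/-- **Along a row.** -/
theorem Row.walk (r : Row) {ω : Cfg} {c : Bool} {A : Set (ℤ × ℤ)} {m K : ℕ} {s : ℤ × ℤ}
    (hm : m < r.L) (hK : 2 * K + 2 ≤ r.L)
    (hc : ∀ k < r.L, |(k : ℤ) - m| ≤ K → r.sq k ∈ A ∧ ω (r.sq k) = c) (hs : IsC (r.sq m) s) :
    ∃ k s', k < r.L ∧ |(k : ℤ) - m| = K ∧ IsC (r.sq k) s' ∧ Pw (cs c ω ∩ A) s s' := by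
  by_cases h : m + K < r.L
  · obtain ⟨s', h1, h2⟩ := sq_walk (F := cs c ω ∩ A) (v := fun j => r.sq (m + j)) (m := K)
      (fun j _ => by
        have h3 : r.sq (m + (j + 1)) = _ := Row.sq_succ r (m + j)
        rcases ho : r.o with _ | _
        · rw [ho] at h3
          exact Or.inr (Or.inr (Or.inl h3))
        · rw [ho] at h3
          exact Or.inl h3) (fun j hj => by
          obtain ⟨h3, h4⟩ := hc (m + j) (by omega) (by
            push_cast
            rw [add_sub_cancel_left, abs_of_nonneg (by omega)]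
            omega)
          exact ⟨h4, h3⟩) hs
    exact ⟨m + K, s', h, by push_cast; rw [add_sub_cancel_left, abs_of_nonneg (by omega)], h1, h2⟩
  · obtain ⟨s', h1, h2⟩ := sq_walk (F := cs c ω ∩ A) (v := fun j => r.sq (m - j)) (m := K)
      (fun j hj => by
        have h3 := Row.sq_succ r (m - (j + 1))
        rw [show m - (j + 1) + 1 = m - j by omega] at h3
        rcases ho : r.o with _ | _
        · rw [ho] at h3
          refine Or.inr (Or.inr (Or.inr ?_))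
          rw [h3]
          simp
        · rw [ho] at h3
          refine Or.inr (Or.inl ?_)
          rw [h3]
          simp) (fun j hj => by
          obtain ⟨h3, h4⟩ := hc (m - j) (by omega) (by
            rw [abs_le]
            omega)
          exact ⟨h4, h3⟩) hs
    refine ⟨m - K, s', by omega, ?_, h1, h2⟩
    rw [abs_of_nonpos (by omega)]
    omega

end Vale.Agent.P167.N.ID

namespace Vale.Agent.P167.N.ID

open Finset
open Vale.Agent.P167
open Vale.Agent.P167.Top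
open Vale.Agent.P167.A (plane)
open Vale.Agent.P167.E6 (IsPolygon Encloses)
open Vale.Agent.P167.XDL (bS mem_bS)
open Vale.Agent.P167.FK
open Vale.Agent.P167.H199 (strand ret Returns ret_min ret_le cang ah at')
open Vale.Agent.P167.H632 (cs pr pr_or)
open Vale.Agent.P167.H192.TA (Pw)
open Vale.Agent.P167.H680.S (nxt)
open Vale.Agent.P167.H680.T (par sq_mem)
open Vale.Agent.P167.H871 (IsC)
open Vale.Agent.P167.QX (exc_last out_stays rS natS wS)
open Vale.Agent.P167.H871.Q (Foot rqr w0 sqm Stays Rays Frz te cang_strand isC_w0 rays_box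
  rqr_polygon rqr_encloses rqr_bd mem_rI)
open Vale.Agent.P167.Enl (nm_tri nm_sub_comm mem_Bq')
open Vale.Agent.P167.H262 (Rsq mem_Rsq)

variable {θ β g δ : ℝ} {Φ : FrS Row} {l n : ℕ} {p : ZMod l → ℤ × ℤ} {S₀ : Finset (ℤ × ℤ)}
  {hθ : 0 ≤ Real.cos θ} {ω : Cfg} {x : Φ.H} {i : Φ.ι} {R : ℤ} {e : Ed}

/-- The rows of a frame are a system. -/
theorem FrS.GeoN.sys (h : Φ.GeoN (rowS θ) (rowF hθ) {true} θ β p S₀ g δ n) (hδ : 4 ≤ δ * n) :
    Sys θ (Φ.r δ n) (Φ.U (rowS θ) δ n) (Φ.ph (rowS θ) δ n 0) := by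
  refine sys_of (z := fun _ => 0) (fun v => ?_) fun i j hij u hu v hv => ?_
  · exact H680.T.mem_uI
  · have h1 := h.sepr i j hij u hu v hv
    have h2 : (1 : ℝ) < nm (u - v) := by linarith
    exact_mod_cast h2

/-- The rows of a frame are long. -/
theorem FrS.GeoN.ok (h : Φ.GeoN (rowS θ) (rowF hθ) {true} θ β p S₀ g δ n) (i : Φ.ι) :
    (Φ.r δ n i).Ok θ g n := by
  obtain ⟨h1, h2⟩ := h.val i
  have h1' : (Φ.r δ n i).Val θ := h1
  have h2' : g * n ≤ (Φ.r δ n i).mg := h2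
  have h3 : ((Φ.r δ n i).mg : ℝ) ≤ (Φ.r δ n i).L := by exact_mod_cast (Φ.r δ n i).mg_le
  refine ⟨h2'.trans h3, h1'.s, ?_, h1'.gd⟩
  by_cases hp : (Φ.r δ n i).Plain
  · exact Or.inl hp
  rcases h1'.kind with h4 | ⟨h4, h5⟩
  · exact absurd h4 hp
  refine Or.inr ⟨h4, ?_⟩
  rw [Row.mg_not hp, Nat.cast_min, le_min_iff, Nat.cast_sub h5] at h2'
  exact ⟨h2'.1, by linarith⟩

/-- **No strand of weight `0` has both ends on one row at a hole, if the killed corner of the row is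
joined to another row.** -/
theorem FrS.GeoN.same_ne (h : Φ.GeoN (rowS θ) (rowF hθ) {true} θ β p S₀ g δ n)
    (h13 : Real.pi / 3 ≤ θ) (h12 : θ < Real.pi / 2) (hδg : 64 * δ ≤ g)
    (hδ : 16 ≤ δ * n) (hR0 : 0 ≤ R) (hR : (R : ℝ) ≤ g / 4 * n)
    (hfr : Φ.Frz (rowS θ) δ n ω) {t : TipD} {j : Φ.ι} (hj : j ≠ i)
    (hok : t.Ok (Φ.U (rowS θ) δ n) (Φ.r δ n i).I (Φ.r δ n j).I (Φ.r δ n i).zt ⌊δ * n⌋₊
      ⌊δ * n / 16⌋)
    (hZ : ω ∈ t.Z (Φ.r δ n j).I (Φ.r δ n i).zt ⌊δ * n⌋₊ ⌊δ * n / 16⌋)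
    (h2 : tlv e ∈ (Φ.r δ n i).I) (h1 : hdv e ∉ Φ.U (rowS θ) δ n)
    (hr : Returns (nx ω) (bS (Φ.U (rowS θ) δ n)) e)
    (hl : hdv (nxt (bS (Φ.U (rowS θ) δ n)) ω e) ∈ (Φ.r δ n i).I)
    (hst : ∀ k < ret (nx ω) (bS (Φ.U (rowS θ) δ n)) e, hdv ((nx ω)^[k] e) ∈ Bq (Φ.h δ n x) R) :
    wS θ (Φ.U (rowS θ) δ n) (Φ.ph (rowS θ) δ n 0) ω e ≠ 0 := by
  intro hz
  have hn : (0 : ℝ) < n := by
    rcases Nat.eq_zero_or_pos n with h3 | h3
    · rw [h3] at hδ
      norm_num at hδ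
    · exact_mod_cast h3
  have hgn : 1024 ≤ g * n := by nlinarith
  have hS := h.sys (by linarith)
  have hOk := h.ok i
  have hU : ∀ i, (Φ.r δ n i).I ⊆ Φ.U (rowS θ) δ n := fun i v hv => H680.T.mem_uI.2 ⟨i, hv⟩
  have hfi : ∀ k, ∀ v ∈ (Φ.r δ n k).I, ω v = (Φ.r δ n k).toRow.fr v := fun k v hv => hfr k v hv
  obtain ⟨m1, m2⟩ := hr.spec
  have hBB : Bq (Φ.h δ n x) R ⊆ Bq (Φ.h δ n x) (R + 1) := by
    intro v hv
    rw [mem_Bz] at hv ⊢
    omega
  have hst' : ∀ k < ret (nx ω) (bS (Φ.U (rowS θ) δ n)) e,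
      hdv ((nx ω)^[k] e) ∈ Bq (Φ.h δ n x) (R + 1) := fun k hk => hBB (hst k hk)
  have hte : tlv e ∈ Bq (Φ.h δ n x) (R + 1) := by
    have h3 := hst 0 m1
    rw [Function.iterate_zero_apply] at h3
    have h4 : tlv e = hdv e - vec (hd4 e) := by rw [Vale.Agent.P167.H871.Q.hdv_tlv e]; abel
    rw [h4]
    rw [mem_Bz] at h3 ⊢
    unfold vec
    simp only [Prod.fst_sub, Prod.snd_sub]
    rcases head_cases (hd4 e) with ⟨-, b, c⟩ | ⟨-, b, c⟩ | ⟨-, b, c⟩ | ⟨-, b, c⟩ <;>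
      rw [b, c] <;> omega
  have hRay : Rays (Φ.r δ n i).I (Bq (Φ.h δ n x) (R + 1) : Set (ℤ × ℤ)) := by
    refine rays_box ?_
    rw [mem_rI] at h2
    rw [mem_Bz] at hte
    rcases ho : (Φ.r δ n i).o with _ | _
    · right
      refine ⟨(Φ.r δ n i).x.1, fun v hv => ?_, ?_⟩
      · rw [mem_rI, ho] at hv
        simpa using hv.1
      · rw [ho] at h2
        simp only [Bool.false_eq_true, if_false] at h2
        omega
    · left
      refine ⟨(Φ.r δ n i).x.2, fun v hv => ?_, ?_⟩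
      · rw [mem_rI, ho] at hv
        simpa using hv.1
      · rw [ho] at h2
        simp only [if_true] at h2
        omega
  have hR' : ((R + 1 : ℤ) : ℝ) ≤ g / 4 * n + 1 := by push_cast; linarith
  have hout : ∀ v : ℤ × ℤ, g / 4 * n + 1 < (nm (v - Φ.h δ n x) : ℝ) →
      v ∉ Bq (Φ.h δ n x) (R + 1) := by
    intro v hv hv'
    have h3 := mem_Bq' hv'
    have h4 : (nm (v - Φ.h δ n x) : ℝ) ≤ ((R + 1 : ℤ) : ℝ) := by exact_mod_cast h3
    linarith
  have hk0 : (Φ.r δ n i).Plain ∨ (Φ.r δ n i).sq (Φ.r δ n i).k0 ∉ Bq (Φ.h δ n x) (R + 1) := by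
    by_cases hp : (Φ.r δ n i).Plain
    · exact Or.inl hp
    right
    refine hout _ ?_
    have h3 : g * n ≤ (nm ((Φ.r δ n i).zm - Φ.h δ n x) : ℝ) :=
      h.oth i false (by simp) (Or.inr hp) x
    have h4 := (Φ.r δ n i).near_st (Φ.r δ n i).kf (Φ.r δ n i).k0
    have h5 := nm_tri (Φ.r δ n i).zm ((Φ.r δ n i).sq (Φ.r δ n i).k0) (Φ.h δ n x)
    have h6 : nm ((Φ.r δ n i).zm - (Φ.r δ n i).sq (Φ.r δ n i).k0) ≤ 1 := h4
    have h7 : (nm ((Φ.r δ n i).zm - Φ.h δ n x) : ℝ) ≤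
        1 + nm ((Φ.r δ n i).sq (Φ.r δ n i).k0 - Φ.h δ n x) := by
      have : nm ((Φ.r δ n i).zm - Φ.h δ n x) ≤
        1 + nm ((Φ.r δ n i).sq (Φ.r δ n i).k0 - Φ.h δ n x) := by omega
      exact_mod_cast this
    linarith
  obtain ⟨y, hy⟩ := h.tip i true (by simp) (Or.inl rfl)
  have hy' : (nm ((Φ.r δ n i).zt - Φ.h δ n y) : ℝ) ≤ 2 * δ * n := hy
  by_cases hxy : x = y
  swap
  · -- the killed end is at another hole
    refine reg_sys hS hU h13 h12 hOk (by linarith) (hfi i) hRay (hout _ ?_) hk0 h2 h1 hr hl hst' hz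
    have h3 := h.seph x y hxy
    have h4 := (Φ.r δ n i).w0_near
    have h5 := nm_tri (Φ.h δ n x) (w0 (Φ.r δ n i).toRow (!(Φ.r δ n i).g)) (Φ.r δ n i).zt
    have h6 := nm_tri (Φ.h δ n x) (Φ.r δ n i).zt (Φ.h δ n y)
    rw [nm_sub_comm (Φ.h δ n x) (w0 (Φ.r δ n i).toRow (!(Φ.r δ n i).g))] at h5
    have h7 : (nm (Φ.h δ n x - Φ.h δ n y) : ℝ) ≤
        nm (w0 (Φ.r δ n i).toRow (!(Φ.r δ n i).g) - Φ.h δ n x) + 1 +
          nm ((Φ.r δ n i).zt - Φ.h δ n y) := by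
      have : nm (Φ.h δ n x - Φ.h δ n y) ≤
        nm (w0 (Φ.r δ n i).toRow (!(Φ.r δ n i).g) - Φ.h δ n x) + 1 +
          nm ((Φ.r δ n i).zt - Φ.h δ n y) := by omega
      exact_mod_cast this
    nlinarith
  subst hxy
  have hw : w0 (Φ.r δ n i).toRow (Φ.r δ n i).g ∉ Bq (Φ.h δ n x) (R + 1) := by
    refine hout _ ?_
    have h4 := (Φ.r δ n i).w0_far
    have h5 := hOk.len
    have h6 := nm_tri (w0 (Φ.r δ n i).toRow (Φ.r δ n i).g) (Φ.h δ n x) (Φ.r δ n i).zt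
    rw [nm_sub_comm (Φ.h δ n x)] at h6
    have h7 : ((Φ.r δ n i).L : ℝ) ≤
        nm (w0 (Φ.r δ n i).toRow (Φ.r δ n i).g - Φ.h δ n x) +
          nm ((Φ.r δ n i).zt - Φ.h δ n x) := by
      have : ((Φ.r δ n i).L : ℤ) ≤
        nm (w0 (Φ.r δ n i).toRow (Φ.r δ n i).g - Φ.h δ n x) +
          nm ((Φ.r δ n i).zt - Φ.h δ n x) := by omega
      exact_mod_cast this
    nlinarith
  obtain ⟨hs, t', ht', hzt, x', y', F, h3⟩ :=
    ovr hS hU h13 h12 hOk (by linarith) (hfi i) hRay hw hk0 h2 h1 hr hl hst' hz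
  -- the colour of the killed corner is the colour at the hole
  have hL : 1 ≤ (Φ.r δ n i).L := by
    have h4 := hOk.len
    have h5 : (1 : ℝ) ≤ (Φ.r δ n i).L := by linarith
    exact_mod_cast h5
  have hcz : cz (Φ.r δ n i).zt = Φ.b δ n x := by
    obtain ⟨u, hu, hu1⟩ := (Φ.r δ n i).near_end hL ((Φ.r δ n i).gc (Φ.r δ n i).p)
      (Φ.r δ n i).p
    obtain ⟨v1, v2⟩ := h.val i
    have v1' : (Φ.r δ n i).Val θ := v1
    have v2' : g * n ≤ (Φ.r δ n i).mg := v2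
    have h4 : nm (u - (Φ.r δ n i).zt) ≤ 1 := by rw [nm_sub_comm]; exact hu1
    rw [← Row.fr_zt v1' hu (lt_of_le_of_lt h4 (by
      have : (1 : ℝ) < (Φ.r δ n i).mg := by linarith
      exact_mod_cast this))]
    refine h.col x i u hu ?_
    have h5 := nm_tri u (Φ.r δ n i).zt (Φ.h δ n x)
    have h6 : (nm (u - Φ.h δ n x) : ℝ) ≤ 1 + nm ((Φ.r δ n i).zt - Φ.h δ n x) := by
      have : nm (u - Φ.h δ n x) ≤ 1 + nm ((Φ.r δ n i).zt - Φ.h δ n x) := by omega
      exact_mod_cast this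
    nlinarith
  -- the end of the arm
  obtain ⟨z, rfl, s, ⟨v, hv, hvs⟩, hp⟩ := hZ
  obtain ⟨m, hm, rfl⟩ := H945.Q.exists_sq hv
  have hd16 : 16 ≤ (⌊δ * n⌋₊ : ℤ) := by
    have : 16 ≤ ⌊δ * (n : ℝ)⌋₊ := Nat.le_floor (by exact_mod_cast hδ)
    exact_mod_cast this
  have hdn : ((⌊δ * n⌋₊ : ℤ) : ℝ) ≤ δ * n := by
    have := Nat.floor_le (show 0 ≤ δ * (n : ℝ) by linarith)
    exact_mod_cast this
  have hdn' : δ * n < ((⌊δ * n⌋₊ : ℤ) : ℝ) + 1 := by
    have := Nat.lt_floor_add_one (δ * (n : ℝ))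
    exact_mod_cast this
  have hρ0 : 0 ≤ ⌊δ * n / 16⌋ := Int.floor_nonneg.2 (by linarith)
  have hρ1 : 16 * ⌊δ * n / 16⌋ ≤ (⌊δ * n⌋₊ : ℤ) := by
    have h4 := Int.floor_le (δ * n / 16)
    have h5 : ((16 * ⌊δ * n / 16⌋ : ℤ) : ℝ) < ((⌊δ * n⌋₊ : ℤ) : ℝ) + 1 := by
      push_cast at hdn' ⊢
      linarith
    have h6 : 16 * ⌊δ * n / 16⌋ < (⌊δ * n⌋₊ : ℤ) + 1 := by exact_mod_cast h5
    omega
  have hW : (↑(t.W ⌊δ * n⌋₊ ⌊δ * n / 16⌋) : Set (ℤ × ℤ)) ⊆
      (Bq (Φ.r δ n i).zt (4 * ⌊δ * n⌋₊ + 2) : Set (ℤ × ℤ)) := by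
    intro w hw'
    obtain ⟨n1, n2⟩ := hok.na
    obtain ⟨n3, n4⟩ := hok.nb
    obtain ⟨u, rfl, hu⟩ := TipD.W_nm hρ1 hρ0 hd16 n2 (by omega) n4 (by omega) hok.ze
      (mem_coe.1 hw')
    rw [mem_coe, hok.zt, ← t.g.Bq_V]
    refine mem_image_of_mem _ ?_
    rw [nm_le_iff] at hu
    rw [mem_Bz]
    have := hok.ze
    dsimp only
    omega
  have hs1 : nm (s - (Φ.r δ n i).zt) ≤ 4 * ⌊δ * n⌋₊ + 2 :=
    pw_near hp (by omega) fun w hw' => hW hw'.2
  have hD : nm ((Φ.r δ n j).sq m - Φ.h δ n x) ≤ 7 * ⌊δ * n⌋₊ := by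
    have h4 : nm ((Φ.r δ n j).sq m - s) ≤ 1 := by
      obtain ⟨a1, a2⟩ := hvs
      rw [nm_le_iff]
      simp only [Prod.fst_sub, Prod.snd_sub]
      omega
    have h5 : nm ((Φ.r δ n i).zt - Φ.h δ n x) ≤ 2 * ⌊δ * n⌋₊ + 1 := by
      have h6 : (nm ((Φ.r δ n i).zt - Φ.h δ n x) : ℝ) < ((2 * ⌊δ * n⌋₊ + 2 : ℤ) : ℝ) := by
        push_cast at hdn' ⊢
        linarith
      have h7 : nm ((Φ.r δ n i).zt - Φ.h δ n x) < 2 * ⌊δ * n⌋₊ + 2 := by exact_mod_cast h6
      omega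
    have h6 := nm_tri ((Φ.r δ n j).sq m) s (Φ.h δ n x)
    have h7 := nm_tri s (Φ.r δ n i).zt (Φ.h δ n x)
    omega
  obtain ⟨K, hK⟩ : ∃ K : ℕ, (K : ℤ) = R + 2 + 7 * ⌊δ * n⌋₊ :=
    ⟨(R + 2 + 7 * ⌊δ * n⌋₊).toNat, Int.toNat_of_nonneg (by omega)⟩
  have hLj := (h.ok j).len
  have hKr : (K : ℝ) = R + 2 + 7 * ((⌊δ * n⌋₊ : ℤ) : ℝ) := by exact_mod_cast hK
  have hgd : 64 * (δ * n) ≤ g * n := by
    have := mul_le_mul_of_nonneg_right hδg hn.le
    linarith
  have hKL : 2 * K + 2 ≤ (Φ.r δ n j).L := by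
    have h4 : (2 * K + 2 : ℝ) ≤ (Φ.r δ n j).L := by
      rw [hKr]
      linarith
    exact_mod_cast h4
  have hnear : ∀ k : ℕ, |(k : ℤ) - m| ≤ K → (nm ((Φ.r δ n j).sq k - Φ.h δ n x) : ℝ) < g * n := by
    intro k hk
    have h4 := nm_tri ((Φ.r δ n j).sq k) ((Φ.r δ n j).sq m) (Φ.h δ n x)
    rw [Row.sq_nm] at h4
    have h5 : nm ((Φ.r δ n j).sq k - Φ.h δ n x) ≤ K + 7 * ⌊δ * n⌋₊ := by omega
    have h6 : (nm ((Φ.r δ n j).sq k - Φ.h δ n x) : ℝ) ≤ K + 7 * ((⌊δ * n⌋₊ : ℤ) : ℝ) := by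
      exact_mod_cast h5
    linarith
  obtain ⟨k, s', hk, hk2, hs', hp'⟩ := (Φ.r δ n j).walk (ω := ω) (c := cz (Φ.r δ n i).zt)
    (A := ((Φ.r δ n j).I : Set (ℤ × ℤ))) hm hKL (fun k hk hk2 => by
      have h4 : (Φ.r δ n j).sq k ∈ (Φ.r δ n j).I := H680.T.sq_mem.2 hk
      refine ⟨h4, ?_⟩
      rw [hfi j _ h4, hcz]
      exact h.col x j _ h4 (hnear k hk2)) hvs
  have hfar : (Φ.r δ n j).sq k ∉ Bq (Φ.h δ n x) (R + 1) := by
    intro h4
    have h5 := mem_Bq' h4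
    have h6 := nm_tri ((Φ.r δ n j).sq k) (Φ.h δ n x) ((Φ.r δ n j).sq m)
    rw [Row.sq_nm, hk2, nm_sub_comm (Φ.h δ n x)] at h6
    omega
  have hA : ∀ v ∈ t.W ⌊δ * n⌋₊ ⌊δ * n / 16⌋ ∪ (Φ.r δ n j).I, v ∉ (Φ.r δ n i).I := by
    intro v hv' hvi
    rcases mem_union.1 hv' with h4 | h4
    · exact Finset.disjoint_left.1 hok.free h4 (hU i hvi)
    · have h5 := h.sepr j i hj v h4 v hvi
      rw [sub_self] at h5
      have h6 : nm (0 : ℤ × ℤ) = 0 := by simp [nm]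
      rw [h6] at h5
      push_cast at h5
      linarith
  refine not_over (rqr_polygon hL) (rqr_encloses hL) (rqr_bd hL) hRay hw (isC_w0 hL) F hs
    (by omega) (c := cz (Φ.r δ n i).zt) ?_ hA ?_ hfar hs' h3
  · rw [← hzt]
    exact cz_pr _
  · rw [← hzt]
    refine (Pw.mono ?_ hp).trans (Pw.mono ?_ hp')
    · rintro w ⟨h4, h5⟩
      exact ⟨h4, mem_coe.2 (mem_union_left _ (mem_coe.1 h5))⟩
    · rintro w ⟨h4, h5⟩
      exact ⟨h4, mem_coe.2 (mem_union_right _ (mem_coe.1 h5))⟩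

/-- **The strands with both ends on the row of a killed tip** (262's form). -/
theorem same_row (h13 : Real.pi / 3 ≤ θ) (h12 : θ < Real.pi / 2)
    (h : Φ.GeoN (rowS θ) (rowF hθ) {true} θ β p S₀ g δ n) (hd : 1024 ≤ δ * n) {R : ℤ}
    (hR : 8 * (δ * n) ≤ R) (hR' : 8 * (R : ℝ) ≤ g * n) {ω : Cfg} (_ : Good ω)
    (hf : Φ.Frz (rowS θ) δ n ω) {i j : Φ.ι} {x : Φ.H} (hij : j ≠ i) {t : TipD}
    (ht : t.Ok (Φ.U (rowS θ) δ n) (Φ.r δ n i).I (Φ.r δ n j).I (Φ.r δ n i).zt ⌊δ * n⌋₊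
      ⌊δ * n / 16⌋)
    (hz : ω ∈ t.Z (Φ.r δ n j).I (Φ.r δ n i).zt ⌊δ * n⌋₊ ⌊δ * n / 16⌋)
    (_ : (nm ((Φ.r δ n i).zt - Φ.h δ n x) : ℝ) ≤ 2 * δ * n) {e : Ed}
    (h1 : hdv e ∉ Φ.U (rowS θ) δ n) (h2 : tlv e ∈ (Φ.r δ n i).I)
    (hr : Returns (nx ω) (bS (Φ.U (rowS θ) δ n)) e)
    (hl : hdv (nxt (bS (Φ.U (rowS θ) δ n)) ω e) ∈ (Φ.r δ n i).I)
    (hst : ∀ k < ret (nx ω) (bS (Φ.U (rowS θ) δ n)) e,
      hdv ((nx ω)^[k] e) ∈ Bq (Φ.h δ n x) R) :
    wS θ (Φ.U (rowS θ) δ n) (Φ.ph (rowS θ) δ n 0) ω e ≠ 0 := by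
  have hn : (0 : ℝ) < n := by
    rcases Nat.eq_zero_or_pos n with h3 | h3
    · rw [h3] at hd
      norm_num at hd
    · exact_mod_cast h3
  have h64 : 64 * δ ≤ g := by
    by_contra h3
    push Not at h3
    nlinarith
  have hR0 : 0 ≤ R := by
    have : (0 : ℝ) ≤ R := by linarith
    exact_mod_cast this
  have hgn : 0 ≤ g * n := by linarith
  exact h.same_ne h13 h12 h64 (by linarith) hR0 (by linarith) hf hij ht hz h2 h1 hr hl hst

end Vale.Agent.P167.N.ID
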