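import Vale.Agent.P167.N.ID.ArmFlat
import Vale.Agent.P167.N.NET.RingE

/-!
# P167, the range `0 < q < 1`: the arm of a corner of the tip of a slit, arbitrary exit tube

`slit_east`: the slit `{y = Y, X ≤ x}` in the box `Bq z (16 k)`, `z` a corner of the tip, `T`: a tube
which starts at the upper face and leaves the box through its outer boundary.
-/

set_option autoImplicit false

namespace Vale.Agent.P167.N.ID

open Finset Relation
open Vale.Agent.P167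
open Vale.Agent.P145.FB (PStep)
open Vale.Agent.P167.FK
open Vale.Agent.P167.H871 (IsC)
open Vale.Agent.P167.H632 (cs pr pr_or pr_not IncC nm_le le_nm)
open Vale.Agent.P167.H192.TA (Pw)
open Vale.Agent.P167.N.NET
open Vale.Agent.P167.FKA (Ex_mono)
open Vale.Agent.P167.H262 (Rsq mem_Rsq)
open Vale.Agent.P167.H871.Q (rqr rqr_polygon rqr_encloses rqr_nat mem_rI fz0 fd P0 P1 P1_eq Ls)

variable {Q : ℝ} {e c : Bool} {I G D B : Finset (ℤ × ℤ)} {z : ℤ × ℤ} {N a b : ℕ} {X Y k : ℤ}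
  {η : Cfg}

/-- The arm as a connection. -/
theorem AZ_eq_Jn (e : Bool) (I : Finset (ℤ × ℤ)) (z : ℤ × ℤ) (R : ℤ) :
    AZ e I z R = Jn e ↑(Bq z R \ I) {z} {s | R ≤ nm (s - z)} := by
  ext ω
  constructor
  · rintro ⟨s, h1, h2⟩
    exact ⟨z, rfl, s, h1, h2⟩
  · rintro ⟨u, rfl, s, h1, h2⟩
    exact ⟨s, h1, h2⟩

/-- The contour of `[X, X + N) × {Y}`, starting with the upper face. -/
theorem rwe_at (hN : 1 ≤ N) {p : ℕ} (hp : p < 2 * N + 2) :
    rqr (rw0 (X + N) Y N) true (p : ZMod (2 * (rw0 (X + N) Y N).L + 2)) =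
      if p ≤ N then (X + N - p, Y + 1) else (X + p - N - 1, Y) := by
  rw [rqr_nat (r := rw0 (X + N) Y N) hN, P1_eq (show p < 2 * (rw0 (X + N) Y N).L + 2 from hp)]
  unfold P0
  have e1 : (rw0 (X + N) Y N).L = N := rfl
  rw [e1]
  by_cases h : p ≤ N
  · rw [if_pos h, if_pos h]
    simp [Ls, fz0, fd, rw0, Top.dx, Top.dy]
    ring
  · rw [if_neg h, if_neg h, if_pos (by omega)]
    simp [Ls, fz0, fd, rw0, Top.dx, Top.dy]
    ring

theorem mem_rwe {v : ℤ × ℤ} : v ∈ (rw0 (X + N) Y N).I ↔ v.2 = Y ∧ X ≤ v.1 ∧ v.1 < X + N := by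
  rw [mem_rw0, add_sub_cancel_right]

/-- Membership in an arc of the upper face. -/
theorem mem_up' {s : ℤ × ℤ} (hN : 1 ≤ N) (h1 : (s.1 + s.2) % 2 = pr c) (h2 : s.2 = Y + 1)
    (h3 : X ≤ s.1) (h4 : s.1 ≤ X + N) (ha : a ≤ X + N - s.1) (hb : X + N - s.1 ≤ b) :
    s ∈ Ar (rqr (rw0 (X + N) Y N) true) c a b := by
  refine ⟨h1, (X + N - s.1).toNat, by omega, by omega, ?_⟩
  rw [rwe_at hN (by omega), if_pos (by omega)]
  ext
  · show X + N - (((X + N - s.1).toNat : ℕ) : ℤ) = s.1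
    omega
  · exact h2.symm

/-- Membership in an arc of the lower face. -/
theorem mem_dn' {s : ℤ × ℤ} (hN : 1 ≤ N) (h1 : (s.1 + s.2) % 2 = pr c) (h2 : s.2 = Y)
    (h3 : X ≤ s.1) (h4 : s.1 ≤ X + N) (ha : a ≤ s.1 - X + N + 1) (hb : s.1 - X + N + 1 ≤ b) :
    s ∈ Ar (rqr (rw0 (X + N) Y N) true) c a b := by
  refine ⟨h1, (s.1 - X + N + 1).toNat, by omega, by omega, ?_⟩
  rw [rwe_at hN (by omega), if_neg (by omega)]
  ext
  · show X + (((s.1 - X + N + 1).toNat : ℕ) : ℤ) - N - 1 = s.1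
    omega
  · exact h2.symm

/-- The position of the site. -/
theorem ar_tipE (hz : z = (X, Y) ∨ z = (X, Y + 1)) (hp : (z.1 + z.2) % 2 = pr e) (hN : 1 ≤ N) :
    ∃ t : ℕ, (t = N ∨ t = N + 1) ∧ Ar (rqr (rw0 (X + N) Y N) true) e t t = {z} := by
  rcases hz with rfl | rfl
  · refine ⟨N + 1, Or.inr rfl, ?_⟩
    ext s
    constructor
    · rintro ⟨h1, p, h2, h3, rfl⟩
      rw [rwe_at hN (by omega), if_neg (by omega)]
      show _ = _
      ext
      · dsimp only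
        omega
      · rfl
    · rintro rfl
      refine ⟨hp, N + 1, le_rfl, le_rfl, ?_⟩
      rw [rwe_at hN (by omega), if_neg (by omega)]
      ext
      · dsimp only
        push_cast
        omega
      · rfl
  · refine ⟨N, Or.inl rfl, ?_⟩
    ext s
    constructor
    · rintro ⟨h1, p, h2, h3, rfl⟩
      rw [rwe_at hN (by omega), if_pos (by omega)]
      show _ = _
      ext
      · dsimp only
        omega
      · rfl
    · rintro rfl
      refine ⟨hp, N, le_rfl, le_rfl, ?_⟩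
      rw [rwe_at hN (by omega), if_pos (by omega)]
      ext
      · dsimp only
        omega
      · rfl

/-- A far corner of a square of the box: next to the far side. -/
theorem nx_far {n : ℕ} {q : ZMod n → ℤ × ℤ} {R : ℤ} {y : ℤ × ℤ}
    (hG : ∀ v ∈ G, v ∈ Bq z R) (hy : y ∈ Vc e (G : Set (ℤ × ℤ))) (h : R ≤ nm (y - z)) :
    Nx e (G : Set (ℤ × ℤ)) (Fr q (!e) (Bq z R) a b) y := by
  obtain ⟨w, hw, hwy⟩ := hy
  have hw' := hG w hw
  rw [mem_Bz] at hw'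
  have hwy' := hwy
  unfold Cor at hwy'
  rw [le_nm] at h
  simp only [Prod.fst_sub, Prod.snd_sub] at h
  have hne := pr_not e
  have hpe := pr_or e
  -- the side of the box
  have hside : (y.1 = z.1 - R ∧ w.1 = z.1 - R) ∨ (y.1 = z.1 + R ∧ w.1 = z.1 + R - 1) ∨
      (y.2 = z.2 - R ∧ w.2 = z.2 - R) ∨ (y.2 = z.2 + R ∧ w.2 = z.2 + R - 1) := by omega
  rcases hside with ⟨h1, h2⟩ | ⟨h1, h2⟩ | ⟨h1, h2⟩ | ⟨h1, h2⟩
  · refine ⟨w, hw, hwy, (y.1, 2 * w.2 + 1 - y.2), ⟨?_, Or.inl ⟨(w.1 - 1, w.2), ?_, ?_⟩⟩, ?_⟩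
    · dsimp only; omega
    · rw [mem_Bz]; dsimp only; omega
    · unfold IsC; dsimp only; omega
    · unfold Cor; dsimp only; omega
  · refine ⟨w, hw, hwy, (y.1, 2 * w.2 + 1 - y.2), ⟨?_, Or.inl ⟨(w.1 + 1, w.2), ?_, ?_⟩⟩, ?_⟩
    · dsimp only; omega
    · rw [mem_Bz]; dsimp only; omega
    · unfold IsC; dsimp only; omega
    · unfold Cor; dsimp only; omega
  · refine ⟨w, hw, hwy, (2 * w.1 + 1 - y.1, y.2), ⟨?_, Or.inl ⟨(w.1, w.2 - 1), ?_, ?_⟩⟩, ?_⟩
    · dsimp only; omega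
    · rw [mem_Bz]; dsimp only; omega
    · unfold IsC; dsimp only; omega
    · unfold Cor; dsimp only; omega
  · refine ⟨w, hw, hwy, (2 * w.1 + 1 - y.1, y.2), ⟨?_, Or.inl ⟨(w.1, w.2 + 1), ?_, ?_⟩⟩, ?_⟩
    · dsimp only; omega
    · rw [mem_Bz]; dsimp only; omega
    · unfold IsC; dsimp only; omega
    · unfold Cor; dsimp only; omega

/-- **The arm of a corner of the tip of the slit `{y = Y, X ≤ x}`, arbitrary exit tube `T`** which
starts at the upper face; with a factor `W`. -/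
theorem slit_east (hQ : 0 < Q) (hQ1 : Q ≤ 1) (hV : VRS Q) : ∃ κ : ℝ, 0 < κ ∧ κ ≤ 1 ∧
    ∀ (e : Bool) (X Y : ℤ) (z : ℤ × ℤ) (k : ℕ) (I D : Finset (ℤ × ℤ)) (η : Cfg) (W : Cfg → ℝ)
      (T : Finset (ℤ × ℤ)) (A B : Set (ℤ × ℤ)),
      1 ≤ k → (z = (X, Y) ∨ z = (X, Y + 1)) → (z.1 + z.2) % 2 = pr e →
      (∀ v ∈ Bq z (16 * k), v ∈ I ↔ v.2 = Y ∧ X ≤ v.1) → Bq z (16 * k) \ I ⊆ D → T ⊆ D →
      Good η → A ⊆ Hs e (Y + 1) (X + 1) (X + 7 * k) → A ⊆ Bd e T → B ⊆ Bd e T →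
      (∀ t ∈ T, t ∉ Bq z (16 * k) \ I → ∀ y, Cor e t y → y ∈ Vc e ↑(Bq z (16 * k) \ I) →
        16 * k ≤ nm (y - z)) →
      (∀ y ∈ B, y ∈ Vc e ↑(Bq z (16 * k) \ I) → 16 * k ≤ nm (y - z)) →
      (∀ ω, 0 ≤ W ω) →
      (∀ ω ω' : Cfg, (∀ v, v ∉ Bq z (16 * k) ∪ T → ω' v = ω v) → W ω' = W ω) →
      κ * VT Q e T A B * Ex Q D η (fun ω => W ω * (AZ e I z (16 * k)).indicator 1 ω) ≤
        Ex Q D η (fun ω => W ω * (Jn e ↑((Bq z (16 * k) \ I) ∪ T) {z} B).indicator 1 ω) := by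
  obtain ⟨κ₁, h1, h1', hR⟩ := VT_ringE hQ hQ1 hV
  refine ⟨κ₁, h1, h1', ?_⟩
  intro e X Y z k I D η W T A B₂ hk hz hp hI hD hTD hη hA hAT hBT hTG hBG hW0 hW
  obtain ⟨t, ht, hAr⟩ := ar_tipE (N := 32 * k) hz hp (by omega)
  obtain ⟨r0, hr0⟩ : ∃ r0, r0 = rw0 (X + (32 * k : ℕ)) Y (32 * k) := ⟨_, rfl⟩
  have hN : 1 ≤ (rw0 (X + (32 * k : ℕ)) Y (32 * k)).L := by show 1 ≤ 32 * k; omega
  have hnn : 2 * (rw0 (X + (32 * k : ℕ)) Y (32 * k)).L + 2 = 2 * (32 * k) + 2 := rfl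
  have hz1 : z.1 = X ∧ (z.2 = Y ∨ z.2 = Y + 1) := by
    rcases hz with rfl | rfl
    · exact ⟨rfl, Or.inl rfl⟩
    · exact ⟨rfl, Or.inr rfl⟩
  obtain ⟨hzX, hzY⟩ := hz1
  have hpe := pr_or e
  have hpn := pr_not e
  -- the domain of the quads
  have hGe : Bq z (16 * k) \ I = Bq z (16 * k) \ (rw0 (X + (32 * k : ℕ)) Y (32 * k)).I := by
    ext v
    rw [mem_sdiff, mem_sdiff, mem_rwe]
    refine and_congr_right fun hv => not_congr ?_
    rw [hI v hv]
    rw [mem_Bz] at hv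
    push_cast
    omega
  have hB : ∀ p : ℕ, 17 * k ≤ p → p ≤ 47 * k + 1 → ∀ v, IsC v
      (rqr (rw0 (X + (32 * k : ℕ)) Y (32 * k)) true
      (p : ZMod (2 * (rw0 (X + (32 * k : ℕ)) Y (32 * k)).L + 2))) → v ∈ Bq z (16 * k) := by
    intro p p1 p2 v hv
    rw [rwe_at (by omega) (by omega)] at hv
    rw [mem_Bz]
    unfold IsC at hv
    split_ifs at hv with h
    · dsimp only at hv
      push_cast at hv
      omega
    · dsimp only at hv
      push_cast at hv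
      omega
  have h0 : ∃ v, v ∉ Bq z (16 * k) ∧
      IsC v (rqr (rw0 (X + (32 * k : ℕ)) Y (32 * k)) true 0) := by
    refine ⟨(X + 32 * k, Y), ?_, ?_⟩
    · rw [mem_Bz]
      dsimp only
      omega
    · have := rwe_at (X := X) (Y := Y) (N := 32 * k) (by omega) (p := 0) (by omega)
      rw [Nat.cast_zero] at this
      rw [this, if_pos (by omega)]
      unfold IsC
      dsimp only
      push_cast
      omega
  have h0' : ∃ v, v ∉ Bq z (16 * k) ∧
      IsC v (rqr (rw0 (X + (32 * k : ℕ)) Y (32 * k)) true 1) := by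
    refine ⟨(X + 32 * k - 1, Y), ?_, ?_⟩
    · rw [mem_Bz]
      dsimp only
      omega
    · have := rwe_at (X := X) (Y := Y) (N := 32 * k) (by omega) (p := 1) (by omega)
      rw [Nat.cast_one] at this
      rw [this, if_pos (by omega)]
      unfold IsC
      dsimp only
      push_cast
      omega
  have Q1 := (quad_ext (c := e) (a := 17 * k) (b := t) (m := t) (d := 47 * k + 1)
    (rqr_polygon (b := true) hN) (rqr_encloses hN) (bq_box z (16 * k)) (by omega) le_rfl (by omega)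
    (by omega) hB h0 h0').swap24
  have Q2 := (quad_ext' (c := !e) (a := 20 * k) (b := 24 * k) (m := t) (d := t)
    (rqr_polygon (b := true) hN) (rqr_encloses hN) (bq_box z (16 * k)) (by omega) (by omega) le_rfl
    (by omega) (fun p p1 p2 => hB p (by omega) (by omega)) h0 h0').swap13
  simp only [Bool.not_not] at Q2
  have hA3 : Ar (rqr (rw0 (X + (32 * k : ℕ)) Y (32 * k)) true) e (20 * k) (24 * k) =
      Hs e (Y + 1) (X + 8 * k) (X + 12 * k) := by
    rw [ar_up (by omega) (by omega)]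
    congr 1 <;> push_cast <;> ring
  rw [hAr] at Q1 Q2
  rw [hA3] at Q2
  rw [← hGe] at Q1 Q2
  have hfan : Fan e ↑(Bq z (16 * k) \ I) := by
    rw [hGe]
    exact fan_slit _ _ _ _ _
  have mG : ∀ v, v ∈ Bq z (16 * k) \ I ↔ ((X - 16 * k ≤ v.1 ∧ v.1 < X + 16 * k) ∧
      z.2 - 16 * k ≤ v.2 ∧ v.2 < z.2 + 16 * k) ∧ ¬(v.2 = Y ∧ X ≤ v.1) := by
    intro v
    rw [hGe, mem_sdiff, mem_Bz, mem_rwe, hzX]
    push_cast
    omega
  have mT : ∀ v ∈ rne X Y k, v ∈ Bq z (16 * k) \ I := by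
    intro v hv
    rw [mem_rne] at hv
    rw [mG]
    omega
  have key := ext_core (Q := Q) (e := e) (G := Bq z (16 * k) \ I) (D := D) (T₁ := rne X Y k)
    (T₂ := T) (z := z) (η := η) (W := W)
    (A := Hs e Y (X + 8 * k) (X + 12 * k)) (A' := A) (B₂ := B₂) hQ hQ1 hη hD mT hTD
    Q1 hfan (rne_low (by omega)) ?_ (rne_up (by omega)) ?_ Q2 hAT ?_ ?_ hBT ?_ hW0 ?_
  · have e1 : κ₁ ≤ VT Q e (rne X Y k) (Hs e Y (X + 8 * k) (X + 12 * k))
        (Hs e (Y + 1) (X + 8 * k) (X + 12 * k)) := (hR e X Y k (by omega)).2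
    have e3 : κ₁ * VT Q e T A B₂ ≤ VT Q e (rne X Y k) (Hs e Y (X + 8 * k) (X + 12 * k))
        (Hs e (Y + 1) (X + 8 * k) (X + 12 * k)) * VT Q e T A B₂ :=
      mul_le_mul_of_nonneg_right e1 (VT_nonneg hQ _ _ _ _)
    have i1 : ∀ ω : Cfg, (AZ e I z (16 * k)).indicator (1 : Cfg → ℝ) ω ≤
        (Jn e ↑(Bq z (16 * k) \ I) {z} (Fr (rqr (rw0 (X + (32 * k : ℕ)) Y (32 * k)) true) e
          (Bq z (16 * k)) (17 * k) (47 * k + 1))).indicator 1 ω := fun ω =>
      Set.indicator_le_indicator_of_subset (AZ_sub_Jn hp fun s hs hs' => far_Fr hs hs')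
        (fun _ => zero_le_one) ω
    have nE : 0 ≤ Ex Q D η (fun ω => W ω * (Jn e ↑(Bq z (16 * k) \ I) {z}
        (Fr (rqr (rw0 (X + (32 * k : ℕ)) Y (32 * k)) true) e (Bq z (16 * k))
          (17 * k) (47 * k + 1))).indicator 1 ω) :=
      FKA.Ex_nonneg hQ fun S _ => mul_nonneg (hW0 _) (Set.indicator_nonneg (fun _ _ => zero_le_one) _)
    calc κ₁ * VT Q e T A B₂ * Ex Q D η (fun ω => W ω * (AZ e I z (16 * k)).indicator 1 ω)
        ≤ κ₁ * VT Q e T A B₂ * Ex Q D η (fun ω => W ω * (Jn e ↑(Bq z (16 * k) \ I) {z}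
        (Fr (rqr (rw0 (X + (32 * k : ℕ)) Y (32 * k)) true) e (Bq z (16 * k))
          (17 * k) (47 * k + 1))).indicator 1 ω) :=
          mul_le_mul_of_nonneg_left
            (Ex_mono hQ fun S _ => mul_le_mul_of_nonneg_left (i1 _) (hW0 _))
            (mul_nonneg h1.le (VT_nonneg hQ _ _ _ _))
      _ ≤ _ := mul_le_mul_of_nonneg_right e3 nE
      _ ≤ _ := key
  · -- the ring tube starts at the lower face
    rintro x ⟨x1, x2, x3, x4⟩
    refine ⟨(x.1, Y - 1), ?_, by unfold Cor; dsimp only; omega, (x.1 + 1, Y), ?_,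
      by unfold Cor; dsimp only; omega⟩
    · rw [mem_coe, mG]
      dsimp only
      omega
    · refine mem_dn' (by omega) ?_ rfl ?_ ?_ ?_ ?_ <;> dsimp only <;> push_cast <;> omega
  · -- the ring tube ends at the upper face
    rintro x ⟨x1, x2, x3, x4⟩ -
    refine ⟨(x.1, Y + 1), ?_, by unfold Cor; dsimp only; omega, (x.1 + 1, Y + 1), ?_,
      by unfold Cor; dsimp only; omega⟩
    · rw [mem_coe, mG]
      dsimp only
      omega
    · refine mem_up' (by omega) ?_ rfl ?_ ?_ ?_ ?_ <;> dsimp only <;> push_cast <;> omega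
  · -- the second tube starts at the upper face
    intro x hx
    obtain ⟨x1, x2, x3, x4⟩ := hA hx
    refine ⟨(x.1, Y + 1), ?_, by unfold Cor; dsimp only; omega, (x.1 + 1, Y + 1), ?_,
      by unfold Cor; dsimp only; omega⟩
    · rw [mem_coe, mG]
      dsimp only
      omega
    · refine mem_up' (by omega) ?_ rfl ?_ ?_ ?_ ?_ <;> dsimp only <;> push_cast <;> omega
  · -- it leaves the box through its boundary
    intro v hv hvG y hy hyG
    exact nx_far (fun w hw => (mem_sdiff.1 hw).1) hyG (hTG v hv hvG y hy hyG)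
  · -- its end
    intro y hy hyG
    exact nx_far (fun w hw => (mem_sdiff.1 hw).1) hyG (hBG y hy hyG)
  · -- the factor
    intro ω ω' h
    refine hW ω ω' fun v hv => h v fun hv' => hv ?_
    rcases mem_union.1 hv' with h3 | h3
    · exact mem_union_left _ (mem_sdiff.1 (mT v h3)).1
    · exact mem_union_right _ h3

end Vale.Agent.P167.N.ID
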