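import Vale.Agent.P167.N.ID.StC
import Vale.Agent.P167.N.ID.EFG
import Vale.Agent.P167.H398.Q.StN
import Vale.Agent.P167.H398.Q.Tip
import Vale.Agent.P167.N.H506.Q.EF
import Vale.Agent.P167.N.H398.Q.Fac

/-!
# P167, `q < 1`, START: the theorem for one `n`

The factors as products; `start_nA`.
-/

set_option autoImplicit false

namespace Vale.Agent.P167.N.ID

open Finset MeasureTheory

open Vale.Agent.P167 Vale.Agent.P167.N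

open Vale.Agent.P167.BR hiding dv

open Vale.Agent.P167.FK

open Vale.Agent.P167.FKA (Loc Ind Loc.ind)

open Vale.Agent.P167.E6 (IsPolygon Encloses)

open Vale.Agent.P167.XDL (bS mem_bS)

open Vale.Agent.P167.H519 (IsLim)

open Vale.Agent.P167.H825 (dv epos enl FlowIn)

open Vale.Agent.P167.H825.Q (Row VT)

open Vale.Agent.P167.H680.T (uI mem_uI)

open Vale.Agent.P167.H398.Q (CB NA Arm cb_maj fin_step fin_low flow_mono)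

open Vale.Agent.P167.QX (RT fLp VisL)

open Vale.Agent.P167.H685 (LE)

open Vale.Agent.P167.H506.Q (EF fz LF RM fac)

open Vale.Agent.P167.H562.QM (MajA)

open Vale.Agent.P167.H562.MAJ (Sm)

open Vale.Agent.P167.H945.Q (nm_sub_le nm_comm nm_of_Bq Bq_of_nm LF.prod ind_prod)

variable {X : Type} {RS : RSys X} {Kx : Type} [Fintype Kx] [DecidableEq Kx] {F : Fct RS Kx}
  {Kt : Finset Kx} {Φ : FrS X} {θ β : ℝ} {l : ℕ} {p : ZMod l → ℤ × ℤ} {S₀ : Finset (ℤ × ℤ)}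
  {δ g : ℝ} {n : ℕ} {R R' R₁ R₂ R₃ R₄ ρ₁ ρ₂ : ℤ} {ω ω' σ : Cfg} {c : Ed → ℝ} {P : Measure Cfg}
  {A : Finset Kx}

/-! ### the factors -/

variable (RS F Kt Φ) in
/-- The factors of the special points in `A`: radius `ρ₁` for the tips, `ρ₂` for the others. -/
noncomputable def FrS.fK (δ : ℝ) (n : ℕ) (A : Finset Kx) (ρ₁ ρ₂ : ℤ) (x : Φ.ι × Kx) (ω : Cfg) : ℝ :=
  if x.2 ∈ A then F.T (Φ.U RS δ n) (Φ.r δ n x.1) x.2 (if x.2 ∈ Kt then ρ₁ else ρ₂) ω else 1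

variable (F Kt Φ) in
/-- The boxes of the factors. -/
noncomputable def FrS.bK (δ : ℝ) (n : ℕ) (A : Finset Kx) (ρ₁ ρ₂ : ℤ) (x : Φ.ι × Kx) :
    Finset (ℤ × ℤ) :=
  if x.2 ∈ A then F.bx (Φ.r δ n x.1) x.2 (if x.2 ∈ Kt then ρ₁ else ρ₂) else ∅

theorem fK_nonneg (x : Φ.ι × Kx) (ω : Cfg) : 0 ≤ Φ.fK RS F Kt δ n A ρ₁ ρ₂ x ω := by
  unfold FrS.fK
  split_ifs
  · exact F.nonneg _ _ _ _ _
  · exact F.nonneg _ _ _ _ _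
  · exact zero_le_one

theorem fK_loc (x : Φ.ι × Kx) :
    Loc (Φ.bK F Kt δ n A ρ₁ ρ₂ x) (Φ.fK RS F Kt δ n A ρ₁ ρ₂ x) := by
  intro ω ω' h
  unfold FrS.fK FrS.bK at *
  by_cases hA : x.2 ∈ A
  · rw [if_pos hA, if_pos hA]
    rw [if_pos hA] at h
    exact F.loc' _ _ _ _ ω ω' h
  · rw [if_neg hA, if_neg hA]

theorem Tt_eq : Φ.Tt RS F Kt δ n ρ₁ = PG (Φ.fK RS F Kt δ n Kt ρ₁ ρ₂) := by
  funext ω
  unfold FrS.Tt PG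
  rw [Fintype.prod_prod_type]
  refine prod_congr rfl fun i _ => ?_
  unfold FrS.fK
  rw [Finset.prod_ite_mem, univ_inter]
  exact prod_congr rfl fun k hk => by rw [if_pos hk]

theorem Tj_eq : Φ.Tj RS F Kt δ n ρ₂ = PG (Φ.fK RS F Kt δ n Ktᶜ ρ₁ ρ₂) := by
  funext ω
  unfold FrS.Tj PG
  rw [Fintype.prod_prod_type]
  refine prod_congr rfl fun i _ => ?_
  unfold FrS.fK
  rw [Finset.prod_ite_mem, univ_inter]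
  exact prod_congr rfl fun k hk => by rw [if_neg (mem_compl.1 hk)]

theorem TtTj_eq : (fun ω => Φ.Tt RS F Kt δ n ρ₁ ω * Φ.Tj RS F Kt δ n ρ₂ ω) =
    PG (Φ.fK RS F Kt δ n univ ρ₁ ρ₂) := by
  funext ω
  unfold FrS.Tt FrS.Tj PG
  rw [Fintype.prod_prod_type, ← prod_mul_distrib]
  refine prod_congr rfl fun i _ => ?_
  rw [← Finset.prod_mul_prod_compl Kt]
  unfold FrS.fK
  congr 1
  · exact prod_congr rfl fun k hk => by rw [if_pos (mem_univ _), if_pos hk]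
  · exact prod_congr rfl fun k hk => by rw [if_pos (mem_univ _), if_neg (mem_compl.1 hk)]

theorem cb_PG {J : Type} [Fintype J] {f : J → Cfg → ℝ} {Bx : J → Finset (ℤ × ℤ)}
    (hf : ∀ j, Loc (Bx j) (f j)) : CB (PG f) := by
  obtain ⟨B, hB⟩ := PG_LF hf
  exact CB.of_loc hB

/-- The factors do not depend on the annuli at the holes. -/
theorem fK_ind (hgeo : Φ.GeoN RS F Kt θ β p S₀ g δ n) (x : Φ.H)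
    (h1 : (2 * δ * n + ρ₁ : ℝ) < R) (h2 : (R' + 2 * δ * n + ρ₁ : ℝ) < g * n)
    (h3 : (R' + ρ₂ : ℝ) < g * n) :
    Ind (Bq (Φ.h δ n x) R' \ Bq (Φ.h δ n x) R) (PG (Φ.fK RS F Kt δ n A ρ₁ ρ₂)) := by
  refine PG_ind fK_loc fun y => ?_
  rw [Finset.disjoint_left]
  intro v hv hv'
  obtain ⟨hv1, hv2⟩ := mem_sdiff.1 hv'
  unfold FrS.bK at hv
  split_ifs at hv with hA hK
  · obtain ⟨hsp, hv⟩ := Fct.mem_bx.1 hv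
    obtain ⟨z, hz⟩ := hgeo.tip y.1 y.2 hK hsp
    have a1 : (nm (v - F.ctr (Φ.r δ n y.1) y.2) : ℝ) ≤ ρ₁ := by exact_mod_cast nm_of_Bq hv
    have a2 : (nm (v - Φ.h δ n z) : ℝ) ≤ nm (v - F.ctr (Φ.r δ n y.1) y.2) +
        nm (F.ctr (Φ.r δ n y.1) y.2 - Φ.h δ n z) := by exact_mod_cast nm_sub_le _ _ _
    by_cases hxz : x = z
    · subst hxz
      refine hv2 (Bq_of_nm ?_)
      have a3 : (nm (v - Φ.h δ n x) : ℝ) < (R : ℝ) := by linarith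
      exact_mod_cast a3
    · have a3 := hgeo.seph x z hxz
      have a4 : (nm (v - Φ.h δ n x) : ℝ) ≤ R' := by exact_mod_cast nm_of_Bq hv1
      have a5 : (nm (Φ.h δ n x - Φ.h δ n z) : ℝ) ≤ nm (Φ.h δ n x - v) + nm (v - Φ.h δ n z) := by
        exact_mod_cast nm_sub_le _ _ _
      rw [nm_comm (Φ.h δ n x) v] at a5
      linarith
  · obtain ⟨hsp, hv⟩ := Fct.mem_bx.1 hv
    have a1 : (nm (v - F.ctr (Φ.r δ n y.1) y.2) : ℝ) ≤ ρ₂ := by exact_mod_cast nm_of_Bq hv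
    have a3 := hgeo.oth y.1 y.2 hK hsp x
    have a4 : (nm (v - Φ.h δ n x) : ℝ) ≤ R' := by exact_mod_cast nm_of_Bq hv1
    have a5 : (nm (F.ctr (Φ.r δ n y.1) y.2 - Φ.h δ n x) : ℝ) ≤
        nm (F.ctr (Φ.r δ n y.1) y.2 - v) + nm (v - Φ.h δ n x) := by
      exact_mod_cast nm_sub_le _ _ _
    rw [nm_comm (F.ctr (Φ.r δ n y.1) y.2) v] at a5
    linarith
  · exact Finset.notMem_empty _ hv

/-! ### one `n` -/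

theorem frz_ofA (hσ : Φ.Frz RS δ n σ) (h : ∀ v ∈ Φ.U RS δ n, ω v = σ v) : Φ.Frz RS δ n ω :=
  fun i v hv => (h v (mem_uI.2 ⟨i, hv⟩)).trans (hσ i v hv)

/-- One colour at every hole. -/
theorem colA (hgeo : Φ.GeoN RS F Kt θ β p S₀ g δ n) (hσ : Φ.Frz RS δ n σ) (hR : (R : ℝ) < g * n)
    (x : Φ.H) {v : ℤ × ℤ} (hv : v ∈ Φ.U RS δ n) (hv' : v ∈ Bq (Φ.h δ n x) R) :
    σ v = Φ.b δ n x := by
  obtain ⟨i, hi⟩ := mem_uI.1 hv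
  rw [hσ i v hi]
  refine hgeo.col x i v hi (lt_of_le_of_lt ?_ hR)
  exact_mod_cast nm_of_Bq hv'

/-- The functional of the rows. -/
theorem cb_RTA (h1 : Ang θ) (hc : (Function.support c).Finite) :
    CB (RT θ (Φ.U RS δ n) (Φ.ph RS δ n c)) := by
  have hc' : H680.T.Fc (RS.wc (Φ.r δ n) c) := hc
  exact Vale.Agent.P167.N.H398.Q.cb_RT (E := Set.Finite.toFinset (H680.T.fs_ph hc'))
    (fun e he b => by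
      show (RS.wc (Φ.r δ n) c).ph e b = 0
      rw [(H680.T.fs_ph hc').off e he]
      rfl) h1.kit

/-- **START for one `n`.** -/
theorem start_nA (h0 : 0 < θ) (h1 : Ang θ) (hβ : Real.cos (θ / 2 + β) = Real.sin θ)
    (hP : IsLim (2 * Real.cos θ) P) (hgd : ∀ᵐ ω ∂P, Good ω) {α C₀ : ℝ}
    (hdec : ArmS (2 * Real.cos θ) α C₀) (hC₀ : 0 ≤ C₀)
    (hp : IsPolygon p) (hD : Encloses p S₀) (hgeo : Φ.GeoN RS F Kt θ β p S₀ g δ n)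
    (hδ : 0 < δ) (hδg : 4 * δ ≤ g) (hn : 16 ≤ δ * n) {κ κ' B : ℝ} (hκ' : 0 ≤ κ')
    -- the scales
    {s₂ κ₃ κ₄ κb : ℝ} (hs : 8 ≤ s₂)
    (hsδ : s₂ * δ ≤ κ₃) (h34 : κ₃ ≤ κ₄ / 2) (h4 : 16 ≤ κ₄ * n) (h4b : κ₄ ≤ κb)
    (h4κ : κ₄ ≤ κ / 2) (hκ : 8 ≤ κ * n) (h4g : κ₄ ≤ g / 8) (hκ'g : κ' ≤ g / 32)
    (hgn : 32 ≤ g * n) {N : ℕ} (hN : (univ : Finset Φ.H).card = N)
    (hN1 : 1 ≤ N) {ε η lm ε1 ρ ρm : ℝ} (hε : 0 < ε)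
    (hρη : ∀ x : ℝ, 0 ≤ x → x ≤ ρ → N * (C₀ * x ^ α) ≤ η / 2)
    (hρε : ∀ x : ℝ, 0 ≤ x → x ≤ ρm → (8 * N : ℕ) * (C₀ * x ^ α) ≤ ε1)
    (q1 : 0 < ((⌊s₂ * δ * n⌋ - 1 : ℤ) : ℝ) ∧
      0 ≤ ((⌊4 * δ * n⌋ + 1 : ℤ) : ℝ) / ((⌊s₂ * δ * n⌋ - 1 : ℤ) : ℝ) ∧
      ((⌊4 * δ * n⌋ + 1 : ℤ) : ℝ) / ((⌊s₂ * δ * n⌋ - 1 : ℤ) : ℝ) ≤ ρ)
    (q2 : 0 < ((⌊κ₄ * n⌋ - 1 : ℤ) : ℝ) ∧
      0 ≤ ((⌊κ₃ * n⌋ + 1 : ℤ) : ℝ) / ((⌊κ₄ * n⌋ - 1 : ℤ) : ℝ) ∧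
      ((⌊κ₃ * n⌋ + 1 : ℤ) : ℝ) / ((⌊κ₄ * n⌋ - 1 : ℤ) : ℝ) ≤ ρ)
    (q3 : 0 < ((⌊κ₃ * n⌋ - 1 : ℤ) : ℝ) ∧
      0 ≤ ((⌊s₂ * δ * n⌋ + 1 : ℤ) : ℝ) / ((⌊κ₃ * n⌋ - 1 : ℤ) : ℝ) ∧
      ((⌊s₂ * δ * n⌋ + 1 : ℤ) : ℝ) / ((⌊κ₃ * n⌋ - 1 : ℤ) : ℝ) ≤ ρm)
    (hlm : 0 < lm) (hε1 : 0 < ε1) (hε1' : ε1 ≤ 1 / 2)
    -- the inputs
    {A M M' C₇ C₃ : ℝ} (hM : 0 < M) (hC₇ : 0 < C₇) (hC₃ : 0 < C₃)
    (he1 : (lm * M + η / lm) / 2 * C₇ ≤ 1 / 2)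
    (he2 : 2 * ((lm * M + η / lm) / 2 * C₇ * (1 + M') + 2 * (2 * ε1 * M' + ε / 16)) ≤ ε)
    (na : ∀ c : Ed → ℝ, (Function.support c).Finite → FlowIn (enl S₀ n) κ |B| n c →
      ∀ ω : Cfg, Good ω → Φ.Frz RS δ n ω → ∀ (Z : Finset (ℤ × ℤ)) (N₁ N₂ : ℕ),
      (∀ v : ℤ × ℤ, (nm v : ℝ) ≤ (Φ.R + 1) * n → v ∈ Z) →
      MajA (Φ.hB δ n ⌊4 * δ * n⌋) (δ * n / 64) ω N₁ → MajA Z (κ' * n) ω N₂ →
      |RT θ (Φ.U RS δ n) (Φ.ph RS δ n c) ω| ≤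
        (∏ i, (2 * Real.sin θ) ^ ((RS.shape (Φ.r δ n i)).L + 1)) *
        (A ^ (N₁ + N₂ + 1) * Real.exp (-(Real.tan θ * Sm (dv c) (κ' * n) ω)) *
          (Φ.Tt RS F Kt δ n ⌊δ * n / 16⌋ ω * Φ.Tj RS F Kt δ n ⌊4 * κ' * n⌋ ω)))
    (nb1 : ∀ ω : Cfg, Good ω → Φ.Frz RS δ n ω → ∀ ℓ ∈ LE ω (bS (Φ.U RS δ n)),
      ¬ VisL (Φ.hB δ n ((⌊δ * (n : ℝ)⌋₊ : ℤ) + 4)) ℓ →
      0 ≤ fLp θ (Φ.U RS δ n) (Φ.ph RS δ n 0) ω ℓ ∧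
      ((∃ x, ∀ v ∈ vs ℓ, v ∈ Bq (Φ.h δ n x) ⌊κb * n⌋) →
        fLp θ (Φ.U RS δ n) (Φ.ph RS δ n 0) ω ℓ = 1))
    (nb2 : ∀ ω : Cfg, Good ω → Φ.Frz RS δ n ω → Φ.Cnf δ n ⌊4 * δ * n⌋ ⌊κb * n⌋ ω →
      0 ≤ Φ.TB RS θ δ n ⌊4 * δ * n⌋ ω)
    (nc : ∀ σ : Cfg, Φ.Frz RS δ n σ → ∃ (Z B₁ B₂ : Finset (ℤ × ℤ)) (N₁ N₂ : Cfg → ℕ),
      (∀ v : ℤ × ℤ, (nm v : ℝ) ≤ (Φ.R + 1) * n → v ∈ Z) ∧
      (∀ ω ω' : Cfg, (∀ v ∈ B₁, ω v = ω' v) → N₁ ω = N₁ ω') ∧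
      (∀ ω ω' : Cfg, (∀ v ∈ B₂, ω v = ω' v) → N₂ ω = N₂ ω') ∧
      (∀ ω, Good ω → MajA (Φ.hB δ n ⌊4 * δ * n⌋) (δ * n / 64) ω (N₁ ω)) ∧
      (∀ ω, Good ω → MajA Z (κ' * n) ω (N₂ ω)) ∧
      (∀ c : Ed → ℝ, (Function.support c).Finite → FlowIn (enl S₀ n) κ |B| n c →
      Φ.E RS δ n P σ (fun ω => Φ.Tt RS F Kt δ n ⌊δ * n / 16⌋ ω *
          Φ.Tj RS F Kt δ n ⌊4 * κ' * n⌋ ω *
          (A ^ (N₁ ω + N₂ ω + 1) * Real.exp (-(Real.tan θ * Sm (dv c) (κ' * n) ω))) ^ 2) ≤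
      M * Φ.E RS δ n P σ (fun ω => Φ.Tt RS F Kt δ n ⌊δ * n / 16⌋ ω *
          Φ.Tj RS F Kt δ n ⌊4 * κ' * n⌋ ω)))
    (nd : ∀ σ : Cfg, Φ.Frz RS δ n σ → ∀ c : Ed → ℝ, (Function.support c).Finite →
      FlowIn (enl S₀ n) κ |B| n c →
      |Φ.E RS δ n P σ (Φ.G RS θ β p S₀ δ n c ⌊κ₃ * n⌋ ⌊κ₄ * n⌋) -
        VT θ β p S₀ n (Φ.t n) (Φ.k n) (dv c) *
          Φ.E RS δ n P σ (Φ.G RS θ β p S₀ δ n 0 ⌊κ₃ * n⌋ ⌊κ₄ * n⌋)| ≤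
        ε / 16 * Φ.E RS δ n P σ (Φ.G RS θ β p S₀ δ n 0 ⌊κ₃ * n⌋ ⌊κ₄ * n⌋) ∧
      Φ.E RS δ n P σ (fun ω => |Φ.G RS θ β p S₀ δ n c ⌊κ₃ * n⌋ ⌊κ₄ * n⌋ ω|) ≤
        M' * Φ.E RS δ n P σ (Φ.G RS θ β p S₀ δ n 0 ⌊κ₃ * n⌋ ⌊κ₄ * n⌋) ∧
      |VT θ β p S₀ n (Φ.t n) (Φ.k n) (dv c)| ≤ M')
    (ne : ∀ σ : Cfg, Φ.Frz RS δ n σ →
      Φ.E RS δ n P σ (fun ω => Φ.Tt RS F Kt δ n ⌊δ * n / 16⌋ ω *
          Φ.Tj RS F Kt δ n ⌊4 * κ' * n⌋ ω) ≤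
      C₇ * Φ.E RS δ n P σ (fun ω => Φ.G RS θ β p S₀ δ n 0 ⌊κ₃ * n⌋ ⌊κ₄ * n⌋ ω *
        Φ.T2 RS θ δ n ⌊4 * δ * n⌋ ⌊s₂ * δ * n⌋ ω))
    {Zp : ℕ → X → ℝ}
    (nf : ∀ σ : Cfg, Φ.Frz RS δ n σ → ∏ i, Zp n (Φ.r δ n i) ≤
      C₃ * ((∏ i, (2 * Real.sin θ) ^ ((RS.shape (Φ.r δ n i)).L + 1)) *
        ∫ ω, fz (Φ.U RS δ n) σ ω * (Φ.Tt RS F Kt δ n ⌊δ * n / 16⌋ ω *
          Φ.Tj RS F Kt δ n ⌊4 * κ' * n⌋ ω) ∂P))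
    {σ : Cfg} (hσ : Φ.Frz RS δ n σ) :
    1 / (2 * C₇ * C₃) * ∏ i, Zp n (Φ.r δ n i) ≤
      ∫ ω, fz (Φ.U RS δ n) σ ω * RT θ (Φ.U RS δ n) (Φ.ph RS δ n 0) ω ∂P ∧
    ∀ c : Ed → ℝ, (Function.support c).Finite → FlowIn (enl S₀ n) κ B n c →
      |∫ ω, fz (Φ.U RS δ n) σ ω * RT θ (Φ.U RS δ n) (Φ.ph RS δ n c) ω ∂P -
        (∫ ω, fz (Φ.U RS δ n) σ ω * RT θ (Φ.U RS δ n) (Φ.ph RS δ n 0) ω ∂P) *
          VT θ β p S₀ n (Φ.t n) (Φ.k n) (dv c)| ≤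
        ε * ∫ ω, fz (Φ.U RS δ n) σ ω * RT θ (Φ.U RS δ n) (Φ.ph RS δ n 0) ω ∂P := by
  classical
  have hPp : IsProbabilityMeasure P := hP.1
  have hQ := h1.kit
  have hs0 := sin_posA h0 h1
  obtain ⟨σ', hg', hσ'⟩ := H506.Q.exists_good (Φ.U RS δ n) σ
  have hfz : fz (Φ.U RS δ n) σ = fz (Φ.U RS δ n) σ' := H825.S.fz_eq fun v hv => (hσ' v hv).symm
  rw [hfz]
  have hσF : Φ.Frz RS δ n σ' := frz_ofA hσ hσ'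
  obtain ⟨s1, s2, s3, s4, s5, s6, s7⟩ := H398.Q.scale_n hδ hn hs hsδ h34 h4 h4b h4κ hκ h4g hκ'g hgn
  have hp0 := Vale.Agent.P167.N.H506.Q.fz_pos hQ hP hgd (Φ.U RS δ n) σ'
  obtain ⟨Z, B₁, B₂, N₁, N₂, z1, z2, z3, z4, z5, z6⟩ := nc σ' hσF
  have hn0 : (0 : ℝ) ≤ n := Nat.cast_nonneg n
  have hκn : 0 ≤ κ' * (n : ℝ) := by positivity
  have hgnn : 4 * (δ * n) ≤ g * n := by
    have := mul_le_mul_of_nonneg_right hδg hn0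
    linarith
  -- the radii
  obtain ⟨R₁, hR₁⟩ : ∃ R₁ : ℤ, R₁ = ⌊4 * δ * (n : ℝ)⌋ := ⟨_, rfl⟩
  obtain ⟨R₂, hR₂⟩ : ∃ R₂ : ℤ, R₂ = ⌊s₂ * δ * (n : ℝ)⌋ := ⟨_, rfl⟩
  obtain ⟨R₃, hR₃⟩ : ∃ R₃ : ℤ, R₃ = ⌊κ₃ * (n : ℝ)⌋ := ⟨_, rfl⟩
  obtain ⟨R₄, hR₄⟩ : ∃ R₄ : ℤ, R₄ = ⌊κ₄ * (n : ℝ)⌋ := ⟨_, rfl⟩
  obtain ⟨ρ₁, hρ₁⟩ : ∃ ρ₁ : ℤ, ρ₁ = ⌊δ * (n : ℝ) / 16⌋ := ⟨_, rfl⟩
  obtain ⟨ρ₂, hρ₂⟩ : ∃ ρ₂ : ℤ, ρ₂ = ⌊4 * κ' * (n : ℝ)⌋ := ⟨_, rfl⟩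
  rw [← hR₁] at s1 s2 q1
  rw [← hR₂] at s2 s3 q1 q3
  rw [← hR₃] at s3 s4 q2 q3
  rw [← hR₄] at s4 s5 s6 s7 q2
  simp only [← hR₁, ← hR₂, ← hR₃, ← hR₄, ← hρ₁, ← hρ₂] at na nb2 nc nd ne nf z4 z6
  have f1 : (4 * δ * (n : ℝ)) - 1 < R₁ := by rw [hR₁]; exact Int.sub_one_lt_floor _
  have f2 : (ρ₁ : ℝ) ≤ δ * n / 16 := by rw [hρ₁]; exact Int.floor_le _
  have f3 : (ρ₂ : ℝ) ≤ 4 * κ' * n := by rw [hρ₂]; exact Int.floor_le _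
  have c1 : (R₁ : ℝ) ≤ R₄ := by exact_mod_cast (by omega : R₁ ≤ R₄)
  have c2 : (R₂ : ℝ) ≤ R₄ := by exact_mod_cast (by omega : R₂ ≤ R₄)
  have c3 : (R₃ : ℝ) ≤ R₄ := by exact_mod_cast (by omega : R₃ ≤ R₄)
  have c4 : (0 : ℝ) ≤ R₁ := by exact_mod_cast (by omega : (0 : ℤ) ≤ R₁)
  have hδR : 4 * (δ * n) < R₄ := by
    have : (R₁ : ℝ) + 4 ≤ R₄ := by exact_mod_cast (by omega : R₁ + 4 ≤ R₄)
    linarith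
  -- the arms
  have r3 := H398.Q.ratio_le (x := R₂) (y := R₃) (by omega) q3.1
  have e3 := hρε _ r3.1 (r3.2.trans q3.2.2)
  push_cast at e3
  have hx0 : 0 ≤ C₀ * ((R₂ : ℝ) / R₃) ^ α := mul_nonneg hC₀ (Real.rpow_nonneg r3.1 _)
  have hmix1 : C₀ * ((R₂ : ℝ) / R₃) ^ α < 1 := by
    have hN' : (1 : ℝ) ≤ N := by exact_mod_cast hN1
    have := mul_le_mul_of_nonneg_right hN' hx0
    linarith
  have e1 := hρη _ q1.2.1 q1.2.2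
  have e2 := hρη _ q2.2.1 q2.2.2
  have hη0 : 0 ≤ η := by
    have : (0 : ℝ) ≤ N * (C₀ * ((R₁ + 1 : ℤ) / (R₂ - 1 : ℤ) : ℝ) ^ α) := by
      have := q1.2.1
      positivity
    linarith
  -- the factors
  have cT1 : CB (fun ω => Φ.Tt RS F Kt δ n ρ₁ ω * Φ.Tj RS F Kt δ n ρ₂ ω) := by
    rw [TtTj_eq]
    exact cb_PG fK_loc
  have hT1 : ∀ ω, 0 ≤ (fun ω => Φ.Tt RS F Kt δ n ρ₁ ω * Φ.Tj RS F Kt δ n ρ₂ ω) ω := by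
    rw [TtTj_eq]
    exact PG_nonneg fK_nonneg
  have hTi : ∀ x : Φ.H, ∀ R R' : ℤ, R₁ ≤ R → R' ≤ R₄ →
      Ind ((Bq (Φ.h δ n x) R' \ Bq (Φ.h δ n x) (R + 1)) \ Φ.U RS δ n)
        (fun ω => Φ.Tt RS F Kt δ n ρ₁ ω * Φ.Tj RS F Kt δ n ρ₂ ω) := by
    intro x R R' hR hR'
    rw [TtTj_eq]
    have g1 : (R₁ : ℝ) ≤ R := by exact_mod_cast hR
    have g2 : (R' : ℝ) ≤ R₄ := by exact_mod_cast hR'
    refine (fK_ind hgeo x (R := R + 1) ?_ ?_ ?_).mono sdiff_subset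
    · push_cast
      linarith
    · linarith
    · linarith
  -- the factorisation
  have key : ∀ c : Ed → ℝ, (Function.support c).Finite → FlowIn (enl S₀ n) κ |B| n c →
      |EF P (Φ.U RS δ n) σ' (RT θ (Φ.U RS δ n) (Φ.ph RS δ n c)) -
        VT θ β p S₀ n (Φ.t n) (Φ.k n) (dv c) *
          EF P (Φ.U RS δ n) σ' (RT θ (Φ.U RS δ n) (Φ.ph RS δ n 0))| ≤
      2 * ((lm * M + η / lm) / 2 * C₇ * (1 + M') + 2 * (2 * ε1 * M' + ε / 16)) *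
        EF P (Φ.U RS δ n) σ' (RT θ (Φ.U RS δ n) (Φ.ph RS δ n 0)) ∧
      (∏ i, (2 * Real.sin θ) ^ ((RS.shape (Φ.r δ n i)).L + 1)) *
        EF P (Φ.U RS δ n) σ' (fun ω => Φ.Tt RS F Kt δ n ρ₁ ω * Φ.Tj RS F Kt δ n ρ₂ ω) ≤
      2 * C₇ * EF P (Φ.U RS δ n) σ' (RT θ (Φ.U RS δ n) (Φ.ph RS δ n 0)) := by
    intro c hc hf
    have hz : (Function.support (0 : Ed → ℝ)).Finite := by simp
    have hf0 : FlowIn (enl S₀ n) κ |B| n 0 := H680.T.flowIn_zero (abs_nonneg B)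
    have hgn1 : 1 ≤ g * n := by linarith
    have fact : ∀ c : Ed → ℝ, FlowIn (enl S₀ n) κ |B| n c → ∀ ω, Good ω →
        (∀ v ∈ Φ.U RS δ n, ω v = σ' v) →
        ω ∈ NA univ (Φ.b δ n) (Φ.h δ n) (R₁ + 1) (R₂ - 1) →
        ω ∈ NA univ (Φ.b δ n) (Φ.h δ n) (R₃ + 1) (R₄ - 1) →
        RT θ (Φ.U RS δ n) (Φ.ph RS δ n c) ω =
          (∏ i, (2 * Real.sin θ) ^ ((RS.shape (Φ.r δ n i)).L + 1)) *
          (Φ.G RS θ β p S₀ δ n c R₃ R₄ ω * Φ.T2 RS θ δ n R₁ R₂ ω) := by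
      intro c hc ω g1 g2 g3 g4
      have g5 := frz_ofA hσF g2
      exact frm_factA h0 h1 hβ hp hD hgeo (by linarith) hgn1 hc s1 (by omega) s3 (by omega)
        (by linarith) g1
        (fun ℓ h6 h7 ⟨x, hx⟩ => (nb1 ω g1 g5 ℓ h6 h7).2
          ⟨x, fun v hv => H398.Q.Bq_mono' s5 (hx v hv)⟩)
        (nb2 ω g1 g5 ((cnf_NAhA (by omega) g3).mono (by omega))) g3 g4
    have maj : ∀ c : Ed → ℝ, (Function.support c).Finite → FlowIn (enl S₀ n) κ |B| n c →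
        ∀ ω, Good ω → (∀ v ∈ Φ.U RS δ n, ω v = σ' v) →
        |RT θ (Φ.U RS δ n) (Φ.ph RS δ n c) ω| ≤
        (∏ i, (2 * Real.sin θ) ^ ((RS.shape (Φ.r δ n i)).L + 1)) *
          ((fun ω => Φ.Tt RS F Kt δ n ρ₁ ω * Φ.Tj RS F Kt δ n ρ₂ ω) ω *
            (fun ω => A ^ (N₁ ω + N₂ ω + 1) *
              Real.exp (-(Real.tan θ * Sm (dv c) (κ' * n) ω))) ω) := by
      intro c hc hf ω g1 g2
      refine (na c hc hf ω g1 (frz_ofA hσF g2) Z (N₁ ω) (N₂ ω) z1 (z4 ω g1) (z5 ω g1)).trans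
        (le_of_eq ?_)
      simp only
      ring
    obtain ⟨nd1, nd2, nd3⟩ := nd σ' hσF c hc hf
    have hR4g : (R₄ : ℝ) < g * n := by linarith
    exact start_coreA (J := univ) (h := Φ.h δ n) (b := Φ.b δ n) (R₁ := R₁) (R₂ := R₂) (R₃ := R₃)
      (R₄ := R₄) (ε := C₀ * ((R₂ : ℝ) / R₃) ^ α)
      (η₁ := C₀ * (((R₁ + 1 : ℤ) : ℝ) / ((R₂ - 1 : ℤ) : ℝ)) ^ α)
      (η₂ := C₀ * (((R₃ + 1 : ℤ) : ℝ) / ((R₄ - 1 : ℤ) : ℝ)) ^ α) hQ hP hgd hg'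
      (Vale.Agent.P167.N.H506.Q.rm_holes hQ hg' hdec univ (Φ.h δ n) (by omega) s3
        (fun x _ y _ hxy => hdis_of hgeo (by linarith) hxy)
        (fun x _ => ⟨Φ.b δ n x, fun v hv hv' => colA hgeo hσF (by linarith) x hv hv'⟩)
        (fun x _ => hgeo.shp x R₂ R₃ (by omega) (by linarith)) hmix1)
      hx0 hmix1 (by rw [hN]; exact e3) hε1.le hε1'
      (cb_RTA h1 hc) (cb_RTA h1 hz) cT1
      (cb_maj hc z2 z3 A (Real.tan θ) (κ' * n)) (cb_maj hz z2 z3 A (Real.tan θ) (κ' * n))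
      (cb_T2A (by omega)) (cb_GA h0 h1) (cb_GA h0 h1) T2_nonneg (T2_loc (by omega))
      (fun ω ω' k1 k2 k3 => G_congr (by omega) (fun x y hxy => hdis_of hgeo (by linarith) hxy)
        k1 k2 k3)
      (fun ω ω' k1 k2 k3 => G_congr (by omega) (fun x y hxy => hdis_of hgeo (by linarith) hxy)
        k1 k2 k3)
      (fun ω h => T2_NA h) (fun ω h => G_NA h) (fun ω h => G_NA h)
      (prod_nonneg fun _ _ => by positivity) hlm hT1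
      (fun x _ => EF_armA hQ hP hgd hdec (by omega) (by omega)
        (fun v hv hv' => colA hgeo hσF (R := R₂ - 1) (by push_cast; linarith) x hv
          (mem_sdiff.1 hv').1)
        (hgeo.shp x (R₁ + 1) (R₂ - 1) (by omega) (by push_cast; linarith)) hT1 cT1
        (hTi x R₁ (R₂ - 1) le_rfl (by omega)))
      (fun x _ => EF_armA hQ hP hgd hdec (by omega) (by omega)
        (fun v hv hv' => colA hgeo hσF (R := R₄ - 1) (by push_cast; linarith) x hv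
          (mem_sdiff.1 hv').1)
        (hgeo.shp x (R₃ + 1) (R₄ - 1) (by omega) (by push_cast; linarith)) hT1 cT1
        (hTi x R₃ (R₄ - 1) (by omega) (by omega)))
      (by rw [hN]; linarith) hη0
      (maj c hc hf) (maj 0 hz hf0) (z6 c hc hf) (z6 0 hz hf0) (fact c hf) (fact 0 hf0)
      (fun ω g1 g2 => G_nonneg h0 h1 hβ (R := (⌊δ * (n : ℝ)⌋₊ : ℤ) + 4) (by omega)
        fun ℓ h6 h7 => (nb1 ω g1 (frz_ofA hσF g2) ℓ h6 h7).1)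
      (by positivity) nd1 nd2 nd3 (ne σ' hσF) hC₇.le hM.le he1
  have hz : (Function.support (0 : Ed → ℝ)).Finite := by simp
  have key0 := (key 0 hz (H680.T.flowIn_zero (abs_nonneg B))).2
  have hk : 0 ≤ ∏ i, (2 * Real.sin θ) ^ ((RS.shape (Φ.r δ n i)).L + 1) :=
    prod_nonneg fun _ _ => by positivity
  have hR0 : 0 ≤ EF P (Φ.U RS δ n) σ' (RT θ (Φ.U RS δ n) (Φ.ph RS δ n 0)) := by
    have h5 : 0 ≤ (∏ i, (2 * Real.sin θ) ^ ((RS.shape (Φ.r δ n i)).L + 1)) *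
        EF P (Φ.U RS δ n) σ' (fun ω => Φ.Tt RS F Kt δ n ρ₁ ω * Φ.Tj RS F Kt δ n ρ₂ ω) :=
      mul_nonneg hk (H506.Q.EF_nonneg hT1)
    exact nonneg_of_mul_nonneg_right (h5.trans key0) (by positivity)
  refine ⟨?_, fun c hc hf => ?_⟩
  · obtain ⟨kk, hkk⟩ : ∃ kk, kk = ∏ i, (2 * Real.sin θ) ^ ((RS.shape (Φ.r δ n i)).L + 1) :=
      ⟨_, rfl⟩
    have nf' := nf σ' hσF
    rw [← hkk] at key0 nf' hk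
    rw [H398.Q.int_EF hp0] at nf' ⊢
    rw [div_mul_eq_mul_div, one_mul, div_le_iff₀ (by positivity)]
    obtain ⟨I0, hI0⟩ : ∃ I0, I0 = ∫ ω, fz (Φ.U RS δ n) σ' ω ∂P := ⟨_, rfl⟩
    rw [← hI0] at nf' hp0 ⊢
    calc _ ≤ _ := nf'
      _ = C₃ * I0 * (kk * EF P (Φ.U RS δ n) σ'
            (fun ω => Φ.Tt RS F Kt δ n ρ₁ ω * Φ.Tj RS F Kt δ n ρ₂ ω)) := by ring
      _ ≤ C₃ * I0 * (2 * C₇ * EF P (Φ.U RS δ n) σ' (RT θ (Φ.U RS δ n) (Φ.ph RS δ n 0))) :=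
          mul_le_mul_of_nonneg_left key0 (by positivity)
      _ = _ := by ring
  · exact fin_step hp0 ((key c hc (flow_mono hf)).1.trans
      (mul_le_mul_of_nonneg_right he2 hR0))

end Vale.Agent.P167.N.ID
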