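import Vale.Agent.P167.N.ID.StD
import Vale.Agent.P167.N.ID.HosG
import Vale.Agent.P167.N.Base.ArmS
import Vale.Agent.P167.H398.Q.Scn

/-!
# P167, `q < 1`, START: from the literal inputs for abstract frames to START in terms of the law
-/

set_option autoImplicit false

namespace Vale.Agent.P167.N.ID

open Finset MeasureTheory Filter

open Vale.Agent.P167 Vale.Agent.P167.N

open Vale.Agent.P167.BR hiding dv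

open Vale.Agent.P167.FK

open Vale.Agent.P167.E6 (IsPolygon Encloses)

open Vale.Agent.P167.H519 (IsLim)

open Vale.Agent.P167.H825 (dv epos enl FlowIn Box)

open Vale.Agent.P167.H825.Q (Row VT)

open Vale.Agent.P167.H680.T (Cls Fam WCG uI)

open Vale.Agent.P167.H506.Q (fz)

open Vale.Agent.P167.QX (RT)

open Vale.Agent.P167.H398.Q (exists_lt_all exists_err exists_rho exists_scales ev_large ev_ratio)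

variable {X : Type} {RS : RSys X} {Kx : Type} [Fintype Kx] [DecidableEq Kx] {F : Fct RS Kx}
  {Kt : Finset Kx} {Φ : FrS X} {θ β : ℝ} {l : ℕ} {p : ZMod l → ℤ × ℤ} {S₀ : Finset (ℤ × ℤ)}
  {P : Measure Cfg}

theorem scA1 {x ρ κ : ℝ} (h : x ≤ ρ / 2 * κ) (hρ : ρ < 1) (hκ : 0 < κ) : x ≤ κ := by nlinarith

theorem scA2 {s ρ δ : ℝ} (h : 4 ≤ ρ / 2 * s) (hδ : 0 < δ) : 4 * δ ≤ ρ / 2 * (s * δ) := by
  nlinarith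

/-- The conclusion of START for one frame and one state of the frozen squares. -/
def FrS.Out (RS : RSys X) (Φ : FrS X) (θ β : ℝ) (p : ZMod l → ℤ × ℤ) (S₀ : Finset (ℤ × ℤ))
    (P : Measure Cfg) (Zp : ℕ → X → ℝ) (κ B ε c₀ δ : ℝ) (n : ℕ) (σ : Cfg) : Prop :=
  c₀ * ∏ i, Zp n (Φ.r δ n i) ≤
      ∫ ω, fz (Φ.U RS δ n) σ ω * RT θ (Φ.U RS δ n) (Φ.ph RS δ n 0) ω ∂P ∧
    ∀ c : Ed → ℝ, (Function.support c).Finite → FlowIn (enl S₀ n) κ B n c →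
      |∫ ω, fz (Φ.U RS δ n) σ ω * RT θ (Φ.U RS δ n) (Φ.ph RS δ n c) ω ∂P -
        (∫ ω, fz (Φ.U RS δ n) σ ω * RT θ (Φ.U RS δ n) (Φ.ph RS δ n 0) ω ∂P) *
          VT θ β p S₀ n (Φ.t n) (Φ.k n) (dv c)| ≤
        ε * ∫ ω, fz (Φ.U RS δ n) σ ω * RT θ (Φ.U RS δ n) (Φ.ph RS δ n 0) ω ∂P

/-- **START for the abstract frames**: the choice of the constants. -/
theorem start_evA {Zp : ℕ → X → ℝ} (h0 : 0 < θ) (h1 : Ang θ)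
    (hβ : Real.cos (θ / 2 + β) = Real.sin θ) (hP : IsLim (2 * Real.cos θ) P)
    (hgd : ∀ᵐ ω ∂P, Good ω) (hp : IsPolygon p) (hD : Encloses p S₀)
    (hG : Φ.Geo RS F Kt θ β p S₀)
    (hL1 : Φ.L1Sg RS F Kt θ S₀) (hL2 : Φ.L2Sg RS F Kt θ S₀) (hH2 : Φ.H2Sg RS F Kt θ S₀ P)
    (hH6 : Φ.H6Sg RS θ β p S₀ P) (hH7 : Φ.H7Sg RS F Kt θ β p S₀ P)
    (hP3 : Φ.P3Sg RS F Kt θ P Zp) {κ B ε δF : ℝ} (hκ : 0 < κ) (hε : 0 < ε) (hδF : 0 < δF) :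
    ∃ δ : ℝ, 0 < δ ∧ δ < δF ∧ ∃ c₀ : ℝ, 0 < c₀ ∧ ∀ᶠ n : ℕ in atTop,
      (∀ i, 1 ≤ (RS.shape (Φ.r δ n i)).L) ∧ ∀ σ : Cfg, Φ.Frz RS δ n σ →
        Φ.Out RS θ β p S₀ P Zp κ B ε c₀ δ n σ := by
  classical
  have hPp : IsProbabilityMeasure P := hP.1
  obtain ⟨α, C₀, hα, hC₀, hdec, -⟩ := h1.kit.armS
  obtain ⟨κa, hκa, La⟩ := hL1 κ |B| hκ
  obtain ⟨κb, hκb, Lb⟩ := hL2
  obtain ⟨κc, hκc, Lc⟩ := hH2 κ |B| hκ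
  obtain ⟨κd, M', hκd, hM', Ld⟩ := hH6 κ |B| hκ
  obtain ⟨κe, hκe, Le⟩ := hH7
  obtain ⟨κf, hκf, Lf⟩ := hP3
  obtain ⟨g, hg0, hg1, δg, hδg, Lg⟩ := hG
  -- `κ'`
  obtain ⟨κ', hκ', H⟩ := exists_lt_all [κa, κb, κc, κe, κf, g / 32] (by
    simp only [List.mem_cons, List.not_mem_nil, or_false]
    rintro x (rfl | rfl | rfl | rfl | rfl | rfl) <;> positivity)
  obtain ⟨A, δa, hA, hδa, La⟩ := La κ' hκ' (H _ (by simp))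
  obtain ⟨A₂, δb, hA₂, hδb, Lb⟩ := Lb κ' hκ' (H _ (by simp))
  obtain ⟨M, δc, hM, hδc, Lc⟩ := Lc κ' hκ' (H _ (by simp)) A hA
  obtain ⟨C₇, t₇, hC₇, ht₇, ht₇', Le⟩ := Le κ' hκ' (H _ (by simp))
  obtain ⟨δf, hδf, Lf⟩ := Lf κ' hκ' (H _ (by simp))
  have hκ'g : κ' ≤ g / 32 := (H _ (by simp)).le
  -- the errors
  obtain ⟨lm, η, ε1, hlm, hη, hε1, hε1', he1, he2⟩ := exists_err hε hM hM' hC₇
  obtain ⟨t₆, ht₆, ht₆', Ld⟩ := Ld (ε / 16) (by positivity)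
  obtain ⟨N, hN⟩ : ∃ N : ℕ, (univ : Finset Φ.H).card = N := ⟨_, rfl⟩
  have hN1 : 1 ≤ N := by
    rw [← hN]
    exact card_pos.2 univ_nonempty
  obtain ⟨ρ, hρ, hρ1, hρη⟩ := exists_rho hα hC₀.le N (half_pos hη)
  obtain ⟨ρm, hρm, hρm1, hρε⟩ := exists_rho hα hC₀.le (8 * N) hε1
  -- the scales
  obtain ⟨κ₃, κ₄, s₂, ⟨hκ₃, hκ₄, hs₂⟩, ⟨k4b, k4d, k4e⟩, ⟨k4κ, k4g⟩,
    ⟨k36, k37, k3t, k3ρ, k34⟩, ⟨hs₂t, hs₂ρ, hs₂8⟩⟩ :=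
    exists_scales hκb hκd hκe hκ hg0 ht₆ ht₇ hρ hρ1
  obtain ⟨δh, hδh, Ld⟩ := Ld κ₃ κ₄ hκ₃ k36 k4d
  obtain ⟨δi, hδi, Le⟩ := Le s₂ κ₃ κ₄ hs₂t hκ₃ k37 k3t k4e
  obtain ⟨δ, hδ, H'⟩ := exists_lt_all [δa, δb, δc, δf, δh, δi, δg, δF, g / 4,
      ρm / 2 * κ₃ / s₂] (by
    simp only [List.mem_cons, List.not_mem_nil, or_false]
    rintro x (rfl | rfl | rfl | rfl | rfl | rfl | rfl | rfl | rfl | rfl) <;> positivity)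
  have La := La δ hδ (H' _ (by simp))
  have Lb := Lb δ hδ (H' _ (by simp))
  have Lc := Lc δ hδ (H' _ (by simp))
  have Ld := Ld δ hδ (H' _ (by simp))
  have Le := Le δ hδ (H' _ (by simp))
  have Lg := Lg δ hδ (H' _ (by simp))
  obtain ⟨C₃, hC₃, Lf⟩ := Lf δ hδ (H' _ (by simp))
  have hδg : 4 * δ ≤ g := by
    have := H' (g / 4) (by simp)
    linarith
  have hsδ : s₂ * δ ≤ ρm / 2 * κ₃ := by
    have := (H' (ρm / 2 * κ₃ / s₂) (by simp)).le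
    rw [le_div_iff₀ hs₂] at this
    linarith
  have hsδ' : s₂ * δ ≤ κ₃ := scA1 hsδ hρm1 hκ₃
  have q1 := ev_ratio (a := 4 * δ) (b := s₂ * δ) (by positivity) (by positivity) hρ
    (scA2 hs₂ρ hδ)
  have q2 := ev_ratio (a := κ₃) (b := κ₄) hκ₃.le hκ₄ hρ k3ρ
  have q3 := ev_ratio (a := s₂ * δ) (b := κ₃) (by positivity) hκ₃ hρm hsδ
  refine ⟨δ, hδ, H' _ (by simp), 1 / (2 * C₇ * C₃), by positivity, ?_⟩
  filter_upwards [La, Lb, Lc, Ld, Le, Lf, Lg, ev_large hδ 16,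
    ev_large hκ 8, ev_large hκ₄ 16, ev_large hg0 32, q1, q2, q3] with n na nb nc nd ne nf ng
    n1 n3 n4 n5 q1 q2 q3
  refine ⟨len_posA ng (by linarith : 1 ≤ g * n), fun σ hσ => ?_⟩
  exact start_nA (ε := ε) h0 h1 hβ hP hgd hdec hC₀.le hp hD ng hδ hδg n1 (B := B) hκ'.le
    hs₂8 hsδ' k34 n4 k4b k4κ n3 k4g hκ'g n5 hN hN1 hε hρη hρε q1 q2 q3 hlm hε1
    hε1' hM hC₇ hC₃ he1 he2 na (fun ω g1 g2 => (nb ω g1 g2).1)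
    (fun ω g1 g2 g3 => ((nb ω g1 g2).2.2.1 g3).1)
    (fun σ g1 => by
      obtain ⟨Z, B₁, B₂, N₁, N₂, z1, z2, z3, z4, z5, z6, -, -⟩ := nc σ g1
      exact ⟨Z, B₁, B₂, N₁, N₂, z1, z2, z3, z4, z5, z6⟩)
    (fun σ g1 => (nd σ g1).2) ne nf (σ := σ) hσ

/-- **START from the literal inputs**, abstract frames. -/
theorem startg_ofA {Cl : Cls} {b : Box} {Zp : ℕ → X → ℝ} (h0 : 0 < θ) (h1 : Ang θ)
    (hβ : Real.cos (θ / 2 + β) = Real.sin θ) (hP : IsLim (2 * Real.cos θ) P)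
    (hgd : ∀ᵐ ω ∂P, Good ω) (hp : IsPolygon p) (hD : Encloses p S₀)
    (hG : Φ.Geo RS F Kt θ β p S₀)
    (hF : ∃ δ₀ : ℝ, 0 < δ₀ ∧ ∀ δ : ℝ, 0 < δ → δ < δ₀ → ∃ reg : Φ.ι → Fin 5,
      Fam Cl S₀ b reg fun n i => RS.wall (Φ.r δ n i) (RS.Zrow θ Zp n (Φ.r δ n i)))
    (hZ : ∀ n w, Cl.Z n w = w.z)
    (hL1 : Φ.L1Sg RS F Kt θ S₀) (hL2 : Φ.L2Sg RS F Kt θ S₀) (hH2 : Φ.H2Sg RS F Kt θ S₀ P)
    (hH6 : Φ.H6Sg RS θ β p S₀ P) (hH7 : Φ.H7Sg RS F Kt θ β p S₀ P)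
    (hP3 : Φ.P3Sg RS F Kt θ P Zp) {κ B ε : ℝ} (hκ : 0 < κ) (hε : 0 < ε) :
    StartG θ P Cl S₀ b (fun n f => VT θ β p S₀ n (Φ.t n) (Φ.k n) f) κ B ε := by
  classical
  obtain ⟨δF, hδF, LF⟩ := hF
  obtain ⟨δ, hδ, hδδ, c₀, hc₀, hev⟩ := start_evA h0 h1 hβ hP hgd hp hD hG hL1 hL2 hH2 hH6 hH7 hP3
    (B := B) hκ hε hδF
  obtain ⟨reg, hFam⟩ := LF δ hδ hδδ
  refine ⟨Φ.ι, Φ.fι, reg, fun n i => RS.wall (Φ.r δ n i) (RS.Zrow θ Zp n (Φ.r δ n i)),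
    fun n i => RS.shape (Φ.r δ n i), fun n i => RS.fr (Φ.r δ n i), fun n i => Zp n (Φ.r δ n i),
    hFam, c₀, hc₀, ?_⟩
  filter_upwards [hev] with n hn
  obtain ⟨hL, hn⟩ := hn
  refine ⟨fun i => RS.cuts _ _ (hL i), fun i => ?_, fun σ hσ => ?_⟩
  · rw [hZ, RS.wall_z]
    rfl
  have key := hn σ hσ
  unfold FrS.Out at key
  have e : ∀ c : Ed → ℝ, ERT θ P (fun i => RS.shape (Φ.r δ n i))
      (fun i => RS.wall (Φ.r δ n i) (RS.Zrow θ Zp n (Φ.r δ n i))) c σ =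
      ∫ ω, fz (Φ.U RS δ n) σ ω * RT θ (Φ.U RS δ n) (Φ.ph RS δ n c) ω ∂P := by
    intro c
    have : (⟨fun i => RS.wall (Φ.r δ n i) (RS.Zrow θ Zp n (Φ.r δ n i)), c⟩ : WCG Φ.ι).ph =
        Φ.ph RS δ n c := by
      funext e b
      show ∑ i, (RS.wall (Φ.r δ n i) (RS.Zrow θ Zp n (Φ.r δ n i))).a e b + c e / 2 =
        ∑ i, (RS.wall (Φ.r δ n i) 0).a e b + c e / 2
      congr 1
      exact sum_congr rfl fun i _ => by rw [RS.wall_a _ _ 0]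
    unfold ERT
    rw [this]
    rfl
  refine ⟨?_, fun c hc hf => ?_⟩
  · rw [e]
    exact key.1
  · rw [e, e]
    exact key.2 c hc hf

end Vale.Agent.P167.N.ID
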