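import Vale.Agent.P167.N.ID.StD
import Vale.Agent.P167.N.H945.Q.HMaj

/-!
# P167, `q < 1`, START: abstract frames, the places of the special points
-/

set_option autoImplicit false

namespace Vale.Agent.P167.N.ID

open Finset MeasureTheory

open Vale.Agent.P167 Vale.Agent.P167.N

open Vale.Agent.P167.BR hiding dv

open Vale.Agent.P167.FK

open Vale.Agent.P167.H166 (bxx mem_bxx)

open Vale.Agent.P167.H680.T (mem_uI nm_ht)

open Vale.Agent.P167.H562.QM (OneC oneC_sub)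

open Vale.Agent.P167.H506.Q (RectP oneC_rect)

open Vale.Agent.P167.H945.Q (nm_sub_le nm_comm nm_of_Bq Bq_of_nm)

variable {X : Type} {RS : RSys X} {Kx : Type} [Fintype Kx] [DecidableEq Kx] {F : Fct RS Kx}
  {Kt : Finset Kx} {Φ : FrS X} {θ β : ℝ} {l : ℕ} {p : ZMod l → ℤ × ℤ} {S₀ : Finset (ℤ × ℤ)}
  {δ g : ℝ} {n : ℕ} {σ : Cfg} {A : Finset Kx}

theorem mem_UA {v : ℤ × ℤ} : v ∈ Φ.U RS δ n ↔ ∃ i, v ∈ RS.I (Φ.r δ n i) := mem_uI

theorem mg_posA (hgeo : Φ.GeoN RS F Kt θ β p S₀ g δ n) (hgn : 1 ≤ g * n) (i : Φ.ι) :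
    1 ≤ F.mg (Φ.r δ n i) := by
  have h2 : (1 : ℝ) ≤ F.mg (Φ.r δ n i) := hgn.trans (hgeo.val i).2
  exact_mod_cast h2

/-- A square of the row next to the centre. -/
theorem ctr_uA (hgeo : Φ.GeoN RS F Kt θ β p S₀ g δ n) (hgn : 1 ≤ g * n) {i : Φ.ι} {k : Kx}
    (hk : F.Sp (Φ.r δ n i) k) (v : ℤ × ℤ) : ∃ u ∈ RS.I (Φ.r δ n i),
      (nm (v - u) : ℝ) ≤ nm (v - F.ctr (Φ.r δ n i) k) + 1 ∧
      (nm (v - F.ctr (Φ.r δ n i) k) : ℝ) ≤ nm (v - u) + 1 :=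
  ctr_u F (hgeo.val i).1 (mg_posA hgeo hgn i) hk v

theorem abs_hull {a b c : ℤ} (h1 : min a b ≤ c) (h2 : c ≤ max a b) : |a - c| ≤ |a - b| := by
  rcases le_total a b with h | h
  · rw [min_eq_left h] at h1
    rw [max_eq_right h] at h2
    rw [abs_of_nonpos (by omega), abs_of_nonpos (by omega)]
    omega
  · rw [min_eq_right h] at h1
    rw [max_eq_left h] at h2
    rw [abs_of_nonneg (by omega), abs_of_nonneg (by omega)]
    omega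

theorem nm_hull {u v w : ℤ × ℤ} (h1 : min u.1 v.1 ≤ w.1) (h2 : w.1 ≤ max u.1 v.1)
    (h3 : min u.2 v.2 ≤ w.2) (h4 : w.2 ≤ max u.2 v.2) : nm (u - w) ≤ nm (u - v) := by
  show max |u.1 - w.1| |u.2 - w.2| ≤ max |u.1 - v.1| |u.2 - v.2|
  exact max_le_max (abs_hull h1 h2) (abs_hull h3 h4)

theorem bxx_hull {y u v w : ℤ × ℤ} {a : ℤ} (hu : u ∈ bxx y a) (hv : v ∈ bxx y a)
    (h1 : min u.1 v.1 ≤ w.1) (h2 : w.1 ≤ max u.1 v.1)
    (h3 : min u.2 v.2 ≤ w.2) (h4 : w.2 ≤ max u.2 v.2) : w ∈ bxx y a := by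
  rw [mem_bxx] at *
  change max |u.1 - y.1| |u.2 - y.2| ≤ a at hu
  change max |v.1 - y.1| |v.2 - y.2| ≤ a at hv
  show max |w.1 - y.1| |w.2 - y.2| ≤ a
  rw [max_le_iff, abs_le, abs_le] at hu hv ⊢
  refine ⟨⟨?_, ?_⟩, ⟨?_, ?_⟩⟩ <;>
    rcases le_total u.1 v.1 with a | a <;> rcases le_total u.2 v.2 with b | b <;>
    simp only [min_eq_left a, max_eq_right a, min_eq_right a, max_eq_left a, min_eq_left b,
      max_eq_right b, min_eq_right b, max_eq_left b] at h1 h2 h3 h4 <;> omega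

/-- Near a special point off the holes there is only its row. -/
theorem oth_rowA (hgeo : Φ.GeoN RS F Kt θ β p S₀ g δ n) (hgn : 1 ≤ g * n) {i : Φ.ι} {k : Kx}
    (hK : k ∉ Kt) (hk : F.Sp (Φ.r δ n i) k) {v : ℤ × ℤ} (hv : v ∈ Φ.U RS δ n)
    (hδ : 0 ≤ δ * n)
    (h : (nm (v - F.ctr (Φ.r δ n i) k) : ℝ) < g * n - 2 * (δ * n) - 2) :
    v ∈ RS.I (Φ.r δ n i) := by
  obtain ⟨j, hj⟩ := mem_UA.1 hv
  by_cases hij : i = j
  · subst hij
    exact hj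
  · exfalso
    obtain ⟨u, hu, a0⟩ := F.near (hgeo.val i).1 (mg_posA hgeo hgn i) hk
    have a1 : (nm (F.ctr (Φ.r δ n i) k - u) : ℝ) ≤ 1 := by exact_mod_cast a0
    have a2 : (nm (v - u) : ℝ) ≤ nm (v - F.ctr (Φ.r δ n i) k) +
        nm (F.ctr (Φ.r δ n i) k - u) := by exact_mod_cast nm_sub_le _ _ _
    obtain ⟨x, w, b1, b2, b3, b4, b5⟩ := hgeo.hull i j hij u hu v hj (by
      rw [nm_comm]
      linarith)
    have h1 : (nm (u - w) : ℝ) ≤ nm (u - v) := by exact_mod_cast nm_hull b1 b2 b3 b4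
    rw [nm_comm u v] at h1
    have h2 := hgeo.oth i k hK hk x
    have h3 : (nm (F.ctr (Φ.r δ n i) k - Φ.h δ n x) : ℝ) ≤
        nm (F.ctr (Φ.r δ n i) k - u) + nm (u - Φ.h δ n x) := by exact_mod_cast nm_sub_le _ _ _
    have h4 : (nm (u - Φ.h δ n x) : ℝ) ≤ nm (u - w) + nm (w - Φ.h δ n x) := by
      exact_mod_cast nm_sub_le _ _ _
    linarith

/-- Near a special point, at a distance small compared to the holes, there is only its row. -/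
theorem tip_rowA (hgeo : Φ.GeoN RS F Kt θ β p S₀ g δ n) (hgn : 1 ≤ g * n) {i : Φ.ι} {k : Kx}
    (hk : F.Sp (Φ.r δ n i) k) {v : ℤ × ℤ} (hv : v ∈ Φ.U RS δ n)
    (h : (nm (v - F.ctr (Φ.r δ n i) k) : ℝ) < δ * n / 2 - 1) :
    v ∈ RS.I (Φ.r δ n i) := by
  obtain ⟨j, hj⟩ := mem_UA.1 hv
  by_cases hij : j = i
  · subst hij
    exact hj
  · exfalso
    obtain ⟨u, hu, a1, -⟩ := ctr_uA hgeo hgn hk v
    have := hgeo.sepr j i hij v hj u hu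
    linarith

/-- Different rows are disjoint. -/
theorem row_uniqA (hgeo : Φ.GeoN RS F Kt θ β p S₀ g δ n) (hδn : 0 < δ * n) {i j : Φ.ι}
    {v : ℤ × ℤ} (hi : v ∈ RS.I (Φ.r δ n i)) (hj : v ∈ RS.I (Φ.r δ n j)) : i = j := by
  by_contra hij
  have h1 := hgeo.sepr i j hij v hi v hj
  rw [sub_self] at h1
  have : nm (0 : ℤ × ℤ) = 0 := by simp [nm]
  rw [this] at h1
  push_cast at h1
  linarith

/-- The special points are separate. -/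
theorem sp_sepA (hgeo : Φ.GeoN RS F Kt θ β p S₀ g δ n) (hgn : 1 ≤ g * n) (hδn : 0 < δ * n)
    (hδg : δ * n ≤ g * n) {x y : Φ.ι × Kx} (hx : F.Sp (Φ.r δ n x.1) x.2)
    (hy : F.Sp (Φ.r δ n y.1) y.2) (h : x ≠ y) :
    δ * n / 2 - 2 ≤ (nm (F.ctr (Φ.r δ n x.1) x.2 - F.ctr (Φ.r δ n y.1) y.2) : ℝ) := by
  obtain ⟨i, k⟩ := x
  obtain ⟨j, m⟩ := y
  by_cases hij : i = j
  · subst hij
    have hkm : k ≠ m := fun h' => h (by rw [h'])
    have h1 := F.sep (hgeo.val i).1 (mg_posA hgeo hgn i) hx hy hkm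
    have h2 : ((F.mg (Φ.r δ n i) : ℤ) : ℝ) - 2 ≤
        (nm (F.ctr (Φ.r δ n i) k - F.ctr (Φ.r δ n i) m) : ℝ) := by exact_mod_cast h1
    have h3 := (hgeo.val i).2
    push_cast at h2
    show δ * n / 2 - 2 ≤ (nm (F.ctr (Φ.r δ n i) k - F.ctr (Φ.r δ n i) m) : ℝ)
    linarith
  · by_contra hlt
    push Not at hlt
    obtain ⟨u, hu, a0⟩ := F.near (hgeo.val j).1 (mg_posA hgeo hgn j) hy
    have a1 : (nm (F.ctr (Φ.r δ n j) m - u) : ℝ) ≤ 1 := by exact_mod_cast a0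
    rw [nm_comm] at hlt a1
    have a2 : (nm (u - F.ctr (Φ.r δ n i) k) : ℝ) ≤ nm (u - F.ctr (Φ.r δ n j) m) +
        nm (F.ctr (Φ.r δ n j) m - F.ctr (Φ.r δ n i) k) := by exact_mod_cast nm_sub_le _ _ _
    have h4 := tip_rowA hgeo hgn hx (v := u) (mem_UA.2 ⟨j, hu⟩) (by
      change (nm (F.ctr (Φ.r δ n j) m - F.ctr (Φ.r δ n i) k) : ℝ) < _ at hlt
      linarith)
    exact hij (row_uniqA hgeo hδn h4 hu)

/-- The special points off the holes are far from all others. -/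
theorem oth_sepA (hgeo : Φ.GeoN RS F Kt θ β p S₀ g δ n) (hgn : 1 ≤ g * n) (hδn : 0 < δ * n)
    {x y : Φ.ι × Kx} (hK : x.2 ∉ Kt) (hx : F.Sp (Φ.r δ n x.1) x.2)
    (hy : F.Sp (Φ.r δ n y.1) y.2) (h : x ≠ y) :
    g * n - 2 * (δ * n) - 3 ≤
      (nm (F.ctr (Φ.r δ n x.1) x.2 - F.ctr (Φ.r δ n y.1) y.2) : ℝ) := by
  obtain ⟨i, k⟩ := x
  obtain ⟨j, m⟩ := y
  by_cases hij : i = j
  · subst hij
    have hkm : k ≠ m := fun h' => h (by rw [h'])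
    have h1 := F.sep (hgeo.val i).1 (mg_posA hgeo hgn i) hx hy hkm
    have h2 : ((F.mg (Φ.r δ n i) : ℤ) : ℝ) - 2 ≤
        (nm (F.ctr (Φ.r δ n i) k - F.ctr (Φ.r δ n i) m) : ℝ) := by exact_mod_cast h1
    have h3 := (hgeo.val i).2
    push_cast at h2
    show g * n - 2 * (δ * n) - 3 ≤ (nm (F.ctr (Φ.r δ n i) k - F.ctr (Φ.r δ n i) m) : ℝ)
    linarith
  · by_contra hlt
    push Not at hlt
    obtain ⟨u, hu, a0⟩ := F.near (hgeo.val j).1 (mg_posA hgeo hgn j) hy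
    have a1 : (nm (F.ctr (Φ.r δ n j) m - u) : ℝ) ≤ 1 := by exact_mod_cast a0
    rw [nm_comm] at hlt a1
    have a2 : (nm (u - F.ctr (Φ.r δ n i) k) : ℝ) ≤ nm (u - F.ctr (Φ.r δ n j) m) +
        nm (F.ctr (Φ.r δ n j) m - F.ctr (Φ.r δ n i) k) := by exact_mod_cast nm_sub_le _ _ _
    have h4 := oth_rowA hgeo hgn hK hx (v := u) (mem_UA.2 ⟨j, hu⟩) hδn.le (by
      change (nm (F.ctr (Φ.r δ n j) m - F.ctr (Φ.r δ n i) k) : ℝ) < _ at hlt
      linarith)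
    exact hij (row_uniqA hgeo hδn h4 hu)

/-- The own row. -/
theorem T_ownA (hgeo : Φ.GeoN RS F Kt θ β p S₀ g δ n) (hgn : 1 ≤ g * n) (hδn : 4 ≤ δ * n)
    {i : Φ.ι} {k : Kx} {ρ : ℤ}
    (h : F.Sp (Φ.r δ n i) k → ∀ v ∈ Bq (F.ctr (Φ.r δ n i) k) ρ, v ∈ Φ.U RS δ n →
      v ∈ RS.I (Φ.r δ n i)) (ω : Cfg) :
    F.T (Φ.U RS δ n) (Φ.r δ n i) k ρ ω = F.T (RS.I (Φ.r δ n i)) (Φ.r δ n i) k ρ ω := by
  by_cases hp : F.Sp (Φ.r δ n i) k
  · refine F.own (hgeo.val i).1 (mg_posA hgeo hgn i) (fun v hv => mem_UA.2 ⟨_, hv⟩) (h hp)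
      fun e he h' => ?_
    obtain ⟨j, hj⟩ := mem_UA.1 h'
    by_cases hij : i = j
    · subst hij
      exact hj
    · have h1 := sep2A hgeo hδn i j hij _ he _ hj
      have h2 := nm_ht e
      omega
  · rw [F.plain hp, F.plain hp]

/-- The box `bxx y a` sees at most one row. -/
theorem oneC_frameA (F : Fct RS Kx) (hσ : Φ.Frz RS δ n σ) {D : Finset (ℤ × ℤ)} {η : Cfg} {y : ℤ × ℤ} {a : ℤ}
    (hη : ∀ v ∈ Φ.U RS δ n, η v = σ v) (hD1 : ∀ v ∈ bxx y a, v ∉ Φ.U RS δ n → v ∈ D)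
    (hD2 : ∀ v ∈ Φ.U RS δ n, v ∉ D)
    (h : ∀ i j, i ≠ j → ∀ u ∈ RS.I (Φ.r δ n i), ∀ v ∈ RS.I (Φ.r δ n j), u ∈ bxx y a →
      v ∈ bxx y a → False) : OneC y a D η := by
  by_cases hex : ∃ v₀ ∈ bxx y a, v₀ ∈ Φ.U RS δ n
  · obtain ⟨v₀, hv₀, hv₀'⟩ := hex
    obtain ⟨i, hi⟩ := mem_UA.1 hv₀'
    have key : ∀ c : Bool, RectP c (bxx y a) D η := by
      intro c
      obtain ⟨a0, a1, b0, b1, h3⟩ := F.rect (Φ.r δ n i) c
      refine ⟨a0, a1, b0, b1, fun z hz => ?_⟩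
      rw [← h3 z]
      have hDz : z ∉ D ↔ z ∈ RS.I (Φ.r δ n i) := by
        constructor
        · intro hzD
          have hzU : z ∈ Φ.U RS δ n := by
            by_contra hne
            exact hzD (hD1 z hz hne)
          obtain ⟨j, hj⟩ := mem_UA.1 hzU
          by_cases hij : i = j
          · subst hij
            exact hj
          · exact absurd (h i j hij v₀ hi z hj hv₀ hz) id
        · intro hzI
          exact hD2 z (mem_UA.2 ⟨i, hzI⟩)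
      rw [hDz]
      constructor
      · rintro ⟨h1, h2⟩
        refine ⟨h1, ?_⟩
        rw [← hσ i z h1, ← hη z (mem_UA.2 ⟨i, h1⟩)]
        exact h2
      · rintro ⟨h1, h2⟩
        refine ⟨h1, ?_⟩
        rw [hη z (mem_UA.2 ⟨i, h1⟩), hσ i z h1]
        exact h2
    exact oneC_rect (key true) (key false)
  · push Not at hex
    exact oneC_sub fun v hv => hD1 v hv (hex v hv)

end Vale.Agent.P167.N.ID
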