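import Vale.Agent.P167.N.ID.StH1
import Vale.Agent.P167.H592.T.FamA

/-!
# P167, `q < 1`, START: abstract frames, moments near the special points and in zones
-/

set_option autoImplicit false

namespace Vale.Agent.P167.N.ID

open Finset MeasureTheory Filter

open Vale.Agent.P167 Vale.Agent.P167.N

open Vale.Agent.P167.BR hiding dv

open Vale.Agent.P167.FK

open Vale.Agent.P167.FKA (Loc Ind Loc.ind)

open Vale.Agent.P167.H519 (IsLim)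

open Vale.Agent.P167.H825 (dv epos enl FlowIn)

open Vale.Agent.P167.H166 (bxx mem_bxx)

open Vale.Agent.P167.H506.Q (EF LF)

open Vale.Agent.P167.H562.QM (MajA Nr)

open Vale.Agent.P167.H562.MAJ (Sm)

open Vale.Agent.P167.H945.Q (nm_sub_le nm_comm nm_of_Bq Bq_of_nm MajA.mono dv_near)

variable {X : Type} {RS : RSys X} {Kx : Type} [Fintype Kx] [DecidableEq Kx] {F : Fct RS Kx}
  {Kt : Finset Kx} {Φ : FrS X} {θ β : ℝ} {l : ℕ} {p : ZMod l → ℤ × ℤ} {S₀ : Finset (ℤ × ℤ)}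
  {P : Measure Cfg}

theorem mem_bK {δ : ℝ} {n : ℕ} {A : Finset Kx} {ρ₁ ρ₂ : ℤ} {x : Φ.ι × Kx} {v : ℤ × ℤ} :
    v ∈ Φ.bK F Kt δ n A ρ₁ ρ₂ x ↔ x.2 ∈ A ∧ F.Sp (Φ.r δ n x.1) x.2 ∧
      v ∈ Bq (F.ctr (Φ.r δ n x.1) x.2) (if x.2 ∈ Kt then ρ₁ else ρ₂) := by
  unfold FrS.bK
  by_cases h : x.2 ∈ A
  · rw [if_pos h, Fct.mem_bx]
    exact ⟨fun h1 => ⟨h, h1⟩, fun h1 => h1.2⟩
  · rw [if_neg h]
    exact ⟨fun h1 => absurd h1 (Finset.notMem_empty _), fun h1 => absurd h1.1 h⟩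

/-- **Moments near a special point.** -/
theorem sp_genA (Φ : FrS X) (h1 : Ang θ) (hb : P1bg RS F θ) (hP : IsLim (2 * Real.cos θ) P)
    (hg : ∀ᵐ ω ∂P, Good ω) (s : ℝ) : ∃ C ρ0 : ℝ, 0 < C ∧
    ∀ {δ g : ℝ} {n : ℕ}, Φ.GeoN RS F Kt θ β p S₀ g δ n → 1 ≤ g * n → 4 ≤ δ * n →
    ∀ (x : Φ.ι × Kx) (ρ ρ₁ ρ₂ : ℤ), F.Sp (Φ.r δ n x.1) x.2 →
      ρ = (if x.2 ∈ Kt then ρ₁ else ρ₂) → ρ0 ≤ ρ → 0 ≤ ρ → 8 * ρ ≤ F.mg (Φ.r δ n x.1) →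
      (∀ v ∈ Bq (F.ctr (Φ.r δ n x.1) x.2) (4 * ρ), v ∈ Φ.U RS δ n →
        v ∈ RS.I (Φ.r δ n x.1)) →
      (∀ y : Φ.ι × Kx, y ≠ x → F.Sp (Φ.r δ n y.1) y.2 →
        Disjoint (Bq (F.ctr (Φ.r δ n y.1) y.2) (if y.2 ∈ Kt then ρ₁ else ρ₂))
          (Bq (F.ctr (Φ.r δ n x.1) x.2) (4 * ρ))) →
      ∃ N : Cfg → ℕ, (∃ U : Finset (ℤ × ℤ), ∀ ω ω' : Cfg, (∀ v ∈ U, ω v = ω' v) → N ω = N ω') ∧
        (∀ ω, Good ω → MajA (Bq (F.ctr (Φ.r δ n x.1) x.2) (2 * ρ)) (1 / 4 * ρ) ω (N ω)) ∧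
        ∀ (A : Finset Kx), x.2 ∈ A → ∀ σ : Cfg, Φ.Frz RS δ n σ →
          EF P (Φ.U RS δ n) σ (fun ω => PG (Φ.fK RS F Kt δ n A ρ₁ ρ₂) ω *
            Real.exp (s * (N ω : ℝ))) ≤
          C * EF P (Φ.U RS δ n) σ (PG (Φ.fK RS F Kt δ n A ρ₁ ρ₂)) := by
  classical
  obtain ⟨C, ρ0, hC, key⟩ := hb (1 / 4) s (by norm_num)
  refine ⟨C, ρ0, hC, fun {δ g n} hgeo hgn hδn x ρ ρ₁ ρ₂ hsp hρ hρ0 hρn h8 hrow hoth => ?_⟩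
  obtain ⟨N, hN1, hN2, hN3⟩ := key (Φ.r δ n x.1) x.2 ρ (hgeo.val x.1).1 hsp hρ0 h8
  refine ⟨N, ⟨_, hN1⟩, hN2, fun A hA σ hσ => ?_⟩
  have hD1 : Disjoint (Bq (F.ctr (Φ.r δ n x.1) x.2) (4 * ρ) \ RS.I (Φ.r δ n x.1))
      (Φ.U RS δ n) := by
    rw [Finset.disjoint_left]
    intro v hv hv'
    obtain ⟨hv1, hv2⟩ := Finset.mem_sdiff.1 hv
    exact hv2 (hrow v hv1 hv')
  have hoth' : ∀ y : Φ.ι × Kx, y ≠ x → Disjoint (Φ.bK F Kt δ n A ρ₁ ρ₂ y)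
      (Bq (F.ctr (Φ.r δ n x.1) x.2) (4 * ρ) \ RS.I (Φ.r δ n x.1)) := by
    intro y hy
    rw [Finset.disjoint_left]
    intro v hv hv'
    obtain ⟨-, hsy, hv⟩ := mem_bK.1 hv
    exact Finset.disjoint_left.1 (hoth y hy hsy) hv (Finset.mem_sdiff.1 hv').1
  have e0 : Φ.fK RS F Kt δ n A ρ₁ ρ₂ x = F.T (RS.I (Φ.r δ n x.1)) (Φ.r δ n x.1) x.2 ρ := by
    funext ω
    unfold FrS.fK
    rw [if_pos hA, ← hρ]
    exact T_ownA hgeo hgn hδn (fun _ v hv => hrow v (by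
      have h3 := nm_of_Bq hv
      rcases hρn.eq_or_lt with h4 | h4
      · rw [← h4] at hv
        exact absurd hv (by
          rw [Vale.Agent.P167.H945.Q.mem_Bq]
          omega)
      · exact Bq_of_nm (by omega))) ω
  exact EF_spG (J := Φ.ι × Kx) (f := Φ.fK RS F Kt δ n A ρ₁ ρ₂)
    (Bx := Φ.bK F Kt δ n A ρ₁ ρ₂) (s := s) (C := C) (σ := σ) h1.kit hP hg
    fK_nonneg fK_loc hD1 hoth' hN1 (fun η hη hk => by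
      rw [e0]
      exact hN3 η hη fun v hv => by
        rw [hk v (mem_UA.2 ⟨_, hv⟩)]
        exact hσ _ v hv)

/-- **Moments in a zone at a hole.** -/
theorem zone1A (Φ : FrS X) (h1 : Ang θ) (hR : RSW (2 * Real.cos θ))
    (hP : IsLim (2 * Real.cos θ) P) (hg : ∀ᵐ ω ∂P, Good ω) (s : ℝ) :
    ∃ C ρ0 : ℝ, 0 < C ∧ 0 < ρ0 ∧ ∀ {δ g : ℝ} {n : ℕ}, Φ.GeoN RS F Kt θ β p S₀ g δ n →
    ρ0 ≤ δ * n → 64 ≤ δ * n → 16 * (δ * n) ≤ g * n →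
    ∀ (z : ℤ × ℤ) (h ρ₁ ρ₂ : ℤ), (h : ℝ) ≤ δ * n / 100 → (ρ₂ : ℝ) ≤ g * n / 8 →
      (∀ x : Φ.ι × Kx, x.2 ∈ Kt → F.Sp (Φ.r δ n x.1) x.2 →
        (ρ₁ + h + δ * n / 64 : ℝ) < (nm (F.ctr (Φ.r δ n x.1) x.2 - z) : ℝ)) →
      (∃ x, (nm (z - Φ.h δ n x) : ℝ) ≤ 6 * (δ * n)) →
      ∃ N : Cfg → ℕ, (∃ U : Finset (ℤ × ℤ), ∀ ω ω' : Cfg, (∀ v ∈ U, ω v = ω' v) → N ω = N ω') ∧
        (∀ ω, Good ω → MajA (Bq z h) (δ * n / 64) ω (N ω)) ∧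
        ∀ (A : Finset Kx), ∀ σ : Cfg, Φ.Frz RS δ n σ →
          EF P (Φ.U RS δ n) σ (fun ω => PG (Φ.fK RS F Kt δ n A ρ₁ ρ₂) ω *
            Real.exp (s * (N ω : ℝ))) ≤
          C * EF P (Φ.U RS δ n) σ (PG (Φ.fK RS F Kt δ n A ρ₁ ρ₂)) := by
  classical
  obtain ⟨e1, he1, hzone⟩ := EF_zoneG h1.kit hR hP hg 0
  obtain ⟨C, ρ0, hC, hρ0, hzone⟩ := hzone (1 / 64) (1 / 100) s (by norm_num) (by norm_num)
  refine ⟨C, ρ0, hC, hρ0, fun {δ g n} hgeo hn hn64 hgδ z h ρ₁ ρ₂ hh hρ₂ htip hhole => ?_⟩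
  have eq64 : (1 / 64 : ℝ) * (δ * n) = δ * n / 64 := by ring
  obtain ⟨N, hN1, hN2, hN3⟩ := hzone (δ * n) hn z (Bq z h) (fun v hv => by
    have h2 : (nm (v - z) : ℝ) ≤ h := by exact_mod_cast nm_of_Bq hv
    linarith) Fin.elim0
  refine ⟨N, hN1, fun ω _ => by rw [← eq64]; exact hN2 ω, fun A σ hσ => ?_⟩
  have hnear : ∀ v, Nr (Bq z h) (1 / 64 * (δ * n)) v → (nm (v - z) : ℝ) ≤ h + δ * n / 64 := by
    rintro v ⟨u, hu, hv⟩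
    have h2 : (nm (u - z) : ℝ) ≤ h := by exact_mod_cast nm_of_Bq hu
    have h3 : (nm (v - z) : ℝ) ≤ nm (v - u) + nm (u - z) := by exact_mod_cast nm_sub_le v u _
    linarith
  refine hN3 (Φ.U RS δ n) σ (Φ.fK RS F Kt δ n A ρ₁ ρ₂) (Φ.bK F Kt δ n A ρ₁ ρ₂)
    fK_nonneg fK_loc (fun D η _ hk hD1 hD2 y a ha _ hz => ?_) (fun x v hv hv' => ?_)
  · refine oneC_frameA F hσ hk (fun v hv hne => hD1 v (hz v hv).1 hne) hD2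
      fun i j hij u hu v hv hu' hv' => ?_
    have h2 := hnear u (hz u hu').1
    have h3 := hnear v (hz v hv').1
    have h4 := hgeo.sepr i j hij u hu v hv
    have h5 : (nm (u - v) : ℝ) ≤ nm (u - z) + nm (z - v) := by exact_mod_cast nm_sub_le u z v
    rw [nm_comm z v] at h5
    linarith
  · obtain ⟨-, hsp, hv⟩ := mem_bK.1 hv
    have h2 := hnear v hv'.1
    have h4 : (nm (F.ctr (Φ.r δ n x.1) x.2 - z) : ℝ) ≤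
        nm (F.ctr (Φ.r δ n x.1) x.2 - v) + nm (v - z) := by exact_mod_cast nm_sub_le _ v _
    rw [nm_comm _ v] at h4
    by_cases hK : x.2 ∈ Kt
    · rw [if_pos hK] at hv
      have h3 : (nm (v - F.ctr (Φ.r δ n x.1) x.2) : ℝ) ≤ ρ₁ := by exact_mod_cast nm_of_Bq hv
      have h5 := htip x hK hsp
      linarith
    · rw [if_neg hK] at hv
      have h3 : (nm (v - F.ctr (Φ.r δ n x.1) x.2) : ℝ) ≤ ρ₂ := by exact_mod_cast nm_of_Bq hv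
      obtain ⟨y, hy⟩ := hhole
      have h5 := hgeo.oth x.1 x.2 hK hsp y
      have h6 : (nm (F.ctr (Φ.r δ n x.1) x.2 - Φ.h δ n y) : ℝ) ≤
        nm (F.ctr (Φ.r δ n x.1) x.2 - z) + nm (z - Φ.h δ n y) := by exact_mod_cast nm_sub_le _ _ _
      linarith

/-- **Moments in a zone off the holes.** -/
theorem zone2A (Φ : FrS X) (h1 : Ang θ) (hR : RSW (2 * Real.cos θ))
    (hP : IsLim (2 * Real.cos θ) P) (hg : ∀ᵐ ω ∂P, Good ω) {κ' : ℝ} (s : ℝ) (hκ' : 0 < κ') :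
    ∃ C n0 δ₁ : ℝ, 0 < C ∧ 0 < n0 ∧ 0 < δ₁ ∧ ∀ {δ g : ℝ} {n : ℕ},
    Φ.GeoN RS F Kt θ β p S₀ g δ n →
    n0 ≤ (n : ℝ) → 0 < δ → δ < δ₁ → 5 * κ' ≤ g →
    ∀ (z : ℤ × ℤ) (h ρ₁ ρ₂ : ℤ), (h : ℝ) ≤ κ' * n → (ρ₁ : ℝ) ≤ δ * n →
      (∀ x : Φ.ι × Kx, x.2 ∉ Kt → F.Sp (Φ.r δ n x.1) x.2 →
        (ρ₂ + h + κ' * n : ℝ) < (nm (F.ctr (Φ.r δ n x.1) x.2 - z) : ℝ)) →
      ∃ N : Cfg → ℕ, (∃ U : Finset (ℤ × ℤ), ∀ ω ω' : Cfg, (∀ v ∈ U, ω v = ω' v) → N ω = N ω') ∧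
        (∀ ω, Good ω → MajA (Bq z h) (κ' * n) ω (N ω)) ∧
        ∀ (A : Finset Kx), ∀ σ : Cfg, Φ.Frz RS δ n σ →
          EF P (Φ.U RS δ n) σ (fun ω => PG (Φ.fK RS F Kt δ n A ρ₁ ρ₂) ω *
            Real.exp (s * (N ω : ℝ))) ≤
          C * EF P (Φ.U RS δ n) σ (PG (Φ.fK RS F Kt δ n A ρ₁ ρ₂)) := by
  classical
  obtain ⟨e1, he1, hzone⟩ := EF_zoneG h1.kit hR hP hg (Fintype.card Φ.H)
  obtain ⟨C, ρ0, hC, hρ0, hzone⟩ := hzone κ' κ' s hκ' hκ'.le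
  have hd1 : 0 < e1 * κ' / (1 + |s|) := by positivity
  refine ⟨C, max ρ0 1, e1 * κ' / (1 + |s|) / 4, hC, by positivity, by positivity,
    fun {δ g n} hgeo hn hδ hδ₁ hκg z h ρ₁ ρ₂ hh hρ₁ hoth => ?_⟩
  have hn1 : (1 : ℝ) ≤ n := (le_max_right _ _).trans hn
  have hδn : 4 * (δ * n) < e1 * κ' / (1 + |s|) * n := by
    have : δ * 4 < e1 * κ' / (1 + |s|) := by linarith
    nlinarith
  have hδn0 : 0 < δ * n := by positivity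
  obtain ⟨x0, hx0⟩ : ∃ x0 : Fin (Fintype.card Φ.H) → ℤ × ℤ,
      x0 = fun i => Φ.h δ n ((Fintype.equivFin Φ.H).symm i) := ⟨_, rfl⟩
  obtain ⟨N, hN1, hN2, hN3⟩ := hzone n ((le_max_left _ _).trans hn) z (Bq z h) (fun v hv => by
    have h2 : (nm (v - z) : ℝ) ≤ h := by exact_mod_cast nm_of_Bq hv
    linarith) x0
  refine ⟨N, hN1, fun ω _ => hN2 ω, fun A σ hσ => ?_⟩
  have hnear : ∀ v, Nr (Bq z h) (κ' * n) v → (nm (v - z) : ℝ) ≤ h + κ' * n := by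
    rintro v ⟨u, hu, hv⟩
    have h2 : (nm (u - z) : ℝ) ≤ h := by exact_mod_cast nm_of_Bq hu
    have h3 : (nm (v - z) : ℝ) ≤ nm (v - u) + nm (u - z) := by exact_mod_cast nm_sub_le v u _
    linarith
  have hfar : ∀ v, (∀ i, e1 * κ' / (1 + |s|) * n < (nm (v - x0 i) : ℝ)) → ∀ x : Φ.H,
      4 * (δ * n) < (nm (v - Φ.h δ n x) : ℝ) := by
    intro v hv x
    have h2 := hv (Fintype.equivFin Φ.H x)
    rw [hx0] at h2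
    simp only [Equiv.symm_apply_apply] at h2
    linarith
  refine hN3 (Φ.U RS δ n) σ (Φ.fK RS F Kt δ n A ρ₁ ρ₂) (Φ.bK F Kt δ n A ρ₁ ρ₂)
    fK_nonneg fK_loc (fun D η _ hk hD1 hD2 y a ha _ hz => ?_) (fun x v hv hv' => ?_)
  · refine oneC_frameA F hσ hk (fun v hv hne => hD1 v (hz v hv).1 hne) hD2
      fun i j hij u hu v hv hu' hv' => ?_
    have h2 := hnear u (hz u hu').1
    have h3 := hnear v (hz v hv').1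
    have h5 : (nm (u - v) : ℝ) ≤ nm (u - z) + nm (z - v) := by exact_mod_cast nm_sub_le u z v
    rw [nm_comm z v] at h5
    have h6 : 5 * κ' * n ≤ g * n := mul_le_mul_of_nonneg_right hκg (by linarith)
    have h7 : 0 < κ' * n := by positivity
    obtain ⟨x, w, b1, b2, b3, b4, b5⟩ := hgeo.hull i j hij u hu v hv (by linarith)
    have h8 := hfar w (hz w (bxx_hull hu' hv' b1 b2 b3 b4)).2 x
    linarith
  · obtain ⟨-, hsp, hv⟩ := mem_bK.1 hv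
    by_cases hK : x.2 ∈ Kt
    · rw [if_pos hK] at hv
      have h3 : (nm (v - F.ctr (Φ.r δ n x.1) x.2) : ℝ) ≤ ρ₁ := by exact_mod_cast nm_of_Bq hv
      obtain ⟨y, hy⟩ := hgeo.tip x.1 x.2 hK hsp
      have h5 := hfar v hv'.2 y
      have h6 : (nm (v - Φ.h δ n y) : ℝ) ≤ nm (v - F.ctr (Φ.r δ n x.1) x.2) +
        nm (F.ctr (Φ.r δ n x.1) x.2 - Φ.h δ n y) := by exact_mod_cast nm_sub_le _ _ _
      linarith
    · rw [if_neg hK] at hv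
      have h2 := hnear v hv'.1
      have h4 : (nm (F.ctr (Φ.r δ n x.1) x.2 - z) : ℝ) ≤
          nm (F.ctr (Φ.r δ n x.1) x.2 - v) + nm (v - z) := by exact_mod_cast nm_sub_le _ v _
      rw [nm_comm _ v] at h4
      have h3 : (nm (v - F.ctr (Φ.r δ n x.1) x.2) : ℝ) ≤ ρ₂ := by exact_mod_cast nm_of_Bq hv
      have h5 := hoth x hK hsp
      linarith

end Vale.Agent.P167.N.ID
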