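import Vale.Agent.P167.N.ID.StH2

/-!
# P167, `q < 1`, START: abstract frames, the numbers of the large segments
-/

set_option autoImplicit false

namespace Vale.Agent.P167.N.ID

open Finset MeasureTheory Filter

open Vale.Agent.P167 Vale.Agent.P167.N

open Vale.Agent.P167.BR hiding dv

open Vale.Agent.P167.FK

open Vale.Agent.P167.H519 (IsLim)

open Vale.Agent.P167.H825 (dv epos enl FlowIn)

open Vale.Agent.P167.H506.Q (EF LF)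

open Vale.Agent.P167.H562.QM (MajA)

open Vale.Agent.P167.H562.MAJ (Sm)

open Vale.Agent.P167.H945.Q (nm_sub_le nm_comm nm_of_Bq Bq_of_nm MajA.mono MajA.cover grid_cover
  majA_empty dv_near)

variable {X : Type} {RS : RSys X} {Kx : Type} [Fintype Kx] [DecidableEq Kx] {F : Fct RS Kx}
  {Kt : Finset Kx} {Φ : FrS X} {θ β : ℝ} {l : ℕ} {p : ZMod l → ℤ × ℤ} {S₀ : Finset (ℤ × ℤ)}
  {P : Measure Cfg}

/-- The grid. -/
noncomputable def grd (G : ℕ) : Finset (ℤ × ℤ) := Finset.Icc (-(G : ℤ)) G ×ˢ Finset.Icc (-(G : ℤ)) G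

/-- The grid covers a box. -/
theorem grd_cover {h : ℤ} (hh0 : 0 < h) {G : ℕ} {c v : ℤ × ℤ} (hv : v ∈ Bq c (h * G)) :
    ∃ g ∈ grd G, v ∈ Bq ((c.1 + h * g.1, c.2 + h * g.2) : ℤ × ℤ) h := by
  have hv' : v - c ∈ Bq 0 (h * G) := by
    rw [Vale.Agent.P167.H945.Q.mem_Bq] at hv ⊢
    simp only [Prod.fst_zero, Prod.snd_zero, Prod.fst_sub, Prod.snd_sub]
    omega
  obtain ⟨g, hg, h1⟩ := grid_cover hh0 hv'
  refine ⟨g, hg, ?_⟩
  rw [Vale.Agent.P167.H945.Q.mem_Bq] at h1 ⊢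
  simp only [Prod.fst_sub, Prod.snd_sub] at h1 ⊢
  omega

/-- **The majorant at the holes.** -/
theorem maj1A (Φ : FrS X) (h1 : Ang θ) (hR : RSW (2 * Real.cos θ)) (hb : P1bg RS F θ)
    (hP : IsLim (2 * Real.cos θ) P) (hg : ∀ᵐ ω ∂P, Good ω) (s : ℝ) (G : ℕ) (hG : 1000 ≤ G) :
    ∃ C r0 : ℝ, 0 < C ∧ 0 < r0 ∧ ∀ {δ g κ' : ℝ} {n : ℕ}, Φ.GeoN RS F Kt θ β p S₀ g δ n →
      r0 ≤ δ * n → 16 * (δ * n) ≤ g * n → 32 * (κ' * n) ≤ g * n → 0 ≤ κ' * n →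
      ∃ N : (Φ.H × (ℤ × ℤ)) ⊕ (Φ.ι × Kx) → Cfg → ℕ,
        (∀ j, ∃ U : Finset (ℤ × ℤ), ∀ ω ω' : Cfg, (∀ v ∈ U, ω v = ω' v) → N j ω = N j ω') ∧
        (∀ ω, Good ω → MajA (Φ.hB δ n ⌊4 * δ * n⌋) (δ * n / 64) ω
          (∑ j ∈ (univ ×ˢ grd G).disjSum univ, N j ω)) ∧
        ∀ j (A : Finset Kx), Kt ⊆ A → ∀ σ : Cfg, Φ.Frz RS δ n σ →
          EF P (Φ.U RS δ n) σ (fun ω => PG (Φ.fK RS F Kt δ n A ⌊δ * n / 16⌋ ⌊4 * κ' * n⌋) ω *
            Real.exp (s * (N j ω : ℝ))) ≤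
          C * EF P (Φ.U RS δ n) σ (PG (Φ.fK RS F Kt δ n A ⌊δ * n / 16⌋ ⌊4 * κ' * n⌋)) := by
  classical
  obtain ⟨C1, ρ1, hC1, hsp⟩ := sp_genA (β := β) (p := p) (S₀ := S₀) (Kt := Kt) Φ h1 hb hP hg s
  obtain ⟨C2, ρ2, hC2, hρ2, hzone⟩ :=
    zone1A (β := β) (p := p) (S₀ := S₀) (RS := RS) (F := F) (Kt := Kt) Φ h1 hR hP hg s
  have hm1 : (0 : ℝ) < max (max C1 C2) 1 := lt_of_lt_of_le one_pos (le_max_right _ _)
  refine ⟨max (max C1 C2) 1, max (max ρ2 (16 * (|ρ1| + 1))) 1000, hm1, by positivity,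
    fun {δ g κ' n} hgeo hδn hδg hκg hκ0 => ?_⟩
  have b1 : ρ2 ≤ δ * n := ((le_max_left _ _).trans (le_max_left _ _)).trans hδn
  have b2 : 16 * (|ρ1| + 1) ≤ δ * n := ((le_max_right _ _).trans (le_max_left _ _)).trans hδn
  have b3 : 1000 ≤ δ * n := (le_max_right _ _).trans hδn
  obtain ⟨ρ₁, hρ₁⟩ : ∃ ρ₁ : ℤ, ρ₁ = ⌊δ * (n : ℝ) / 16⌋ := ⟨_, rfl⟩
  obtain ⟨ρ₂, hρ₂⟩ : ∃ ρ₂ : ℤ, ρ₂ = ⌊4 * κ' * (n : ℝ)⌋ := ⟨_, rfl⟩
  obtain ⟨h, hh⟩ : ∃ h : ℤ, h = ⌊δ * (n : ℝ) / 100⌋ := ⟨_, rfl⟩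
  rw [← hρ₁, ← hρ₂]
  have f1 : (ρ₁ : ℝ) ≤ δ * n / 16 := by rw [hρ₁]; exact Int.floor_le _
  have f2 : δ * n / 16 - 1 < ρ₁ := by rw [hρ₁]; exact Int.sub_one_lt_floor _
  have f3 : (ρ₂ : ℝ) ≤ 4 * κ' * n := by rw [hρ₂]; exact Int.floor_le _
  have f5 : (h : ℝ) ≤ δ * n / 100 := by rw [hh]; exact Int.floor_le _
  have f6 : δ * n / 100 - 1 < h := by rw [hh]; exact Int.sub_one_lt_floor _
  have hρ₁0 : 0 ≤ ρ₁ := by
    have : (0 : ℝ) < ρ₁ := by linarith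
    have : 0 < ρ₁ := by exact_mod_cast this
    omega
  have hh0 : 0 < h := by
    have : (0 : ℝ) < h := by linarith
    exact_mod_cast this
  have hgn : 1 ≤ g * n := by linarith
  -- the zones
  obtain ⟨cz, hcz⟩ : ∃ cz : Φ.H × (ℤ × ℤ) → ℤ × ℤ,
    cz = fun y => ((Φ.h δ n y.1).1 + h * y.2.1, (Φ.h δ n y.1).2 + h * y.2.2) := ⟨_, rfl⟩
  obtain ⟨Ord, hOrd⟩ : ∃ Ord : Φ.H × (ℤ × ℤ) → Prop, Ord = fun y => y.2 ∈ grd G ∧
    (nm (cz y - Φ.h δ n y.1) : ℝ) ≤ 6 * (δ * n) ∧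
    ∀ x : Φ.ι × Kx, x.2 ∈ Kt → F.Sp (Φ.r δ n x.1) x.2 →
      (ρ₁ + h + δ * n / 64 : ℝ) < (nm (F.ctr (Φ.r δ n x.1) x.2 - cz y) : ℝ) := ⟨_, rfl⟩
  obtain ⟨ZA, hZA⟩ : ∃ ZA : (Φ.H × (ℤ × ℤ)) ⊕ (Φ.ι × Kx) → Finset (ℤ × ℤ), ZA = Sum.elim
    (fun y => if Ord y then Bq (cz y) h else ∅)
    (fun x => if x.2 ∈ Kt ∧ F.Sp (Φ.r δ n x.1) x.2 then
      Bq (F.ctr (Φ.r δ n x.1) x.2) (2 * ρ₁) else ∅) := ⟨_, rfl⟩
  have hz : ∀ j : (Φ.H × (ℤ × ℤ)) ⊕ (Φ.ι × Kx), ∃ N : Cfg → ℕ,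
      (∃ U : Finset (ℤ × ℤ), ∀ ω ω' : Cfg, (∀ v ∈ U, ω v = ω' v) → N ω = N ω') ∧
      (∀ ω, Good ω → MajA (ZA j) (δ * n / 64) ω (N ω)) ∧
      ∀ (A : Finset Kx), Kt ⊆ A → ∀ σ : Cfg, Φ.Frz RS δ n σ →
        EF P (Φ.U RS δ n) σ (fun ω => PG (Φ.fK RS F Kt δ n A ρ₁ ρ₂) ω *
            Real.exp (s * (N ω : ℝ))) ≤
          max (max C1 C2) 1 * EF P (Φ.U RS δ n) σ (PG (Φ.fK RS F Kt δ n A ρ₁ ρ₂)) := by
    have hE0 : ∀ (A : Finset Kx) (σ : Cfg),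
        0 ≤ EF P (Φ.U RS δ n) σ (PG (Φ.fK RS F Kt δ n A ρ₁ ρ₂)) := fun A σ =>
      H506.Q.EF_nonneg fun ω => PG_nonneg fK_nonneg ω
    have hzero : ∀ (A : Finset Kx) (σ : Cfg), EF P (Φ.U RS δ n) σ (fun ω =>
        PG (Φ.fK RS F Kt δ n A ρ₁ ρ₂) ω *
        Real.exp (s * (((fun _ => 0 : Cfg → ℕ) ω : ℕ) : ℝ))) ≤
        max (max C1 C2) 1 * EF P (Φ.U RS δ n) σ (PG (Φ.fK RS F Kt δ n A ρ₁ ρ₂)) := by
      intro A σ
      simp only [Nat.cast_zero, mul_zero, Real.exp_zero, mul_one]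
      have := mul_le_mul_of_nonneg_right (le_max_right (max C1 C2) 1) (hE0 A σ)
      rwa [one_mul] at this
    rintro (y | x)
    · by_cases hO : Ord y
      · have hO' := hO
        rw [hOrd] at hO'
        obtain ⟨-, o1, o2⟩ := hO'
        obtain ⟨N, hN1, hN2, hN3⟩ := hzone hgeo b1 (by linarith) hδg (cz y) h ρ₁ ρ₂ f5
          (by linarith) o2 ⟨y.1, o1⟩
        refine ⟨N, hN1, fun ω hω => ?_, fun A _ σ hσ => (hN3 A σ hσ).trans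
          (mul_le_mul_of_nonneg_right ((le_max_right _ _).trans (le_max_left _ _)) (hE0 A σ))⟩
        rw [hZA, Sum.elim_inl, if_pos hO]
        exact hN2 ω hω
      · refine ⟨fun _ => 0, ⟨∅, fun _ _ _ => rfl⟩, fun ω _ => ?_, fun A _ σ _ => hzero A σ⟩
        rw [hZA, Sum.elim_inl, if_neg hO]
        exact majA_empty _
    · by_cases hx : x.2 ∈ Kt ∧ F.Sp (Φ.r δ n x.1) x.2
      · obtain ⟨hK, hS⟩ := hx
        obtain ⟨N, hN1, hN2, hN3⟩ := hsp hgeo hgn (by linarith) x ρ₁ ρ₁ ρ₂ hS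
          (by rw [if_pos hK]) (by linarith [le_abs_self ρ1]) hρ₁0 (by
            have h2 : ((8 * ρ₁ : ℤ) : ℝ) ≤ (F.mg (Φ.r δ n x.1) : ℝ) := by
              push_cast
              linarith [(hgeo.val x.1).2]
            exact_mod_cast h2)
          (fun v hv hvU => by
            refine tip_rowA hgeo hgn hS hvU ?_
            have h2 : (nm (v - F.ctr (Φ.r δ n x.1) x.2) : ℝ) ≤ ((4 * ρ₁ : ℤ) : ℝ) := by
              exact_mod_cast nm_of_Bq hv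
            push_cast at h2
            linarith)
          (fun y hy hSy => by
            rw [Finset.disjoint_left]
            intro v hv hv'
            have h2 : (nm (v - F.ctr (Φ.r δ n x.1) x.2) : ℝ) ≤ ((4 * ρ₁ : ℤ) : ℝ) := by
              exact_mod_cast nm_of_Bq hv'
            push_cast at h2
            have h4 : (nm (F.ctr (Φ.r δ n y.1) y.2 - F.ctr (Φ.r δ n x.1) x.2) : ℝ) ≤
              nm (F.ctr (Φ.r δ n y.1) y.2 - v) + nm (v - F.ctr (Φ.r δ n x.1) x.2) := by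
              exact_mod_cast nm_sub_le _ _ _
            rw [nm_comm _ v] at h4
            by_cases hKy : y.2 ∈ Kt
            · rw [if_pos hKy] at hv
              have h3 : (nm (v - F.ctr (Φ.r δ n y.1) y.2) : ℝ) ≤ ρ₁ := by
                exact_mod_cast nm_of_Bq hv
              have h5 := sp_sepA hgeo hgn (by linarith) (by linarith) hSy hS hy
              linarith
            · rw [if_neg hKy] at hv
              have h3 : (nm (v - F.ctr (Φ.r δ n y.1) y.2) : ℝ) ≤ ρ₂ := by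
                exact_mod_cast nm_of_Bq hv
              have h5 := oth_sepA hgeo hgn (by linarith) hKy hSy hS hy
              linarith)
        refine ⟨N, hN1, fun ω hω => ?_, fun A hA σ hσ => (hN3 A (hA hK) σ hσ).trans
          (mul_le_mul_of_nonneg_right ((le_max_left _ _).trans (le_max_left _ _)) (hE0 A σ))⟩
        rw [hZA, Sum.elim_inr, if_pos ⟨hK, hS⟩]
        exact MajA.mono (hN2 ω hω) (by linarith)
      · refine ⟨fun _ => 0, ⟨∅, fun _ _ _ => rfl⟩, fun ω _ => ?_, fun A _ σ _ => hzero A σ⟩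
        rw [hZA, Sum.elim_inr, if_neg hx]
        exact majA_empty _
  choose N hN1 hN2 hN3 using hz
  refine ⟨N, hN1, fun ω hω => ?_, hN3⟩
  refine MajA.cover (fun v hv => ?_) fun j _ => hN2 j ω hω
  obtain ⟨y, hy⟩ := mem_hBA.1 hv
  have f7 : ((⌊4 * δ * (n : ℝ)⌋ : ℤ) : ℝ) ≤ 4 * δ * n := Int.floor_le _
  obtain ⟨g', hg', hvg⟩ := grd_cover hh0 (G := G) (c := Φ.h δ n y) (v := v)
    (H398.Q.Bq_mono' (by
      have : ((⌊4 * δ * (n : ℝ)⌋ : ℤ) : ℝ) ≤ ((h * (G : ℕ) : ℤ) : ℝ) := by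
        push_cast
        have hG' : (1000 : ℝ) ≤ G := by exact_mod_cast hG
        have hh1 : (0 : ℝ) ≤ h := by exact_mod_cast hh0.le
        have := mul_le_mul_of_nonneg_left hG' hh1
        linarith
      exact_mod_cast this) hy)
  have hvy : (nm (v - Φ.h δ n y) : ℝ) ≤ 4 * δ * n := by
    have : (nm (v - Φ.h δ n y) : ℝ) ≤ ((⌊4 * δ * (n : ℝ)⌋ : ℤ) : ℝ) := by
      exact_mod_cast nm_of_Bq hy
    linarith
  have hvc : (nm (v - cz (y, g')) : ℝ) ≤ h := by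
    rw [hcz]
    exact_mod_cast nm_of_Bq hvg
  by_cases hO : Ord (y, g')
  · refine ⟨Sum.inl (y, g'), Finset.inl_mem_disjSum.2 (Finset.mem_product.2
      ⟨Finset.mem_univ _, hg'⟩), ?_⟩
    rw [hZA, Sum.elim_inl, if_pos hO, hcz]
    exact hvg
  · have hO' := hO
    rw [hOrd] at hO'
    simp only [not_and] at hO'
    have hO2 := hO' hg' (by
      have h4 : (nm (cz (y, g') - Φ.h δ n y) : ℝ) ≤ nm (cz (y, g') - v) +
        nm (v - Φ.h δ n y) := by exact_mod_cast nm_sub_le _ _ _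
      rw [nm_comm _ v] at h4
      linarith)
    push Not at hO2
    obtain ⟨x, hK, hS, hx⟩ := hO2
    refine ⟨Sum.inr x, Finset.inr_mem_disjSum.2 (Finset.mem_univ _), ?_⟩
    rw [hZA, Sum.elim_inr, if_pos ⟨hK, hS⟩]
    refine Bq_of_nm ?_
    have h3 : (nm (v - F.ctr (Φ.r δ n x.1) x.2) : ℝ) ≤ nm (v - cz (y, g')) +
        nm (cz (y, g') - F.ctr (Φ.r δ n x.1) x.2) := by exact_mod_cast nm_sub_le _ _ _
    rw [nm_comm (cz (y, g'))] at h3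
    have h4 : (nm (v - F.ctr (Φ.r δ n x.1) x.2) : ℝ) < ((2 * ρ₁ : ℤ) : ℝ) := by
      push_cast
      linarith
    exact_mod_cast h4

end Vale.Agent.P167.N.ID
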