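import Vale.Agent.P167.N.ID.StH3

/-!
# P167, `q < 1`, START: abstract frames, the numbers of the macroscopic segments, the flow
-/

set_option autoImplicit false

namespace Vale.Agent.P167.N.ID

open Finset MeasureTheory Filter

open Vale.Agent.P167 Vale.Agent.P167.N

open Vale.Agent.P167.BR hiding dv

open Vale.Agent.P167.FK

open Vale.Agent.P167.H519 (IsLim)

open Vale.Agent.P167.H825 (dv epos enl FlowIn)

open Vale.Agent.P167.H506.Q (EF LF)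

open Vale.Agent.P167.H562.QM (MajA)

open Vale.Agent.P167.H562.MAJ (Sm)

open Vale.Agent.P167.Enl (R0)

open Vale.Agent.P167.H945.Q (nm_sub_le nm_comm nm_of_Bq Bq_of_nm MajA.mono MajA.cover
  majA_empty dv_near)

variable {X : Type} {RS : RSys X} {Kx : Type} [Fintype Kx] [DecidableEq Kx] {F : Fct RS Kx}
  {Kt : Finset Kx} {Φ : FrS X} {θ β : ℝ} {l : ℕ} {p : ZMod l → ℤ × ℤ} {S₀ : Finset (ℤ × ℤ)}
  {P : Measure Cfg}

/-- **The macroscopic majorant.** -/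
theorem maj2A (Φ : FrS X) (h1 : Ang θ) (hR : RSW (2 * Real.cos θ)) (hb : P1bg RS F θ)
    (hP : IsLim (2 * Real.cos θ) P) (hg : ∀ᵐ ω ∂P, Good ω) {κ' : ℝ} (hκ' : 0 < κ') (s : ℝ) :
    ∃ C n0 δ₁ : ℝ, 0 < C ∧ 0 < n0 ∧ 0 < δ₁ ∧ ∀ {δ g : ℝ} {n : ℕ},
      Φ.GeoN RS F Kt θ β p S₀ g δ n →
      n0 ≤ (n : ℝ) → 0 < δ → δ < δ₁ → 64 * κ' ≤ g → 16 * δ ≤ g → 16 * δ ≤ κ' →
      100 ≤ δ * n → 100 ≤ κ' * n → ∀ G : ℕ,
      ∃ N : (ℤ × ℤ) ⊕ (Φ.ι × Kx) → Cfg → ℕ,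
        (∀ j, ∃ U : Finset (ℤ × ℤ), ∀ ω ω' : Cfg, (∀ v ∈ U, ω v = ω' v) → N j ω = N j ω') ∧
        (∀ ω, Good ω → MajA (Bq 0 (⌊κ' * (n : ℝ)⌋ * G)) (κ' * n) ω
          (∑ j ∈ (grd G).disjSum univ, N j ω)) ∧
        ∀ j (A : Finset Kx), Ktᶜ ⊆ A → ∀ σ : Cfg, Φ.Frz RS δ n σ →
          EF P (Φ.U RS δ n) σ (fun ω => PG (Φ.fK RS F Kt δ n A ⌊δ * n / 16⌋ ⌊4 * κ' * n⌋) ω *
            Real.exp (s * (N j ω : ℝ))) ≤
          C * EF P (Φ.U RS δ n) σ (PG (Φ.fK RS F Kt δ n A ⌊δ * n / 16⌋ ⌊4 * κ' * n⌋)) := by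
  classical
  obtain ⟨C1, ρ1, hC1, hsp⟩ := sp_genA (β := β) (p := p) (S₀ := S₀) (Kt := Kt) Φ h1 hb hP hg s
  obtain ⟨C2, n2, δ₁, hC2, hn2, hδ₁, hzone⟩ :=
    zone2A (β := β) (p := p) (S₀ := S₀) (RS := RS) (F := F) (Kt := Kt) Φ h1 hR hP hg s hκ'
  have hm1 : (0 : ℝ) < max (max C1 C2) 1 := lt_of_lt_of_le one_pos (le_max_right _ _)
  refine ⟨max (max C1 C2) 1, max (max n2 ((|ρ1| + 1) / κ')) 1, δ₁, hm1, by positivity, hδ₁,
    fun {δ g n} hgeo hn hδ hδδ hκg hδg hδκ hδn hκn G => ?_⟩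
  have b1 : n2 ≤ (n : ℝ) := ((le_max_left _ _).trans (le_max_left _ _)).trans hn
  have b2 : |ρ1| + 1 ≤ κ' * n := by
    have := ((le_max_right _ _).trans (le_max_left _ _)).trans hn
    rw [div_le_iff₀ hκ'] at this
    linarith
  have b3 : (1 : ℝ) ≤ n := (le_max_right _ _).trans hn
  have hn0 : (0 : ℝ) ≤ n := by linarith
  have m1 : 64 * (κ' * n) ≤ g * n := by
    have := mul_le_mul_of_nonneg_right hκg hn0
    linarith
  have m2 : 16 * (δ * n) ≤ g * n := by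
    have := mul_le_mul_of_nonneg_right hδg hn0
    linarith
  have m3 : 16 * (δ * n) ≤ κ' * n := by
    have := mul_le_mul_of_nonneg_right hδκ hn0
    linarith
  obtain ⟨ρ₁, hρ₁⟩ : ∃ ρ₁ : ℤ, ρ₁ = ⌊δ * (n : ℝ) / 16⌋ := ⟨_, rfl⟩
  obtain ⟨ρ₂, hρ₂⟩ : ∃ ρ₂ : ℤ, ρ₂ = ⌊4 * κ' * (n : ℝ)⌋ := ⟨_, rfl⟩
  obtain ⟨h, hh⟩ : ∃ h : ℤ, h = ⌊κ' * (n : ℝ)⌋ := ⟨_, rfl⟩
  rw [← hρ₁, ← hρ₂, ← hh]
  have f1 : (ρ₁ : ℝ) ≤ δ * n / 16 := by rw [hρ₁]; exact Int.floor_le _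
  have f3 : (ρ₂ : ℝ) ≤ 4 * κ' * n := by rw [hρ₂]; exact Int.floor_le _
  have f4 : 4 * κ' * n - 1 < ρ₂ := by rw [hρ₂]; exact Int.sub_one_lt_floor _
  have f5 : (h : ℝ) ≤ κ' * n := by rw [hh]; exact Int.floor_le _
  have f6 : κ' * n - 1 < h := by rw [hh]; exact Int.sub_one_lt_floor _
  have hρ₂0 : 0 ≤ ρ₂ := by
    have : (0 : ℝ) < ρ₂ := by linarith
    have : 0 < ρ₂ := by exact_mod_cast this
    omega
  have hh0 : 0 < h := by
    have : (0 : ℝ) < h := by linarith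
    exact_mod_cast this
  have hgn : 1 ≤ g * n := by linarith
  -- the zones
  obtain ⟨cz, hcz⟩ : ∃ cz : ℤ × ℤ → ℤ × ℤ, cz = fun y => (0 + h * y.1, 0 + h * y.2) := ⟨_, rfl⟩
  obtain ⟨Ord, hOrd⟩ : ∃ Ord : ℤ × ℤ → Prop, Ord = fun y =>
    ∀ x : Φ.ι × Kx, x.2 ∉ Kt → F.Sp (Φ.r δ n x.1) x.2 →
      (ρ₂ + h + κ' * n : ℝ) < (nm (F.ctr (Φ.r δ n x.1) x.2 - cz y) : ℝ) := ⟨_, rfl⟩
  obtain ⟨ZA, hZA⟩ : ∃ ZA : (ℤ × ℤ) ⊕ (Φ.ι × Kx) → Finset (ℤ × ℤ), ZA = Sum.elim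
    (fun y => if Ord y then Bq (cz y) h else ∅)
    (fun x => if x.2 ∉ Kt ∧ F.Sp (Φ.r δ n x.1) x.2 then
      Bq (F.ctr (Φ.r δ n x.1) x.2) (2 * ρ₂) else ∅) := ⟨_, rfl⟩
  have hz : ∀ j : (ℤ × ℤ) ⊕ (Φ.ι × Kx), ∃ N : Cfg → ℕ,
      (∃ U : Finset (ℤ × ℤ), ∀ ω ω' : Cfg, (∀ v ∈ U, ω v = ω' v) → N ω = N ω') ∧
      (∀ ω, Good ω → MajA (ZA j) (κ' * n) ω (N ω)) ∧
      ∀ (A : Finset Kx), Ktᶜ ⊆ A → ∀ σ : Cfg, Φ.Frz RS δ n σ →
        EF P (Φ.U RS δ n) σ (fun ω => PG (Φ.fK RS F Kt δ n A ρ₁ ρ₂) ω *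
            Real.exp (s * (N ω : ℝ))) ≤
          max (max C1 C2) 1 * EF P (Φ.U RS δ n) σ (PG (Φ.fK RS F Kt δ n A ρ₁ ρ₂)) := by
    have hE0 : ∀ (A : Finset Kx) (σ : Cfg),
        0 ≤ EF P (Φ.U RS δ n) σ (PG (Φ.fK RS F Kt δ n A ρ₁ ρ₂)) := fun A σ =>
      H506.Q.EF_nonneg fun ω => PG_nonneg fK_nonneg ω
    have hzero : ∀ (A : Finset Kx) (σ : Cfg), EF P (Φ.U RS δ n) σ (fun ω =>
        PG (Φ.fK RS F Kt δ n A ρ₁ ρ₂) ω *
        Real.exp (s * (((fun _ => 0 : Cfg → ℕ) ω : ℕ) : ℝ))) ≤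
        max (max C1 C2) 1 * EF P (Φ.U RS δ n) σ (PG (Φ.fK RS F Kt δ n A ρ₁ ρ₂)) := by
      intro A σ
      simp only [Nat.cast_zero, mul_zero, Real.exp_zero, mul_one]
      have := mul_le_mul_of_nonneg_right (le_max_right (max C1 C2) 1) (hE0 A σ)
      rwa [one_mul] at this
    rintro (y | x)
    · by_cases hO : Ord y
      · have hO' := hO
        rw [hOrd] at hO'
        obtain ⟨N, hN1, hN2, hN3⟩ := hzone hgeo b1 hδ hδδ (by linarith) (cz y) h ρ₁ ρ₂ f5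
          (by linarith) hO'
        refine ⟨N, hN1, fun ω hω => ?_, fun A _ σ hσ => (hN3 A σ hσ).trans
          (mul_le_mul_of_nonneg_right ((le_max_right _ _).trans (le_max_left _ _)) (hE0 A σ))⟩
        rw [hZA, Sum.elim_inl, if_pos hO]
        exact hN2 ω hω
      · refine ⟨fun _ => 0, ⟨∅, fun _ _ _ => rfl⟩, fun ω _ => ?_, fun A _ σ _ => hzero A σ⟩
        rw [hZA, Sum.elim_inl, if_neg hO]
        exact majA_empty _
    · by_cases hx : x.2 ∉ Kt ∧ F.Sp (Φ.r δ n x.1) x.2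
      · obtain ⟨hK, hS⟩ := hx
        obtain ⟨N, hN1, hN2, hN3⟩ := hsp hgeo hgn (by linarith) x ρ₂ ρ₁ ρ₂ hS
          (by rw [if_neg hK]) (by linarith [le_abs_self ρ1]) hρ₂0 (by
            have h2 : ((8 * ρ₂ : ℤ) : ℝ) ≤ (F.mg (Φ.r δ n x.1) : ℝ) := by
              push_cast
              linarith [(hgeo.val x.1).2]
            exact_mod_cast h2)
          (fun v hv hvU => by
            refine oth_rowA hgeo hgn hK hS hvU (by linarith) ?_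
            have h2 : (nm (v - F.ctr (Φ.r δ n x.1) x.2) : ℝ) ≤ ((4 * ρ₂ : ℤ) : ℝ) := by
              exact_mod_cast nm_of_Bq hv
            push_cast at h2
            linarith)
          (fun y hy hSy => by
            rw [Finset.disjoint_left]
            intro v hv hv'
            have h2 : (nm (v - F.ctr (Φ.r δ n x.1) x.2) : ℝ) ≤ ((4 * ρ₂ : ℤ) : ℝ) := by
              exact_mod_cast nm_of_Bq hv'
            push_cast at h2
            have h4 : (nm (F.ctr (Φ.r δ n y.1) y.2 - F.ctr (Φ.r δ n x.1) x.2) : ℝ) ≤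
              nm (F.ctr (Φ.r δ n y.1) y.2 - v) + nm (v - F.ctr (Φ.r δ n x.1) x.2) := by
              exact_mod_cast nm_sub_le _ _ _
            rw [nm_comm _ v] at h4
            have h5 := oth_sepA hgeo hgn (by linarith) hK hS hSy (Ne.symm hy)
            rw [nm_comm] at h5
            have h3 : (nm (v - F.ctr (Φ.r δ n y.1) y.2) : ℝ) ≤ 4 * κ' * n := by
              by_cases hKy : y.2 ∈ Kt
              · rw [if_pos hKy] at hv
                have h3 : (nm (v - F.ctr (Φ.r δ n y.1) y.2) : ℝ) ≤ ρ₁ := by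
                  exact_mod_cast nm_of_Bq hv
                linarith
              · rw [if_neg hKy] at hv
                have h3 : (nm (v - F.ctr (Φ.r δ n y.1) y.2) : ℝ) ≤ ρ₂ := by
                  exact_mod_cast nm_of_Bq hv
                linarith
            linarith)
        refine ⟨N, hN1, fun ω hω => ?_, fun A hA σ hσ =>
          (hN3 A (hA (mem_compl.2 hK)) σ hσ).trans
          (mul_le_mul_of_nonneg_right ((le_max_left _ _).trans (le_max_left _ _)) (hE0 A σ))⟩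
        rw [hZA, Sum.elim_inr, if_pos ⟨hK, hS⟩]
        exact MajA.mono (hN2 ω hω) (by linarith)
      · refine ⟨fun _ => 0, ⟨∅, fun _ _ _ => rfl⟩, fun ω _ => ?_, fun A _ σ _ => hzero A σ⟩
        rw [hZA, Sum.elim_inr, if_neg hx]
        exact majA_empty _
  choose N hN1 hN2 hN3 using hz
  refine ⟨N, hN1, fun ω hω => ?_, hN3⟩
  refine MajA.cover (fun v hv => ?_) fun j _ => hN2 j ω hω
  obtain ⟨g', hg', hvg⟩ := grd_cover hh0 (G := G) (c := 0) (v := v) hv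
  have hvc : (nm (v - cz g') : ℝ) ≤ h := by
    rw [hcz]
    exact_mod_cast nm_of_Bq hvg
  by_cases hO : Ord g'
  · refine ⟨Sum.inl g', Finset.inl_mem_disjSum.2 hg', ?_⟩
    rw [hZA, Sum.elim_inl, if_pos hO, hcz]
    exact hvg
  · have hO' := hO
    rw [hOrd] at hO'
    push Not at hO'
    obtain ⟨x, hK, hS, hx⟩ := hO'
    refine ⟨Sum.inr x, Finset.inr_mem_disjSum.2 (Finset.mem_univ _), ?_⟩
    rw [hZA, Sum.elim_inr, if_pos ⟨hK, hS⟩]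
    refine Bq_of_nm ?_
    have h3 : (nm (v - F.ctr (Φ.r δ n x.1) x.2) : ℝ) ≤ nm (v - cz g') +
        nm (cz g' - F.ctr (Φ.r δ n x.1) x.2) := by exact_mod_cast nm_sub_le _ _ _
    rw [nm_comm (cz g')] at h3
    have h4 : (nm (v - F.ctr (Φ.r δ n x.1) x.2) : ℝ) < ((2 * ρ₂ : ℤ) : ℝ) := by
      push_cast
      linarith
    exact_mod_cast h4

/-- **Moments of the masses of the small loops.** -/
theorem flowFA (Φ : FrS X) (h0 : 0 < θ) (h1 : Ang θ) (hR : RSW (2 * Real.cos θ))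
    (hP : IsLim (2 * Real.cos θ) P) (hg : ∀ᵐ ω ∂P, Good ω) {κ κ' : ℝ} (B s : ℝ)
    (hκ' : 0 < κ') (hκκ : 64 * κ' ≤ κ) (hs : 0 ≤ s) :
    ∃ C n₀ : ℝ, 0 < C ∧ 0 < n₀ ∧ ∀ {δ g : ℝ} {n : ℕ}, Φ.GeoN RS F Kt θ β p S₀ g δ n →
      n₀ ≤ (n : ℝ) → 0 < δ → 16 * δ ≤ κ' → 1 ≤ g * n →
      ∀ c : Ed → ℝ, (Function.support c).Finite → FlowIn (enl S₀ n) κ B n c →
      ∀ (A : Finset Kx) (σ : Cfg), ∀ t : ℝ, 0 ≤ t → t ≤ s →
      LF (fun ω => Real.exp (-(t * (Real.tan θ * Sm (dv c) (κ' * n) ω)))) ∧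
      EF P (Φ.U RS δ n) σ (fun ω => PG (Φ.fK RS F Kt δ n A ⌊δ * n / 16⌋ ⌊4 * κ' * n⌋) ω *
          Real.exp (-(t * (Real.tan θ * Sm (dv c) (κ' * n) ω)))) ≤
        C * EF P (Φ.U RS δ n) σ (PG (Φ.fK RS F Kt δ n A ⌊δ * n / 16⌋ ⌊4 * κ' * n⌋)) := by
  classical
  obtain ⟨C, n₀, hC, hn₀, key⟩ := EF_flowG (Rf := R0 p S₀ + 2) (B := B) h0 h1 hR hP hg s hκ' hs
  refine ⟨C, max n₀ (1 / κ' + 1), hC, by positivity,
    fun {δ g n} hgeo hn hδ hδκ hgn c hc hfl A σ t ht hts => ?_⟩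
  have hn1 : n₀ ≤ (n : ℝ) := (le_max_left _ _).trans hn
  have hn2 : 1 / κ' + 1 ≤ (n : ℝ) := (le_max_right _ _).trans hn
  have hn3 : (1 : ℝ) ≤ n := by
    have : 0 < 1 / κ' := by positivity
    linarith
  have hκn : 1 ≤ κ' * n := by
    have h2 : κ' * (1 / κ') = 1 := by field_simp
    have := mul_le_mul_of_nonneg_left hn2 hκ'.le
    linarith
  have hκκn : 64 * (κ' * n) ≤ κ * n := by
    have := mul_le_mul_of_nonneg_right hκκ (by linarith : (0 : ℝ) ≤ n)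
    linarith
  have m3 : 16 * (δ * n) ≤ κ' * n := by
    have := mul_le_mul_of_nonneg_right hδκ (by linarith : (0 : ℝ) ≤ n)
    linarith
  have f1 : ((⌊δ * (n : ℝ) / 16⌋ : ℤ) : ℝ) ≤ δ * n / 16 := Int.floor_le _
  have f3 : ((⌊4 * κ' * (n : ℝ)⌋ : ℤ) : ℝ) ≤ 4 * κ' * n := Int.floor_le _
  -- squares outside of the domain are far from the charges
  have hout : ∀ z, dv c z ≠ 0 → (nm z : ℝ) ≤ (R0 p S₀ + 2) * n ∧
      ∀ u ∉ enl S₀ n, κ * n - 1 ≤ (nm (z - u) : ℝ) := by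
    intro z hz
    obtain ⟨e, he, hez⟩ := dv_near hz
    have hez' : (nm (epos e - z) : ℝ) ≤ 1 := by exact_mod_cast hez
    constructor
    · have h2 : epos e ∈ enl S₀ n := hfl.sup e he _ (by
        rw [sub_self]
        have : nm (0 : ℤ × ℤ) = 0 := by simp [nm]
        rw [this]
        push_cast
        nlinarith)
      have h3 := Enl.nm_enl (p := p) h2
      have h4 : (nm z : ℝ) ≤ nm (z - epos e) + nm (epos e) := by
        have := nm_sub_le z (epos e) 0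
        rw [sub_zero, sub_zero] at this
        exact_mod_cast this
      rw [nm_comm z] at h4
      linarith
    · intro u hu
      by_contra hlt
      push Not at hlt
      refine hu (hfl.sup e he u ?_)
      have h4 : (nm (u - epos e) : ℝ) ≤ nm (u - z) + nm (z - epos e) := by
        exact_mod_cast nm_sub_le _ _ _
      rw [nm_comm u z, nm_comm z (epos e)] at h4
      linarith
  refine key n hn1 (K := Φ.U RS δ n) fK_nonneg fK_loc hc hfl.dle (fun z hz => ?_) σ t ht hts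
  obtain ⟨z1, z2⟩ := hout z hz
  refine ⟨z1, fun u hu => ?_, fun x u hu => ?_⟩
  · have := z2 u (Finset.disjoint_left.1 hgeo.dom hu)
    linarith
  · obtain ⟨-, hsp, hu⟩ := mem_bK.1 hu
    obtain ⟨w, hw, a1, -⟩ := ctr_uA hgeo hgn hsp u
    have h2 := z2 w (Finset.disjoint_left.1 hgeo.dom (mem_UA.2 ⟨_, hw⟩))
    have h3 : (nm (u - F.ctr (Φ.r δ n x.1) x.2) : ℝ) ≤ 4 * κ' * n := by
      by_cases hK : x.2 ∈ Kt
      · rw [if_pos hK] at hu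
        have h3 : (nm (u - F.ctr (Φ.r δ n x.1) x.2) : ℝ) ≤
            ((⌊δ * (n : ℝ) / 16⌋ : ℤ) : ℝ) := by exact_mod_cast nm_of_Bq hu
        linarith
      · rw [if_neg hK] at hu
        have h3 : (nm (u - F.ctr (Φ.r δ n x.1) x.2) : ℝ) ≤
            ((⌊4 * κ' * (n : ℝ)⌋ : ℤ) : ℝ) := by exact_mod_cast nm_of_Bq hu
        linarith
    have h4 : (nm (z - w) : ℝ) ≤ nm (z - u) + nm (u - w) := by exact_mod_cast nm_sub_le z u w
    linarith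

end Vale.Agent.P167.N.ID
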