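import Vale.Agent.P167.N.ID.RedG

/-!
# P167, `q < 1`, block 2A: START in terms of the law, for arbitrary straight walls

* `STARTg θ β P Cl`: START in terms of the expectations of `RT` on the event that the rows are frozen,
  for walls of the class `Cl` whose label is `2 (2 cos (θ / 4)) ^ (2 L)` times a number `z`.
* `startc_of`: `STARTg → STARTc`.
-/

set_option autoImplicit false

namespace Vale.Agent.P167.N.ID

open Finset Filter Topology MeasureTheory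

open Vale.Agent.P167 Vale.Agent.P167.N

open Vale.Agent.P167.H592

open Vale.Agent.P167.H519 (IsLim)

open Vale.Agent.P167.H825 (dv epos FlowIn enl Box)

open Vale.Agent.P167.H825.Q (Row WX Bc VT)

open Vale.Agent.P167.XDL (bS)

open Vale.Agent.P167.QX (RT)

open Vale.Agent.P167.H506.Q (fz)

open Vale.Agent.P167.FK (Good)

open Vale.Agent.P167.E6 (IsPolygon Encloses)

open Vale.Agent.P167.H680.T (WCG WallG Fc Fam Cls uI exists_state flowIn_zero fc_zero)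

open Vale.Agent.P167.N.H825.Q (STARTc HOSc GpT Nrm)

/-- The expectation of the outer product of the walls `w` with the flow `c` on the event that the
squares of the rows `g` are frozen in the state `σ`. -/
noncomputable def ERT {ι : Type} [Fintype ι] (θ : ℝ) (P : Measure Cfg) (g : ι → Row)
    (w : ι → WallG) (c : Ed → ℝ) (σ : Cfg) : ℝ :=
  ∫ ω, fz (uI g) σ ω * RT θ (uI g) (⟨w, c⟩ : WCG ι).ph ω ∂P

/-- The data of START for one choice of the domain, the boundary conditions, the box and `κ, B, ε`: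
walls `w` of the class, with the shapes `g`, the frozen states `fr` and the numbers `z`. -/
def StartG (θ : ℝ) (P : Measure Cfg) (Cl : Cls) (S₀ : Finset (ℤ × ℤ)) (b : Box)
    (V : ℕ → (ℤ × ℤ → ℝ) → ℝ) (κ B ε : ℝ) : Prop :=
  ∃ (ι : Type) (_ : Fintype ι) (reg : ι → Fin 5) (w : ℕ → ι → WallG) (g : ℕ → ι → Row)
    (fr : ℕ → ι → ℤ × ℤ → Bool) (z : ℕ → ι → ℝ),
    Fam Cl S₀ b reg w ∧
    ∃ c₀ : ℝ, 0 < c₀ ∧ ∀ᶠ n : ℕ in atTop,
      (∀ i, Cuts (g n i) (w n i)) ∧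
      (∀ i, Cl.Z n (w n i) = 2 * (2 * Real.cos (θ / 4)) ^ (2 * (g n i).L) * z n i) ∧
      ∀ σ : Cfg, (∀ i, ∀ v ∈ (g n i).I, σ v = fr n i v) →
        c₀ * ∏ i, z n i ≤ ERT θ P (g n) (w n) 0 σ ∧
        ∀ c : Ed → ℝ, (Function.support c).Finite → FlowIn (enl S₀ n) κ B n c →
          |ERT θ P (g n) (w n) c σ - ERT θ P (g n) (w n) 0 σ * V n (dv c)| ≤
            ε * ERT θ P (g n) (w n) 0 σ

/-- **START in terms of the law.** -/
def STARTg (θ β : ℝ) (P : Measure Cfg) (Cl : Cls) : Prop :=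
  ∀ (l : ℕ) [NeZero l] (p : ZMod l → ℤ × ℤ) (S₀ : Finset (ℤ × ℤ)), IsPolygon p → Encloses p S₀ →
  Nrm p →
  ∀ tp : ℝ, 0 < tp → tp < 1 → ∀ bc : Bc, bc.In l → ∀ b : Box, b.Ok S₀ → GpT b tp → bc.Gp b →
  ∀ (κ B : ℝ), 0 < κ → 0 ≤ B → ∀ ε : ℝ, 0 < ε →
  StartG θ P Cl S₀ b (fun n f => VT θ β p S₀ n ⌊tp * (n : ℝ)⌋₊ (bc.ka l n ⌊tp * (n : ℝ)⌋₊) f)
    κ B ε

/-- **`STARTc` from START in terms of the law.** -/
theorem startc_of {θ β : ℝ} (h0 : 0 < θ) (h1 : Ang θ) {P : Measure Cfg}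
    (hP : IsLim (2 * Real.cos θ) P) (hgd : ∀ᵐ ω ∂P, Good ω) {Cl : Cls} (hS : STARTg θ β P Cl) :
    STARTc θ β P Cl := by
  have := hP.1
  intro l _ p S₀ hp hD hN tp ht0 ht1 bc hbc b hb ht hg κ B hκ ε hε
  obtain ⟨ι, hι, reg, w, g, fr, z, hF, c₀, hc₀, hev⟩ :=
    hS l p S₀ hp hD hN tp ht0 ht1 bc hbc b hb ht hg κ |B| hκ (abs_nonneg B) ε hε
  refine ⟨ι, hι, reg, w, hF, c₀, hc₀, ?_⟩
  obtain ⟨κ', hκ', R, hgeo⟩ := hF.geo κ hκ
  have ev : ∀ {x : ℝ} (y : ℝ), 0 < x → ∀ᶠ n : ℕ in atTop, y < x * n := fun y hx =>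
    (tendsto_natCast_atTop_atTop.const_mul_atTop hx).eventually_gt_atTop y
  filter_upwards [hev, hgeo |B|, ev 1 hκ'] with n hn hA hn1
  obtain ⟨a1, a2, a3⟩ := hn
  have hA0 := hA.1 0 (flowIn_zero (abs_nonneg B))
  obtain ⟨σ, hσ⟩ : ∃ σ : Cfg, ∀ i, ∀ v ∈ (g n i).I, σ v = fr n i v := by
    classical
    have hdis : ∀ i j, i ≠ j → Disjoint (g n i).I (g n j).I := fun i j hij =>
      (sepd_of hA0 hn1 a1 hij).dis
    refine ⟨fun v => if hv : ∃ i, v ∈ (g n i).I then fr n hv.choose v else false, fun i v hv => ?_⟩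
    have hex : ∃ i, v ∈ (g n i).I := ⟨i, hv⟩
    have : hex.choose = i := by
      by_contra hne
      exact Finset.disjoint_left.1 (hdis _ _ hne) hex.choose_spec hv
    beta_reduce
    rw [dif_pos hex, this]
  obtain ⟨b1, b2⟩ := a3 σ hσ
  set ρ : ℝ := ∏ i, 2 * (2 * Real.cos (θ / 4)) ^ (2 * (g n i).L) with hρ
  have hρ0 : 0 < ρ := prod_pos fun x _ => rho_posG h0 h1 _
  have hw : ∀ (c : Ed → ℝ), Fc (⟨w n, c⟩ : WCG ι) → ∀ B', (⟨w n, c⟩ : WCG ι).Adm κ' R B' n →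
      WX θ P (⟨w n, c⟩ : WCG ι) = ρ * ERT θ P (g n) (w n) c σ := by
    intro c hc B' hA'
    exact wx_redG hP hgd h1.kit hc hA' hn1 a1 σ
  have e0 := hw 0 (fc_zero _) _ hA0
  constructor
  · rw [e0]
    have e1 : ∏ i, Cl.Z n (w n i) = ρ * ∏ i, z n i := by
      rw [hρ, ← prod_mul_distrib]
      exact prod_congr rfl fun i _ => a2 i
    rw [e1]
    calc c₀ * (ρ * ∏ x, z n x) = ρ * (c₀ * ∏ x, z n x) := by ring
      _ ≤ _ := mul_le_mul_of_nonneg_left b1 hρ0.le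
  · intro c hc hfl
    have hn0 : (0 : ℝ) ≤ n := Nat.cast_nonneg n
    have hfl' : FlowIn (enl S₀ n) κ |B| n c :=
      ⟨hfl.sup, fun e => (hfl.cle e).trans (by gcongr; exact le_abs_self B),
        fun v => (hfl.dle v).trans (by gcongr; exact le_abs_self B)⟩
    have e1 := hw c hc |B| (hA.1 c hfl')
    rw [e0, e1, mul_assoc, ← mul_sub, abs_mul, abs_of_pos hρ0, mul_left_comm ε]
    exact mul_le_mul_of_nonneg_left (b2 c hc hfl') hρ0.le

end Vale.Agent.P167.N.ID
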