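import Vale.Agent.P167.H680.T.ZInv
import Vale.Agent.P167.H192.TA.Geo
import Vale.Agent.P167.H632.Prob

/-!
# P167, `0 < q < 1`: the lattice isometries as symmetries of the infinite-volume laws

`Isom`: exchange of the coordinates, reflections in the axes, translation (all lattice isometries).
`g.S` acts on the sites, `g.V` on the squares, `g.E` on the medial edges; `g.b`: the parity of the
sites is exchanged (then the colours are exchanged), `g.r`: the interfaces are reversed.

* `Isom.sym`: every isometry is a symmetry of every law `IsLim Q P`; `Isom.integral`: change of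
  variables `g.mv : Cfg → Cfg`.
* transports: `pstep_iff`, `pw_iff`, `pconn_iff` (paths), `cs_mv` (colours), `even_S`, `nm_S`,
  `Bq_V` (boxes), `lrs_mv` (strands between two sets of medial edges), `fz_mv` (frozen squares).
-/

set_option autoImplicit false

namespace Vale.Agent.P167.N.ID

open Finset Filter Topology MeasureTheory
open Vale.Agent.P167.FK (SyR SyP trV trE shV shE rxV rxE ryV ryE swV swE Bq)
open Vale.Agent.P167.H519 (IsLim)
open Vale.Agent.P167.H506.Q (fz fz_one fz_zero)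
open Vale.Agent.P167.H135 (fx rl meas_rl)
open Vale.Agent.P167.H680.T (Sym PI sym_ev sym_du sym_rx sym_ry sym_sw emb_rl fx_fx fx_xor lrs_rev
  mem_lrs mem_img img_symm fz_iff pF)
open Vale.Agent.P167.XDL (bS mem_bS)
open Vale.Agent.P167.H199 (strand ret Returns ret_min ret_le mem_strand)
open Vale.Agent.P167.H945.Q (lrs)
open Vale.Agent.P145.FB (PStep PConn)
open Vale.Agent.P167.H192.TA (Pw)
open Vale.Agent.P167.H632 (cs)

/-- A lattice isometry: exchange of the coordinates (`a`), then the reflections `x ↦ -x` (`s1`),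
`y ↦ -y` (`s2`), then the translation by `t`. -/
@[ext] structure Isom where
  a : Bool
  s1 : Bool
  s2 : Bool
  t : ℤ × ℤ

/-- `f` if `b`. -/
def cnd {α : Type} (b : Bool) (f : α ≃ α) : α ≃ α := if b then f else Equiv.refl α

/-- Reflection `x ↦ -x` of the sites. -/
def rxS : ℤ × ℤ ≃ ℤ × ℤ where
  toFun v := (-v.1, v.2)
  invFun v := (-v.1, v.2)
  left_inv := by intro v; simp
  right_inv := by intro v; simp

/-- Reflection `y ↦ -y` of the sites. -/
def ryS : ℤ × ℤ ≃ ℤ × ℤ where
  toFun v := (v.1, -v.2)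
  invFun v := (v.1, -v.2)
  left_inv := by intro v; simp
  right_inv := by intro v; simp

namespace Isom

variable (g : Isom)

/-- The action on the sites. -/
def S : ℤ × ℤ ≃ ℤ × ℤ :=
  ((cnd g.a swV).trans (cnd g.s1 rxS)).trans ((cnd g.s2 ryS).trans (trV (-g.t)))

/-- The action on the squares. -/
def V : ℤ × ℤ ≃ ℤ × ℤ :=
  ((cnd g.a swV).trans (cnd g.s1 rxV)).trans ((cnd g.s2 ryV).trans (trV (-g.t)))

/-- The action on the medial edges. -/
def E : Ed ≃ Ed :=
  ((cnd g.a swE).trans (cnd g.s1 rxE)).trans ((cnd g.s2 ryE).trans (trE (-g.t)))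

/-- The parity of the sites (and the colours of the squares) are exchanged. -/
def b : Bool := !decide (Even (g.t.1 + g.t.2))

/-- The interfaces are reversed. -/
def r : Bool := xor (xor g.a g.s1) (xor g.s2 g.b)

/-- The action on the configurations. -/
def mv (ω : Cfg) : Cfg := rl g.V.symm g.b ω

variable {g}

/-- First coordinate before the reflections. -/
theorem S_apply (x : ℤ × ℤ) : g.S x =
    ((if g.s1 then -(if g.a then x.2 else x.1) else (if g.a then x.2 else x.1)) + g.t.1,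
      (if g.s2 then -(if g.a then x.1 else x.2) else (if g.a then x.1 else x.2)) + g.t.2) := by
  obtain ⟨a, s1, s2, t⟩ := g
  cases a <;> cases s1 <;> cases s2 <;> simp [S, cnd, swV, rxS, ryS, trV]

theorem V_apply (x : ℤ × ℤ) : g.V x =
    ((if g.s1 then -1 - (if g.a then x.2 else x.1) else (if g.a then x.2 else x.1)) + g.t.1,
      (if g.s2 then -1 - (if g.a then x.1 else x.2) else (if g.a then x.1 else x.2)) + g.t.2) := by
  obtain ⟨a, s1, s2, t⟩ := g
  cases a <;> cases s1 <;> cases s2 <;> simp [V, cnd, swV, rxV, ryV, trV]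

theorem E_inl (v : ℤ × ℤ) : g.E (Sum.inl v) =
    if g.a then Sum.inr ((if g.s1 then -1 - v.2 else v.2) + g.t.1,
      (if g.s2 then -2 - v.1 else v.1) + g.t.2)
    else Sum.inl ((if g.s1 then -2 - v.1 else v.1) + g.t.1,
      (if g.s2 then -1 - v.2 else v.2) + g.t.2) := by
  obtain ⟨a, s1, s2, t⟩ := g
  cases a <;> cases s1 <;> cases s2 <;> simp [E, cnd, swE, rxE, ryE, trE]

theorem E_inr (v : ℤ × ℤ) : g.E (Sum.inr v) =
    if g.a then Sum.inl ((if g.s1 then -2 - v.2 else v.2) + g.t.1,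
      (if g.s2 then -1 - v.1 else v.1) + g.t.2)
    else Sum.inr ((if g.s1 then -1 - v.1 else v.1) + g.t.1,
      (if g.s2 then -2 - v.2 else v.2) + g.t.2) := by
  obtain ⟨a, s1, s2, t⟩ := g
  cases a <;> cases s1 <;> cases s2 <;> simp [E, cnd, swE, rxE, ryE, trE]

/-! ### the symmetry -/

section sym

variable {P : Measure Cfg} {Q : ℝ}

theorem sym_one (P : Measure Cfg) : Sym P (Equiv.refl Ed) (Equiv.refl (ℤ × ℤ)) false false := by
  refine ⟨fun I f => ?_, fun ω => ?_⟩
  · have h : I.image (Equiv.refl (ℤ × ℤ)) = I := by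
      rw [Equiv.coe_refl, image_id]
    rw [h]
    rfl
  · show SyP (Equiv.refl Ed) (Equiv.refl (ℤ × ℤ)) ω (rl (Equiv.refl (ℤ × ℤ)).symm false ω)
    exact ⟨fun e => rfl, fun e => rfl⟩

theorem sym_cnd {φ : Ed ≃ Ed} {σ : (ℤ × ℤ) ≃ (ℤ × ℤ)} (c : Bool) (h : Sym P φ σ false true) :
    Sym P (cnd c φ) (cnd c σ) false c := by
  cases c
  · exact sym_one P
  · exact h

/-- All translations. -/
theorem sym_tr (hQ : 0 < Q) (hP : IsLim Q P) (t : ℤ × ℤ) :
    Sym P (trE (-t)) (trV (-t)) (!decide (Even (t.1 + t.2))) (!decide (Even (t.1 + t.2))) := by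
  by_cases h : Even (t.1 + t.2)
  · have h1 : Even ((-t).1 + (-t).2) := by
      show Even (-t.1 + -t.2)
      rw [Int.even_iff] at h ⊢
      omega
    have h2 : (!decide (Even (t.1 + t.2))) = false := by simp [h]
    rw [h2]
    exact sym_ev hQ hP _ h1
  · have h1 : Even ((1 - t.1, -t.2).1 + ((1 - t.1, -t.2) : ℤ × ℤ).2) := by
      show Even (1 - t.1 + -t.2)
      rw [Int.even_iff] at h ⊢
      omega
    have h2 : (!decide (Even (t.1 + t.2))) = true := by simp [h]
    have h3 := (sym_ev hQ hP _ h1).comp (sym_du hQ hP)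
    have h4 : (trE (1 - t.1, -t.2)).trans shE = trE (-t) := by
      ext e
      rcases e with w | w
      · show Sum.inl (w.1 - (1 - t.1) + 1, w.2 - -t.2) = Sum.inl (w.1 - -t.1, w.2 - -t.2)
        congr 2
        ring
      · show Sum.inr (w.1 - (1 - t.1) + 1, w.2 - -t.2) = Sum.inr (w.1 - -t.1, w.2 - -t.2)
        congr 2
        ring
    have h5 : (trV (1 - t.1, -t.2)).trans shV = trV (-t) := by
      ext w
      · show w.1 - (1 - t.1) + 1 = w.1 - -t.1
        ring
      · rfl
    rw [h2, ← h4, ← h5]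
    exact h3

/-- **Every lattice isometry is a symmetry of the law.** -/
theorem sym (g : Isom) (hQ : 0 < Q) (hP : IsLim Q P) : Sym P g.E g.V g.b g.r := by
  have h1 := (sym_cnd g.a (sym_sw hQ hP)).comp (sym_cnd g.s1 (sym_rx hQ hP))
  have h2 := (sym_cnd g.s2 (sym_ry hQ hP)).comp (sym_tr hQ hP g.t)
  have h3 := h1.comp h2
  have h4 : xor (xor false false) (xor false (!decide (Even (g.t.1 + g.t.2)))) = g.b := by
    show xor false (xor false g.b) = g.b
    cases g.b <;> rfl
  rw [h4] at h3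
  exact h3

theorem mp (g : Isom) (hQ : 0 < Q) (hP : IsLim Q P) : MeasurePreserving g.mv P P := by
  have := hP.1
  exact (g.sym hQ hP).inv.mp

theorem emb (g : Isom) : MeasurableEmbedding g.mv := emb_rl _ _

/-- **Change of variables.** -/
theorem integral (g : Isom) (hQ : 0 < Q) (hP : IsLim Q P) (F : Cfg → ℝ) :
    ∫ ω, F (g.mv ω) ∂P = ∫ ω, F ω ∂P :=
  (g.mp hQ hP).integral_comp g.emb F

/-- The law of frozen squares. -/
theorem pF_mv (g : Isom) (hQ : 0 < Q) (hP : IsLim Q P) {I : Finset (ℤ × ℤ)} {f f' : Cfg}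
    (hf : ∀ v ∈ I, f' (g.V v) = fx g.b (f v)) : pF P (I.image g.V) f' = pF P I f := by
  rw [← (g.sym hQ hP).inv I f]
  refine H680.T.pF_congr fun u hu => ?_
  obtain ⟨v, hv, rfl⟩ := mem_image.1 hu
  rw [hf v hv, Equiv.symm_apply_apply]

end sym

/-! ### configurations -/

theorem mv_V (ω : Cfg) (v : ℤ × ℤ) : g.mv ω (g.V v) = fx g.b (ω v) := by
  show fx g.b (ω (g.V.symm (g.V v))) = _
  rw [Equiv.symm_apply_apply]

/-- Frozen squares. -/
theorem fz_mv {I : Finset (ℤ × ℤ)} {f f' : Cfg} (hf : ∀ v ∈ I, f' (g.V v) = fx g.b (f v))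
    (ω : Cfg) : fz (I.image g.V) f' (g.mv ω) = fz I f ω := by
  refine fz_iff ?_
  constructor
  · intro h v hv
    have h1 := h (g.V v) (mem_image_of_mem _ hv)
    rw [mv_V, hf v hv] at h1
    have h2 := congrArg (fx g.b) h1
    rwa [fx_fx, fx_fx] at h2
  · intro h u hu
    obtain ⟨v, hv, rfl⟩ := mem_image.1 hu
    rw [mv_V, hf v hv, h v hv]

/-- Colours. -/
theorem cs_mv (c : Bool) (ω : Cfg) : cs (fx g.b c) (g.mv ω) = g.V '' cs c ω := by
  ext u
  obtain ⟨v, rfl⟩ := g.V.surjective u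
  rw [g.V.injective.mem_set_image]
  show g.mv ω (g.V v) = fx g.b c ↔ ω v = c
  rw [mv_V]
  cases g.b
  · rfl
  · show (!ω v) = !c ↔ _
    cases ω v <;> cases c <;> simp

/-! ### sites -/

theorem even_S (x : ℤ × ℤ) : Even ((g.S x).1 + (g.S x).2) ↔ (Even (x.1 + x.2) ↔ g.b = false) := by
  rw [S_apply]
  have hb : g.b = false ↔ Even (g.t.1 + g.t.2) := by
    unfold b
    simp
  rw [hb]
  simp only [Int.even_iff]
  cases g.a <;> cases g.s1 <;> cases g.s2 <;> simp only [Bool.false_eq_true, if_false, if_true] <;>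
    omega

theorem nm_S (x y : ℤ × ℤ) : nm (g.S x - g.S y) = nm (x - y) := by
  rw [S_apply, S_apply]
  unfold nm
  cases g.a <;> cases g.s1 <;> cases g.s2 <;>
    simp only [Bool.false_eq_true, if_false, if_true, Prod.fst_sub, Prod.snd_sub, add_sub_add_right_eq_sub]
  · rw [show -x.2 - -y.2 = -(x.2 - y.2) by ring, abs_neg]
  · rw [show -x.1 - -y.1 = -(x.1 - y.1) by ring, abs_neg]
  · rw [show -x.1 - -y.1 = -(x.1 - y.1) by ring, show -x.2 - -y.2 = -(x.2 - y.2) by ring, abs_neg,
      abs_neg]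
  · rw [max_comm]
  · rw [show -x.1 - -y.1 = -(x.1 - y.1) by ring, abs_neg, max_comm]
  · rw [show -x.2 - -y.2 = -(x.2 - y.2) by ring, abs_neg, max_comm]
  · rw [show -x.1 - -y.1 = -(x.1 - y.1) by ring, show -x.2 - -y.2 = -(x.2 - y.2) by ring, abs_neg,
      abs_neg, max_comm]

/-- Boxes around sites. -/
theorem Bq_V (x : ℤ × ℤ) (R : ℤ) : (Bq x R).image g.V = Bq (g.S x) R := by
  ext u
  obtain ⟨v, rfl⟩ := g.V.surjective u
  rw [mem_img]
  unfold Bq
  rw [mem_product, mem_Ico, mem_Ico, mem_product, mem_Ico, mem_Ico, S_apply, V_apply]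
  cases g.a <;> cases g.s1 <;> cases g.s2 <;>
    simp only [Bool.false_eq_true, if_false, if_true] <;> omega

/-- The square of a step. -/
theorem V_min {u v : ℤ × ℤ} (h1 : v.1 = u.1 + 1 ∨ v.1 = u.1 - 1) (h2 : v.2 = u.2 + 1 ∨ v.2 = u.2 - 1) :
    g.V (min u.1 v.1, min u.2 v.2) =
      (min (g.S u).1 (g.S v).1, min (g.S u).2 (g.S v).2) := by
  rw [S_apply, S_apply, V_apply]
  apply Prod.ext
  · cases g.a <;> cases g.s1 <;> simp only [Bool.false_eq_true, if_false, if_true] <;> omega
  · cases g.a <;> cases g.s2 <;> simp only [Bool.false_eq_true, if_false, if_true] <;> omega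

theorem step_S {u v : ℤ × ℤ} :
    (((g.S v).1 = (g.S u).1 + 1 ∨ (g.S v).1 = (g.S u).1 - 1) ∧
      ((g.S v).2 = (g.S u).2 + 1 ∨ (g.S v).2 = (g.S u).2 - 1)) ↔
    ((v.1 = u.1 + 1 ∨ v.1 = u.1 - 1) ∧ (v.2 = u.2 + 1 ∨ v.2 = u.2 - 1)) := by
  rw [S_apply, S_apply]
  cases g.a <;> cases g.s1 <;> cases g.s2 <;>
    simp only [Bool.false_eq_true, if_false, if_true] <;> omega

theorem pstep_iff {F : Set (ℤ × ℤ)} {u v : ℤ × ℤ} :
    PStep (g.V '' F) (g.S u) (g.S v) ↔ PStep F u v := by
  unfold PStep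
  rw [← and_assoc, ← and_assoc, step_S]
  refine and_congr_right fun h => ?_
  rw [← V_min h.1 h.2, g.V.injective.mem_set_image]

/-- Paths. -/
theorem pw_iff {F : Set (ℤ × ℤ)} {u v : ℤ × ℤ} :
    Pw (g.V '' F) (g.S u) (g.S v) ↔ Pw F u v := by
  constructor
  · intro h
    have key : ∀ w, Pw (g.V '' F) (g.S u) w → Pw F u (g.S.symm w) := by
      intro w hw
      induction hw with
      | refl => rw [Equiv.symm_apply_apply]
      | @tail y z _ hyz ih =>
        refine ih.tail ?_
        rw [← g.S.apply_symm_apply y, ← g.S.apply_symm_apply z, pstep_iff] at hyz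
        exact hyz
    have := key _ h
    rwa [Equiv.symm_apply_apply] at this
  · intro h
    exact (show Relation.ReflTransGen (PStep F) u v from h).lift g.S fun a b hab =>
      pstep_iff.2 hab

theorem pconn_iff {F R : Set (ℤ × ℤ)} {u v : ℤ × ℤ} :
    PConn (g.V '' F) (g.S '' R) (g.S u) (g.S v) ↔ PConn F R u v := by
  have hR : ∀ x, g.S x ∈ g.S '' R ↔ x ∈ R := fun x => g.S.injective.mem_set_image
  unfold PConn
  rw [hR]
  refine and_congr_right fun _ => ?_
  constructor
  · intro h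
    have key : ∀ w, Relation.ReflTransGen (fun x y => PStep (g.V '' F) x y ∧ y ∈ g.S '' R) (g.S u) w →
        Relation.ReflTransGen (fun x y => PStep F x y ∧ y ∈ R) u (g.S.symm w) := by
      intro w hw
      induction hw with
      | refl => rw [Equiv.symm_apply_apply]
      | @tail y z _ hyz ih =>
        refine ih.tail ?_
        rw [← g.S.apply_symm_apply y, ← g.S.apply_symm_apply z, pstep_iff, hR] at hyz
        exact hyz
    have := key _ h
    rwa [Equiv.symm_apply_apply] at this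
  · intro h
    exact h.lift g.S fun a b hab => ⟨pstep_iff.2 hab.1, (hR b).2 hab.2⟩

/-! ### strands -/

section strands

variable {φ : Ed ≃ Ed} {σ : (ℤ × ℤ) ≃ (ℤ × ℤ)} {ω ω' : Cfg} {I B : Finset (ℤ × ℤ)}
  {A A' : Finset Ed}

theorem bS_kp (h : SyP φ σ ω ω') (e : Ed) : φ e ∈ bS (I.image σ) ↔ e ∈ bS I := by
  rw [mem_bS, mem_bS, h.h, H680.T.SyP.t h, mem_img, mem_img]

theorem kp_iter (h : SyP φ σ ω ω') (e : Ed) (n : ℕ) :
    (nx ω')^[n] (φ e) = φ ((nx ω)^[n] e) := by
  induction n with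
  | zero => rfl
  | succ n ih => rw [Function.iterate_succ_apply', Function.iterate_succ_apply', ih, h.n]

theorem returns_kp (h : SyP φ σ ω ω') (e : Ed) :
    Returns (nx ω') (bS (I.image σ)) (φ e) ↔ Returns (nx ω) (bS I) e := by
  unfold Returns
  simp only [kp_iter h, bS_kp h]

theorem ret_kp (h : SyP φ σ ω ω') (e : Ed) :
    ret (nx ω') (bS (I.image σ)) (φ e) = ret (nx ω) (bS I) e := by
  unfold ret
  simp only [kp_iter h, bS_kp h]

theorem strand_kp (h : SyP φ σ ω ω') (e : Ed) :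
    strand (nx ω') (bS (I.image σ)) (φ e) = (strand (nx ω) (bS I) e).image φ := by
  unfold strand
  rw [ret_kp h, image_image]
  exact image_congr fun k _ => kp_iter h e k

/-- **Strands are mapped.** -/
theorem lrs_kp (h : SyP φ σ ω ω') :
    lrs (I.image σ) (A.image φ) (A'.image φ) (B.image σ) ω' = (lrs I A A' B ω).image φ := by
  ext e
  obtain ⟨d, rfl⟩ := φ.surjective e
  rw [mem_img, mem_lrs, mem_lrs, mem_img, bS_kp h, h.h, mem_img, returns_kp h, ret_kp h,
    kp_iter h, mem_img, strand_kp h]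
  have h1 : (∀ x ∈ (strand (nx ω) (bS I) d).image φ, hdv x ∈ B.image σ) ↔
      ∀ x ∈ strand (nx ω) (bS I) d, hdv x ∈ B := by
    constructor
    · intro h1 x hx
      have h2 := h1 _ (mem_image_of_mem _ hx)
      rwa [h.h, mem_img] at h2
    · intro h1 x hx
      obtain ⟨y, hy, rfl⟩ := mem_image.1 hx
      rw [h.h, mem_img]
      exact h1 y hy
  rw [h1]

end strands

theorem sy_of (g : Isom) {P : Measure Cfg} {Q : ℝ} (hQ : 0 < Q) (hP : IsLim Q P) (ω : Cfg) :
    if g.r then SyR g.E g.V ω (g.mv ω) else SyP g.E g.V ω (g.mv ω) := (g.sym hQ hP).sy ω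

/-- **Strands**: the numbers of the outer strands from `A` to `A'`, or from `A'` to `A` if the
interfaces are reversed. -/
theorem lrs_mv (g : Isom) {P : Measure Cfg} {Q : ℝ} (hQ : 0 < Q) (hP : IsLim Q P) (ω : Cfg)
    (I B : Finset (ℤ × ℤ)) (A A' : Finset Ed) :
    (lrs (I.image g.V) (A.image g.E) (A'.image g.E) (B.image g.V) (g.mv ω)).card =
      if g.r then (lrs I A' A B ω).card else (lrs I A A' B ω).card := by
  have h := sy_of g hQ hP ω
  cases hr : g.r
  · rw [hr] at h
    simp only [Bool.false_eq_true, if_false] at h ⊢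
    rw [lrs_kp h, card_image_of_injective _ g.E.injective]
  · rw [hr] at h
    simp only [if_true] at h ⊢
    exact lrs_rev h

/-- Sets of squares. -/
theorem image_inter (F G : Set (ℤ × ℤ)) : g.V '' (F ∩ G) = g.V '' F ∩ g.V '' G :=
  Set.image_inter g.V.injective

end Isom

end Vale.Agent.P167.N.ID
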