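import Vale.Agent.P167.N.ID.LowA
import Vale.Agent.P167.N.H398.Q.Fac

/-!
# P167, `q < 1`, START: the product over the loops at the holes and off the holes

Arbitrary frozen squares `K`, phases `a`, holes `J` with centres `c` and colours `b`.

* `hBA`: the boxes of the holes; `CnfA`: the loops at the holes are confined; `T2A`, `GfA`.
* locality, integrability, the value of `GfA` off the arms.
-/

set_option autoImplicit false

namespace Vale.Agent.P167.N.ID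

open Finset MeasureTheory

open Vale.Agent.P167 Vale.Agent.P167.N

open Vale.Agent.P167.BR hiding dv

open Vale.Agent.P167.FK

open Vale.Agent.P167.FKA (Loc Ind cf_out)

open Vale.Agent.P167.H825 (dv)

open Vale.Agent.P167.QX (QL TB TO fLp VisL XBoff TB_congr TO_congr XBoff_congr)

open Vale.Agent.P167.H398.Q

variable {ι : Type} {J : Finset ι} {b : ι → Bool} {c : ι → ℤ × ℤ} {r R R' : ℤ}
  {θ β : ℝ} {K D : Finset (ℤ × ℤ)} {a : Ed → Bool → ℝ} {R₁ R₂ R₃ R₄ : ℤ} {ω ω' : Cfg}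

/-- The boxes of the holes. -/
noncomputable def hBA (J : Finset ι) (c : ι → ℤ × ℤ) (R : ℤ) : Finset (ℤ × ℤ) :=
  J.biUnion fun i => Bq (c i) R

theorem mem_hBX {v : ℤ × ℤ} : v ∈ hBA J c R ↔ ∃ i ∈ J, v ∈ Bq (c i) R := mem_biUnion

theorem hBA_mono (h : R ≤ R') : hBA J c R ⊆ hBA J c R' := by
  intro v hv
  obtain ⟨i, hi, hx⟩ := mem_hBX.1 hv
  exact mem_hBX.2 ⟨i, hi, Bq_mono' h hx⟩

theorem visL_mono {B B' : Set (ℤ × ℤ)} (h : B ⊆ B') {ℓ : Finset Ed} (hv : VisL B ℓ) : VisL B' ℓ := by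
  obtain ⟨e, he, h1⟩ := hv
  exact ⟨e, he, h h1⟩

theorem visL_hBX (h : R ≤ R') {ℓ : Finset Ed} (hv : VisL (hBA J c R : Set (ℤ × ℤ)) ℓ) :
    VisL (hBA J c R' : Set (ℤ × ℤ)) ℓ :=
  visL_mono (Finset.coe_subset.2 (hBA_mono h)) hv

/-- The loops which visit the boxes of radius `R` at the holes stay in boxes of radius `R'` (one of
the boxes). -/
def CnfA (J : Finset ι) (c : ι → ℤ × ℤ) (R R' : ℤ) (ω : Cfg) : Prop :=
  ∀ ℓ, IsLoop ω ℓ → VisL (hBA J c R : Set (ℤ × ℤ)) ℓ → ∃ i ∈ J, ∀ v ∈ vs ℓ, v ∈ Bq (c i) R'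

theorem CnfA.mono {R'' : ℤ} (h : CnfA J c R R' ω) (hR : R' ≤ R'') : CnfA J c R R'' ω := by
  intro ℓ hl hv
  obtain ⟨i, hi, hx⟩ := h ℓ hl hv
  exact ⟨i, hi, fun v hv' => Bq_mono' hR (hx v hv')⟩

/-- **Off the arms the loops at the holes are confined.** -/
theorem cnfA_NA (h : R + 2 ≤ R') (hω : ω ∈ NA J b c (R + 1) (R' - 1)) : CnfA J c R R' ω := by
  intro ℓ hl hv
  obtain ⟨i, hi, hx⟩ := conf_NA (J := J) (b := b) (c := c) hl h hv hω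
  exact ⟨i, hi, hx⟩

/-- The product over the loops at the holes, off the arms `(R₁, R₂)`. -/
noncomputable def T2A (θ : ℝ) (K : Finset (ℤ × ℤ)) (a : Ed → Bool → ℝ) (J : Finset ι)
    (b : ι → Bool) (c : ι → ℤ × ℤ) (R₁ R₂ : ℤ) (ω : Cfg) : ℝ :=
  |TB θ K a (hBA J c R₁ : Set (ℤ × ℤ)) ω| * (NA J b c (R₁ + 1) (R₂ - 1)).indicator 1 ω

/-- The product over the loops off the holes, off the arms `(R₃, R₄)`. -/
noncomputable def TOA (θ : ℝ) (K : Finset (ℤ × ℤ)) (a : Ed → Bool → ℝ) (J : Finset ι)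
    (b : ι → Bool) (c : ι → ℤ × ℤ) (R₃ R₄ : ℤ) (ω : Cfg) : ℝ :=
  TO θ K a (hBA J c R₃ : Set (ℤ × ℤ)) ω * (NA J b c (R₃ + 1) (R₄ - 1)).indicator 1 ω

/-- The product over the loops off the holes and the functional of the domain, off the arms
`(R₃, R₄)`. -/
noncomputable def GfA (θ : ℝ) (K : Finset (ℤ × ℤ)) (a : Ed → Bool → ℝ) (J : Finset ι)
    (b : ι → Bool) (c : ι → ℤ × ℤ) (β : ℝ) {N : ℕ} (q : ZMod N → ℤ × ℤ) (D : Finset (ℤ × ℤ))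
    (k : ℕ) (f : Ed → ℝ) (R₃ R₄ : ℤ) (ω : Cfg) : ℝ :=
  TO θ K a (hBA J c R₃ : Set (ℤ × ℤ)) ω *
    XBoff θ β q D k (dv f) (hBA J c R₃ : Set (ℤ × ℤ)) ω *
    (NA J b c (R₃ + 1) (R₄ - 1)).indicator 1 ω

theorem T2A_nonneg (ω : Cfg) : 0 ≤ T2A θ K a J b c R₁ R₂ ω :=
  mul_nonneg (abs_nonneg _) (Set.indicator_nonneg (fun _ _ => zero_le_one) _)

/-- `T2A` depends on the squares of the boxes. -/
theorem T2A_loc (h12 : R₁ + 2 ≤ R₂) : Loc (hBA J c R₂) (T2A θ K a J b c R₁ R₂) := by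
  classical
  intro ω ω' h
  have h1 : ω ∈ NA J b c (R₁ + 1) (R₂ - 1) ↔ ω' ∈ NA J b c (R₁ + 1) (R₂ - 1) :=
    NA_loc fun x hx v hv => h v (mem_hBX.2 ⟨x, hx, Bq_mono' (by omega) hv⟩)
  unfold T2A
  rw [ind_congr h1]
  by_cases h2 : ω ∈ NA J b c (R₁ + 1) (R₂ - 1)
  · congr 2
    refine TB_congr (B' := ↑(hBA J c R₂)) (fun v hv => h v (Finset.mem_coe.1 hv)) ?_ ?_
    · intro ℓ hl hv v hv'
      obtain ⟨x, hx, hx'⟩ := cnfA_NA h12 h2 ℓ hl hv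
      exact Finset.mem_coe.2 (mem_hBX.2 ⟨x, hx, hx' v hv'⟩)
    · intro ℓ hl hv v hv'
      obtain ⟨x, hx, hx'⟩ := cnfA_NA h12 (h1.1 h2) ℓ hl hv
      exact Finset.mem_coe.2 (mem_hBX.2 ⟨x, hx, hx' v hv'⟩)
  · rw [Set.indicator_of_notMem fun h3 => h2 (h1.2 h3), mul_zero, mul_zero]

theorem cb_T2X (h12 : R₁ + 2 ≤ R₂) : CB (T2A θ K a J b c R₁ R₂) := CB.of_loc (T2A_loc h12)

theorem NA_congrA (h34 : R₃ + 2 ≤ R₄)
    (hdis : ∀ i ∈ J, ∀ j ∈ J, i ≠ j → Disjoint (Bq (c i) R₄) (Bq (c j) R₄))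
    (h : ∀ v ∉ hBA J c R₃, ω v = ω' v) :
    ω ∈ NA J b c (R₃ + 1) (R₄ - 1) ↔ ω' ∈ NA J b c (R₃ + 1) (R₄ - 1) := by
  refine NA_ind (by omega) (fun x hx y hy hxy => ?_) fun v hv => h v fun hv' => ?_
  · exact Finset.disjoint_of_subset_left (Bq_mono' (by omega))
      (Finset.disjoint_of_subset_right (Bq_mono' (by omega)) (hdis x hx y hy hxy))
  · obtain ⟨x, hx, hx'⟩ := mem_hBX.1 hv'
    exact hv x hx (Bq_mono' (by omega) hx')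

/-- `GfA` does not depend on the squares of the boxes (good configurations). -/
theorem GfA_congr {N : ℕ} {q : ZMod N → ℤ × ℤ} {k : ℕ} {f : Ed → ℝ} (h34 : R₃ + 2 ≤ R₄)
    (hdis : ∀ i ∈ J, ∀ j ∈ J, i ≠ j → Disjoint (Bq (c i) R₄) (Bq (c j) R₄))
    (hg : Good ω) (hg' : Good ω') (h : ∀ v ∉ hBA J c R₃, ω v = ω' v) :
    GfA θ K a J b c β q D k f R₃ R₄ ω = GfA θ K a J b c β q D k f R₃ R₄ ω' := by
  classical
  have h1 := NA_congrA (b := b) h34 hdis h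
  have h' : ∀ v ∉ (↑(hBA J c R₃) : Set (ℤ × ℤ)), ω v = ω' v := fun v hv => h v fun hv' =>
    hv (Finset.mem_coe.2 hv')
  unfold GfA
  rw [ind_congr h1, TO_congr h', XBoff_congr hg hg' h']

theorem TOA_congr (h34 : R₃ + 2 ≤ R₄)
    (hdis : ∀ i ∈ J, ∀ j ∈ J, i ≠ j → Disjoint (Bq (c i) R₄) (Bq (c j) R₄))
    (h : ∀ v ∉ hBA J c R₃, ω v = ω' v) :
    TOA θ K a J b c R₃ R₄ ω = TOA θ K a J b c R₃ R₄ ω' := by
  classical
  have h1 := NA_congrA (b := b) h34 hdis h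
  have h' : ∀ v ∉ (↑(hBA J c R₃) : Set (ℤ × ℤ)), ω v = ω' v := fun v hv => h v fun hv' =>
    hv (Finset.mem_coe.2 hv')
  unfold TOA
  rw [ind_congr h1, TO_congr h']

/-! ### the domain -/

theorem dv_0A : dv (0 : Ed → ℝ) = 0 := by
  funext z
  simp [H825.dv]

theorem ind01A {S : Set Cfg} : (0 : ℝ) ≤ S.indicator 1 ω :=
  Set.indicator_nonneg (fun _ _ => zero_le_one) _

/-- The product over the loops off the boxes, if the loops off smaller boxes are nonnegative. -/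
theorem TO_nonnegA (hR : R ≤ R')
    (h : ∀ ℓ ∈ H685.LE ω (XDL.bS K), ¬ VisL (hBA J c R : Set (ℤ × ℤ)) ℓ → 0 ≤ fLp θ K a ω ℓ) :
    0 ≤ TO θ K a (hBA J c R' : Set (ℤ × ℤ)) ω := by
  classical
  unfold TO
  refine prod_nonneg fun ℓ hℓ => ?_
  rw [mem_filter] at hℓ
  exact h ℓ hℓ.1 fun hv => hℓ.2 (visL_hBX hR hv)

/-- **The product over the loops off the holes is constant** on the domain, off the arms. -/
theorem TOA_const {R'' : ℤ} (h34 : R₃ + 2 ≤ R₄) (h4 : R₄ ≤ R'')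
    (h0 : ∀ S, S ⊆ D → 0 ≤ TO θ K a (hBA J c R₃ : Set (ℤ × ℤ)) (cf D ω S))
    (hC : ∀ S, S ⊆ D → ∀ S', S' ⊆ D → CnfA J c R₃ R'' (cf D ω S) → CnfA J c R₃ R'' (cf D ω S') →
      TO θ K a (hBA J c R₃ : Set (ℤ × ℤ)) (cf D ω S) =
        TO θ K a (hBA J c R₃ : Set (ℤ × ℤ)) (cf D ω S')) :
    ∃ T : ℝ, 0 ≤ T ∧ ∀ S, S ⊆ D → TOA θ K a J b c R₃ R₄ (cf D ω S) =
      T * (NA J b c (R₃ + 1) (R₄ - 1)).indicator 1 (cf D ω S) := by
  classical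
  by_cases h : ∃ S, S ⊆ D ∧ cf D ω S ∈ NA J b c (R₃ + 1) (R₄ - 1)
  · obtain ⟨S₁, h1, h2⟩ := h
    refine ⟨TO θ K a (hBA J c R₃ : Set (ℤ × ℤ)) (cf D ω S₁), h0 S₁ h1, fun S hS => ?_⟩
    by_cases h3 : cf D ω S ∈ NA J b c (R₃ + 1) (R₄ - 1)
    · unfold TOA
      rw [hC S hS S₁ h1 ((cnfA_NA h34 h3).mono h4) ((cnfA_NA h34 h2).mono h4)]
    · unfold TOA
      rw [Set.indicator_of_notMem h3, mul_zero, mul_zero]
  · refine ⟨0, le_rfl, fun S hS => ?_⟩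
    have h3 : cf D ω S ∉ NA J b c (R₃ + 1) (R₄ - 1) := fun h' => h ⟨S, hS, h'⟩
    unfold TOA
    rw [Set.indicator_of_notMem h3, mul_zero, mul_zero]

end Vale.Agent.P167.N.ID
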