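import Vale.Agent.P167.N.ID.CellU

/-!
# P167, `q < 1`, START (P2S): when is the product over the loops off the holes not zero

`CD.NK`: no exit of the exterior is killed. `DobF.NKR`: no mixed exit of the interface over the
junction `a` is killed. `OneF.TO_ne`, `DobF.TO_ne`: then the product is not zero.
-/

set_option autoImplicit false

namespace Vale.Agent.P167.N.ID

open Finset
open Vale.Agent.P167.BR
open Vale.Agent.P167.FK
open Vale.Agent.P167.Top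
open Vale.Agent.P167.H871
open Vale.Agent.P167.H871.Q
open Vale.Agent.P167.A (plane)
open Vale.Agent.P167.XDL (bS mem_bS P4_be)
open Vale.Agent.P167.H199 (strand ret mem_strand loop_nx loop_iter ret_min ret_le
  strand_sub sum_strand Returns strand_unique ah at' cang cang_congr)
open Vale.Agent.P167.H680.S (nxt nxt_mem nxt_induct nxt_inj trS sum_rule MixE Lo mem_Lo)
open Vale.Agent.P167.QX (returns_loop card_out_in fLp wS VisL TO exists_strand_loop fLp_congr)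

variable {ω : Cfg} {ℓ : Finset Ed} {K : Finset (ℤ × ℤ)} {B E : Set (ℤ × ℤ)} {b : Ed}
  {D R : Finset (ℤ × ℤ)} {X : Set (ℤ × ℤ)} {θ β : ℝ} {a : Ed → Bool → ℝ}

/-- **No exit of the exterior is killed.** -/
def CD.NK (c : CD) (K : Finset (ℤ × ℤ)) (X : Set (ℤ × ℤ)) (ω : Cfg) (ℓ : Finset Ed) : Prop :=
  ∀ b ∈ ℓ, ∀ i j, Ex K X c.n c.P c.u ω b i j →
    (c.k₀ = c.n → trS (bS K) ω b - (lab c.u (-1) c.zc j - lab c.u (-1) c.zc i) ≠ -6) ∧
      (c.k₀ = 0 → trS (bS K) ω b - (lab c.u (-1) c.zo j - lab c.u (-1) c.zo i) ≠ 6)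

/-- **No mixed exit of the region `R` is killed.** -/
def CD.NKR (c : CD) (K : Finset (ℤ × ℤ)) (R : Set (ℤ × ℤ)) (ω : Cfg) (ℓ : Finset Ed) : Prop :=
  ∀ b ∈ ℓ, ∀ i j, Ex K R c.n c.P c.u ω b i j →
    (i < c.k₀ → ¬ j < c.k₀ → ¬ (i < c.zc ∧ c.zo ≤ j)) ∧
      (¬ i < c.k₀ → j < c.k₀ → ¬ (j < c.zc ∧ c.zo ≤ i))

/-- The loops of one colour next to the exterior. -/
theorem ext_ne {c : CD} (o : c.Ok θ β K B E (-1) a) (C : LC B ω ℓ) (hk : c.k₀ = 0 ∨ c.k₀ = c.n)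
    (hc : c.Clr K B ω) (hs : Real.sin θ ≠ 0) (hcos : Real.cos θ ≠ 0) (h1 : b ∈ bS K) (h2 : b ∈ ℓ)
    (h3 : Sd E b) (hm : ∀ b ∈ ℓ, ¬ MixE K ω b) (hN : c.NK K E ω ℓ) : fLp θ K a ω ℓ ≠ 0 := by
  classical
  have hn0 := o.cell.n0
  have hsame : ∀ b ∈ ℓ, ∀ i j, Ex K E c.n c.P c.u ω b i j → (i < c.k₀ ↔ j < c.k₀) := by
    intro b hb i j Y
    have := Y.hi
    have := Y.hj
    rcases hk with h | h <;> rw [h] <;> constructor <;> intro h' <;> omega
  have hat : ∃ k < c.n, At c.P c.u b k := by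
    rw [mem_bS] at h1
    rcases h3 with h | h
    · exact exists_at o.cell.bd hn0 o.cell.cov (Or.inl ⟨h, fun h' => by
        rcases h1 with h5 | h5
        · exact o.cell.dis _ h5.1 h
        · exact o.cell.dis _ h5.2 h'⟩)
    · exact exists_at o.cell.bd hn0 o.cell.cov (Or.inr ⟨h, fun h' => by
        rcases h1 with h5 | h5
        · exact o.cell.dis _ h5.1 h'
        · exact o.cell.dis _ h5.2 h⟩)
  have fin : ∀ {z : ℕ} {s : ℤ}, OneC K E c.n c.P c.u c.k₀ c.zc c.zo ℓ z s →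
      (∀ b ∈ ℓ, ∀ i j, Ex K E c.n c.P c.u ω b i j →
        trS (bS K) ω b - (lab c.u (-1) z j - lab c.u (-1) z i) ≠ -6 * s) →
      fLp θ K a ω ℓ ≠ 0 := by
    intro z s hz hne
    rcases fLp_val (Or.inr rfl) o.cell C o.hk hc hm o.ph o.zc o.zo o.gd hs hcos h1 h2 hz with
      ⟨-, y, g1, i, j, g2, g3⟩ | ⟨h4, -⟩
    · exact absurd g3 (hne y g1 i j g2)
    · rw [h4]
      split_ifs
      · exact inv_ne_zero (mul_ne_zero two_ne_zero hcos)
      · exact one_ne_zero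
  obtain ⟨k, hk1, hk2⟩ := hat
  rcases one_colour o.cell C o.hk hc hm hsame h1 h2 h3 with h | h
  · refine fin (Or.inl ⟨rfl, rfl, h⟩) fun y g1 i j g2 => ?_
    obtain ⟨-, k', g3, g4, -⟩ := h b h1 h2
    rw [mul_one]
    exact (hN y g1 i j g2).1 (by omega)
  · refine fin (Or.inr ⟨rfl, rfl, h⟩) fun y g1 i j g2 => ?_
    obtain ⟨-, k', g3, g4, -⟩ := h b h1 h2
    rw [mul_neg_one, neg_neg]
    exact (hN y g1 i j g2).2 (by omega)

/-- The loops of one colour next to a bounded cell. -/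
theorem bdd_ne {c : CD} (o : c.Ok θ β K B (D : Set (ℤ × ℤ)) 1 a) (C : LC B ω ℓ)
    (hc : c.Clr K B ω) (hs : Real.sin θ ≠ 0) (hcos : Real.cos θ ≠ 0) (h1 : b ∈ bS K) (h2 : b ∈ ℓ)
    (h3 : Sd (D : Set (ℤ × ℤ)) b) (hm : ∀ b ∈ ℓ, ¬ MixE K ω b) : fLp θ K a ω ℓ ≠ 0 := by
  classical
  rw [fLp_bdd o.cell C o.hk hc hm o.ph o.zc o.zo hs hcos h1 h2 h3]
  split_ifs
  · exact inv_ne_zero (mul_ne_zero two_ne_zero hcos)
  · exact one_ne_zero

/-- **The product over the loops off the holes of a frame of one colour is not zero.** -/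
theorem OneF.TO_ne {cD cX : CD} (F : OneF θ β K B a D X cD cX) (hD : cD.Clr K B ω)
    (hX : cX.Clr K B ω) (hg : Good ω) (hs : Real.sin θ ≠ 0) (hcos : Real.cos θ ≠ 0)
    (hN : ∀ ℓ, LC B ω ℓ → cX.NK K X ω ℓ) : TO θ K a B ω ≠ 0 := by
  classical
  have h0 : TO θ K a B ω = ∏ ℓ ∈ Lo K B ω, fLp θ K a ω ℓ := rfl
  rw [h0, prod_ne_zero_iff]
  intro ℓ hℓ
  obtain ⟨h1, ⟨b, h2, h3⟩, h4⟩ := mem_Lo.1 hℓ
  have C : LC B ω ℓ := ⟨hg, h1, h4⟩
  have hm : ∀ b ∈ ℓ, ¬ MixE K ω b := fun b hb => F.no_mix hD hX C hb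
  rcases F.side C h2 h3 with h | h
  · exact bdd_ne F.oD C hD hs hcos h2 h3 h hm
  · exact ext_ne F.oX C F.kX hX hs hcos h2 h3 h hm (hN ℓ C)

/-- **The product over the loops off the holes of a Dobrushin frame is not zero.** -/
theorem DobF.TO_ne {cD cR cX : CD} (F : DobF θ β K B a D R X cD cR cX) (hD : cD.Clr K B ω)
    (hR : cR.Clr K B ω) (hX : cX.Clr K B ω) (hg : Good ω) (hs : Real.sin θ ≠ 0)
    (hcos : Real.cos θ ≠ 0) (hβ : β = (θ - Real.pi) / 2)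
    (hN : ∀ ℓ, LC B ω ℓ → cX.NK K X ω ℓ)
    (hN' : ∀ ℓ, LC B ω ℓ → (∃ b ∈ ℓ, MixE K ω b) → cR.NKR K (R : Set (ℤ × ℤ)) ω ℓ) :
    TO θ K a B ω ≠ 0 := by
  classical
  have h0 : TO θ K a B ω = ∏ ℓ ∈ Lo K B ω, fLp θ K a ω ℓ := rfl
  rw [h0, prod_ne_zero_iff]
  intro ℓ hℓ
  obtain ⟨h1, ⟨b, h2, h3⟩, h4⟩ := mem_Lo.1 hℓ
  have C : LC B ω ℓ := ⟨hg, h1, h4⟩
  have h2c : 2 * Real.cos θ ≠ 0 := mul_ne_zero two_ne_zero hcos
  by_cases hm : ∃ b ∈ ℓ, MixE K ω b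
  · unfold fLp
    refine div_ne_zero (prod_ne_zero_iff.2 fun e he => ?_) h2c
    obtain ⟨g1, g2, g3⟩ := mem_filter.1 he
    rcases F.exits hX C hm g1 g3 g2 with ⟨-, i, j, Y⟩ | ⟨-, -, i, j, Y⟩
    · rw [F.wD hD C hm hs hβ Y g3]
      exact one_ne_zero
    · obtain ⟨s1, s2⟩ := int_same hs F.oR.cell C F.oR.hk hR hm F.oR.ph Y g3
      obtain ⟨m1, m2⟩ := wS_mix F.oR.cell C F.oR.ph Y g3
      obtain ⟨n1, n2⟩ := hN' ℓ C hm e g3 i j Y
      by_cases k1 : i < cR.k₀ <;> by_cases k2 : j < cR.k₀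
      · rw [(s1 k1 k2).2]
        split_ifs
        · exact h2c
        · exact one_ne_zero
      · have h5 := n1 k1 k2
        rw [m1 k1 k2, wm_val hs hβ]
        split_ifs with h6 h7
        · exact one_ne_zero
        · exact h2c
        · exact absurd (by omega) h6
      · have h5 := n2 k1 k2
        rw [m2 k1 k2, wm_val hs hβ]
        split_ifs with h6 h7
        · exact one_ne_zero
        · exact h2c
        · exact absurd (by omega) h6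
      · rw [(s2 k1 k2).2]
        split_ifs
        · exact h2c
        · exact one_ne_zero
  · push Not at hm
    rcases F.side C h2 h3 with h | h | h
    · exact bdd_ne F.oD C hD hs hcos h2 h3 h hm
    · exact bdd_ne F.oR C hR hs hcos h2 h3 h hm
    · exact ext_ne F.oX C F.kX hX hs hcos h2 h3 h hm (hN ℓ C)

end Vale.Agent.P167.N.ID
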