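import Vale.Agent.P167.N.ID.PhT
import Vale.Agent.P167.H433.PsDef

/-!
# P167, `q < 1`, START (P2S): the sites of the outer line near the base

* `lc_out`, `lc_back`: the local coordinates of `PsDef`.
* `mid_wide`: the sites of a side near a mark-free point are in its row.
* `sidB_sub`: the sites near the base `b` (on one side) are in `SMid`.
-/

set_option autoImplicit false

namespace Vale.Agent.P167.N.ID

open Finset
open Vale.Agent.P167.H871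
open Vale.Agent.P167.H871.Q
open Vale.Agent.P167.H199 (Gap mks)
open Vale.Agent.P167.H825.Q (Bc)
open Vale.Agent.P167.H433 (lc zA zB)
open Vale.Agent.P167.E6 (IsPolygon Encloses dir)
open Vale.Agent.P167.H825 (pdir enl ptau Marks Box)
open Vale.Agent.P167.Enl (sW eW tB tB_lt vp vz vz_eq sR eR row_num sR_num BGap gn_big m01 m11 m21
  m31 dir0 dir1 dir2 dir3)

/-! ### local coordinates -/

theorem lc_out (r : Fin 4) (z : ℤ × ℤ) : lc r z 0 1 = z + dir (r - 1) := by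
  rcases Enl.fin4_cases r with rfl | rfl | rfl | rfl
  · rw [m01, dir3]
    ext
    · simp [lc]
    · simp only [lc, Matrix.cons_val_zero, Prod.snd_add]
      ring
  · rw [m11, dir0]
    ext <;> simp [lc]
  · rw [m21, dir1]
    ext <;> simp [lc]
  · rw [m31, dir2]
    ext
    · simp only [lc, Matrix.cons_val, Prod.fst_add]
      ring
    · simp [lc]

theorem lc_back (r : Fin 4) (z : ℤ × ℤ) (σ u : ℤ) :
    lc r (lc r (vz z r σ) 0 1) u 0 = vz z r (σ - u) + dir (r - 1) := by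
  obtain ⟨h0, h1, h2, h3⟩ := vz_eq z σ
  obtain ⟨k0, k1, k2, k3⟩ := vz_eq z (σ - u)
  rcases Enl.fin4_cases r with rfl | rfl | rfl | rfl
  · rw [h0, k0, m01, dir3]
    ext <;> simp [lc] <;> ring
  · rw [h1, k1, m11, dir0]
    ext <;> simp [lc]
    ring
  · rw [h2, k2, m21, dir1]
    ext <;> simp [lc]
    ring
  · rw [h3, k3, m31, dir2]
    ext <;> simp [lc] <;> ring

/-! ### sites -/

variable {l : ℕ} {p : ZMod l → ℤ × ℤ} {S₀ : Finset (ℤ × ℤ)} {b : Box} {n ia : ℕ} {tp g δ : ℝ}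

/-- **The sites of a side near a mark-free point are in its row.** -/
theorem mid_wide {Q : Marks} (hQ : Q.Ok) (hg : Gap Q l g) (hδ : 0 < δ) (hδg : 4 * δ ≤ g)
    (hn : 16 ≤ δ * n) {i : ℕ} (hi : i < l) {τ : ℝ} (h0 : 0 ≤ τ) (h1 : τ ≤ 1)
    (hτ : ∀ j ≤ Q.m + 1, g ≤ |Q.θ i j - τ|) {w : ℕ} (hw : 2 * (w : ℝ) ≤ g * n) :
    ∃ j ≤ Q.m, sW p n Q ⌊δ * n⌋₊ i j + w + 2 ≤ ⌊τ * n⌋₊ ∧
      ⌊τ * n⌋₊ + w + 2 ≤ eW p n Q ⌊δ * n⌋₊ i j := by
  have hl : 0 < l := by omega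
  obtain ⟨b1, b2, b3, b4, b5⟩ := gn_big hQ hg hδg hn hl
  have hn0 : (0 : ℝ) ≤ n := Nat.cast_nonneg n
  obtain ⟨j, hj, h2, h3⟩ : ∃ j ≤ Q.m, Q.θ i j ≤ τ ∧ τ < Q.θ i (j + 1) := by
    by_contra hcon
    push Not at hcon
    have h : ∀ j ≤ Q.m + 1, Q.θ i j ≤ τ := by
      intro j
      induction j with
      | zero => intro _; rw [hQ.zero]; exact h0
      | succ j ih => intro h; exact hcon j (by omega) (ih (by omega))
    have h4 := h (Q.m + 1) le_rfl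
    have h5 := hτ (Q.m + 1) le_rfl
    rw [hQ.one] at h4 h5
    rw [abs_of_nonpos (by linarith)] at h5
    have : 0 < g := by linarith
    linarith
  have d1 := hτ j (by omega)
  have d2 := hτ (j + 1) (by omega)
  rw [abs_of_nonpos (by linarith)] at d1
  rw [abs_of_pos (by linarith)] at d2
  have s1 := (Enl.le_rnd ((n : ℤ) • p (i : ZMod l)) (H825.bsite p Q n)
    (⌊Q.θ i j * n⌋₊ + ⌊δ * n⌋₊)).2
  have s2 := (Enl.le_rnd ((n : ℤ) • p (i : ZMod l)) (H825.bsite p Q n)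
    (⌊Q.θ i (j + 1) * n⌋₊ - ⌊δ * n⌋₊)).1
  change sW p n Q ⌊δ * n⌋₊ i j ≤ _ at s1
  change _ ≤ eW p n Q ⌊δ * n⌋₊ i j at s2
  have f1 : (⌊Q.θ i j * n⌋₊ : ℝ) ≤ Q.θ i j * n :=
    Nat.floor_le (mul_nonneg (Enl.theta_nonneg hQ i (by omega)) hn0)
  have f2 : Q.θ i (j + 1) * n < ⌊Q.θ i (j + 1) * n⌋₊ + 1 := Nat.lt_floor_add_one _
  have f3 : (⌊τ * n⌋₊ : ℝ) ≤ τ * n := Nat.floor_le (mul_nonneg h0 hn0)
  have f4 : τ * n < ⌊τ * n⌋₊ + 1 := Nat.lt_floor_add_one _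
  have m1 : (Q.θ i j + g) * n ≤ τ * n := mul_le_mul_of_nonneg_right (by linarith) hn0
  have m2 : (τ + g) * n ≤ Q.θ i (j + 1) * n := mul_le_mul_of_nonneg_right (by linarith) hn0
  refine ⟨j, hj, ?_, ?_⟩
  · have : (⌊Q.θ i j * n⌋₊ : ℝ) + ⌊δ * n⌋₊ + w + 3 ≤ ⌊τ * n⌋₊ := by linarith
    have : ⌊Q.θ i j * n⌋₊ + ⌊δ * n⌋₊ + w + 3 ≤ ⌊τ * n⌋₊ := by exact_mod_cast this
    omega
  · have : (⌊τ * n⌋₊ : ℝ) + 3 + w + ⌊δ * n⌋₊ ≤ ⌊Q.θ i (j + 1) * n⌋₊ := by linarith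
    have : ⌊τ * n⌋₊ + 3 + w + ⌊δ * n⌋₊ ≤ ⌊Q.θ i (j + 1) * n⌋₊ := by exact_mod_cast this
    omega

/-- The sites of the outer line near the base `b`, on its side before `b` if `T` is on the closed arc,
behind `b` otherwise. -/
noncomputable def SidB [NeZero l] (p : ZMod l → ℤ × ℤ) (ia n : ℕ) (tp g : ℝ) : Set (ℤ × ℤ) :=
  {s | ∃ u : ℤ, 2 * |(u : ℝ)| ≤ g * n ∧ (clT p ia → 0 ≤ u) ∧ (¬ clT p ia → u ≤ 0) ∧
    s = lc (pdir p 0) (zB p n tp) u 0}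

/-- **The sites near the base `b`** are between the two bases of `R`. -/
theorem sidB_sub [NeZero l] (H : DobN p S₀ b tp g δ n) :
    SidB p ia n tp g ⊆ SMid p b tp n ⌊δ * n⌋₊ ia := by
  have hl : 0 < l := by have := H.hp.1; omega
  rintro s ⟨u, u1, u2, u3, rfl⟩
  obtain ⟨w, hw⟩ : ∃ w : ℕ, |u| = w := ⟨|u|.toNat, (Int.toNat_of_nonneg (abs_nonneg u)).symm⟩
  have hw2 : |(u : ℝ)| = (w : ℝ) := by
    rw [← Int.cast_abs, hw, Int.cast_natCast]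
  rw [hw2] at u1
  obtain ⟨k, k1, k2, k3⟩ := mid_wide (p := p) H.hQ H.hg H.hδ H.hδg H.hn hl H.hQ.tp0.le
    H.hQ.tp1.le H.hg.2 u1
  have e1 := eW_le H hl k1
  have ha := abs_le.1 hw.le
  change _ ≤ ⌊tp * n⌋₊ at k2
  change ⌊tp * n⌋₊ + _ + _ ≤ _ at k3
  have htB : tB n (mks p b tp) = ⌊tp * n⌋₊ := rfl
  obtain ⟨σ, hσ⟩ : ∃ σ : ℕ, (σ : ℤ) = (⌊tp * n⌋₊ : ℤ) - u :=
    ⟨((⌊tp * n⌋₊ : ℤ) - u).toNat, by omega⟩
  obtain ⟨g1, -, -⟩ := row_num (Q := mks p b tp) hl k1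
  obtain ⟨g4, g5⟩ := sR_num (p := p) (n := n) (Q := mks p b tp) (d := ⌊δ * n⌋₊) hl k1
  refine ⟨σ, by omega, ⟨0 * ((mks p b tp).m + 1) + k, g1, by rw [g4]; omega, by rw [g5]; omega⟩,
    ?_, ?_⟩
  · by_cases hc : clT p ia
    · have := u2 hc
      exact Or.inl ⟨hc, by omega⟩
    · have := u3 hc
      exact Or.inr ⟨hc, by omega⟩
  · unfold zB vp
    rw [Nat.cast_zero, lc_back, hσ]

end Vale.Agent.P167.N.ID
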