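import Vale.Agent.P167.H680.T.Rho

/-!
# P167, `0 < q < 1`: thick walls with phases and staggers per side

`thk I Φ sa z`: the cut of all sides of the finite set `I` of squares. The raw outward phase of the
side crossed by the medial edge `e` is `Φ e` plus the stagger `± sa e` (sign `+` iff the primal corner
of the side is on the left looking outward). The faces of the rows have `sa = τ (3 θ - π) / 4`, the
end sides `sa = τ (θ - π) / 4`, with `τ = 1`: closed (free), `τ = -1`: open (wired). The inner faces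
have the phase `0`. Raw phases are transported unchanged by translations and reflections, the
stagger changes its sign under reflections and odd translations.
-/

namespace Vale.Agent.P167.N.ID

open Finset Filter Topology MeasureTheory
open Vale.Agent.P167.H592
open Vale.Agent.P167.H825 (dv epos)
open Vale.Agent.P167.H199 (shA thP)
open Vale.Agent.P167.XDL (bS mem_bS)
open Vale.Agent.P167.H680.T (WallG wtr wrf wrX wrD sq sgb mem_bS_sq par par_mul par_cases sg_inl
  sg_inr par_add par_neg sg_sh sq_sh mem_image_inv mem_image_add rx rd rx_rx rd_rd par_rx)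

/-- **Thick walls**, phases `Φ` and staggers `ta` per side. -/
noncomputable def thk (I : Finset (ℤ × ℤ)) (Φ ta : Ed → ℝ) (z : ℝ) : WallG where
  S := bS I
  a e b := if e ∈ bS I then (if sq e b ∈ I then 0 else
    sgb b * Φ e + (sg e : ℝ) * ta e) else 0
  off e he := by
    funext b
    exact if_neg he
  z := z

variable {θ : ℝ} {I : Finset (ℤ × ℤ)} {Φ ta Φ' ta' : Ed → ℝ} {z : ℝ}

theorem thk_congr (h1 : ∀ e ∈ bS I, Φ e = Φ' e) (h2 : ∀ e ∈ bS I, ta e = ta' e) :
    thk I Φ ta z = thk I Φ' ta' z := by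
  refine WallG.ext rfl ?_ rfl
  funext e b
  show (if e ∈ bS I then (if sq e b ∈ I then 0 else
      sgb b * Φ e + (sg e : ℝ) * ta e) else 0) =
    (if e ∈ bS I then (if sq e b ∈ I then 0 else
      sgb b * Φ' e + (sg e : ℝ) * ta' e) else 0)
  by_cases he : e ∈ bS I
  · rw [h1 _ he, h2 _ he]
  · rw [if_neg he, if_neg he]

/-- The walls of `H680.T` are the walls with phases per square. -/
theorem thk_sq (Ψ tb : ℤ × ℤ → ℝ) : H680.T.thk θ I Ψ tb z =
    thk I (fun e => Ψ (if sq e true ∈ I then sq e true else sq e false))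
      (fun e => tb (if sq e true ∈ I then sq e true else sq e false) *
        ((3 * θ - Real.pi) / 4)) z := by
  refine WallG.ext rfl ?_ rfl
  funext e b
  show (if e ∈ bS I then (if sq e b ∈ I then 0 else
      sgb b * Ψ (sq e (!b)) + (sg e : ℝ) * tb (sq e (!b)) * ((3 * θ - Real.pi) / 4)) else 0) =
    (if e ∈ bS I then (if sq e b ∈ I then 0 else
      sgb b * Ψ (if sq e true ∈ I then sq e true else sq e false) +
        (sg e : ℝ) * (tb (if sq e true ∈ I then sq e true else sq e false) *
          ((3 * θ - Real.pi) / 4))) else 0)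
  by_cases he : e ∈ bS I
  · rw [if_pos he, if_pos he]
    by_cases hb : sq e b ∈ I
    · rw [if_pos hb, if_pos hb]
    · rw [if_neg hb, if_neg hb]
      have hv : sq e (!b) = if sq e true ∈ I then sq e true else sq e false := by
        rw [mem_bS_sq] at he
        cases b
        · rw [if_pos (he.resolve_right (fun h => hb h.2)).1]
          rfl
        · rw [if_neg hb]
          rfl
      rw [hv, mul_assoc]
  · rw [if_neg he, if_neg he]

/-! ### images -/

theorem wtr_thk (v : ℤ × ℤ) : wtr (thk I Φ ta z) v =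
    thk (I.image (· + v)) (fun e => Φ (shE (-v) e)) (fun e => par v * ta (shE (-v) e)) z := by
  have key : ∀ e b, sq (shE (-v) e) b = sq e b - v := fun e b => by
    rw [sq_sh, sub_eq_add_neg]
  have hS : ∀ e, e ∈ bS (I.image (· + v)) ↔ shE (-v) e ∈ bS I := by
    intro e
    rw [mem_bS_sq, mem_bS_sq, key, key]
    simp only [mem_image_add]
  refine WallG.ext ?_ ?_ rfl
  · show (bS I).image (shE v) = bS (I.image (· + v))
    ext e
    rw [hS, mem_image]
    constructor
    · rintro ⟨e, he, rfl⟩
      rwa [shE_shE, neg_add_cancel, shE_zero]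
    · intro he
      exact ⟨_, he, by rw [shE_shE, add_neg_cancel, shE_zero]⟩
  · funext e b
    show (if shE (-v) e ∈ bS I then (if sq (shE (-v) e) b ∈ I then 0 else
        sgb b * Φ (shE (-v) e) + (sg (shE (-v) e) : ℝ) * ta (shE (-v) e)) else 0) =
      if e ∈ bS (I.image (· + v)) then (if sq e b ∈ I.image (· + v) then 0 else
        sgb b * Φ (shE (-v) e) + (sg e : ℝ) * (par v * ta (shE (-v) e))) else 0
    simp only [hS, key, mem_image_add, sg_sh, par_neg]
    split_ifs <;> ring

theorem wrf_thk {P : Rf (ℤ × ℤ)} {l : ℤ × ℤ → ℤ × ℤ} (hP : P.Lin l) {r : ℤ × ℤ → ℤ × ℤ}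
    (hr : ∀ v, r (r v) = v) (hsq : ∀ e b, sq (P.ρ e) (xor (P.t e) b) = r (sq e b))
    (hst : ∀ e, P.t e = !P.s e)
    (hsg : ∀ e, (if P.s e then 1 else -1 : ℝ) * (sg (P.ρ e) : ℝ) = -(sg e : ℝ)) :
    wrf hP (thk I Φ ta z) =
      thk (I.image r) (fun e => Φ (P.ρ e)) (fun e => -ta (P.ρ e)) z := by
  have hS : ∀ e, e ∈ bS (I.image r) ↔ P.ρ e ∈ bS I := by
    intro e
    rw [mem_bS_sq, mem_bS_sq]
    simp only [mem_image_inv hr, ← hsq]
    cases P.t e
    · rfl
    · simp only [Bool.true_xor, Bool.not_true, Bool.not_false]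
      tauto
  refine WallG.ext ?_ ?_ rfl
  · show (bS I).image P.ρ = bS (I.image r)
    ext e
    rw [hS, mem_image]
    constructor
    · rintro ⟨e, he, rfl⟩
      rwa [hP.ok.ρρ]
    · intro he
      exact ⟨_, he, hP.ok.ρρ e⟩
  · funext e b
    show (if P.s e then 1 else -1) * (if P.ρ e ∈ bS I then
        (if sq (P.ρ e) (xor (P.t e) b) ∈ I then 0 else
        sgb (xor (P.t e) b) * Φ (P.ρ e) +
          (sg (P.ρ e) : ℝ) * ta (P.ρ e)) else 0) =
      if e ∈ bS (I.image r) then (if sq e b ∈ I.image r then 0 else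
        sgb b * Φ (P.ρ e) + (sg e : ℝ) * (-ta (P.ρ e))) else 0
    have h2 : (if P.s e then 1 else -1 : ℝ) * sgb (xor (P.t e) b) = sgb b := by
      rw [hst e]
      cases P.s e <;> cases b <;> simp [sgb]
    simp only [hS, mem_image_inv hr, ← hsq]
    by_cases he : P.ρ e ∈ bS I
    · rw [if_pos he, if_pos he]
      by_cases hb : sq (P.ρ e) (xor (P.t e) b) ∈ I
      · rw [if_pos hb, if_pos hb, mul_zero]
      · rw [if_neg hb, if_neg hb, mul_add, ← mul_assoc, h2]
        have h3 := hsg e
        congr 1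
        linear_combination ta (P.ρ e) * h3
    · rw [if_neg he, if_neg he, mul_zero]

/-- Reflection of the medial edges in the columns. -/
def rxE : Ed → Ed
  | Sum.inl v => Sum.inl (-v.1, v.2)
  | Sum.inr v => Sum.inr (1 - v.1, v.2)

/-- Reflection of the medial edges in the diagonal. -/
def rdE : Ed → Ed
  | Sum.inl v => Sum.inr (v.2, v.1)
  | Sum.inr v => Sum.inl (v.2, v.1)

theorem wrX_thk : wrX (thk I Φ ta z) =
    thk (I.image rx) (fun e => Φ (rxE e)) (fun e => -ta (rxE e)) z := by
  have hρ : ∀ e : Ed, (rX ℤ ℤ).ρ e = rxE e := fun e => by rcases e with v | v <;> rfl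
  have := wrf_thk (I := I) (Φ := Φ) (ta := ta) (z := z) rX_lin rx_rx ?_
    (fun e => by rcases e with v | v <;> rfl) ?_
  · simp only [hρ] at this
    exact this
  · intro e b
    rcases e with u | u
    · cases b
      · show ((-u.1 + 1, u.2) : ℤ × ℤ) = (1 - u.1, u.2)
        congr 1
        ring
      · show ((-u.1, u.2) : ℤ × ℤ) = (1 - (u.1 + 1), u.2)
        congr 1
        ring
    · cases b <;> rfl
  · intro e
    rcases e with u | u
    · show (if false then 1 else -1 : ℝ) * ((sg (Sum.inl (-u.1, u.2)) : ℤ) : ℝ) =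
        -((sg (Sum.inl u) : ℤ) : ℝ)
      rw [sg_inl, sg_inl]
      have h : par (-u.1, u.2) = par u := by
        have h0 : Even (-u.1 + u.2) ↔ Even (u.1 + u.2) := by
          rw [Int.even_add, Int.even_add, even_neg]
        unfold par
        simp only [h0]
      rw [h]
      simp
    · show (if true then 1 else -1 : ℝ) * ((sg (Sum.inr (rx u)) : ℤ) : ℝ) =
        -((sg (Sum.inr u) : ℤ) : ℝ)
      rw [sg_inr, sg_inr, par_rx]
      simp

theorem wrD_thk : wrD (thk I Φ ta z) =
    thk (I.image rd) (fun e => Φ (rdE e)) (fun e => -ta (rdE e)) z := by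
  have hp : ∀ u : ℤ × ℤ, par (rd u) = par u := by
    intro u
    unfold par
    have : (rd u).1 + (rd u).2 = u.1 + u.2 := add_comm u.2 u.1
    rw [this]
  have hρ : ∀ e : Ed, H592.rD.ρ e = rdE e := fun e => by rcases e with v | v <;> rfl
  have := wrf_thk (I := I) (Φ := Φ) (ta := ta) (z := z) rD_lin rd_rd ?_
    (fun e => by rcases e with v | v <;> rfl) ?_
  · rw [show (fun e => Φ (rdE e)) = fun e => Φ (H592.rD.ρ e) from
      funext fun e => by rw [hρ], show (fun e => -ta (rdE e)) = fun e => -ta (H592.rD.ρ e) from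
      funext fun e => by rw [hρ]]
    exact this
  · intro e b
    rcases e with u | u <;> cases b <;> rfl
  · intro e
    rcases e with u | u
    · show (if true then 1 else -1 : ℝ) * ((sg (Sum.inr (rd u)) : ℤ) : ℝ) =
        -((sg (Sum.inl u) : ℤ) : ℝ)
      rw [sg_inr, sg_inl, hp]
      simp
    · show (if true then 1 else -1 : ℝ) * ((sg (Sum.inl (rd u)) : ℤ) : ℝ) =
        -((sg (Sum.inr u) : ℤ) : ℝ)
      rw [sg_inr, sg_inl, hp]
      simp

/-! ### the inner half arrows -/

theorem thk_S : (thk I Φ ta z).S = bS I := rfl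

theorem thk_z : (thk I Φ ta z).z = z := rfl

/-- The phase of the outer half arrow. -/
theorem thk_out {e : Ed} {b : Bool} (he : e ∈ bS I) (hb : sq e b ∉ I) :
    (thk I Φ ta z).a e b = sgb b * Φ e + (sg e : ℝ) * ta e := by
  show (if e ∈ bS I then (if sq e b ∈ I then 0 else
    sgb b * Φ e + (sg e : ℝ) * ta e) else 0) = _
  rw [if_pos he, if_neg hb]

/-- The phases of a thick wall vanish inside. -/
theorem thk_in0 : H680.T.In0 I (thk I Φ ta z).a := by
  intro e b h
  show (if e ∈ bS I then (if sq e b ∈ I then 0 else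
    sgb b * Φ e + (sg e : ℝ) * ta e) else 0) = 0
  rw [if_pos h, ite_self]

/-- **The inner sum of a row**: it does not depend on the outer phases. -/
theorem rhoT_thk {r : H825.Q.Row} {Φ ta : Ed → ℝ} (hL : 1 ≤ r.L) :
    QX.rhoT θ r.I (thk r.I Φ ta z).a = 2 * (2 * Real.cos (θ / 4)) ^ (2 * r.L) :=
  H680.T.rhoT_row thk_in0 hL

end Vale.Agent.P167.N.ID
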