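import Vale.Agent.P167.N.ID.SymP
import Vale.Agent.P167.N.ID.StA
import Vale.Agent.P167.H262.WstFK

/-!
# P167, `q < 1`, START (P2T): the pictures of the killed tips

Normalized picture (an isometry `g` maps it to the lattice): the row with the killed tip consists of
the squares `(x, 0)`, `x ≥ 0`, the killed corner is `(0, ζ)`, `ζ = 0` or `ζ = 1`. There is another row
at the hole:

* `k = false` (corner holes, `T`, foot): the vertical line of the squares `(- a - 1, y)`;
* `k = true` (flat holes): the squares `(x, 0)`, `x ≤ - a - 1`.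

`tubT`: the squares of a tube which starts at the upper face of the row and leads to the other row;
`bxT`: the box around the tip; `tgT`: the squares of the other row which the tube hits.
-/

set_option autoImplicit false

namespace Vale.Agent.P167.N.ID

open Finset

open Vale.Agent.P167.H262 (Rsq mem_Rsq)

/-- The tube from the upper face of the row to the other row. -/
noncomputable def tubT (k : Bool) (a b d ρ : ℤ) : Finset (ℤ × ℤ) :=
  if k then Rsq (-a - 2 * d) (-a - d) 1 (2 * d) ∪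
      (Rsq (-a - 2 * d) (3 * ρ / 8) d (2 * d) ∪ Rsq (ρ / 4) (3 * ρ / 8) 1 (2 * d))
  else Rsq (ρ / 4) (3 * ρ / 8) 1 (b + 2 * d) ∪ Rsq (-a) (3 * ρ / 8) (b + d) (b + 2 * d)

/-- The box around the killed corner `(0, ζ)`, without the row. -/
noncomputable def bxT (ρ ζ : ℤ) : Finset (ℤ × ℤ) :=
  (Rsq (-ρ) ρ (ζ - ρ) (ζ + ρ)).filter fun v => ¬ (v.2 = 0 ∧ 0 ≤ v.1)

/-- The squares of the other row which the tube hits. -/
noncomputable def tgT (k : Bool) (a b d : ℤ) : Finset (ℤ × ℤ) :=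
  if k then Rsq (-a - 2 * d - 1) (-a - d + 1) 0 1
  else Rsq (-a - 1) (-a) (b + d - 1) (b + 2 * d + 1)

/-- The data of a picture. -/
structure TipD where
  /-- the isometry -/
  g : Isom
  /-- flat hole -/
  k : Bool
  /-- distance of the other row (horizontal) -/
  a : ℤ
  /-- distance of the other row (vertical), `k = false` -/
  b : ℤ
  /-- the killed corner is `(0, ζ)` -/
  ζ : ℤ

/-- All squares which are used: box and tube. -/
noncomputable def TipD.W (t : TipD) (d ρ : ℤ) : Finset (ℤ × ℤ) :=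
  (bxT ρ t.ζ ∪ tubT t.k t.a t.b d ρ).image t.g.V

/-- **The picture of a killed tip** `z` of the row `I`; `J`: the other row; `U`: all frozen squares. -/
structure TipD.Ok (t : TipD) (U I J : Finset (ℤ × ℤ)) (z : ℤ × ℤ) (d ρ : ℤ) : Prop where
  /-- the killed corner -/
  zt : z = t.g.S (0, t.ζ)
  ze : t.ζ = 0 ∨ t.ζ = 1
  /-- the row near the tip -/
  own : ∀ v ∈ Rsq (-2 * ρ) (2 * ρ) (-2 * ρ) (2 * ρ), t.g.V v ∈ I ↔ v.2 = 0 ∧ 0 ≤ v.1
  /-- the other row is at distance about `d` -/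
  na : d - 8 ≤ t.a ∧ t.a ≤ d + 8
  nb : d - 8 ≤ t.b ∧ t.b ≤ d + 8
  /-- the box and the tube are free -/
  free : Disjoint (t.W d ρ) U
  /-- the tube hits the other row -/
  tgt : ∀ v ∈ tgT t.k t.a t.b d, t.g.V v ∈ J

variable {X : Type} (RS : RSys X) {Kx : Type} [Fintype Kx] [DecidableEq Kx] (F : Fct RS Kx)
  (Kt : Finset Kx) (Φ : FrS X)

/-- **The pictures of all the killed tips of a frame** (one killed tip per row, `Kt = {k₀}`), with
disjoint boxes and tubes. -/
def FrS.Pics (k₀ : Kx) (δ : ℝ) (n : ℕ) : Prop :=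
  ∃ t : Φ.ι → TipD, ∃ J : Φ.ι → Φ.ι,
    (∀ i, J i ≠ i ∧ (t i).Ok (Φ.U RS δ n) (RS.I (Φ.r δ n i)) (RS.I (Φ.r δ n (J i)))
      (F.ctr (Φ.r δ n i) k₀) ⌊δ * n⌋₊ ⌊δ * n / 16⌋) ∧
    ∀ i j, i ≠ j → Disjoint ((t i).W ⌊δ * n⌋₊ ⌊δ * n / 16⌋) ((t j).W ⌊δ * n⌋₊ ⌊δ * n / 16⌋)

end Vale.Agent.P167.N.ID
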