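import Vale.Agent.P167.N.ID.TipD
import Vale.Agent.P167.N.ID.SlitE
import Vale.Agent.P167.N.ID.RowF
import Vale.Agent.P167.N.ID.IsomEx
import Vale.Agent.P167.N.Base.Vr

/-!
# P167, `0 < q < 1`, START (P2T): the arm of a killed tip is extended to the other row of the hole
-/

set_option autoImplicit false

namespace Vale.Agent.P167.N.ID

open Finset
open Vale.Agent.P167 Vale.Agent.P167.N Vale.Agent.P167.FK
open Vale.Agent.P167.N.NET
open Vale.Agent.P167.FKA (Ex_mono)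
open Vale.Agent.P167.H871 (IsC)
open Vale.Agent.P167.H632 (cs pr pr_or pr_not nm_le le_nm)
open Vale.Agent.P167.H135 (fx)
open Vale.Agent.P167.H262 (Rsq mem_Rsq)

/-- The colour of the arms under an isometry. -/
theorem cz_S (g : Isom) (z : ℤ × ℤ) : cz (g.S z) = fx g.b (cz z) := by
  unfold cz fx
  have h := g.even_S z
  cases hb : g.b
  · rw [hb] at h
    simp only [iff_true] at h
    simp [h]
  · rw [hb] at h
    simp only [Bool.true_eq_false, iff_false] at h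
    by_cases h1 : Even (z.1 + z.2)
    · simp [h1, h]
    · simp [h1, h]

/-- The ends of the tube. -/
def endT (e : Bool) (k : Bool) (a b d : ℤ) : Set (ℤ × ℤ) :=
  if k then Hs e 1 (-a - 2 * d) (-a - d) else Vs e (-a) (b + d) (b + 2 * d)

/-- The crossing of the tube. -/
theorem VT_tubT {Q : ℝ} (hQ : 0 < Q) (hQ1 : Q ≤ 1) (hV : VRS Q) : ∃ κ : ℝ, 0 < κ ∧ κ ≤ 1 ∧
    ∀ (e k : Bool) (a b d ρ : ℤ), 200 ≤ ρ → 16 * ρ ≤ d → d ≤ 16 * ρ + 16 → d - 8 ≤ a → a ≤ d + 8 →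
      d - 8 ≤ b → b ≤ d + 8 →
      κ ≤ VT Q e (tubT k a b d ρ) (Hs e 1 (ρ / 4) (3 * ρ / 8)) (endT e k a b d) := by
  obtain ⟨κ₁, h1, h1', -, H1, -, -⟩ := VT_ell hQ hQ1 hV 1000
  obtain ⟨κ₂, h2, h2', H2⟩ := VT_arch hQ hQ1 hV 1000
  refine ⟨min κ₁ κ₂, lt_min h1 h2, (min_le_left _ _).trans h1', ?_⟩
  intro e k a b d ρ hρ hd hd' ha ha' hb hb'
  cases k
  · have := H1 e (-a) (ρ / 4) (3 * ρ / 8) 1 (b + d) (b + 2 * d) (by omega) (by omega) (by omega)
      (by omega) (by push_cast; omega) (by push_cast; omega)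
    exact (min_le_left _ _).trans this
  · have := (H2 e (-a - 2 * d) (-a - d) (ρ / 4) (3 * ρ / 8) 1 1 d (2 * d) (by omega) (by omega)
      (by omega) (by omega) (by omega) (by omega) (by push_cast; omega) (by push_cast; omega)
      (by push_cast; omega)).2
    exact (min_le_right _ _).trans this

theorem mem_tubT {k : Bool} {a b d ρ : ℤ} {v : ℤ × ℤ} : v ∈ tubT k a b d ρ ↔
    if k then (-a - 2 * d ≤ v.1 ∧ v.1 < -a - d ∧ 1 ≤ v.2 ∧ v.2 < 2 * d) ∨
      (-a - 2 * d ≤ v.1 ∧ v.1 < 3 * ρ / 8 ∧ d ≤ v.2 ∧ v.2 < 2 * d) ∨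
      (ρ / 4 ≤ v.1 ∧ v.1 < 3 * ρ / 8 ∧ 1 ≤ v.2 ∧ v.2 < 2 * d)
    else (ρ / 4 ≤ v.1 ∧ v.1 < 3 * ρ / 8 ∧ 1 ≤ v.2 ∧ v.2 < b + 2 * d) ∨
      (-a ≤ v.1 ∧ v.1 < 3 * ρ / 8 ∧ b + d ≤ v.2 ∧ v.2 < b + 2 * d) := by
  unfold tubT
  cases k
  · simp only [Bool.false_eq_true, if_false, mem_union, mem_Rsq]
  · simp only [if_true, mem_union, mem_Rsq]

theorem mem_bxT {ρ ζ : ℤ} {v : ℤ × ℤ} : v ∈ bxT ρ ζ ↔
    (-ρ ≤ v.1 ∧ v.1 < ρ ∧ ζ - ρ ≤ v.2 ∧ v.2 < ζ + ρ) ∧ ¬ (v.2 = 0 ∧ 0 ≤ v.1) := by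
  unfold bxT
  rw [mem_filter, mem_Rsq]

/-- **The extension of the arm of a killed tip through the tube to the other row.** -/
theorem tip_ext {Q : ℝ} (hQ : Kit Q) : ∃ κ : ℝ, 0 < κ ∧ κ ≤ 1 ∧ ∃ ρ₀ : ℤ,
    ∀ (t : TipD) (U I J D : Finset (ℤ × ℤ)) (z : ℤ × ℤ) (d ρ : ℤ) (η : Cfg),
      ρ₀ ≤ ρ → 16 * ρ ≤ d → d ≤ 16 * ρ + 16 → t.Ok U I J z d ρ → I ⊆ U → t.W d ρ ⊆ D →
      Good η →
      κ * Ex Q D η ((AZ (cz z) U z ρ).indicator 1) ≤
        Ex Q D η ((Jn (cz z) (↑(t.W d ρ)) {z} {s | ∃ v ∈ J, IsC v s}).indicator 1) := by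
  have hV : VRS Q := vrs_of hQ.pos hQ.le (N.vr hQ)
  obtain ⟨κ₁, h1, h1', H1⟩ := slit_east hQ.pos hQ.le hV
  obtain ⟨κ₂, h2, h2', H2⟩ := VT_tubT hQ.pos hQ.le hV
  refine ⟨κ₁ * κ₂, mul_pos h1 h2, mul_le_one₀ h1' h2.le h2', 200, ?_⟩
  intro t U I J D z d ρ η hρ hd hd' ht hIU hWD hη
  obtain ⟨k, hk⟩ : ∃ k : ℕ, k = (ρ / 16).toNat := ⟨_, rfl⟩
  have hk1 : 12 ≤ k := by omega
  have hkρ : 16 * (k : ℤ) ≤ ρ := by omega
  have hkρ' : ρ < 16 * (k : ℤ) + 16 := by omega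
  -- the site in the picture
  obtain ⟨z₀, hz₀⟩ : ∃ z₀ : ℤ × ℤ, z₀ = (0, t.ζ) := ⟨_, rfl⟩
  have hzg : z = t.g.S z₀ := by rw [hz₀]; exact ht.zt
  have hcz : cz z = fx t.g.b (cz z₀) := by rw [hzg, cz_S]
  have hz1 : z₀.1 = 0 := by rw [hz₀]
  have hz2 : z₀.2 = 0 ∨ z₀.2 = 1 := by rw [hz₀]; exact ht.ze
  have hz2' : z₀.2 = t.ζ := by rw [hz₀]
  obtain ⟨e, he⟩ : ∃ e, e = cz z₀ := ⟨_, rfl⟩
  have hp : (z₀.1 + z₀.2) % 2 = pr e := by
    rw [he]
    unfold cz
    by_cases h : Even (z₀.1 + z₀.2)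
    · rw [decide_eq_true h]
      rw [Int.even_iff] at h
      exact h
    · rw [decide_eq_false h]
      rw [Int.even_iff] at h
      show _ = (1 : ℤ)
      omega
  have hfree : ∀ v, (v ∈ bxT ρ t.ζ ∨ v ∈ tubT t.k t.a t.b d ρ) → t.g.V v ∉ U := fun v hv h => by
    have h3 : t.g.V v ∈ t.W d ρ := mem_image_of_mem _ (mem_union.2 hv)
    exact (Finset.disjoint_left.1 ht.free h3 h)
  -- the frozen squares in the picture
  have memU : ∀ v, v ∈ U.image t.g.V.symm ↔ t.g.V v ∈ U := by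
    intro v
    rw [mem_image]
    constructor
    · rintro ⟨u, hu, rfl⟩
      rwa [Equiv.apply_symm_apply]
    · intro h
      exact ⟨_, h, Equiv.symm_apply_apply _ _⟩
  have memD : ∀ v, v ∈ D.image t.g.V.symm ↔ t.g.V v ∈ D := by
    intro v
    rw [mem_image]
    constructor
    · rintro ⟨u, hu, rfl⟩
      rwa [Equiv.apply_symm_apply]
    · intro h
      exact ⟨_, h, Equiv.symm_apply_apply _ _⟩
  have hI : ∀ v ∈ Bq z₀ (16 * k), v ∈ U.image t.g.V.symm ↔ v.2 = 0 ∧ 0 ≤ v.1 := by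
    intro v hv
    rw [mem_Bz] at hv
    rw [memU]
    constructor
    · intro h
      by_contra h3
      exact hfree v (Or.inl (mem_bxT.2 ⟨by omega, h3⟩)) h
    · intro h
      refine hIU ((ht.own v ?_).2 h)
      rw [mem_Rsq]
      omega
  have hGW : ∀ v ∈ Bq z₀ (16 * k) \ U.image t.g.V.symm, v ∈ bxT ρ t.ζ := by
    intro v hv
    rw [mem_sdiff] at hv
    rw [hI v hv.1] at hv
    have h3 := hv.1
    rw [mem_Bz] at h3
    exact mem_bxT.2 ⟨by omega, hv.2⟩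
  have hGD : Bq z₀ (16 * k) \ U.image t.g.V.symm ⊆ D.image t.g.V.symm := by
    intro v hv
    rw [memD]
    exact hWD (mem_image_of_mem _ (mem_union_left _ (hGW v hv)))
  have hTD : tubT t.k t.a t.b d ρ ⊆ D.image t.g.V.symm := by
    intro v hv
    rw [memD]
    exact hWD (mem_image_of_mem _ (mem_union_right _ hv))
  have na := ht.na
  have nb := ht.nb
  have hy1 : ∀ v ∈ tubT t.k t.a t.b d ρ, 1 ≤ v.2 := by
    intro v hv
    rw [mem_tubT] at hv
    cases hkk : t.k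
    · rw [hkk] at hv
      simp only [Bool.false_eq_true, if_false] at hv
      omega
    · rw [hkk] at hv
      simp only [if_true] at hv
      omega
  have key := H1 e 0 0 z₀ k (U.image t.g.V.symm) (D.image t.g.V.symm) (t.g.iv η) (fun _ => 1)
    (tubT t.k t.a t.b d ρ) (Hs e 1 (ρ / 4) (3 * ρ / 8)) (endT e t.k t.a t.b d) (by omega)
    (by
      rcases hz2 with h | h
      · left; ext
        · exact hz1
        · exact h
      · right; ext
        · exact hz1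
        · exact h) hp hI hGD hTD (Isom.good_iv hη)
    (by
      rintro y ⟨y1, y2, y3, y4⟩
      exact ⟨y1, by omega, by omega, y4⟩)
    (bd_bot hy1) ?_ ?_ ?_ (fun _ => zero_le_one) (fun _ _ _ => rfl)
  · -- conclusion
    have e1 := H2 e t.k t.a t.b d ρ hρ hd hd' na.1 na.2 nb.1 nb.2
    simp only [one_mul] at key
    have hUU : (U.image t.g.V.symm).image t.g.V = U := by
      rw [image_image, Equiv.self_comp_symm, image_id]
    have ind : ∀ {X Y : Set Cfg} {ω ω' : Cfg}, (ω ∈ X → ω' ∈ Y) →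
        X.indicator (1 : Cfg → ℝ) ω ≤ Y.indicator 1 ω' := by
      intro X Y ω ω' h
      by_cases h3 : ω ∈ X
      · rw [Set.indicator_of_mem h3, Set.indicator_of_mem (h h3)]
        exact le_refl (1 : ℝ)
      · rw [Set.indicator_of_notMem h3]
        exact Set.indicator_nonneg (fun _ _ => zero_le_one) _
    have i1 : Ex Q D η ((AZ (cz z) U z ρ).indicator 1) ≤
        Ex Q (D.image t.g.V.symm) (t.g.iv η) ((AZ e (U.image t.g.V.symm) z₀ (16 * k)).indicator 1) := by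
      rw [← t.g.Ex_iv Q D η]
      refine Ex_mono hQ.pos fun S _ => ind fun h => ?_
      have h3 : t.g.mv (cf (D.image t.g.V.symm) (t.g.iv η) S) ∈
          AZ (fx t.g.b e) ((U.image t.g.V.symm).image t.g.V) (t.g.S z₀) ρ := by
        rw [hUU, ← hzg, he, ← hcz]
        exact h
      exact AZ_anti hkρ (Isom.AZ_mv.1 h3)
    have i2 : Ex Q (D.image t.g.V.symm) (t.g.iv η) ((Jn e ↑((Bq z₀ (16 * k) \
        U.image t.g.V.symm) ∪ tubT t.k t.a t.b d ρ) {z₀} (endT e t.k t.a t.b d)).indicator 1) ≤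
        Ex Q D η ((Jn (cz z) (↑(t.W d ρ)) {z} {s | ∃ v ∈ J, IsC v s}).indicator 1) := by
      rw [← t.g.Ex_iv Q D η]
      refine Ex_mono hQ.pos fun S _ => ind fun h => ?_
      have h3 := (Isom.Jn_mv (g := t.g)).2 h
      rw [he, ← hcz] at h3
      refine Jn.mono ?_ ?_ ?_ h3
      · rintro v ⟨u, hu, rfl⟩
        rw [mem_coe]
        refine mem_image_of_mem _ (mem_union.2 ?_)
        rw [mem_coe, mem_union] at hu
        exact hu.imp (hGW u) id
      · rintro v ⟨u, hu, rfl⟩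
        rw [Set.mem_singleton_iff] at hu ⊢
        rw [hu, hzg]
      · rintro v ⟨u, hu, rfl⟩
        cases hkk : t.k
        · rw [hkk] at hu
          obtain ⟨u1, u2, u3, u4⟩ : u ∈ Vs (cz z₀) (-t.a) (t.b + d) (t.b + 2 * d) := hu
          refine ⟨_, ht.tgt (-t.a - 1, u.2) ?_, Isom.isC_S.2 ?_⟩
          · unfold tgT
            rw [hkk]
            simp only [Bool.false_eq_true, if_false]
            rw [mem_Rsq]
            dsimp only
            omega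
          · unfold IsC
            dsimp only
            omega
        · rw [hkk] at hu
          obtain ⟨u1, u2, u3, u4⟩ : u ∈ Hs (cz z₀) 1 (-t.a - 2 * d) (-t.a - d) := hu
          refine ⟨_, ht.tgt (u.1, 0) ?_, Isom.isC_S.2 ?_⟩
          · unfold tgT
            rw [hkk]
            simp only [if_true]
            rw [mem_Rsq]
            dsimp only
            omega
          · unfold IsC
            dsimp only
            omega
    have n1 : 0 ≤ Ex Q (D.image t.g.V.symm) (t.g.iv η)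
        ((AZ e (U.image t.g.V.symm) z₀ (16 * k)).indicator 1) :=
      FKA.Ex_nonneg hQ.pos fun S _ => Set.indicator_nonneg (fun _ _ => zero_le_one) _
    calc κ₁ * κ₂ * Ex Q D η ((AZ (cz z) U z ρ).indicator 1)
        ≤ κ₁ * κ₂ * Ex Q (D.image t.g.V.symm) (t.g.iv η)
            ((AZ e (U.image t.g.V.symm) z₀ (16 * k)).indicator 1) :=
          mul_le_mul_of_nonneg_left i1 (mul_pos h1 h2).le
      _ ≤ κ₁ * VT Q e (tubT t.k t.a t.b d ρ) (Hs e 1 (ρ / 4) (3 * ρ / 8)) (endT e t.k t.a t.b d) *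
            Ex Q (D.image t.g.V.symm) (t.g.iv η)
            ((AZ e (U.image t.g.V.symm) z₀ (16 * k)).indicator 1) :=
          mul_le_mul_of_nonneg_right (mul_le_mul_of_nonneg_left e1 h1.le) n1
      _ ≤ _ := key
      _ ≤ _ := i2
  · -- the end is a boundary site
    cases hkk : t.k
    · refine bd_left fun v hv => ?_
      rw [mem_tubT] at hv
      simp only [Bool.false_eq_true, if_false] at hv
      omega
    · have hy2 := hy1
      rw [hkk] at hy2
      exact bd_bot hy2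
  · -- the tube leaves the box
    intro v hv hvG y hy _
    refine far_of_isC (v := v) (fun h => hvG (mem_sdiff.2 ⟨h, fun h3 => ?_⟩)) ⟨hy.1, hy.2.1⟩
    exact hfree v (Or.inr hv) ((memU v).1 h3)
  · -- the end is far
    intro y hy _
    rw [le_nm]
    simp only [Prod.fst_sub, Prod.snd_sub]
    cases hkk : t.k
    · rw [hkk] at hy
      obtain ⟨u1, u2, u3, u4⟩ : y ∈ Vs e (-t.a) (t.b + d) (t.b + 2 * d) := hy
      omega
    · rw [hkk] at hy
      obtain ⟨u1, u2, u3, u4⟩ : y ∈ Hs e 1 (-t.a - 2 * d) (-t.a - d) := hy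
      omega

end Vale.Agent.P167.N.ID
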