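import Vale.Agent.P167.N.ID.WinNd

/-!
# P167, `q < 1`, START: the windows of a frame (`winG_of`)

`winG_of`: `FrS.WinG` for every frame of rows, from the geometry, the ends of the rows at the holes
and the windows at the holes.
-/

set_option autoImplicit false

namespace Vale.Agent.P167.N.ID

open Finset Filter
open Vale.Agent.P167 Vale.Agent.P167.N
open Vale.Agent.P167.BR hiding dv
open Vale.Agent.P167.FK
open Vale.Agent.P167.XDL (bS mem_bS)

variable {Φ : FrS Row} {θ β : ℝ} {hc : 0 ≤ Real.cos θ} {l : ℕ} {p : ZMod l → ℤ × ℤ}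
  {S₀ : Finset (ℤ × ℤ)}

/-- **The windows of a frame.** -/
theorem winG_of (h0 : 0 < θ) (h12 : θ < Real.pi / 2) (hc1 : 2 * Real.cos θ ≤ 1)
    (hG : Φ.Geo (rowS θ) (rowF hc) {true} θ β p S₀) (hE : Φ.EndG) (hH : Φ.HolG θ) :
    Φ.WinG (rowS θ) (rowF hc) {true} θ := by
  classical
  have h13 : Real.pi / 3 ≤ θ := by
    by_contra h
    push Not at h
    have h1 : Real.cos (Real.pi / 3) < Real.cos θ :=
      Real.cos_lt_cos_of_nonneg_of_le_pi h0.le (by linarith) h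
    rw [Real.cos_pi_div_three] at h1
    linarith
  obtain ⟨hsn, hcs, -⟩ := sin_two_le h13 h12
  obtain ⟨g, hg, hg1, δg, hδg, hG⟩ := hG
  obtain ⟨δe, hδe, hE⟩ := hE
  obtain ⟨κ₁, δh, hκ₁, hδh, hH⟩ := hH
  refine ⟨8 * Fintype.card Φ.ι, (2 * Real.cos θ)⁻¹, 9, min g κ₁ / 64, by positivity, by norm_num,
    by positivity, fun κ' hκ' hκ => ⟨min (κ' / 16) (min δg (min δe δh)), by positivity,
    fun δ hδ hδ1 => ?_⟩⟩
  have d1 : δ < κ' / 16 := lt_of_lt_of_le hδ1 (min_le_left _ _)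
  have d2 : δ < δg := lt_of_lt_of_le hδ1 ((min_le_right _ _).trans (min_le_left _ _))
  have d3 : δ < δe := lt_of_lt_of_le hδ1
    ((min_le_right _ _).trans ((min_le_right _ _).trans (min_le_left _ _)))
  have d4 : δ < δh := lt_of_lt_of_le hδ1
    ((min_le_right _ _).trans ((min_le_right _ _).trans (min_le_right _ _)))
  have k1 : κ' ≤ g / 64 := by
    have := min_le_left g κ₁
    linarith
  have k2 : κ' ≤ κ₁ / 64 := by
    have := min_le_right g κ₁
    linarith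
  filter_upwards [hG δ hδ d2, hE δ hδ d3, hH δ hδ d4,
    (tendsto_natCast_atTop_atTop.const_mul_atTop hδ).eventually_ge_atTop (64 : ℝ)]
    with n hGn hEn hHn hbn ω hgd hf
  have hS : Scl g δ κ' κ₁ n := ⟨hbn, by linarith, by linarith, by linarith, hg1⟩
  refine ⟨fun hz => w0_n h13 h12 hGn hS hgd hf hz, ftK (Φ.r δ n) (Φ.U (rowS θ) δ n) ω,
    τK θ (Φ.r δ n) (Φ.U (rowS θ) δ n) (κ' * n) ω, ftK_card hgd, τK_nonneg hc,
    fun x hx hxK hsm => ?_, fun ℓ hl hm hsm hft => ?_, fun Z N hZ hM hne => ?_⟩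
  · convert w1_n h13 h12 hGn hEn hS hHn hgd hx hxK hsm
  · convert w2_n h13 h12 hGn hEn hS hHn hf hl hm hsm hft
  · convert w3_n h13 h12 hGn hS hgd hZ hM hne

end Vale.Agent.P167.N.ID
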