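import Vale.Agent.P167.N.ID.WtG

/-!
# P167, `q < 1`: **the input `RowG` of the rows**
-/

set_option autoImplicit false

namespace Vale.Agent.P167.N.ID

open Finset
open Vale.Agent.P167
open Vale.Agent.P167.N
open Vale.Agent.P167.FK
open Vale.Agent.P167.BR hiding dv
open Vale.Agent.P167.QX (rS InB Bx Bq_eq)
open Vale.Agent.P167.N.ID.W

variable {θ : ℝ}

/-- **`RowG` for the rows.** -/
theorem rowG_row (h1 : Ang θ) (hθ : 0 ≤ Real.cos θ) :
    RowG (rowS θ) (rowF hθ) (fun κ n r => r.Ok θ κ n) θ := by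
  have hpi := Real.pi_pos
  have hgt := h1.gt
  have hlt := h1.lt
  have hs : 0 < Real.sin θ := h1.sin_pos
  have hc : 0 < Real.cos θ := h1.cos_pos
  have hc1 : 2 * Real.cos θ ≤ 1 := by
    have := Real.cos_le_cos_of_nonneg_of_le_pi (by linarith) (by linarith) hgt.le
    rw [Real.cos_pi_div_three] at this
    linarith
  have hs2 : 0 < Real.sin (2 * θ) := by rw [Real.sin_two_mul]; positivity
  have hC1 : 1 ≤ (Real.sin (2 * θ))⁻¹ := one_le_inv2 hs2
  have hC2 : 1 ≤ (2 * Real.cos θ)⁻¹ := (one_le_inv₀ (by linarith)).2 hc1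
  refine ⟨(Real.sin (2 * θ))⁻¹ ^ 2 * (2 * Real.cos θ)⁻¹ ^ 3,
    one_le_mul_of_one_le_of_one_le (one_le_pow₀ hC1) (one_le_pow₀ hC2), 1, ?_⟩
  intro r κ n d ρ ω _ hr hg hfr hd h2 h3
  refine ⟨GG r.toRow r.zt r.zm d ρ ω, fun e he => ?_, fun e h4 h5 h6 => ?_, ?_⟩
  · obtain ⟨hS, h6⟩ := mem_GG.1 he
    refine ⟨hS.tl, hS.out, ?_⟩
    rcases h6 with h6 | h6 | ⟨-, h6⟩
    · rw [Bq_eq] at h6
      exact ⟨_, _, by simp only; omega, by simp only; omega, h6⟩
    · rw [Bq_eq] at h6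
      exact ⟨_, _, by simp only; omega, by simp only; omega, h6⟩
    · rw [Bq_eq] at h6
      exact ⟨_, _, by simp only; omega, by simp only; omega, h6⟩
  · exact mem_GG.2 ⟨⟨h5, h4, h6.1⟩, Or.inl h6⟩
  · refine (row_core (z := 0) hr hgt.le hlt hg hfr hd h2 h3).trans (le_of_eq ?_)
    rw [Fintype.prod_bool]
    rfl

end Vale.Agent.P167.N.ID
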