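import Vale.Agent.P167.N.ID.FrIn
import Vale.Agent.P167.N.ID.FrmF
import Vale.Agent.P167.N.ID.FrmG
import Vale.Agent.P167.N.ID.L2Glue
import Vale.Agent.P167.N.ID.FrLB
import Vale.Agent.P167.N.ID.FrLP
import Vale.Agent.P167.N.ID.FrLE
import Vale.Agent.P167.N.ID.L2B
import Vale.Agent.P167.N.ID.L2T
import Vale.Agent.P167.N.ID.PhD
import Vale.Agent.P167.N.ID.P2Tf
import Vale.Agent.P167.N.ID.WinS
import Vale.Agent.P167.N.ID.WinO
import Vale.Agent.P167.H433.PsFin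
import Vale.Agent.P167.N.ID.FrmE
import Vale.Agent.P167.N.ID.P1A
import Vale.Agent.P167.N.ID.P1K2
import Vale.Agent.P167.N.ID.PosR
import Vale.Agent.P167.N.ID.RowInv
import Vale.Agent.P167.N.ID.WtH
import Vale.Agent.P167.N.H167.Q.Shp
import Vale.Agent.P167.N.H825.Q.Nrm
import Vale.Agent.P167.N.KitQ
import Vale.Agent.P167.N.Base.ArmS
import Vale.Agent.P167.N.H519.GLim
import Vale.Agent.P167.QB.FactC

/-!
# P167, `0 < q < 1`: block 2A for the Dobrushin gauge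

`two_all : S2aQq θ (gB θ)`, from the literal inputs for the rows and the frames.
-/

set_option autoImplicit false

namespace Vale.Agent.P167.N.ID

open Finset Filter Topology MeasureTheory

open Vale.Agent.P167 Vale.Agent.P167.N

open Vale.Agent.P167.FK

open Vale.Agent.P167.H519 (IsLim)

open Vale.Agent.P167.H825 (dv enl FlowIn Box)

open Vale.Agent.P167.H825.Q (S2aQq Bc)

open Vale.Agent.P167.E6 (IsPolygon Encloses)

open Vale.Agent.P167.QB (gB gB_cos)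

open Vale.Agent.P167.N.H825.Q (GpT Nrm)

open Vale.Agent.P167.H199 (mks)

open Vale.Agent.P167.Enl (BGap)

variable {θ : ℝ}

/-- The hypotheses on the data. -/
structure DtS {l : ℕ} (p : ZMod l → ℤ × ℤ) (S₀ : Finset (ℤ × ℤ)) (tp : ℝ) (bc : Bc) (b : Box) :
    Prop where
  hp : IsPolygon p
  hD : Encloses p S₀
  hN : Nrm p
  t0 : 0 < tp
  t1 : tp < 1
  bci : bc.In l
  bok : b.Ok S₀
  gpt : GpT b tp
  gp : bc.Gp b

theorem DtS.ok {l : ℕ} [NeZero l] {p : ZMod l → ℤ × ℤ} {S₀ : Finset (ℤ × ℤ)} {tp : ℝ} {bc : Bc}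
    {b : Box} (h : DtS p S₀ tp bc b) : bc.Ok l (H199.mks p b tp) :=
  h.bci.ok (p := p) (tp := tp) h.gp

/-- (310) Comparison of the radii for the arms of the killed sites. -/
theorem in_p1aK (h1 : Ang θ) : P1aK θ := p1aK h1.kit

section frames

variable {l : ℕ} [NeZero l] {p : ZMod l → ℤ × ℤ} {S₀ : Finset (ℤ × ℤ)} {tp : ℝ} {bc : Bc} {b : Box}
  {ia : ℕ} {ta : ℝ}

/-- (413, 99, 891) -/
theorem geo_frP (h1 : Ang θ) (h : DtS p S₀ tp bc b) (_ : bc = .free ∨ bc = .wired) :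
    (frP θ (gB θ) p S₀ b tp bc).Geo (rowS θ) (rowF h1.cos_pos.le) {true} θ (gB θ) p S₀ :=
  frP_geo h1.cos_pos.le h1.pos h1.lt (Or.inl rfl) h.hp h.hD h.hN h.bok h.t0 h.t1 h.gpt
    h.ok

/-- (413, 99, 891) -/
theorem geo_frD (h1 : Ang θ) (h : DtS p S₀ tp (.dob ia ta) b) :
    (frD θ (gB θ) p S₀ b tp ia ta).Geo (rowS θ) (rowF h1.cos_pos.le) {true} θ (gB θ) p S₀ :=
  frD_geo h1.cos_pos.le h1.pos h1.lt (Or.inl rfl) h.hp h.hD h.hN h.bok h.t0 h.t1 h.gpt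
    h.ok

/-- (693, 99, 413) -/
theorem win_frP (h1 : Ang θ) (h : DtS p S₀ tp bc b) (hbc : bc = .free ∨ bc = .wired) :
    (frP θ (gB θ) p S₀ b tp bc).WinG (rowS θ) (rowF h1.cos_pos.le) {true} θ :=
  winG_of h1.pos h1.lt h1.kit.lt.le (geo_frP h1 h hbc) (frP_ends h.hp h.bok h.t0 h.t1 h.gpt)
    (frP_holG h.hp h.hD h.hN h.bok h.t0 h.t1 h.gpt h.ok hbc)

/-- (693, 99, 413) -/
theorem win_frD (h1 : Ang θ) (h : DtS p S₀ tp (.dob ia ta) b) :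
    (frD θ (gB θ) p S₀ b tp ia ta).WinG (rowS θ) (rowF h1.cos_pos.le) {true} θ :=
  winG_of h1.pos h1.lt h1.kit.lt.le (geo_frD h1 h) (frD_ends h.hp h.hD h.hN h.bok h.t0 h.t1 h.gpt)
    (frD_holG h.hp h.hD h.hN h.bok h.t0 h.t1 h.gpt h.ok)

/-- (807, 561, 17) The cells of the Dobrushin frames. -/
theorem cellsD {g δ : ℝ} {n : ℕ}
    (hN : DobN p S₀ b tp g δ n) (hB : BGap l (mks p b tp) g (.dob ia ta)) :
    CellsD θ (gB θ) p S₀ b tp ia ta (Nat.pos_of_ne_zero (NeZero.ne l)) δ n := by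
  obtain ⟨cR, cX, h2, -, -⟩ := dobF_frD (θ := θ) (β := gB θ) (ia := ia) (ta := ta) hN hB
  have e0 : (⟨0, Nat.pos_of_ne_zero (NeZero.ne l)⟩ : Fin l) = 0 := Fin.ext (by simp)
  refine ⟨_, _, cR, cX, fun B h3 => (h2 B h3).1, fun η hη B h3 => (h2 B h3).2.1 η hη,
    fun hc j h3 h4 h5 h6 => ?_, fun hc j h3 h4 h5 h6 => ?_⟩
  · rw [e0]
    exact (h2 _ (Set.Subset.refl _)).2.2 j (Or.inl ⟨hc, h3, h4⟩) h5 h6
  · rw [e0]
    exact (h2 _ (Set.Subset.refl _)).2.2 j (Or.inr ⟨hc, h3, h4⟩) h5 h6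

/-- (772) -/
theorem l2b_frD (h1 : Ang θ) (h : DtS p S₀ tp (.dob ia ta) b) :
    (frD θ (gB θ) p S₀ b tp ia ta).L2b (rowS θ) θ :=
  frD_l2b h1.pos h1.lt h.hp h.hD h.hN h.bok h.t0 h.t1 h.gpt h.ok


/-- The loops of the free and wired frames. -/
theorem l2_frP (h1 : Ang θ) (h : DtS p S₀ tp bc b) (hbc : bc = .free ∨ bc = .wired) :
    (frP θ (gB θ) p S₀ b tp bc).L2Sg (rowS θ) (rowF h1.cos_pos.le) {true} θ S₀ := by
  have hO := oneG_frP (θ := θ) (β := gB θ) h.hp h.hD h.hN h.bok h.t0 h.t1 h.gpt hbc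
  exact FrS.l2sg_of (l2a_one h1.sin_pos.ne' h1.cos_pos hO) 
    (frP_l2b h1.pos h1.lt h.hp h.hD h.hN h.bok h.t0 h.t1 h.gpt h.ok hbc)
    (l2c_one h1.sin_pos.ne' h1.cos_pos hO)
    (frP_l2d h1.cos_pos.le h1.pos h1.lt h.hp h.hD h.hN h.bok h.t0 h.t1 h.gpt h.ok hbc)
    (l2e_one h1.sin_pos.ne' h1.cos_pos h1.kit.lt.le hO)

/-- The loops of the Dobrushin frames. -/
theorem l2_frD (h1 : Ang θ) (h : DtS p S₀ tp (.dob ia ta) b) :
    (frD θ (gB θ) p S₀ b tp ia ta).L2Sg (rowS θ) (rowF h1.cos_pos.le) {true} θ S₀ := by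
  have hO : (frD θ (gB θ) p S₀ b tp ia ta).DobG θ (gB θ) S₀ :=
    dobG_of h.hp h.hD h.hN h.bok h.t0 h.t1 h.gpt h.ok h1.lt (by linarith [h1.gt]) rfl
      (Nat.pos_of_ne_zero (NeZero.ne l)) fun _ _ _ hN hB => cellsD hN hB
  exact FrS.l2sg_of (l2a_dob h1.sin_pos.ne' h1.cos_pos rfl hO) (l2b_frD h1 h)
    (l2c_dob h1.sin_pos.ne' h1.cos_pos rfl hO)
    (frD_l2d h1.cos_pos.le h1.pos h1.lt h.hp h.hD h.hN h.bok h.t0 h.t1 h.gpt h.ok)
    (l2e_dob h1.sin_pos.ne' h1.cos_pos h1.kit.lt.le rfl hO (geo_frD h1 h))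

/-- (262, 993, 99, 413) The loops at the holes of the free and wired frames. -/
theorem p2t_frP (h1 : Ang θ) {P : Measure Cfg} (hP : IsLim (2 * Real.cos θ) P)
    (h : DtS p S₀ tp bc b) (hbc : bc = .free ∨ bc = .wired) :
    (frP θ (gB θ) p S₀ b tp bc).P2Tg (rowS θ) (rowF h1.cos_pos.le) {true} θ P :=
  frP_p2t h1.pos h1 hP (Vale.Agent.P167.N.H199.good_aeQ h1.pos.le h1 hP h1.pos)
    (geo_frP h1 h hbc) h.hp h.hD h.hN h.bok h.t0 h.t1 h.gpt h.ok hbc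

/-- (262, 993, 99, 413) The loops at the holes of the Dobrushin frames. -/
theorem p2t_frD (h1 : Ang θ) {P : Measure Cfg} (hP : IsLim (2 * Real.cos θ) P)
    (h : DtS p S₀ tp (.dob ia ta) b) :
    (frD θ (gB θ) p S₀ b tp ia ta).P2Tg (rowS θ) (rowF h1.cos_pos.le) {true} θ P :=
  frD_p2t h1.pos h1 hP (Vale.Agent.P167.N.H199.good_aeQ h1.pos.le h1 hP h1.pos)
    (geo_frD h1 h) h.hp h.hD h.hN h.bok h.t0 h.t1 h.gpt h.ok

/-- (433, 310, 17, 787, 276) The strands of the free and wired frames. -/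
theorem p2s_frP (h1 : Ang θ) {P : Measure Cfg} (hP : IsLim (2 * Real.cos θ) P)
    (h : DtS p S₀ tp bc b) (hbc : bc = .free ∨ bc = .wired) :
    (frP θ (gB θ) p S₀ b tp bc).P2Sg (rowS θ) (rowF h1.cos_pos.le) {true} θ P :=
  Vale.Agent.P167.H433.frP_p2s h1 hP h.hp h.hD h.hN h.bok h.t0 h.t1 h.gpt h.ok hbc

/-- (433, 569, 310, 17, 787, 276, 993) The strands of the Dobrushin frames. -/
theorem p2s_frD (h1 : Ang θ) {P : Measure Cfg} (hP : IsLim (2 * Real.cos θ) P)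
    (h : DtS p S₀ tp (.dob ia ta) b) :
    (frD θ (gB θ) p S₀ b tp ia ta).P2Sg (rowS θ) (rowF h1.cos_pos.le) {true} θ P :=
  Vale.Agent.P167.H433.frD_p2s h1 hP rfl h.hp h.hD h.hN h.bok h.t0 h.t1 h.gpt h.ok

omit [NeZero l] in
/-- The domain is in the picture. -/
theorem dbox_all (hp : IsPolygon p) (hD : Encloses p S₀) (hN : Nrm p) :
    ∀ᶠ n : ℕ in atTop, ∀ v ∈ enl S₀ n, (nm v : ℝ) ≤ ((bM p : ℝ) + 1) * n := by
  filter_upwards [eventually_gt_atTop 0] with n hn v hv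
  obtain ⟨⟨h1, h2⟩, h3, h4⟩ := enl_mem hp hD hN hn hv
  have hn' : (0 : ℤ) < n := by exact_mod_cast hn
  have h5 : nm v ≤ bM p * n := nm_le_iff.2 ⟨⟨by linarith, by linarith⟩, by linarith, by linarith⟩
  have h6 : (nm v : ℝ) ≤ bM p * n := by exact_mod_cast h5
  have h7 : (0 : ℝ) ≤ n := Nat.cast_nonneg n
  linarith

omit [NeZero l] in
/-- The shape of the domain at the holes. -/
theorem shd_all {Φ : FrS Row} (hp : IsPolygon p) (hD : Encloses p S₀) : Φ.ShD S₀ := by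
  refine ⟨1 / 2, by norm_num, 1, one_pos, fun δ hδ _ => ?_⟩
  filter_upwards [eventually_gt_atTop 0] with n hn x r R hr hR
  have h0 : (0 : ℤ) ≤ r := by
    have : (0 : ℤ) ≤ (⌊δ * n⌋₊ : ℤ) := by positivity
    omega
  have h1 : 2 * R ≤ n := by
    have : 2 * (R : ℝ) ≤ n := by linarith
    exact_mod_cast this
  exact (Vale.Agent.P167.N.H167.Q.shp_enl hp hD hn h1).mono h0 le_rfl

end frames

/-- The types. -/
noncomputable def in_ty (h1 : Ang θ) {P : Measure Cfg} (hP : IsLim (2 * Real.cos θ) P) :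
    TyS (rowF h1.cos_pos.le) P := rowTy h1.cos_pos.le h1.kit.pos hP

theorem in_p1a (h1 : Ang θ) : P1ag (rowS θ) (rowF h1.cos_pos.le) θ :=
  p1ag_row h1.cos_pos.le h1.kit h1.kit.rsw (in_p1aK h1)

theorem in_p1b (h1 : Ang θ) : P1bg (rowS θ) (rowF h1.cos_pos.le) θ :=
  p1bg_row h1.cos_pos.le h1.kit h1.kit.rsw (in_p1a h1)

theorem in_p1c (h1 : Ang θ) : P1cg (rowS θ) (rowF h1.cos_pos.le) θ :=
  p1cg_row h1.cos_pos.le h1.kit.pos h1.kit.lt.le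

/-- **The frames.** -/
theorem in_fr (h1 : Ang θ) {P : Measure Cfg} (hP : IsLim (2 * Real.cos θ) P) {l : ℕ} [NeZero l]
    {p : ZMod l → ℤ × ℤ} {S₀ : Finset (ℤ × ℤ)} {tp : ℝ} {bc : Bc} {b : Box}
    (h : DtS p S₀ tp bc b) :
    ∃ Φ : FrS Row, FrIn θ (gB θ) h1.cos_pos.le (in_ty h1 hP) p S₀ b Φ ∧
      (∀ n, Φ.k n = bc.ka l n (Φ.t n)) ∧
      (∃ m : ℕ, ∀ᶠ n : ℕ in atTop, |(Φ.t n : ℝ) - tp * n| ≤ m) ∧
      ((bc = .free ∨ bc = .wired) ∨ ∀ᶠ n : ℕ in atTop, Φ.t n = ⌊tp * (n : ℝ)⌋₊) := by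
  have hgd := Vale.Agent.P167.N.H199.good_aeQ h1.pos.le h1 hP h1.pos
  have hcl := clW_ok h1 h1.cos_pos.le hP hgd (in_ty h1 hP) (fpos_row h1.cos_pos.le h1.cos_pos)
  have keyP : (bc = .free ∨ bc = .wired) →
      ∃ Φ : FrS Row, FrIn θ (gB θ) h1.cos_pos.le (in_ty h1 hP) p S₀ b Φ ∧
      (∀ n, Φ.k n = bc.ka l n (Φ.t n)) ∧
      (∃ m : ℕ, ∀ᶠ n : ℕ in atTop, |(Φ.t n : ℝ) - tp * n| ≤ m) ∧
      ((bc = .free ∨ bc = .wired) ∨ ∀ᶠ n : ℕ in atTop, Φ.t n = ⌊tp * (n : ℝ)⌋₊) := by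
    intro hbc
    exact ⟨frP θ (gB θ) p S₀ b tp bc,
      { geo := geo_frP h1 h hbc
        dbox := dbox_all h.hp h.hD h.hN
        shd := shd_all h.hp h.hD
        fam := fam_frP hcl h.hp h.hD h.t0 h.t1 h.bci h.bok h.gpt h.gp h1.pos h1.lt (Or.inl rfl)
        win := win_frP h1 h hbc
        l2 := l2_frP h1 h hbc
        p2t := p2t_frP h1 hP h hbc
        p2s := p2s_frP h1 hP h hbc },
      fun n => rfl, ⟨1, Eventually.of_forall fun n =>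
        le_of_le_of_eq (tP_near (p := p) (bc := bc) h.t0 n) Nat.cast_one.symm⟩,
      Or.inl hbc⟩
  cases bc with
  | free => exact keyP (Or.inl rfl)
  | wired => exact keyP (Or.inr rfl)
  | dob ia ta =>
    exact ⟨frD θ (gB θ) p S₀ b tp ia ta,
      { geo := geo_frD h1 h
        dbox := dbox_all h.hp h.hD h.hN
        shd := shd_all h.hp h.hD
        fam := fam_frD hcl h.hp h.hD h.hN h.t0 h.t1 h.bci h.bok h.gpt h.gp h1.pos h1.lt (Or.inl rfl)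
        win := win_frD h1 h
        l2 := l2_frD h1 h
        p2t := p2t_frD h1 hP h
        p2s := p2s_frD h1 hP h },
      fun n => rfl, ⟨1, Eventually.of_forall fun n =>
        le_of_le_of_eq (tP_near (p := p) (bc := .dob ia ta) h.t0 n) Nat.cast_one.symm⟩, Or.inr (Eventually.of_forall fun n => rfl)⟩

/-- **START.** -/
theorem in_start (h1 : Ang θ) {P : Measure Cfg} (hP : IsLim (2 * Real.cos θ) P) :
    STARTt θ (gB θ) P (clW h1.cos_pos.le (in_ty h1 hP)) :=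
  startt_of h1.pos h1 h1.cos_pos.le (gB_cos θ) h1.kit.rsw hP
    (Vale.Agent.P167.N.H199.good_aeQ h1.pos.le h1 hP h1.pos) (in_ty h1 hP) (in_p1a h1) (in_p1b h1)
    (in_p1c h1) (rat_rows h1.kit h1.cos_pos.le)
    fun _ _ _ _ hp hD hN _ ht0 ht1 _ hbc _ hb ht hg =>
      in_fr h1 hP ⟨hp, hD, hN, ht0, ht1, hbc, hb, ht, hg⟩

/-- **Block 2A.** -/
theorem two_all (h0 : 0 < θ) (h1 : Ang θ) : S2aQq θ (gB θ) := by
  obtain ⟨α, C, hα, -, hA, -⟩ := h1.kit.arm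
  obtain ⟨P, hP⟩ := Vale.Agent.P167.N.H519.exists_lim h1.kit hα hA
  exact Vale.Agent.P167.N.H825.Q.s2aQq_of_N (s2aQqN_asm h0 h1 h1.cos_pos.le (gB_cos θ) h1.kit.rsw
    h1.kit.armS hP (in_ty h1 hP) (rowG_row h1 h1.cos_pos.le) (in_p1a h1) (in_p1b h1) (in_p1c h1)
    (rat_rows h1.kit h1.cos_pos.le) (fpos_row h1.cos_pos.le h1.cos_pos)
    (zinv_zw h1.cos_pos.le h1.kit.pos hP) (in_start h1 hP))

end Vale.Agent.P167.N.ID
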