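import Vale.Agent.P167.N.ID.WinI

/-!
# P167, `q < 1`, START: the killed strands in the windows at the spoke

* `WinD.KR`: the pairs of wall steps which are killed by their type join related squares.
* `WinD.Ok.kil_rel`: the ends of a strand which is killed by its type are related.
* `winT_okK`, `winF_okK`: the windows of the hole with three rows and of the foot.
-/

set_option autoImplicit false
set_option linter.unnecessarySeqFocus false
set_option linter.unusedVariables false

namespace Vale.Agent.P167.N.ID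

open Finset
open Vale.Agent.P167.Top
open Vale.Agent.P167.FK
open Vale.Agent.P167.BR
open Vale.Agent.P167.H871
open Vale.Agent.P167.H871.Q
open Vale.Agent.P167.XDL (bS mem_bS)
open Vale.Agent.P167.H680.S (nxt nxt_mem)
open Vale.Agent.P167.QX (returns_loop)

/-- **The pairs of wall steps which are killed by their type** join related squares. -/
def WinD.KR (w : WinD) (Rel : ℤ × ℤ → ℤ × ℤ → Prop) : Prop :=
  ∀ i j, w.W i → w.W j → i < j → (w.s i - w.s j = -1 ∨ w.s i - w.s j = 2) →
    Rel (sqL (w.P i) (w.u i - 1)) (sqL (w.P j) (w.u j - 1))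

theorem WinD.KR.mono {w : WinD} {R R' : ℤ × ℤ → ℤ × ℤ → Prop} (h : w.KR R)
    (h' : ∀ u v, R u v → R' u v) : w.KR R' := fun i j h1 h2 h3 h4 => h' _ _ (h i j h1 h2 h3 h4)

/-- **The ends of a strand which is killed by its type are related.** -/
theorem WinD.Ok.kil_rel {θ : ℝ} {w : WinD} {K : Finset (ℤ × ℤ)} {EE : Set Ed}
    {a : Ed → Bool → ℝ} {ω : Cfg} {ℓ : Finset Ed} {e : Ed} {Rel : ℤ × ℤ → ℤ × ℤ → Prop}
    (h : w.Ok θ K EE a) (hv : w.Lv K ω ℓ) (he : e ∈ exs K ℓ) (hk : w.Kil K ω e)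
    (hR : w.KR Rel) : Rel (tlv e) (hdv (nxt (bS K) ω e)) ∨
      Rel (hdv (nxt (bS K) ω e)) (tlv e) := by
  obtain ⟨g1, g2, g3⟩ := mem_exs.1 he
  have hl := hv.loop
  obtain ⟨i, j, i1, j1, i2, j2, h3⟩ := hk
  have h4 := h.stay hv e g3 g2
  have h5 := (QX.exc_last g2 (returns_loop hl g3 g1)).1
  obtain ⟨-, -, -, -, e1⟩ := cross_in h.bd i2 h4
  obtain ⟨-, -, -, e2, -⟩ := cross_out h.bd j2 (h.kd _ h5)
  rw [e1, e2]
  rcases lt_trichotomy i j with h6 | h6 | h6
  · left
    refine hR i j i1 j1 h6 ?_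
    rw [if_pos h6] at h3
    rcases h.sg with hs | hs <;> rw [hs] at h3 <;> omega
  · exfalso
    rw [h6, if_neg (lt_irrefl _)] at h3
    rcases h.sg with hs | hs <;> rw [hs] at h3 <;> omega
  · right
    refine hR j i j1 i1 h6 ?_
    rw [if_neg (by omega)] at h3
    rcases h.sg with hs | hs <;> rw [hs] at h3 <;> omega

variable {θ : ℝ} {a : Ed → Bool → ℝ} {EE : Set Ed} {σ : ℤ} {c : ℝ} {z : ℤ × ℤ} {K : Finset (ℤ × ℤ)}
  {A B S R : ℕ}

/-! ### three rows -/

/-- The two squares are in the row `B`, or in the row `A`, or one in `B` and one in `A`. -/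
def RT (z : ℤ × ℤ) (A B R : ℕ) (u v : ℤ × ℤ) : Prop :=
  ((u.2 = z.2 - 1 ∧ (R : ℤ) - B ≤ u.1 - z.1) ∧ (v.2 = z.2 - 1 ∧ (R : ℤ) - B ≤ v.1 - z.1)) ∨
  ((u.1 = z.1 - 1 ∧ (R : ℤ) - A ≤ u.2 - z.2) ∧ (v.1 = z.1 - 1 ∧ (R : ℤ) - A ≤ v.2 - z.2)) ∨
  ((u.2 = z.2 - 1 ∧ (R : ℤ) - B ≤ u.1 - z.1) ∧ (v.1 = z.1 - 1 ∧ (R : ℤ) - A ≤ v.2 - z.2))

/-- The two squares are in the spoke. -/
def RF (z : ℤ × ℤ) (S R : ℕ) (u v : ℤ × ℤ) : Prop :=
  (u.1 = z.1 ∧ (R : ℤ) + 1 - S ≤ u.2 - z.2) ∧ (v.1 = z.1 ∧ (R : ℤ) + 1 - S ≤ v.2 - z.2)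

/-- The inner squares of the wall steps which are not at the spoke. -/
theorem wTV_in (hA : 1 ≤ A) (hB : 1 ≤ B) (hS : 1 ≤ S) (hAR : A < R) (hBR : B + 1 < R)
    (hSR : S < R) {k : ℕ} {p : ℤ × ℤ} {u : ℤ} (h : wTV A B S R k p.1 p.2 u)
    (hV : sqL p (u - 1) ∈ wTU R) (hk : 3 * R + 2 * S - 1 ≤ k) :
    ((k < 3 * R + 2 * S + 2 * B ∧ (sqL p (u - 1)).2 = -1 ∧ (R : ℤ) - B ≤ (sqL p (u - 1)).1) ∨
      (5 * R + 2 * S + 2 * B ≤ k ∧ (sqL p (u - 1)).1 = -1 ∧ (R : ℤ) - A ≤ (sqL p (u - 1)).2)) ∧ True := by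
  obtain ⟨x, y⟩ := p
  refine ⟨?_, trivial⟩
  obtain ⟨a1, a2, a3, a4⟩ := hV
  unfold wTV at h
  rcases h with h1 | h1 | h1 | h1 | h1 | h1 | h1 | h1 | h1 | h1 | h1 | h1 | h1 | h1 | h1 | h1 <;>
    obtain ⟨h2, h3, h4, h5, rfl⟩ := h1
  · omega
  · omega
  · omega
  · omega
  · omega
  · omega
  · rw [show (2 : ℤ) - 1 = 1 by norm_num, (sqL_e x y).2.1] at a1 a2 a3 a4 ⊢
    simp only at a1 a2 a3 a4 h4 h5 ⊢
    omega
  · rw [show (1 : ℤ) - 1 = 0 by norm_num, (sqL_e x y).1] at a1 a2 a3 a4 ⊢
    simp only at a1 a2 a3 a4 h4 h5 ⊢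
    omega
  · rw [show (0 : ℤ) - 1 = -1 by norm_num, (sqL_e x y).2.2.2.2.1] at a1 a2 a3 a4 ⊢
    simp only at a1 a2 a3 a4 h4 h5 ⊢
    omega
  · rw [show (1 : ℤ) - 1 = 0 by norm_num, (sqL_e x y).1] at a1 a2 a3 a4 ⊢
    simp only at a1 a2 a3 a4 h4 h5 ⊢
    omega
  · rw [show (2 : ℤ) - 1 = 1 by norm_num, (sqL_e x y).2.1] at a1 a2 a3 a4 ⊢
    simp only at a1 a2 a3 a4 h4 h5 ⊢
    omega
  · rw [show (3 : ℤ) - 1 = 2 by norm_num, (sqL_e x y).2.2.1] at a1 a2 a3 a4 ⊢
    simp only at a1 a2 a3 a4 h4 h5 ⊢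
    omega
  · rw [show (2 : ℤ) - 1 = 1 by norm_num, (sqL_e x y).2.1] at a1 a2 a3 a4 ⊢
    simp only at a1 a2 a3 a4 h4 h5 ⊢
    omega
  · rw [show (1 : ℤ) - 1 = 0 by norm_num, (sqL_e x y).1] at a1 a2 a3 a4 ⊢
    simp only at a1 a2 a3 a4 h4 h5 ⊢
    omega
  · rw [show (2 : ℤ) - 1 = 1 by norm_num, (sqL_e x y).2.1] at a1 a2 a3 a4 ⊢
    simp only at a1 a2 a3 a4 h4 h5 ⊢
    omega
  · rw [show (3 : ℤ) - 1 = 2 by norm_num, (sqL_e x y).2.2.1] at a1 a2 a3 a4 ⊢
    simp only at a1 a2 a3 a4 h4 h5 ⊢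
    omega

/-- The inner squares of the wall steps at the spoke. -/
theorem wFV_in (hS : 1 ≤ S) (hSR : S < R) {k : ℕ} {p : ℤ × ℤ} {u : ℤ}
    (h : wFV S R k p.1 p.2 u) (hV : sqL p (u - 1) ∈ wFU R) (hk : 4 * R + 3 ≤ k) :
    (sqL p (u - 1)).1 = 0 ∧ (R : ℤ) + 1 - S ≤ (sqL p (u - 1)).2 := by
  obtain ⟨x, y⟩ := p
  obtain ⟨a1, a2, a3, a4⟩ := hV
  unfold wFV at h
  rcases h with h1 | h1 | h1 | h1 | h1 | h1 | h1 | h1 <;> obtain ⟨h2, h3, h4, h5, rfl⟩ := h1
  · omega
  · omega
  · omega
  · rw [show (3 : ℤ) - 1 = 2 by norm_num, (sqL_e x y).2.2.1] at a1 a2 a3 a4 ⊢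
    simp only at a1 a2 a3 a4 h4 h5 ⊢
    omega
  · rw [show (2 : ℤ) - 1 = 1 by norm_num, (sqL_e x y).2.1] at a1 a2 a3 a4 ⊢
    simp only at a1 a2 a3 a4 h4 h5 ⊢
    omega
  · rw [show (1 : ℤ) - 1 = 0 by norm_num, (sqL_e x y).1] at a1 a2 a3 a4 ⊢
    simp only at a1 a2 a3 a4 h4 h5 ⊢
    omega
  · rw [show (2 : ℤ) - 1 = 1 by norm_num, (sqL_e x y).2.1] at a1 a2 a3 a4 ⊢
    simp only at a1 a2 a3 a4 h4 h5 ⊢
    omega
  · rw [show (3 : ℤ) - 1 = 2 by norm_num, (sqL_e x y).2.2.1] at a1 a2 a3 a4 ⊢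
    simp only at a1 a2 a3 a4 h4 h5 ⊢
    omega

/-- **The window at the hole with three rows**, with the killed pairs. -/
theorem winT_okK (hσ : σ = 1 ∨ σ = -1) (hA : 1 ≤ A) (hB : 1 ≤ B) (hS : 1 ≤ S) (hAR : A < R)
    (hBR : B + 1 < R) (hSR : S < R) (hKV : ∀ v, v - z ∈ wTU R → (v ∈ K ↔ v - z ∈ wTQ A B S R))
    (hKD : ∀ v ∈ K, v - z ∉ wTR A B S R)
    (hoff : ∀ g, g ∉ bS K → hdv g - z ∈ wTR A B S R → a g false + a g true = 0)
    (h : PhT θ a EE σ c z A B S R) :
    ∃ w : WinD, w.Ok θ K EE a ∧ w.σ = σ ∧ w.D = {v | v - z ∈ wTR A B S R} ∧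
      w.V = {v | v - z ∈ wTU R} ∧ w.C = {v | v ∈ K ∧ v - z ∈ wTU R} ∧ (∀ j, ¬ w.Z j) ∧ w.KR (RT z A B R) := by
  obtain ⟨P, U, hb, hV⟩ := wT_bd hA hB hS hAR hBR hSR
  have hL := lwinT hA hB hS hAR hBR hSR hb hV
  have e0 : ∀ v, Lq z 0 v = v - z := Lq0 z
  have key := hL.ok (C₀ := Set.univ) (θ := θ) (K := K) (EE := EE) (a := a) (z := z) (e := 0)
    (σ := σ) (c := c) (s := sT A B S R σ (fun k => z + P k)) (E := fun k => k = R + S)
    (Z := fun _ => False)
    hσ (by intro v; rw [e0]; exact fun h1 => (hKV v h1).2)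
    (by intro v hv; rw [e0]; exact fun h1 _ => (hKV v h1).1 hv)
    (by intro v hv; rw [e0]; exact hKD v hv)
    (by intro g; rw [e0]; exact hoff g) ?_ ?_ ?_
  · refine ⟨_, key, rfl, ?_, ?_, ?_, fun j h => h, ?_⟩
    · ext v
      show Lq z 0 v ∈ wTR A B S R ↔ _
      rw [e0]
      rfl
    · ext v
      show Lq z 0 v ∈ wTU R ↔ _
      rw [e0]
      rfl
    · ext v
      show (v ∈ K ∧ Lq z 0 v ∈ wTU R ∧ Lq z 0 v ∈ Set.univ) ↔ v ∈ K ∧ v - z ∈ wTU R
      rw [e0]
      simp
    · rintro i j ⟨⟨hi, hiV⟩, -⟩ ⟨⟨hj, hjV⟩, -⟩ hij hs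
      change sT A B S R σ (fun k => z + P k) i - sT A B S R σ (fun k => z + P k) j = -1 ∨
        sT A B S R σ (fun k => z + P k) i - sT A B S R σ (fun k => z + P k) j = 2 at hs
      have h1 := sT_rg A B S R σ (fun k => z + P k) i
      have h2 := sT_rg A B S R σ (fun k => z + P k) j
      have h3 : ¬ i < 3 * R + 2 * S - 1 := fun h4 => by
        have h5 : sT A B S R σ (fun k => z + P k) i = 0 := by
          unfold sT
          rw [if_pos h4]
        omega
      show RT z A B R (sqL (Ls z 0 (P i)) (U i + 0 - 1)) (sqL (Ls z 0 (P j)) (U j + 0 - 1))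
      rw [add_zero, add_zero, Ls0, Ls0, sqL_add, sqL_add]
      obtain ⟨k1 | k1, -⟩ := wTV_in hA hB hS hAR hBR hSR (hV i hi) hiV (by omega) <;>
        obtain ⟨k2 | k2, -⟩ := wTV_in hA hB hS hAR hBR hSR (hV j hj) hjV (by omega)
      · exact Or.inl (by simp only [Prod.fst_add, Prod.snd_add]; omega)
      · exact Or.inr (Or.inr (by simp only [Prod.fst_add, Prod.snd_add]; omega))
      · omega
      · exact Or.inr (Or.inl (by simp only [Prod.fst_add, Prod.snd_add]; omega))
  · rintro i ⟨hi, hiV⟩ -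
    have h1 := hV i hi
    rw [add_zero, Ls0]
    have hsT : sT A B S R σ (fun k => z + P k) i = sT A B S R σ (fun k => z + P k) i := rfl
    conv at hsT => rhs; unfold sT
    generalize hs : sT A B S R σ (fun k => z + P k) i = s at hsT ⊢
    simp only at hsT
    generalize hP : P i = p at h1 hiV hsT ⊢
    generalize U i = u at h1 hiV ⊢
    obtain ⟨x, y⟩ := p
    obtain ⟨a1, a2, a3, a4⟩ := hiV
    unfold Knd
    rw [sqL_add, sqL_add]
    unfold wTV at h1
    rcases h1 with h1 | h1 | h1 | h1 | h1 | h1 | h1 | h1 | h1 | h1 | h1 | h1 | h1 | h1 | h1 | h1 <;>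
      obtain ⟨h2, h3, h4, h5, rfl⟩ := h1
    · exfalso
      rw [show (0 : ℤ) - 1 = -1 by norm_num, (sqL_e x y).2.2.2.2.1] at a1 a2 a3 a4
      simp only at a1 a2 a3 a4 h4 h5
      omega
    · left
      rw [show (1 : ℤ) - 1 = 0 by norm_num, (sqL_e x y).1] at a1 a2 a3 a4 ⊢
      rw [(sqL_e x y).2.1]
      simp only at a1 a2 a3 a4 h4 h5
      have hs0 : s = 0 := by rw [hsT, if_pos (by omega)]
      rw [hs0]
      refine (h.Sw y (by omega) (by omega)).cast (by rw [h4]) (by rw [h4]; norm_num) (by push_cast; ring)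
    · right
      left
      rw [show (0 : ℤ) - 1 = -1 by norm_num, (sqL_e x y).2.2.2.2.1] at a1 a2 a3 a4 ⊢
      rw [(sqL_e x y).1]
      simp only at a1 a2 a3 a4 h4 h5
      have hs0 : s = 0 := by rw [hsT, if_pos (by omega)]
      rw [hs0]
      refine ⟨by omega, h.S0.cast ?_ ?_ (by push_cast; ring)⟩
      · congr 1
        ext <;> simp only <;> omega
      · congr 1
        ext <;> simp only <;> omega
    · left
      rw [show (-1 : ℤ) - 1 = -2 by norm_num, (sqL_e x y).2.2.2.2.2] at a1 a2 a3 a4 ⊢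
      rw [(sqL_e x y).2.2.2.2.1]
      simp only at a1 a2 a3 a4 h4 h5
      have hs0 : s = 0 := by rw [hsT, if_pos (by omega)]
      rw [hs0]
      refine (h.Se (y - 1) (by omega) (by omega)).cast ?_ ?_ (by push_cast; ring)
      · congr 1
        ext <;> simp only <;> omega
      · congr 1
        ext <;> simp only <;> omega
    · exfalso
      rw [show (0 : ℤ) - 1 = -1 by norm_num, (sqL_e x y).2.2.2.2.1] at a1 a2 a3 a4
      simp only at a1 a2 a3 a4 h4 h5
      omega
    · exfalso
      rw [show (1 : ℤ) - 1 = 0 by norm_num, (sqL_e x y).1] at a1 a2 a3 a4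
      simp only at a1 a2 a3 a4 h4 h5
      omega
    · left
      rw [show (2 : ℤ) - 1 = 1 by norm_num, (sqL_e x y).2.1] at a1 a2 a3 a4 ⊢
      rw [(sqL_e x y).2.2.1]
      simp only at a1 a2 a3 a4 h4 h5
      have hs0 : s = -1 := by rw [hsT, if_neg (by omega), if_pos (by omega)]
      rw [hs0]
      refine (h.Bs (x - 1) (by omega) (by omega)).cast ?_ ?_ (by push_cast; ring)
      · congr 1
        ext <;> simp only <;> omega
      · congr 1
        ext <;> simp only <;> omega
    · right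
      right
      rw [show (1 : ℤ) - 1 = 0 by norm_num, (sqL_e x y).1] at a1 a2 a3 a4 ⊢
      rw [(sqL_e x y).2.1]
      simp only at a1 a2 a3 a4 h4 h5
      have hs0 : s = zs σ (-1) (z + (x, y)) := by
        rw [hsT, if_neg (by omega), if_neg (by omega), if_pos (by omega)]
      refine ⟨-1, hs0, h.B0.cast ?_ ?_ (by push_cast; ring)⟩
      · congr 1
        ext <;> simp only <;> omega
      · congr 1
        ext <;> simp only <;> omega
    · left
      rw [show (0 : ℤ) - 1 = -1 by norm_num, (sqL_e x y).2.2.2.2.1] at a1 a2 a3 a4 ⊢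
      rw [(sqL_e x y).1]
      simp only at a1 a2 a3 a4 h4 h5
      have hs0 : s = 0 := by
        rw [hsT, if_neg (by omega), if_neg (by omega), if_neg (by omega), if_pos (by omega)]
      rw [hs0]
      refine (h.Bn x (by omega) (by omega)).cast ?_ ?_ (by push_cast; ring)
      · congr 1
        ext <;> simp only <;> omega
      · congr 1
        ext <;> simp only <;> omega
    · exfalso
      rw [show (1 : ℤ) - 1 = 0 by norm_num, (sqL_e x y).1] at a1 a2 a3 a4
      simp only at a1 a2 a3 a4 h4 h5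
      omega
    · exfalso
      rw [show (2 : ℤ) - 1 = 1 by norm_num, (sqL_e x y).2.1] at a1 a2 a3 a4
      simp only at a1 a2 a3 a4 h4 h5
      omega
    · left
      rw [show (3 : ℤ) - 1 = 2 by norm_num, (sqL_e x y).2.2.1] at a1 a2 a3 a4 ⊢
      rw [(sqL_e x y).2.2.2.1]
      simp only at a1 a2 a3 a4 h4 h5
      have hs0 : s = -1 := by
        rw [hsT, if_neg (by omega), if_neg (by omega), if_neg (by omega), if_neg (by omega),
          if_pos (by omega)]
      rw [hs0]
      refine (h.Ae (y - 1) (by omega) (by omega)).cast ?_ ?_ (by push_cast; ring)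
      · congr 1
        ext <;> simp only <;> omega
      · congr 1
        ext <;> simp only <;> omega
    · right
      right
      rw [show (2 : ℤ) - 1 = 1 by norm_num, (sqL_e x y).2.1] at a1 a2 a3 a4 ⊢
      rw [(sqL_e x y).2.2.1]
      simp only at a1 a2 a3 a4 h4 h5
      have hs0 : s = zs σ (-1) (z + (x, y)) := by
        rw [hsT, if_neg (by omega), if_neg (by omega), if_neg (by omega), if_neg (by omega),
          if_neg (by omega), if_pos (by omega)]
      refine ⟨-1, hs0, h.A0.cast ?_ ?_ (by push_cast; ring)⟩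
      · congr 1
        ext <;> simp only <;> omega
      · congr 1
        ext <;> simp only <;> omega
    · left
      rw [show (1 : ℤ) - 1 = 0 by norm_num, (sqL_e x y).1] at a1 a2 a3 a4 ⊢
      rw [(sqL_e x y).2.1]
      simp only at a1 a2 a3 a4 h4 h5
      have hs0 : s = 0 := by
        rw [hsT, if_neg (by omega), if_neg (by omega), if_neg (by omega), if_neg (by omega),
          if_neg (by omega), if_neg (by omega)]
      rw [hs0]
      refine (h.Aw y (by omega) (by omega)).cast ?_ ?_ (by push_cast; ring)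
      · congr 1
        ext <;> simp only <;> omega
      · congr 1
        ext <;> simp only <;> omega
    · exfalso
      rw [show (2 : ℤ) - 1 = 1 by norm_num, (sqL_e x y).2.1] at a1 a2 a3 a4
      simp only at a1 a2 a3 a4 h4 h5
      omega
    · exfalso
      rw [show (3 : ℤ) - 1 = 2 by norm_num, (sqL_e x y).2.2.1] at a1 a2 a3 a4
      simp only at a1 a2 a3 a4 h4 h5
      omega
  · rintro j ⟨hj, hjV⟩ ⟨hj', hjV'⟩ - -
    have h1 := hV j hj
    have h2 := hV (j + 1) hj'
    have hstep := hb.step j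
    rw [Ls0]
    by_cases g1 : sT A B S R σ (fun k => z + P k) (j + 1) = sT A B S R σ (fun k => z + P k) j
    · exact Or.inl g1
    · -- the jumps are at the zero ends
      have hr1 := sqL_rg (s := P j) (d := U j - 1)
      have hr2 := sqL_rg (s := P (j + 1)) (d := U (j + 1) - 1)
      obtain ⟨b1, b2, b3, b4⟩ := hjV
      obtain ⟨c1, c2, c3, c4⟩ := hjV'
      have hc : j + 1 = 3 * R + 2 * S + B - 1 ∨ j = 3 * R + 2 * S + B - 1 ∨
          j + 1 = 5 * R + 2 * S + 2 * B + A ∨ j = 5 * R + 2 * S + 2 * B + A := by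
        by_contra hcon
        push Not at hcon
        obtain ⟨d1, d2, d3, d4⟩ := hcon
        have hxx : ¬ (j + 1 = 3 * R + 2 * S - 1) := by
          intro he
          unfold wTV at h2
          omega
        have hyy : ¬ (j + 1 = 5 * R + 2 * S + 2 * B) := by
          intro he
          unfold wTV at h2
          omega
        apply g1
        unfold sT
        rw [if_neg (show ¬ j + 1 = 3 * R + 2 * S + B - 1 from d1), if_neg d2,
          if_neg (show ¬ j + 1 = 5 * R + 2 * S + 2 * B + A from d3), if_neg d4]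
        split_ifs <;> omega
      right
      rcases hc with hc | hc | hc | hc
      · have e1 : sT A B S R σ (fun k => z + P k) (j + 1) = zs σ (-1) (z + P (j + 1)) := by
          unfold sT
          rw [if_neg (by omega), if_neg (by omega), if_pos hc]
        have e2 : sT A B S R σ (fun k => z + P k) j = -1 := by
          unfold sT
          rw [if_neg (by omega), if_pos (by omega)]
        rcases zs_before (m := -1) hσ (q := z + P (j + 1)) with h3 | h3 | h3
        · exact absurd (by rw [e1, e2, h3]) g1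
        · exact Or.inl h3
        · exact Or.inr (Or.inl h3)
      · have e1 : sT A B S R σ (fun k => z + P k) j = zs σ (-1) (z + P j) := by
          unfold sT
          rw [if_neg (by omega), if_neg (by omega), if_pos hc]
        have e2 : sT A B S R σ (fun k => z + P k) (j + 1) = 0 := by
          unfold sT
          rw [if_neg (by omega), if_neg (by omega), if_neg (by omega), if_pos (by omega)]
        rcases zs_after (m := -1) hσ (q := z + P j) (d := U j) with h3 | h3 | h3
        · exact absurd (by rw [e1, e2, ← h3]; norm_num) g1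
        · rw [hstep, ← add_assoc]
          exact Or.inl h3
        · rw [hstep, ← add_assoc]
          exact Or.inr (Or.inl h3)
      · have e1 : sT A B S R σ (fun k => z + P k) (j + 1) = zs σ (-1) (z + P (j + 1)) := by
          unfold sT
          rw [if_neg (by omega), if_neg (by omega), if_neg (by omega), if_neg (by omega),
            if_neg (by omega), if_pos hc]
        have e2 : sT A B S R σ (fun k => z + P k) j = -1 := by
          unfold sT
          rw [if_neg (by omega), if_neg (by omega), if_neg (by omega), if_neg (by omega),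
            if_pos (by omega)]
        rcases zs_before (m := -1) hσ (q := z + P (j + 1)) with h3 | h3 | h3
        · exact absurd (by rw [e1, e2, h3]) g1
        · exact Or.inl h3
        · exact Or.inr (Or.inl h3)
      · have e1 : sT A B S R σ (fun k => z + P k) j = zs σ (-1) (z + P j) := by
          unfold sT
          rw [if_neg (by omega), if_neg (by omega), if_neg (by omega), if_neg (by omega),
            if_neg (by omega), if_pos hc]
        have e2 : sT A B S R σ (fun k => z + P k) (j + 1) = 0 := by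
          unfold sT
          rw [if_neg (by omega), if_neg (by omega), if_neg (by omega), if_neg (by omega),
            if_neg (by omega), if_neg (by omega)]
        rcases zs_after (m := -1) hσ (q := z + P j) (d := U j) with h3 | h3 | h3
        · exact absurd (by rw [e1, e2, ← h3]; norm_num) g1
        · rw [hstep, ← add_assoc]
          exact Or.inl h3
        · rw [hstep, ← add_assoc]
          exact Or.inr (Or.inl h3)
  · rintro i j - - - - hij
    have h1 := sT_rg A B S R σ (fun k => z + P k) i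
    have h2 := sT_rg A B S R σ (fun k => z + P k) j
    refine ⟨by omega, by omega, ?_⟩
    rintro (rfl | rfl)
    · have h3 : sT A B S R σ (fun k => z + P k) (R + S) = 0 := by
        unfold sT
        rw [if_pos (by omega)]
      omega
    · have h3 : sT A B S R σ (fun k => z + P k) (R + S) = 0 := by
        unfold sT
        rw [if_pos (by omega)]
      have h4 : sT A B S R σ (fun k => z + P k) i = 0 := by
        unfold sT
        rw [if_pos (by omega)]
      omega

/-! ### the foot -/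

/-- **The window at the foot of the spoke**, with the killed pairs. -/
theorem winF_okK (hσ : σ = 1 ∨ σ = -1) (hS : 1 ≤ S) (hSR : S < R)
    (hKV : ∀ v, v - z ∈ wFU R → (v ∈ K ↔ v - z ∈ wFQ S R))
    (hKD : ∀ v ∈ K, v - z ∉ wFR S R)
    (hoff : ∀ g, g ∉ bS K → hdv g - z ∈ wFR S R → a g false + a g true = 0)
    (h : PhF θ a EE σ c z S R) :
    ∃ w : WinD, w.Ok θ K EE a ∧ w.σ = σ ∧ w.D = {v | v - z ∈ wFR S R} ∧
      w.V = {v | v - z ∈ wFU R} ∧ w.C = {v | v ∈ K ∧ v - z ∈ wFU R} ∧ (∀ j, ¬ w.Z j) ∧ w.KR (RF z S R) := by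
  obtain ⟨P, U, hb, hV⟩ := wF_bd hS hSR
  have hL := lwinF hS hSR hb hV
  have e0 : ∀ v, Lq z 0 v = v - z := Lq0 z
  have key := hL.ok (C₀ := Set.univ) (θ := θ) (K := K) (EE := EE) (a := a) (z := z) (e := 0)
    (σ := σ) (c := c) (s := sF S R σ (fun k => z + P k)) (E := fun _ => False)
    (Z := fun _ => False)
    hσ (by intro v; rw [e0]; exact fun h1 => (hKV v h1).2)
    (by intro v hv; rw [e0]; exact fun h1 _ => (hKV v h1).1 hv)
    (by intro v hv; rw [e0]; exact hKD v hv)
    (by intro g; rw [e0]; exact hoff g) ?_ ?_ ?_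
  · refine ⟨_, key, rfl, ?_, ?_, ?_, fun j h => h, ?_⟩
    · ext v
      show Lq z 0 v ∈ wFR S R ↔ _
      rw [e0]
      rfl
    · ext v
      show Lq z 0 v ∈ wFU R ↔ _
      rw [e0]
      rfl
    · ext v
      show (v ∈ K ∧ Lq z 0 v ∈ wFU R ∧ Lq z 0 v ∈ Set.univ) ↔ v ∈ K ∧ v - z ∈ wFU R
      rw [e0]
      simp
    · rintro i j ⟨⟨hi, hiV⟩, -⟩ ⟨⟨hj, hjV⟩, -⟩ hij hs
      change sF S R σ (fun k => z + P k) i - sF S R σ (fun k => z + P k) j = -1 ∨
        sF S R σ (fun k => z + P k) i - sF S R σ (fun k => z + P k) j = 2 at hs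
      have h1 := sF_rg S R σ (fun k => z + P k) i
      have h2 := sF_rg S R σ (fun k => z + P k) j
      have h3 : ¬ i < 4 * R + 3 := fun h4 => by
        have h5 : sF S R σ (fun k => z + P k) i = 0 := by
          unfold sF
          rw [if_pos h4]
        omega
      show RF z S R (sqL (Ls z 0 (P i)) (U i + 0 - 1)) (sqL (Ls z 0 (P j)) (U j + 0 - 1))
      rw [add_zero, add_zero, Ls0, Ls0, sqL_add, sqL_add]
      have k1 := wFV_in hS hSR (hV i hi) hiV (by omega)
      have k2 := wFV_in hS hSR (hV j hj) hjV (by omega)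
      unfold RF
      simp only [Prod.fst_add, Prod.snd_add]
      omega
  · rintro i ⟨hi, hiV⟩ -
    have h1 := hV i hi
    rw [add_zero, Ls0]
    have hsT : sF S R σ (fun k => z + P k) i = sF S R σ (fun k => z + P k) i := rfl
    conv at hsT => rhs; unfold sF
    generalize hs : sF S R σ (fun k => z + P k) i = s at hsT ⊢
    simp only at hsT
    generalize hP : P i = p at h1 hiV hsT ⊢
    generalize U i = u at h1 hiV ⊢
    obtain ⟨x, y⟩ := p
    obtain ⟨a1, a2, a3, a4⟩ := hiV
    unfold Knd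
    rw [sqL_add, sqL_add]
    unfold wFV at h1
    rcases h1 with h1 | h1 | h1 | h1 | h1 | h1 | h1 | h1 <;>
      obtain ⟨h2, h3, h4, h5, rfl⟩ := h1
    · left
      rw [show (0 : ℤ) - 1 = -1 by norm_num, (sqL_e x y).2.2.2.2.1] at a1 a2 a3 a4 ⊢
      rw [(sqL_e x y).1]
      simp only at a1 a2 a3 a4 h4 h5
      have hs0 : s = 0 := by rw [hsT, if_pos (by omega)]
      rw [hs0]
      refine (h.Q x (by omega) (by omega)).cast ?_ ?_ (by push_cast; ring)
      · congr 1
        ext <;> simp only <;> omega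
      · congr 1
        ext <;> simp only <;> omega
    · exfalso
      rw [show (1 : ℤ) - 1 = 0 by norm_num, (sqL_e x y).1] at a1 a2 a3 a4
      simp only at a1 a2 a3 a4 h4 h5
      omega
    · exfalso
      rw [show (2 : ℤ) - 1 = 1 by norm_num, (sqL_e x y).2.1] at a1 a2 a3 a4
      simp only at a1 a2 a3 a4 h4 h5
      omega
    · left
      rw [show (3 : ℤ) - 1 = 2 by norm_num, (sqL_e x y).2.2.1] at a1 a2 a3 a4 ⊢
      rw [(sqL_e x y).2.2.2.1]
      simp only at a1 a2 a3 a4 h4 h5
      have hs0 : s = -1 := by rw [hsT, if_neg (by omega), if_pos (by omega)]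
      rw [hs0]
      refine (h.Se (y - 1) (by omega) (by omega)).cast ?_ ?_ (by push_cast; ring)
      · congr 1
        ext <;> simp only <;> omega
      · congr 1
        ext <;> simp only <;> omega
    · right
      right
      rw [show (2 : ℤ) - 1 = 1 by norm_num, (sqL_e x y).2.1] at a1 a2 a3 a4 ⊢
      rw [(sqL_e x y).2.2.1]
      simp only at a1 a2 a3 a4 h4 h5
      have hs0 : s = zs σ (-1) (z + (x, y)) := by
        rw [hsT, if_neg (by omega), if_neg (by omega), if_pos (by omega)]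
      refine ⟨-1, hs0, h.S0.cast ?_ ?_ (by push_cast; ring)⟩
      · congr 1
        ext <;> simp only <;> omega
      · congr 1
        ext <;> simp only <;> omega
    · left
      rw [show (1 : ℤ) - 1 = 0 by norm_num, (sqL_e x y).1] at a1 a2 a3 a4 ⊢
      rw [(sqL_e x y).2.1]
      simp only at a1 a2 a3 a4 h4 h5
      have hs0 : s = 0 := by
        rw [hsT, if_neg (by omega), if_neg (by omega), if_neg (by omega)]
      rw [hs0]
      refine (h.Sw y (by omega) (by omega)).cast ?_ ?_ (by push_cast; ring)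
      · congr 1
        ext <;> simp only <;> omega
      · congr 1
        ext <;> simp only <;> omega
    · exfalso
      rw [show (2 : ℤ) - 1 = 1 by norm_num, (sqL_e x y).2.1] at a1 a2 a3 a4
      simp only at a1 a2 a3 a4 h4 h5
      omega
    · exfalso
      rw [show (3 : ℤ) - 1 = 2 by norm_num, (sqL_e x y).2.2.1] at a1 a2 a3 a4
      simp only at a1 a2 a3 a4 h4 h5
      omega
  · rintro j ⟨hj, hjV⟩ ⟨hj', hjV'⟩ - -
    have h1 := hV j hj
    have h2 := hV (j + 1) hj'
    have hstep := hb.step j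
    rw [Ls0]
    by_cases g1 : sF S R σ (fun k => z + P k) (j + 1) = sF S R σ (fun k => z + P k) j
    · exact Or.inl g1
    · -- the jumps are at the zero end
      have hr1 := sqL_rg (s := P j) (d := U j - 1)
      have hr2 := sqL_rg (s := P (j + 1)) (d := U (j + 1) - 1)
      obtain ⟨b1, b2, b3, b4⟩ := hjV
      obtain ⟨c1, c2, c3, c4⟩ := hjV'
      have hc : j + 1 = 4 * R + S + 3 ∨ j = 4 * R + S + 3 := by
        by_contra hcon
        push Not at hcon
        obtain ⟨d1, d2⟩ := hcon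
        have hxx : ¬ (j + 1 = 4 * R + 3) := by
          intro he
          unfold wFV at h1
          have h3 : U j = 2 := by omega
          have h4 : (P j).2 = R + 1 := by omega
          rw [h3, show (2 : ℤ) - 1 = 1 by norm_num] at b4
          have h5 : (sqL (P j) 1).2 = (P j).2 := by
            have := (sqL_e (P j).1 (P j).2).2.1
            rw [show ((P j).1, (P j).2) = P j from rfl] at this
            rw [this]
          omega
        apply g1
        unfold sF
        rw [if_neg (show ¬ j + 1 = 4 * R + S + 3 from d1), if_neg d2]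
        split_ifs <;> omega
      right
      rcases hc with hc | hc
      · have e1 : sF S R σ (fun k => z + P k) (j + 1) = zs σ (-1) (z + P (j + 1)) := by
          unfold sF
          rw [if_neg (by omega), if_neg (by omega), if_pos hc]
        have e2 : sF S R σ (fun k => z + P k) j = -1 := by
          unfold sF
          rw [if_neg (by omega), if_pos (by omega)]
        rcases zs_before (m := -1) hσ (q := z + P (j + 1)) with h3 | h3 | h3
        · exact absurd (by rw [e1, e2, h3]) g1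
        · exact Or.inl h3
        · exact Or.inr (Or.inl h3)
      · have e1 : sF S R σ (fun k => z + P k) j = zs σ (-1) (z + P j) := by
          unfold sF
          rw [if_neg (by omega), if_neg (by omega), if_pos hc]
        have e2 : sF S R σ (fun k => z + P k) (j + 1) = 0 := by
          unfold sF
          rw [if_neg (by omega), if_neg (by omega), if_neg (by omega)]
        rcases zs_after (m := -1) hσ (q := z + P j) (d := U j) with h3 | h3 | h3
        · exact absurd (by rw [e1, e2, ← h3]; norm_num) g1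
        · rw [hstep, ← add_assoc]
          exact Or.inl h3
        · rw [hstep, ← add_assoc]
          exact Or.inr (Or.inl h3)
  · rintro i j - - - - hij
    have h1 := sF_rg S R σ (fun k => z + P k) i
    have h2 := sF_rg S R σ (fun k => z + P k) j
    refine ⟨by omega, by omega, ?_⟩
    rintro (h | h)
    · exact h.elim
    · exact h.elim

end Vale.Agent.P167.N.ID
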