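import Vale.Agent.P167.N.ID.WinPh
import Vale.Agent.P167.N.ID.WinIK
import Vale.Agent.P167.N.ID.FrmQ
import Vale.Agent.P167.N.ID.FrmC2

/-!
# P167, block ID: the windows of the Dobrushin frames at the spoke

* `rsep_D`, `len_D`: the rows are separate and have positive lengths.
* `mem_T`, `mem_F`: the frozen squares near the vertex with the spoke and near its foot.
* `winT_D`, `winF_D`: the windows.
-/

set_option autoImplicit false

namespace Vale.Agent.P167.N.ID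

open Finset
open Vale.Agent.P167.FK (Bq)
open Vale.Agent.P167.A (plane)
open Vale.Agent.P167.E6 (IsPolygon Encloses dir)
open Vale.Agent.P167.H825 (pdir ptau enl Box Marks)
open Vale.Agent.P167.H825.Q (Bc stΦ stτ)
open Vale.Agent.P167.H662 (hsite)
open Vale.Agent.P167.H199 (mks Gap c0)
open Vale.Agent.P167.XDL (bS mem_bS)
open Vale.Agent.P167.H680.T (uI mem_uI WCG)
open Vale.Agent.P167.Enl (sW eW tB kOf uN uA uB uN_before uN_after uA_mod uB_mod turn_mark vp oz vz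
  vz_eq oz_eq fin4_cases frmQ mem_frmQ iB jB pA pB gA gB iB_lt jB_le vp_pA vp_pB pB_zero pB_pos
  pA_zero row_pos rows_long frm_box mem_Bq' Bq_of op_near nm_tri nm_sub_comm pA_lt pB_le BGap Two
  two_inl two_inr ends_bd)

variable {l : ℕ} {θ β : ℝ} {p : ZMod l → ℤ × ℤ} {S₀ : Finset (ℤ × ℤ)} {b : Box} {tp : ℝ} {n : ℕ}
  {g δ : ℝ} {ia : ℕ} {ta : ℝ}

/-! ### the rows -/

theorem row_lt {Q : Marks} (hQ : Q.Ok) (hg : Gap Q l g) (hδ : 0 < δ) (hδg : 4 * δ ≤ g)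
    (hn : 16 ≤ δ * n) {i : ℕ} (hi : i < l) {j : ℕ} (hj : j ≤ Q.m) :
    sW p n Q ⌊δ * n⌋₊ i j < eW p n Q ⌊δ * n⌋₊ i j := by
  obtain ⟨⟨-, h2⟩, ⟨h3, -⟩, -⟩ := ends_bd (p := p) hQ hg hδ hδg hn hi hj
  have hn0 : (0 : ℝ) ≤ n := Nat.cast_nonneg n
  have h4 := hg.1 i hi j hj
  have h5 : 4 * δ * n ≤ (Q.θ i (j + 1) - Q.θ i j) * n :=
    mul_le_mul_of_nonneg_right (by linarith) hn0
  have h6 : (sW p n Q ⌊δ * n⌋₊ i j : ℝ) < eW p n Q ⌊δ * n⌋₊ i j := by linarith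
  exact_mod_cast h6

namespace DobN

/-- The rows are separate. -/
theorem rsep (H : DobN p S₀ b tp g δ n) :
    RSep (fun x : IxD l => rD θ β p b tp ia ta n ⌊δ * n⌋₊ x) := by
  intro i k hik u hu v hv
  rw [rowD_I] at hu hv
  have h1 := H.sepr i k hik u hu v hv
  have h2 := H.hn
  have h3 : (1 : ℝ) < nm (u - v) := by linarith
  exact_mod_cast h3

/-- The rows have positive lengths. -/
theorem len (H : DobN p S₀ b tp g δ n) (x : IxD l) :
    1 ≤ (rD θ β p b tp ia ta n ⌊δ * n⌋₊ x).L := by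
  obtain ⟨b1, b3, b5, b6, b7⟩ := H.basic
  obtain ⟨c1, c2, c3, c4⟩ := H.box
  rcases x with x | x | x
  · show 1 ≤ (frowJ _ _ _ _ _ _ _ _ _ _ _ _ _).L
    rw [frowJ_L]
    have := row_lt (p := p) (j := x.2) H.hQ H.hg H.hδ H.hδg H.hn x.1.2
      (Nat.lt_succ_iff.1 x.2.2)
    omega
  · show 1 ≤ (frowJ _ _ _ _ _ _ _ _ _ _ _ _ _).L
    rw [frowJ_L]
    have := row_lt (p := pQ) (j := x.2) H.hQ' H.hg' c1 c2 c3 x.1.2
      (Nat.lt_succ_iff.1 x.2.2)
    rw [c4] at this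
    omega
  · show 1 ≤ (n * (p (iT p)).2).toNat - 2 * ⌊δ * n⌋₊
    have hy := (H.hN (iT p)).2
    have hy' : 2 * (n : ℤ) ≤ n * (p (iT p)).2 := by nlinarith
    have hδ4 : (⌊δ * n⌋₊ : ℝ) ≤ δ * n := Nat.floor_le (by have := H.hδ; positivity)
    have hn0 : (0 : ℝ) ≤ n := Nat.cast_nonneg n
    have h1 : δ * n ≤ 1 / 4 * n := mul_le_mul_of_nonneg_right (by linarith [H.hδg]) hn0
    have h2 : 4 * (⌊δ * n⌋₊ : ℝ) ≤ n := by linarith
    have h3 : 4 * ⌊δ * n⌋₊ ≤ n := by exact_mod_cast h2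
    omega

/-- **The frozen squares.** -/
theorem mem_U (v : ℤ × ℤ) [NeZero l] : v ∈ (frD θ β p S₀ b tp ia ta).U (rowS θ) δ n ↔
    ∃ x : IxD l, v ∈ (rD θ β p b tp ia ta n ⌊δ * n⌋₊ x).I := mem_uI

theorem mem_U' (v : ℤ × ℤ) [NeZero l] : v ∈ (frD θ β p S₀ b tp ia ta).U (rowS θ) δ n ↔
    v ∈ frmQ p (mks p b tp) n ⌊δ * n⌋₊ ∨ v ∈ frmQ pQ (mksQ p b) (bM p * n) ⌊δ * n⌋₊ ∨
      v ∈ (spk p n ⌊δ * n⌋₊).I := by
  rw [mem_U, ← mem_shD (b := b) (tp := tp), mem_uI]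
  exact exists_congr fun x => by rw [rowD_I]

/-- The size of the windows. -/
theorem szR (H : DobN p S₀ b tp g δ n) {R : ℕ} (hR : (R : ℝ) ≤ g / 16 * n) :
    16 * R ≤ n ∧ (2 * (R + 2 : ℕ) : ℝ) + 8 < g * n := by
  obtain ⟨b1, b3, b5, b6, b7⟩ := H.basic
  have hn0 : (0 : ℝ) ≤ n := Nat.cast_nonneg n
  have e16 : g / 16 * n = g * n / 16 := by ring
  rw [e16] at hR
  have h1 : g * n ≤ 1 * n := mul_le_mul_of_nonneg_right b3 hn0
  refine ⟨?_, by push_cast; linarith⟩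
  have : (16 : ℝ) * R ≤ n := by linarith
  exact_mod_cast this

/-- **The frozen squares near the vertex with the spoke.** -/
theorem mem_T [NeZero l] (H : DobN p S₀ b tp g δ n) {R : ℕ} (hR : (R : ℝ) ≤ g / 16 * n)
    {v : ℤ × ℤ} (hv : v ∈ Bq ((n : ℤ) * (p (iT p)).1, (n : ℤ) * (p (iT p)).2) R) :
    v ∈ (frD θ β p S₀ b tp ia ta).U (rowS θ) δ n ↔
      (v.1 = n * (p (iT p)).1 - 1 ∧
        n * (p (iT p)).2 + gB p n (mks p b tp) ⌊δ * n⌋₊ (xT H.hp (mks p b tp)) ≤ v.2) ∨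
      (v.2 = n * (p (iT p)).2 - 1 ∧
        n * (p (iT p)).1 + gA p n (mks p b tp) ⌊δ * n⌋₊ (xT H.hp (mks p b tp)) ≤ v.1) ∨
      (v.1 = n * (p (iT p)).1 ∧ v.2 + ⌊δ * n⌋₊ < n * (p (iT p)).2) := by
  obtain ⟨b1, b3, b5, b6, b7⟩ := H.basic
  obtain ⟨k1, k2⟩ := H.szR hR
  obtain ⟨e1, e2⟩ := dirT H.hp H.hD (mks p b tp)
  have hs := hsT (n := n) H.hp H.hQ
  set x := xT H.hp (mks p b tp) with hx
  set X : ℤ := n * (p (iT p)).1 with hX
  set Y : ℤ := n * (p (iT p)).2 with hY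
  have hv1 := mem_bq'.1 hv
  simp only at hv1
  have hY2 : 2 * (n : ℤ) ≤ Y := by
    have := (H.hN (iT p)).2
    nlinarith
  have hX2 : 2 * (n : ℤ) ≤ X := by
    have := (H.hN (iT p)).1
    nlinarith
  have hXM : X + 2 * n ≤ bM p * n := by
    have : NeZero l := inferInstance
    have := (le_bM p (iT p : ZMod l)).1
    nlinarith
  have hYM : Y + 2 * n ≤ bM p * n := by
    have := (le_bM p (iT p : ZMod l)).2
    nlinarith
  obtain ⟨⟨p1, p2, p3⟩, ⟨p4, p5, p6⟩⟩ := row_pos (p := p) H.hQ H.hg H.hδ H.hδg H.hn x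
  have hpB : pB n (mks p b tp) x = n := pB_zero H.hQ rfl
  have hpA : pA n (mks p b tp) x = 0 := pA_zero H.hQ rfl
  have hrl := rows_long (p := p) (R := R + 2) H.hQ H.hg H.hδ H.hδg H.hn k2 x
  have a5 : (⌊δ * n⌋₊ : ℤ) ≤ n := by exact_mod_cast H.hδn.2.2.2
  rw [mem_U', mem_spk]
  constructor
  · rintro (h | h | h)
    · obtain ⟨y, σ, h1, h2, rfl⟩ := mem_frmQ.1 h
      have h3 : nm (vp p n y.1 σ - hsite p (mks p b tp) n x) ≤ ((R + 1 : ℕ) : ℤ) := by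
        have a1 := mem_Bq' hv
        rw [← hs] at a1
        have a2 := op_near (p := p) (n := n) y.1 σ
        have a3 := nm_tri (vp p n y.1 σ) (Enl.op p n y.1 σ) (hsite p (mks p b tp) n x)
        rw [nm_sub_comm (vp p n y.1 σ) (Enl.op p n y.1 σ)] at a3
        push_cast
        omega
      rcases frm_box (m := ((R + 1 : ℕ) : ℤ)) H.hp H.hQ H.hg H.hδ H.hδg H.hn
        (by push_cast at k2 ⊢; linarith) h1 h2 h3 with ⟨rfl, h4, h5⟩ | ⟨h4, h5, h6, h7⟩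
      · right
        left
        have e4 : Enl.op p n x.1 (σ : ℤ) = (X + σ, Y - 1) := by
          have := op_after (p := p) (n := n) x ((σ : ℤ) - pA n (mks p b tp) x)
          rw [add_sub_cancel, hs, e2, (oz_eq _ _).1, hpA] at this
          rw [this]
          simp
        rw [e4]
        rw [hpA] at h4
        refine ⟨rfl, ?_⟩
        show X + (_ : ℤ) ≤ X + σ
        omega
      · left
        have e4 : Enl.op p n y.1 (σ : ℤ) = (X - 1, Y - (σ - n) - 1) := by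
          have := op_before (p := p) (n := n) H.hp H.hQ x ((σ : ℤ) - pB n (mks p b tp) x)
          rw [add_sub_cancel, hs, e1, (oz_eq _ _).2.2.2, hpB] at this
          rw [h4, this]
        rw [e4]
        rw [hpB] at h6
        refine ⟨rfl, ?_⟩
        show Y + (_ : ℤ) ≤ Y - (σ - n) - 1
        omega
    · exfalso
      obtain ⟨y, hy⟩ := frmQ_row (tp := tp) h
      have h2 := H.rowQ_mem' hy
      omega
    · right
      right
      exact ⟨h.1, h.2.2⟩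
  · rintro (⟨h1, h2⟩ | ⟨h1, h2⟩ | ⟨h1, h2⟩)
    · left
      refine mem_frmQ.2 ⟨(⟨iB l x, iB_lt x⟩, ⟨jB x, by have := jB_le x; omega⟩),
        (n + Y - 1 - v.2).toNat, ?_, ?_, ?_⟩
      · show sW p n (mks p b tp) ⌊δ * n⌋₊ (iB l x) (jB x) ≤ _
        have := hrl.1
        rw [hpB] at this
        omega
      · show _ < eW p n (mks p b tp) ⌊δ * n⌋₊ (iB l x) (jB x)
        rw [hpB] at p1
        omega
      · show _ = Enl.op p n (iB l x) _
        have := op_before (p := p) (n := n) H.hp H.hQ x (Y - 1 - v.2)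
        rw [hs, e1, (oz_eq _ _).2.2.2, hpB] at this
        rw [show (((n + Y - 1 - v.2).toNat : ℕ) : ℤ) = n + (Y - 1 - v.2) by omega, this]
        ext
        · exact h1
        · simp only
          ring
    · left
      refine mem_frmQ.2 ⟨x, (v.1 - X).toNat, ?_, ?_, ?_⟩
      · rw [hpA] at p4
        omega
      · have := hrl.2
        rw [hpA] at this
        omega
      · have := op_after (p := p) (n := n) x (v.1 - X)
        rw [hs, e2, (oz_eq _ _).1, hpA] at this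
        rw [show (((v.1 - X).toNat : ℕ) : ℤ) = ((0 : ℕ) : ℤ) + (v.1 - X) by omega, this]
        ext
        · simp only
          ring
        · exact h1
    · right
      right
      exact ⟨h1, by omega, h2⟩

/-- **The frozen squares near the foot of the spoke.** -/
theorem mem_F [NeZero l] (H : DobN p S₀ b tp g δ n) {R : ℕ} (hR : (R : ℝ) ≤ g / 16 * n)
    {v : ℤ × ℤ} (hv : v ∈ Bq (ftD p n) R) :
    v ∈ (frD θ β p S₀ b tp ia ta).U (rowS θ) δ n ↔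
      v.2 = -1 ∨ (v.1 = n * (p (iT p)).1 ∧ (⌊δ * n⌋₊ : ℤ) ≤ v.2) := by
  obtain ⟨b1, b3, b5, b6, b7⟩ := H.basic
  obtain ⟨k1, k2⟩ := H.szR hR
  obtain ⟨c1, c2, c3, c4⟩ := H.box
  obtain ⟨z2, z1, z3, z4⟩ := ft_mem (n := n) H.hp H.hN
  have hn0 : (0 : ℝ) ≤ n := Nat.cast_nonneg n
  have hv1 := mem_bq'.1 hv
  have hft : (ftD p n).1 = n * (p (iT p)).1 := rfl
  have a5 : (⌊δ * n⌋₊ : ℤ) ≤ n := by exact_mod_cast H.hδn.2.2.2
  have hy' : 2 * (n : ℤ) ≤ n * (p (iT p)).2 := by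
    have := (H.hN (iT p)).2
    nlinarith
  rw [mem_U', mem_spk]
  have h7 : v ∈ frmQ pQ (mksQ p b) (bM p * n) ⌊δ * n⌋₊ ↔ v.2 = -1 := by
    constructor
    · intro h
      obtain ⟨y, hy⟩ := frmQ_row (tp := tp) h
      have h2 := H.rowQ_mem' hy
      have : (2 : ℤ) * n ≤ bM p * n := by
        have : (2 : ℤ) ≤ bM p := by exact_mod_cast b7
        nlinarith
      omega
    · intro h
      have hv0 : 0 ≤ v.1 := by omega
      have hvN : v.1.toNat < bM p * n := by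
        have : (v.1.toNat : ℤ) < ((bM p * n : ℕ) : ℤ) := by push_cast; omega
        exact_mod_cast this
      rcases Enl.gap_step (p := pQ) (d := ⌊δ * n⌋₊) pQ_poly H.hQ' (i := 2) (by norm_num) hvN with
        ⟨y, hy1, hy2, hy3⟩ | ⟨x, hx⟩
      · refine mem_frmQ.2 ⟨y, v.1.toNat, hy2, hy3, ?_⟩
        rw [hy1]
        rcases opQ (N := bM p * n) (i := 2) (by norm_num) (v.1.toNat : ℤ) with
          ⟨h', -⟩ | ⟨h', -⟩ | ⟨-, h'⟩ | ⟨h', -⟩
        · omega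
        · omega
        · rw [h']
          ext
          · simp only; omega
          · simp only; omega
        · omega
      · exfalso
        have h3 := foot_far H.hp H.hD H.hN H.hb H.hQ' b5 x
        have h4 : nm (ftD p n - hsite pQ (mksQ p b) (bM p * n) x) ≤ R + ⌊δ * n⌋₊ := by
          have h5 : vp pQ (bM p * n) 2 (v.1.toNat : ℤ) = (v.1, 0) := by
            unfold vp
            have e2 : pQ ((2 : ℕ) : ZMod 4) = (0, 0) := rfl
            rw [pdir_pQ.2.2.1, e2, (vz_eq _ _).1]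
            simp
            omega
          rw [h5] at hx
          have h8 := nm_tri (ftD p n) (v.1, 0) (hsite pQ (mksQ p b) (bM p * n) x)
          have h9 : nm (ftD p n - (v.1, 0)) ≤ R := by
            rw [nm_le_iff]
            simp only [Prod.fst_sub, Prod.snd_sub]
            omega
          change nm ((v.1, 0) - hsite pQ (mksQ p b) (bM p * n) x) ≤ _ at hx
          omega
        have h5 : (nm (ftD p n - hsite pQ (mksQ p b) (bM p * n) x) : ℝ) ≤ R + ⌊δ * n⌋₊ := by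
          exact_mod_cast h4
        have h8 : g * n ≤ c0 b * n := mul_le_mul_of_nonneg_right H.hc hn0
        have h9 : 4 * δ * n ≤ g * n := mul_le_mul_of_nonneg_right H.hδg hn0
        obtain ⟨d1, d2, d3⟩ := dfl H.hn
        linarith
  rw [h7]
  constructor
  · rintro (h | h | h)
    · exfalso
      obtain ⟨y, hy⟩ := frmP_row h
      have h2 := H.rowP_mem hy
      omega
    · exact Or.inl h
    · exact Or.inr ⟨h.1, h.2.1⟩
  · rintro (h | ⟨h1, h2⟩)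
    · exact Or.inr (Or.inl h)
    · exact Or.inr (Or.inr ⟨h1, h2, by omega⟩)

/-! ### the sides of the spoke -/

section spoke

variable [NeZero l] {v : ℤ}

/-- The phases of the frame. -/
theorem ph_D : (frD θ β p S₀ b tp ia ta).ph (rowS θ) δ n 0 =
    (⟨fun x : IxD l => (rD θ β p b tp ia ta n ⌊δ * n⌋₊ x).wall θ 0, 0⟩ : WCG (IxD l)).ph := rfl

/-- The west side of the spoke. -/
theorem spk_w (H : DobN p S₀ b tp g δ n) (h1 : (⌊δ * n⌋₊ : ℤ) ≤ v)
    (h2 : v + ⌊δ * n⌋₊ < n * (p (iT p)).2) :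
    SdW ((frD θ β p S₀ b tp ia ta).ph (rowS θ) δ n 0)
      (EEr fun x : IxD l => rD θ β p b tp ia ta n ⌊δ * n⌋₊ x)
      ((n : ℤ) * (p (iT p)).1, v) ((n : ℤ) * (p (iT p)).1 - 1, v) (ET θ β p ia + θ / 2)
      (cT p ia * ((3 * θ - Real.pi) / 4)) False := by
  rw [ph_D]
  have hg : Two (Sum.inl ((n : ℤ) * (p (iT p)).1 - 1, v)) ((n : ℤ) * (p (iT p)).1, v)
      ((n : ℤ) * (p (iT p)).1 - 1, v) := by
    have h := (two_inl ((n : ℤ) * (p (iT p)).1 - 1, v)).symm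
    simp only [sub_add_cancel] at h
    exact h
  have hq : ((n : ℤ) * (p (iT p)).1, v) ∈
      (rD θ β p b tp ia ta n ⌊δ * n⌋₊ (.inr (.inr ()))).I := by
    rw [rowD_I]
    exact mem_spk.2 ⟨rfl, h1, h2⟩
  have hq' : ((n : ℤ) * (p (iT p)).1 - 1, v) ∉
      (rD θ β p b tp ia ta n ⌊δ * n⌋₊ (.inr (.inr ()))).I := by
    rw [rowD_I]
    intro h
    have := (mem_spk.1 h).1
    simp only at this
    omega
  refine (sd_row (H.len) H.rsep hq hq' hg).cast' rfl rfl ?_ ?_ ?_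
  · show ET θ β p ia + θ / 4 + (if decide ((n : ℤ) * (p (iT p)).1 ≤ n * (p (iT p)).1 - 1) = false
      then θ / 4 else -(θ / 4)) + (if ((0 : ℕ) : ℤ) ≤ v - (⌊δ * n⌋₊ : ℤ) then (0 : ℝ) else 0) = _
    rw [ite_self, decide_eq_false (by omega), if_pos rfl]
    ring
  · show cT p ia * (if ((0 : ℕ) : ℤ) ≤ v - (⌊δ * n⌋₊ : ℤ) then (1 : ℝ) else 1) *
      ((3 * θ - Real.pi) / 4) = _
    rw [ite_self, mul_one]
  · refine iff_false_intro fun h => ?_
    exact Sum.inl_ne_inr h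

/-- The east side of the spoke. -/
theorem spk_e (H : DobN p S₀ b tp g δ n) (h1 : (⌊δ * n⌋₊ : ℤ) ≤ v)
    (h2 : v + ⌊δ * n⌋₊ < n * (p (iT p)).2) :
    SdW ((frD θ β p S₀ b tp ia ta).ph (rowS θ) δ n 0)
      (EEr fun x : IxD l => rD θ β p b tp ia ta n ⌊δ * n⌋₊ x)
      ((n : ℤ) * (p (iT p)).1, v) ((n : ℤ) * (p (iT p)).1 + 1, v) (ET θ β p ia)
      (cT p ia * ((3 * θ - Real.pi) / 4)) False := by
  rw [ph_D]
  have hg : Two (Sum.inl ((n : ℤ) * (p (iT p)).1, v)) ((n : ℤ) * (p (iT p)).1, v)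
      ((n : ℤ) * (p (iT p)).1 + 1, v) := two_inl _
  have hq : ((n : ℤ) * (p (iT p)).1, v) ∈
      (rD θ β p b tp ia ta n ⌊δ * n⌋₊ (.inr (.inr ()))).I := by
    rw [rowD_I]
    exact mem_spk.2 ⟨rfl, h1, h2⟩
  have hq' : ((n : ℤ) * (p (iT p)).1 + 1, v) ∉
      (rD θ β p b tp ia ta n ⌊δ * n⌋₊ (.inr (.inr ()))).I := by
    rw [rowD_I]
    intro h
    have := (mem_spk.1 h).1
    simp only at this
    omega
  refine (sd_row (H.len) H.rsep hq hq' hg).cast' rfl rfl ?_ ?_ ?_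
  · show ET θ β p ia + θ / 4 + (if decide ((n : ℤ) * (p (iT p)).1 ≤ n * (p (iT p)).1) = false
      then θ / 4 else -(θ / 4)) + (if ((0 : ℕ) : ℤ) ≤ v - (⌊δ * n⌋₊ : ℤ) then (0 : ℝ) else 0) = _
    rw [ite_self, decide_eq_true le_rfl, if_neg (by decide)]
    ring
  · show cT p ia * (if ((0 : ℕ) : ℤ) ≤ v - (⌊δ * n⌋₊ : ℤ) then (1 : ℝ) else 1) *
      ((3 * θ - Real.pi) / 4) = _
    rw [ite_self, mul_one]
  · refine iff_false_intro fun h => ?_
    exact Sum.inl_ne_inr h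

/-- The upper end side of the spoke: it is regular. -/
theorem spk_t (H : DobN p S₀ b tp g δ n) (h1 : (⌊δ * n⌋₊ : ℤ) ≤ v)
    (h2 : v + ⌊δ * n⌋₊ + 1 = n * (p (iT p)).2) :
    SdW ((frD θ β p S₀ b tp ia ta).ph (rowS θ) δ n 0)
      (EEr fun x : IxD l => rD θ β p b tp ia ta n ⌊δ * n⌋₊ x)
      ((n : ℤ) * (p (iT p)).1, v) ((n : ℤ) * (p (iT p)).1, v + 1) (ET θ β p ia + θ / 4)
      (cT p ia * ((θ - Real.pi) / 4)) True := by
  rw [ph_D]
  have hL : ((((n : ℤ) * (p (iT p)).2).toNat - 2 * ⌊δ * n⌋₊ : ℕ) : ℤ) =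
      n * (p (iT p)).2 - 2 * ⌊δ * n⌋₊ := by omega
  have hg : Two (Sum.inr ((n : ℤ) * (p (iT p)).1, v)) ((n : ℤ) * (p (iT p)).1, v)
      ((n : ℤ) * (p (iT p)).1, v + 1) := two_inr _
  have hq : ((n : ℤ) * (p (iT p)).1, v) ∈
      (rD θ β p b tp ia ta n ⌊δ * n⌋₊ (.inr (.inr ()))).I := by
    rw [rowD_I]
    exact mem_spk.2 ⟨rfl, h1, by omega⟩
  have hq' : ((n : ℤ) * (p (iT p)).1, v + 1) ∉
      (rD θ β p b tp ia ta n ⌊δ * n⌋₊ (.inr (.inr ()))).I := by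
    rw [rowD_I]
    intro h
    have := (mem_spk.1 h).2.2
    simp only at this
    omega
  have hes : (rD θ β p b tp ia ta n ⌊δ * n⌋₊ (.inr (.inr ()))).es true =
      Sum.inr ((n : ℤ) * (p (iT p)).1, v) := by
    show (Sum.inr ((n : ℤ) * (p (iT p)).1, (⌊δ * n⌋₊ : ℤ) +
      ((((n : ℤ) * (p (iT p)).2).toNat - 2 * ⌊δ * n⌋₊ : ℕ) : ℤ) - 1) : Ed) = _
    rw [hL]
    congr 2
    omega
  refine (sd_row (H.len) H.rsep hq hq' hg).cast' rfl rfl ?_ ?_ ?_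
  · rw [← hes, Φ_es θ (H.len _) true]
    show ET θ β p ia + θ / 4 + 0 = _
    ring
  · rw [← hes, σ_es θ (H.len _) true]
    show cT p ia * 1 * _ = _
    ring
  · exact iff_true_intro hes.symm

/-- The lower end side of the spoke. -/
theorem spk_b (H : DobN p S₀ b tp g δ n) :
    SdW ((frD θ β p S₀ b tp ia ta).ph (rowS θ) δ n 0)
      (EEr fun x : IxD l => rD θ β p b tp ia ta n ⌊δ * n⌋₊ x)
      ((n : ℤ) * (p (iT p)).1, (⌊δ * n⌋₊ : ℤ)) ((n : ℤ) * (p (iT p)).1, (⌊δ * n⌋₊ : ℤ) - 1)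
      (ET θ β p ia + θ / 4) (cT p ia * ((θ - Real.pi) / 4)) False := by
  rw [ph_D]
  have hL := H.len (θ := θ) (β := β) (ia := ia) (ta := ta) (.inr (.inr ()))
  change 1 ≤ ((n : ℤ) * (p (iT p)).2).toNat - 2 * ⌊δ * n⌋₊ at hL
  have hg : Two (Sum.inr ((n : ℤ) * (p (iT p)).1, (⌊δ * n⌋₊ : ℤ) - 1))
      ((n : ℤ) * (p (iT p)).1, (⌊δ * n⌋₊ : ℤ))
      ((n : ℤ) * (p (iT p)).1, (⌊δ * n⌋₊ : ℤ) - 1) := by
    have h := (two_inr ((n : ℤ) * (p (iT p)).1, (⌊δ * n⌋₊ : ℤ) - 1)).symm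
    simp only [sub_add_cancel] at h
    exact h
  have hq : ((n : ℤ) * (p (iT p)).1, (⌊δ * n⌋₊ : ℤ)) ∈
      (rD θ β p b tp ia ta n ⌊δ * n⌋₊ (.inr (.inr ()))).I := by
    rw [rowD_I]
    exact mem_spk.2 ⟨rfl, le_rfl, by simp only; omega⟩
  have hq' : ((n : ℤ) * (p (iT p)).1, (⌊δ * n⌋₊ : ℤ) - 1) ∉
      (rD θ β p b tp ia ta n ⌊δ * n⌋₊ (.inr (.inr ()))).I := by
    rw [rowD_I]
    intro h
    have := (mem_spk.1 h).2.1
    simp only at this
    omega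
  have hes : (rD θ β p b tp ia ta n ⌊δ * n⌋₊ (.inr (.inr ()))).es false =
      Sum.inr ((n : ℤ) * (p (iT p)).1, (⌊δ * n⌋₊ : ℤ) - 1) := rfl
  have hne : (rD θ β p b tp ia ta n ⌊δ * n⌋₊ (.inr (.inr ()))).es true ≠
      Sum.inr ((n : ℤ) * (p (iT p)).1, (⌊δ * n⌋₊ : ℤ) - 1) := by
    intro h
    change (Sum.inr ((n : ℤ) * (p (iT p)).1, (⌊δ * n⌋₊ : ℤ) +
      ((((n : ℤ) * (p (iT p)).2).toNat - 2 * ⌊δ * n⌋₊ : ℕ) : ℤ) - 1) : Ed) = _ at h
    rw [Sum.inr.injEq, Prod.mk.injEq] at h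
    omega
  refine (sd_row (H.len) H.rsep hq hq' hg).cast' rfl rfl ?_ ?_ ?_
  · rw [← hes, Φ_es θ (H.len _) false]
    rfl
  · rw [← hes, σ_es θ (H.len _) false]
    rfl
  · exact iff_false_intro fun h => hne h.symm

end spoke

/-! ### the phases at the vertex with the spoke -/

theorem uB_T (H : DobN p S₀ b tp g δ n) :
    uB p n (mks p b tp) (xT H.hp (mks p b tp)) = uT p := by
  obtain ⟨b1, b3, b5, b6, b7⟩ := H.basic
  have ht : tB n (mks p b tp) < n := Enl.tB_lt H.hQ b5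
  have hpB : pB n (mks p b tp) (xT H.hp (mks p b tp)) = n := pB_zero H.hQ rfl
  unfold uB
  rw [hpB, H825.Q.uN_kOf H.hp H.hD ht (iB_lt _) (by omega), iB_xT]
  unfold uT
  congr 1
  have hl : 3 ≤ l := by have := H.hp.1; omega
  by_cases h0 : iT p = 0
  · rw [if_pos h0, if_neg (by omega)]
  · rw [if_neg h0]
    by_cases h1 : iT p - 1 = 0
    · rw [if_pos h1, if_neg (by omega), h1]
      rfl
    · rw [if_neg h1]

theorem uA_T (H : DobN p S₀ b tp g δ n) :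
    uA p n (mks p b tp) (xT H.hp (mks p b tp)) = uT p + 1 := by
  obtain ⟨b1, b3, b5, b6, b7⟩ := H.basic
  obtain ⟨e1, e2⟩ := dirT H.hp H.hD (mks p b tp)
  have h1 := turn_mark H.hp H.hD H.hQ H.hg (m := 0) le_rfl (by push_cast; linarith) b5
    (xT H.hp (mks p b tp))
  have h2 := uA_mod H.hp H.hD H.hQ b5 (xT H.hp (mks p b tp))
    (Enl.pA_lt H.hQ b5 (xT H.hp (mks p b tp)))
  have h3 := uB_mod H.hp H.hD H.hQ b5 (xT H.hp (mks p b tp))
  rw [e2] at h2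
  rw [e1] at h3
  rw [← H.uB_T]
  have h4 : ((3 : Fin 4).val : ℤ) = 3 := rfl
  have h5 : ((0 : Fin 4).val : ℤ) = 0 := rfl
  change _ % 4 = (((3 : Fin 4).val : ℕ) : ℤ) at h3
  change _ % 4 = (((0 : Fin 4).val : ℕ) : ℤ) at h2
  rw [h4] at h3
  rw [h5] at h2
  omega

/-- The arc of the steps near the vertex with the spoke. -/
theorem arc_T (H : DobN p S₀ b tp g δ n) (hbg : BGap l (mks p b tp) g (.dob ia ta)) {m : ℤ}
    (hm : (2 * m : ℝ) + 2 < g * n) {i σ : ℕ} (hi : i < l) (hσ : σ < n)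
    (h : nm (vp p n i σ - hsite p (mks p b tp) n (xT H.hp (mks p b tp))) ≤ m) :
    kOf l n ⌊tp * n⌋₊ i σ < (Bc.dob ia ta).ka l n ⌊tp * n⌋₊ ↔ clT p ia := by
  have h1 := wcol_tP (bc := .dob ia ta) H.hp H.hQ H.hg hbg
    (tP_lt (bc := .dob ia ta) H.hQ H.hg H.hδg H.hn) m hm (xT H.hp (mks p b tp)) i σ hi hσ h
  have h2 := wcJ_T H hbg
  unfold wcJ at h2
  rw [decide_eq_decide] at h2
  change (kOf l n ⌊tp * n⌋₊ i σ < (Bc.dob ia ta).ka l n ⌊tp * n⌋₊ ↔ _) at h1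
  rw [h1]
  change (kOf l n ⌊tp * n⌋₊ _ _ < (Bc.dob ia ta).ka l n ⌊tp * n⌋₊ ↔ _)
  rw [← not_iff_not, h2]
  unfold cT
  by_cases h : clT p ia
  · rw [if_pos h]
    simp only [h, not_true]
    norm_num
  · rw [if_neg h]
    simp [h]

/-- The phase and the colour near the vertex with the spoke. -/
theorem st_T (H : DobN p S₀ b tp g δ n) (hbg : BGap l (mks p b tp) g (.dob ia ta)) {m : ℤ}
    (hm : (2 * m : ℝ) + 2 < g * n) {i σ : ℕ} (hi : i < l) (hσ : σ < n)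
    (h : nm (vp p n i σ - hsite p (mks p b tp) n (xT H.hp (mks p b tp))) ≤ m) {u : ℤ}
    (hu : uN p n ⌊tp * n⌋₊ (kOf l n ⌊tp * n⌋₊ i σ) = u) :
    stΦ θ β (uN p n ⌊tp * n⌋₊) ((Bc.dob ia ta).ka l n ⌊tp * n⌋₊) (kOf l n ⌊tp * n⌋₊ i σ) =
      ET θ β p ia + θ / 4 * (u - uT p) ∧
    stτ ((Bc.dob ia ta).ka l n ⌊tp * n⌋₊) (kOf l n ⌊tp * n⌋₊ i σ) = cT p ia := by
  have h1 := H.arc_T hbg hm hi hσ h
  unfold stΦ stτ ET cT
  rw [hu]
  by_cases h2 : clT p ia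
  · rw [if_pos (h1.2 h2), if_pos (h1.2 h2), if_pos h2, if_pos h2]
    refine ⟨by ring, rfl⟩
  · rw [if_neg (fun h => h2 (h1.1 h)), if_neg (fun h => h2 (h1.1 h)), if_neg h2, if_neg h2]
    refine ⟨by ring, rfl⟩

/-- The signs of the rows at the vertex with the spoke. -/
theorem JD_T (H : DobN p S₀ b tp g δ n) (hia : 1 ≤ ia) :
    JD p ia (iB l (xT H.hp (mks p b tp))) = false ∧ JD p ia (iT p) = true := by
  have hl : 3 ≤ l := by have := H.hp.1; omega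
  rw [iB_xT]
  unfold JD
  by_cases h1 : clT p ia
  · rw [if_pos h1, if_pos h1]
    unfold clT at h1
    rw [if_neg (by omega)]
    refine ⟨?_, ?_⟩
    · simp only [decide_eq_false_iff_not]
      omega
    · simp
  · rw [if_neg h1, if_neg h1]
    unfold clT at h1
    by_cases h0 : iT p = 0
    · rw [if_pos h0, if_pos h0, if_pos h0]
      refine ⟨?_, ?_⟩
      · simp only [decide_eq_false_iff_not]
        omega
      · simp [h0]
    · rw [if_neg h0, if_neg h0, if_neg h0]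
      refine ⟨?_, ?_⟩
      · simp only [decide_eq_false_iff_not]
        omega
      · simp

section rowT

variable [NeZero l] {σ : ℕ}

/-- The faces of the row behind the vertex with the spoke. -/
theorem rowB_face (H : DobN p S₀ b tp g δ n) (hbg : BGap l (mks p b tp) g (.dob ia ta)) {R : ℕ}
    (hR : (R : ℝ) ≤ g / 16 * n)
    (h1 : gA p n (mks p b tp) ⌊δ * n⌋₊ (xT H.hp (mks p b tp)) ≤ σ) (h2 : σ < R) (b' : Bool) :
    SdW ((frD θ β p S₀ b tp ia ta).ph (rowS θ) δ n 0)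
      (EEr fun x : IxD l => rD θ β p b tp ia ta n ⌊δ * n⌋₊ x)
      ((n : ℤ) * (p (iT p)).1 + σ, (n : ℤ) * (p (iT p)).2 - 1)
      ((n : ℤ) * (p (iT p)).1 + σ, (n : ℤ) * (p (iT p)).2 - if b' then 0 else 2)
      (ET θ β p ia + θ / 4 - if b' then 0 else θ / 2)
      (cT p ia * ((3 * θ - Real.pi) / 4)) False := by
  obtain ⟨b1, b3, b5, b6, b7⟩ := H.basic
  obtain ⟨k1, k2⟩ := H.szR hR
  obtain ⟨e1, e2⟩ := dirT H.hp H.hD (mks p b tp)
  have hs := hsT (n := n) H.hp H.hQ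
  set x := xT H.hp (mks p b tp) with hx
  have hpA : pA n (mks p b tp) x = 0 := pA_zero H.hQ rfl
  obtain ⟨⟨p1, p2, p3⟩, ⟨p4, p5, p6⟩⟩ := row_pos (p := p) H.hQ H.hg H.hδ H.hδg H.hn x
  have hrl := rows_long (p := p) (R := R + 2) H.hQ H.hg H.hδ H.hδg H.hn k2 x
  rw [hpA] at p4 hrl
  have ht : ⌊tp * n⌋₊ < n := tP_lt (bc := .dob ia ta) H.hQ H.hg H.hδg H.hn
  have hσn : σ < n := by omega
  have hd16 : 16 ≤ ⌊δ * n⌋₊ := Nat.le_floor (by push_cast; linarith [H.hn])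
  have hgn : (0 : ℝ) ≤ g * n := by linarith
  have hm : (2 * (R : ℤ) : ℝ) + 2 < g * n := by
    push_cast at k2 ⊢
    linarith
  have hvp : nm (vp p n x.1 σ - hsite p (mks p b tp) n x) ≤ (R : ℤ) := by
    rw [← vp_pA, Enl.vp_same, hpA]
    have : |((σ : ℤ) - ((0 : ℕ) : ℤ))| = σ := by
      rw [Nat.cast_zero, sub_zero, abs_of_nonneg (by omega)]
    rw [this]
    omega
  have hu : uN p n ⌊tp * n⌋₊ (kOf l n ⌊tp * n⌋₊ x.1 σ) = uT p + 1 := by
    rw [← H.uA_T]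
    exact uN_after (p := p) (Q := mks p b tp) (m := (R : ℤ)) H.hQ H.hg (by omega) hm b5 x hσn
      (by rw [hpA]; omega) (by rw [hpA]; omega)
  have hst := H.st_T (θ := θ) (β := β) hbg hm x.1.2 hσn hvp hu
  have hf := sdJ_face (r := fun x : IxD l => rD θ β p b tp ia ta n ⌊δ * n⌋₊ x)
    (z := fun _ => 0) (y := .inl x) (i := x.1) (j := x.2) (σ := σ) (bc := .dob ia ta)
    (t := ⌊tp * n⌋₊) (d := ⌊δ * n⌋₊) (J := JD p ia) (C := 0) (c := 1) (β := β) (θ := θ)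
    H.hp H.hD H.hQ (bc_ok b6 hbg) (by omega) ht
    (Or.inl rfl) (H.len) H.rsep rfl x.1.2 (Nat.lt_succ_iff.1 x.2.2) (by omega) (by omega) b'
  have hJD : JD p ia x.1 = true := (H.JD_T hbg.1).2
  rw [hst.1, hst.2, hJD] at hf
  have e4 : Enl.op p n x.1 (σ : ℤ) =
      ((n : ℤ) * (p (iT p)).1 + σ, (n : ℤ) * (p (iT p)).2 - 1) := by
    have := op_after (p := p) (n := n) x (σ : ℤ)
    rw [hs, e2, (oz_eq _ _).1, hpA, Nat.cast_zero, zero_add] at this
    exact this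
  have e5 : vp p n x.1 (σ : ℤ) =
      ((n : ℤ) * (p (iT p)).1 + σ, (n : ℤ) * (p (iT p)).2) := by
    have h0 : vp p n x.1 (pA n (mks p b tp) x : ℤ) = _ := vp_pA x
    rw [hpA, hs] at h0
    unfold vp at h0 ⊢
    rw [e2, (vz_eq _ _).1] at h0 ⊢
    simp only [Nat.cast_zero, add_zero] at h0
    rw [Prod.ext_iff] at h0
    ext
    · simp only
      rw [h0.1]
    · simp only
      rw [h0.2]
  refine hf.cast' e4 ?_ ?_ ?_ Iff.rfl
  · cases b'
    · rw [if_neg (by decide), e4, e2]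
      show (_ + 0, (n : ℤ) * (p (iT p)).2 - 1 + (-1)) = _
      ext
      · simp
      · simp only [Bool.false_eq_true, if_false]
        ring
    · rw [if_pos rfl, e5, e2, Enl.face0]
      simp
  · unfold hJ
    cases b'
    · simp only [Bool.false_eq_true, if_false, if_true]
      push_cast
      ring
    · simp only [if_true]
      push_cast
      ring
  · ring

/-- The first end side of the row behind the vertex with the spoke. -/
theorem rowB_end (H : DobN p S₀ b tp g δ n) (hbg : BGap l (mks p b tp) g (.dob ia ta)) {R : ℕ}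
    (hR : (R : ℝ) ≤ g / 16 * n) (hRd : ⌊δ * n⌋₊ + 3 ≤ R)
    (h1 : gA p n (mks p b tp) ⌊δ * n⌋₊ (xT H.hp (mks p b tp)) = σ) :
    SdW ((frD θ β p S₀ b tp ia ta).ph (rowS θ) δ n 0)
      (EEr fun x : IxD l => rD θ β p b tp ia ta n ⌊δ * n⌋₊ x)
      ((n : ℤ) * (p (iT p)).1 + σ, (n : ℤ) * (p (iT p)).2 - 1)
      ((n : ℤ) * (p (iT p)).1 + σ - 1, (n : ℤ) * (p (iT p)).2 - 1)
      (ET θ β p ia) (cT p ia * ((θ - Real.pi) / 4)) False := by
  obtain ⟨b1, b3, b5, b6, b7⟩ := H.basic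
  obtain ⟨k1, k2⟩ := H.szR hR
  obtain ⟨e1, e2⟩ := dirT H.hp H.hD (mks p b tp)
  have hs := hsT (n := n) H.hp H.hQ
  set x := xT H.hp (mks p b tp) with hx
  have hpA : pA n (mks p b tp) x = 0 := pA_zero H.hQ rfl
  obtain ⟨⟨p1, p2, p3⟩, ⟨p4, p5, p6⟩⟩ := row_pos (p := p) H.hQ H.hg H.hδ H.hδg H.hn x
  have hrl := rows_long (p := p) (R := R + 2) H.hQ H.hg H.hδ H.hδg H.hn k2 x
  rw [hpA] at p4 hrl
  have ht : ⌊tp * n⌋₊ < n := tP_lt (bc := .dob ia ta) H.hQ H.hg H.hδg H.hn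
  have hσn : σ < n := by omega
  have hd16 : 16 ≤ ⌊δ * n⌋₊ := Nat.le_floor (by push_cast; linarith [H.hn])
  have hm : (2 * (R : ℤ) : ℝ) + 2 < g * n := by
    push_cast at k2 ⊢
    linarith
  have hvp : nm (vp p n x.1 σ - hsite p (mks p b tp) n x) ≤ (R : ℤ) := by
    rw [← vp_pA, Enl.vp_same, hpA]
    have : |((σ : ℤ) - ((0 : ℕ) : ℤ))| = σ := by
      rw [Nat.cast_zero, sub_zero, abs_of_nonneg (by omega)]
    rw [this]
    omega
  have hu : uN p n ⌊tp * n⌋₊ (kOf l n ⌊tp * n⌋₊ x.1 σ) = uT p + 1 := by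
    rw [← H.uA_T]
    exact uN_after (p := p) (Q := mks p b tp) (m := (R : ℤ)) H.hQ H.hg (by omega) hm b5 x hσn
      (by rw [hpA]; omega) (by rw [hpA]; omega)
  have hst := H.st_T (θ := θ) (β := β) hbg hm x.1.2 hσn hvp hu
  have hse := row_lt (p := p) (j := x.2) H.hQ H.hg H.hδ H.hδg H.hn x.1.2
      (Nat.lt_succ_iff.1 x.2.2)
  have hf := sdJ_end (r := fun x : IxD l => rD θ β p b tp ia ta n ⌊δ * n⌋₊ x)
    (z := fun _ => 0) (y := .inl x) (i := x.1) (j := x.2) (bc := .dob ia ta)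
    (t := ⌊tp * n⌋₊) (d := ⌊δ * n⌋₊) (J := JD p ia) (C := 0) (c := 1) (β := β) (θ := θ)
    (Or.inl rfl) (H.len) H.rsep rfl hse false
  have hJD : JD p ia x.1 = true := (H.JD_T hbg.1).2
  have hsW : sW p n (mks p b tp) ⌊δ * n⌋₊ x.1 x.2 = σ := by omega
  simp only [Bool.false_eq_true, if_false] at hf
  rw [hsW, hst.1, hst.2, hJD] at hf
  have e4 : ∀ σ : ℤ, Enl.op p n x.1 σ =
      ((n : ℤ) * (p (iT p)).1 + σ, (n : ℤ) * (p (iT p)).2 - 1) := by
    intro σ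
    have := op_after (p := p) (n := n) x (σ : ℤ)
    rw [hs, e2, (oz_eq _ _).1, hpA, Nat.cast_zero, zero_add] at this
    exact this
  refine hf.cast' (e4 _) ?_ ?_ ?_ ?_
  · rw [e4]
    ext
    · simp only
      ring
    · rfl
  · unfold hJ
    rw [if_pos rfl]
    push_cast
    ring
  · ring
  · simp

omit [NeZero l] in
/-- The square outside of a step before the vertex with the spoke. -/
theorem op_T (H : DobN p S₀ b tp g δ n) (σ : ℤ) :
    Enl.op p n (iB l (xT H.hp (mks p b tp))) σ =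
      ((n : ℤ) * (p (iT p)).1 - 1, (n : ℤ) * (p (iT p)).2 + n - σ - 1) ∧
    vp p n (iB l (xT H.hp (mks p b tp))) σ =
      ((n : ℤ) * (p (iT p)).1, (n : ℤ) * (p (iT p)).2 + n - σ) := by
  obtain ⟨e1, e2⟩ := dirT H.hp H.hD (mks p b tp)
  have hs := hsT (n := n) H.hp H.hQ
  have hpB : pB n (mks p b tp) (xT H.hp (mks p b tp)) = n := pB_zero H.hQ rfl
  refine ⟨?_, ?_⟩
  · have := op_before (p := p) (n := n) H.hp H.hQ (xT H.hp (mks p b tp)) (σ - n)
    rw [hs, e1, (oz_eq _ _).2.2.2, hpB, add_sub_cancel] at this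
    rw [this]
    ext
    · rfl
    · simp only
      ring
  · have h0 : vp p n (iB l (xT H.hp (mks p b tp)))
        (pB n (mks p b tp) (xT H.hp (mks p b tp)) : ℤ) = _ := vp_pB H.hp H.hQ _
    rw [hpB, hs] at h0
    unfold vp at h0 ⊢
    rw [e1, (vz_eq _ _).2.2.2] at h0 ⊢
    rw [Prod.ext_iff] at h0
    simp only at h0
    ext
    · simp only
      rw [h0.1]
    · simp only
      linarith [h0.2]

/-- The faces of the row before the vertex with the spoke. -/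
theorem rowA_face (H : DobN p S₀ b tp g δ n) (hbg : BGap l (mks p b tp) g (.dob ia ta)) {R : ℕ}
    (hR : (R : ℝ) ≤ g / 16 * n)
    (h1 : gB p n (mks p b tp) ⌊δ * n⌋₊ (xT H.hp (mks p b tp)) ≤ σ) (h2 : σ < R) (b' : Bool) :
    SdW ((frD θ β p S₀ b tp ia ta).ph (rowS θ) δ n 0)
      (EEr fun x : IxD l => rD θ β p b tp ia ta n ⌊δ * n⌋₊ x)
      ((n : ℤ) * (p (iT p)).1 - 1, (n : ℤ) * (p (iT p)).2 + σ)
      ((n : ℤ) * (p (iT p)).1 - (if b' then 0 else 2), (n : ℤ) * (p (iT p)).2 + σ)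
      (ET θ β p ia + if b' then 0 else θ / 2)
      (cT p ia * ((3 * θ - Real.pi) / 4)) False := by
  obtain ⟨b1, b3, b5, b6, b7⟩ := H.basic
  obtain ⟨k1, k2⟩ := H.szR hR
  obtain ⟨e1, e2⟩ := dirT H.hp H.hD (mks p b tp)
  have hs := hsT (n := n) H.hp H.hQ
  have hop := H.op_T
  set x := xT H.hp (mks p b tp) with hx
  have hpB : pB n (mks p b tp) x = n := pB_zero H.hQ rfl
  obtain ⟨⟨p1, p2, p3⟩, ⟨p4, p5, p6⟩⟩ := row_pos (p := p) H.hQ H.hg H.hδ H.hδg H.hn x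
  have hrl := rows_long (p := p) (R := R + 2) H.hQ H.hg H.hδ H.hδg H.hn k2 x
  rw [hpB] at p1 hrl
  have ht : ⌊tp * n⌋₊ < n := tP_lt (bc := .dob ia ta) H.hQ H.hg H.hδg H.hn
  have hd16 : 16 ≤ ⌊δ * n⌋₊ := Nat.le_floor (by push_cast; linarith [H.hn])
  have hm : (2 * (R : ℤ) : ℝ) + 2 < g * n := by
    push_cast at k2 ⊢
    linarith
  obtain ⟨s, hs1⟩ : ∃ s : ℕ, s + σ + 1 = n := ⟨n - 1 - σ, by omega⟩
  have hvp : nm (vp p n (iB l x) s - hsite p (mks p b tp) n x) ≤ (R : ℤ) := by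
    rw [← vp_pB H.hp H.hQ, Enl.vp_same, hpB]
    have : |((s : ℤ) - (n : ℤ))| = σ + 1 := by
      rw [abs_of_nonpos (by omega)]
      omega
    rw [this]
    omega
  have hu : uN p n ⌊tp * n⌋₊ (kOf l n ⌊tp * n⌋₊ (iB l x) s) = uT p := by
    rw [← H.uB_T]
    exact uN_before (p := p) (Q := mks p b tp) (m := (R : ℤ)) H.hQ H.hg (by omega) hm b5 x
      (by rw [hpB]; omega) (by rw [hpB]; omega)
  have hst := H.st_T (θ := θ) (β := β) hbg hm (iB_lt x) (show s < n by omega) hvp hu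
  have hf := sdJ_face (r := fun x : IxD l => rD θ β p b tp ia ta n ⌊δ * n⌋₊ x)
    (z := fun _ => 0) (y := .inl (⟨iB l x, iB_lt x⟩, ⟨jB x, Nat.lt_succ_of_le (jB_le x)⟩))
    (i := iB l x) (j := jB x) (σ := s) (bc := .dob ia ta)
    (t := ⌊tp * n⌋₊) (d := ⌊δ * n⌋₊) (J := JD p ia) (C := 0) (c := 1) (β := β) (θ := θ)
    H.hp H.hD H.hQ (bc_ok b6 hbg) (by omega) ht
    (Or.inl rfl) (H.len) H.rsep rfl (iB_lt x) (jB_le x) (by omega) (by omega) b'
  have hJD : JD p ia (iB l x) = false := (H.JD_T hbg.1).1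
  rw [hst.1, hst.2, hJD] at hf
  refine hf.cast' ?_ ?_ ?_ ?_ Iff.rfl
  · rw [(hop _).1]
    ext
    · rfl
    · simp only
      omega
  · cases b'
    · rw [if_neg (by decide), (hop _).1, e1]
      show ((n : ℤ) * (p (iT p)).1 - 1 + (-1), _ + (0 : ℤ)) = _
      ext
      · simp only [Bool.false_eq_true, if_false]
        ring
      · simp only
        omega
    · rw [if_pos rfl, (hop _).2, e1, Enl.face3]
      ext
      · simp
      · simp only
        omega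
  · unfold hJ
    cases b'
    · simp only [Bool.false_eq_true, if_false]
      push_cast
      ring
    · simp only [Bool.false_eq_true, if_false, if_true]
      push_cast
      ring
  · ring

/-- The last end side of the row before the vertex with the spoke. -/
theorem rowA_end (H : DobN p S₀ b tp g δ n) (hbg : BGap l (mks p b tp) g (.dob ia ta)) {R : ℕ}
    (hR : (R : ℝ) ≤ g / 16 * n) (hRd : ⌊δ * n⌋₊ + 3 ≤ R)
    (h1 : gB p n (mks p b tp) ⌊δ * n⌋₊ (xT H.hp (mks p b tp)) = σ) :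
    SdW ((frD θ β p S₀ b tp ia ta).ph (rowS θ) δ n 0)
      (EEr fun x : IxD l => rD θ β p b tp ia ta n ⌊δ * n⌋₊ x)
      ((n : ℤ) * (p (iT p)).1 - 1, (n : ℤ) * (p (iT p)).2 + σ)
      ((n : ℤ) * (p (iT p)).1 - 1, (n : ℤ) * (p (iT p)).2 + σ - 1)
      (ET θ β p ia + θ / 4) (cT p ia * ((θ - Real.pi) / 4)) False := by
  obtain ⟨b1, b3, b5, b6, b7⟩ := H.basic
  obtain ⟨k1, k2⟩ := H.szR hR
  obtain ⟨e1, e2⟩ := dirT H.hp H.hD (mks p b tp)
  have hs := hsT (n := n) H.hp H.hQ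
  have hop := H.op_T
  set x := xT H.hp (mks p b tp) with hx
  have hpB : pB n (mks p b tp) x = n := pB_zero H.hQ rfl
  obtain ⟨⟨p1, p2, p3⟩, ⟨p4, p5, p6⟩⟩ := row_pos (p := p) H.hQ H.hg H.hδ H.hδg H.hn x
  have hrl := rows_long (p := p) (R := R + 2) H.hQ H.hg H.hδ H.hδg H.hn k2 x
  rw [hpB] at p1 hrl
  have ht : ⌊tp * n⌋₊ < n := tP_lt (bc := .dob ia ta) H.hQ H.hg H.hδg H.hn
  have hd16 : 16 ≤ ⌊δ * n⌋₊ := Nat.le_floor (by push_cast; linarith [H.hn])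
  have hm : (2 * (R : ℤ) : ℝ) + 2 < g * n := by
    push_cast at k2 ⊢
    linarith
  obtain ⟨s, hs1⟩ : ∃ s : ℕ, s + σ + 1 = n := ⟨n - 1 - σ, by omega⟩
  have hvp : nm (vp p n (iB l x) s - hsite p (mks p b tp) n x) ≤ (R : ℤ) := by
    rw [← vp_pB H.hp H.hQ, Enl.vp_same, hpB]
    have : |((s : ℤ) - (n : ℤ))| = σ + 1 := by
      rw [abs_of_nonpos (by omega)]
      omega
    rw [this]
    omega
  have hu : uN p n ⌊tp * n⌋₊ (kOf l n ⌊tp * n⌋₊ (iB l x) s) = uT p := by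
    rw [← H.uB_T]
    exact uN_before (p := p) (Q := mks p b tp) (m := (R : ℤ)) H.hQ H.hg (by omega) hm b5 x
      (by rw [hpB]; omega) (by rw [hpB]; omega)
  have hst := H.st_T (θ := θ) (β := β) hbg hm (iB_lt x) (show s < n by omega) hvp hu
  have hse := row_lt (p := p) (j := jB x) H.hQ H.hg H.hδ H.hδg H.hn (iB_lt x) (jB_le x)
  have hf := sdJ_end (r := fun x : IxD l => rD θ β p b tp ia ta n ⌊δ * n⌋₊ x)
    (z := fun _ => 0) (y := .inl (⟨iB l x, iB_lt x⟩, ⟨jB x, Nat.lt_succ_of_le (jB_le x)⟩))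
    (i := iB l x) (j := jB x) (bc := .dob ia ta)
    (t := ⌊tp * n⌋₊) (d := ⌊δ * n⌋₊) (J := JD p ia) (C := 0) (c := 1) (β := β) (θ := θ)
    (Or.inl rfl) (H.len) H.rsep rfl hse true
  have hJD : JD p ia (iB l x) = false := (H.JD_T hbg.1).1
  have heW : eW p n (mks p b tp) ⌊δ * n⌋₊ (iB l x) (jB x) - 1 = s := by omega
  have heW' : (eW p n (mks p b tp) ⌊δ * n⌋₊ (iB l x) (jB x) : ℤ) = s + 1 := by omega
  simp only [if_true] at hf
  rw [heW, heW', hst.1, hst.2, hJD] at hf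
  refine hf.cast' ?_ ?_ ?_ ?_ ?_
  · rw [(hop _).1]
    ext
    · rfl
    · simp only
      omega
  · rw [(hop _).1]
    ext
    · rfl
    · simp only
      omega
  · unfold hJ
    simp only [Bool.false_eq_true, if_false]
    push_cast
    ring
  · ring
  · simp

/-! ### the window at the vertex with the spoke -/

omit [NeZero l] in
theorem sgT_cast : ((if clT p ia then 1 else -1 : ℤ) : ℝ) = cT p ia := by
  unfold cT
  split_ifs <;> norm_num

/-- **The phases at the vertex with the spoke.** -/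
theorem phT (H : DobN p S₀ b tp g δ n) (hbg : BGap l (mks p b tp) g (.dob ia ta)) {R : ℕ}
    (hR : (R : ℝ) ≤ g / 16 * n) (hRd : ⌊δ * n⌋₊ + 3 ≤ R) :
    PhT θ ((frD θ β p S₀ b tp ia ta).ph (rowS θ) δ n 0)
      (EEr fun x : IxD l => rD θ β p b tp ia ta n ⌊δ * n⌋₊ x)
      (if clT p ia then 1 else -1) (ET θ β p ia + θ / 4)
      ((n : ℤ) * (p (iT p)).1, (n : ℤ) * (p (iT p)).2)
      (R - gB p n (mks p b tp) ⌊δ * n⌋₊ (xT H.hp (mks p b tp)))
      (R - gA p n (mks p b tp) ⌊δ * n⌋₊ (xT H.hp (mks p b tp))) (R - ⌊δ * n⌋₊) R := by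
  obtain ⟨b1, b3, b5, b6, b7⟩ := H.basic
  obtain ⟨k1, k2⟩ := H.szR hR
  obtain ⟨⟨p1, p2, p3⟩, ⟨p4, p5, p6⟩⟩ := row_pos (p := p) H.hQ H.hg H.hδ H.hδg H.hn
    (xT H.hp (mks p b tp))
  have hy' : 2 * (n : ℤ) ≤ n * (p (iT p)).2 := by
    have := (H.hN (iT p)).2
    nlinarith
  have hd16 : 16 ≤ ⌊δ * n⌋₊ := Nat.le_floor (by push_cast; linarith [H.hn])
  set gb := gB p n (mks p b tp) ⌊δ * n⌋₊ (xT H.hp (mks p b tp)) with hgb
  set ga := gA p n (mks p b tp) ⌊δ * n⌋₊ (xT H.hp (mks p b tp)) with hga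
  have hA : (R : ℤ) - ((R - gb : ℕ) : ℤ) = gb := by omega
  have hB : (R : ℤ) - ((R - ga : ℕ) : ℤ) = ga := by omega
  have hS : -(R : ℤ) + ((R - ⌊δ * n⌋₊ : ℕ) : ℤ) = -(⌊δ * n⌋₊ : ℤ) := by omega
  refine ⟨?_, ?_, ?_, ?_, ?_, ?_, ?_, ?_, ?_⟩
  · intro y h1 h2
    rw [hS] at h2
    refine (H.spk_w (v := n * (p (iT p)).2 + y) (by omega) (by omega)).cast' ?_ ?_ (by ring)
      (by rw [sgT_cast]) Iff.rfl
    · ext
      · simp
      · rfl
    · ext
      · simp only [Prod.fst_add]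
        ring
      · rfl
  · intro y h1 h2
    rw [hS] at h2
    refine (H.spk_e (v := n * (p (iT p)).2 + y) (by omega) (by omega)).cast' ?_ ?_ (by ring)
      (by rw [sgT_cast]) Iff.rfl
    · ext
      · simp
      · rfl
    · rfl
  · refine (H.spk_t (v := n * (p (iT p)).2 - ⌊δ * n⌋₊ - 1) (by omega) (by omega)).cast' ?_ ?_
      rfl (by rw [sgT_cast]) Iff.rfl
    · ext
      · simp
      · simp only [Prod.snd_add]
        omega
    · ext
      · simp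
      · simp only [Prod.snd_add]
        omega
  · intro x h1 h2
    rw [hB] at h1
    obtain ⟨σ, rfl⟩ : ∃ σ : ℕ, x = σ := ⟨x.toNat, by omega⟩
    refine (H.rowB_face hbg hR (by omega) (by omega) false).cast' rfl ?_ ?_
      (by rw [sgT_cast]) Iff.rfl
    · rfl
    · simp
  · intro x h1 h2
    rw [hB] at h1
    obtain ⟨σ, rfl⟩ : ∃ σ : ℕ, x = σ := ⟨x.toNat, by omega⟩
    refine (H.rowB_face hbg hR (by omega) (by omega) true).cast' rfl ?_ ?_
      (by rw [sgT_cast]) Iff.rfl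
    · ext
      · rfl
      · simp
    · simp
  · rw [hB]
    refine (H.rowB_end hbg hR hRd hga.symm).cast' rfl ?_ (by ring) (by rw [sgT_cast]) Iff.rfl
    ext
    · simp only [Prod.fst_add]
      ring
    · rfl
  · intro y h1 h2
    rw [hA] at h1
    obtain ⟨σ, rfl⟩ : ∃ σ : ℕ, y = σ := ⟨y.toNat, by omega⟩
    refine (H.rowA_face hbg hR (by omega) (by omega) true).cast' rfl ?_ ?_
      (by rw [sgT_cast]) Iff.rfl
    · ext
      · simp
      · rfl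
    · simp
  · intro y h1 h2
    rw [hA] at h1
    obtain ⟨σ, rfl⟩ : ∃ σ : ℕ, y = σ := ⟨y.toNat, by omega⟩
    refine (H.rowA_face hbg hR (by omega) (by omega) false).cast' rfl ?_ ?_
      (by rw [sgT_cast]) Iff.rfl
    · ext
      · simp only [Bool.false_eq_true, if_false, Prod.fst_add]
        ring
      · rfl
    · simp only [Bool.false_eq_true, if_false]
      ring
  · rw [hA]
    refine (H.rowA_end hbg hR hRd hgb.symm).cast' rfl ?_ (by ring) (by rw [sgT_cast]) Iff.rfl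
    ext
    · rfl
    · simp only [Prod.snd_add]
      ring

/-- **The window at the vertex with the spoke.** -/
theorem winT (H : DobN p S₀ b tp g δ n) (hbg : BGap l (mks p b tp) g (.dob ia ta)) {R : ℕ}
    (hR : (R : ℝ) ≤ g / 16 * n) (hRd : ⌊δ * n⌋₊ + 3 ≤ R) :
    ∃ w : WinD, w.Ok θ ((frD θ β p S₀ b tp ia ta).U (rowS θ) δ n)
        (EEr fun x : IxD l => rD θ β p b tp ia ta n ⌊δ * n⌋₊ x)
        ((frD θ β p S₀ b tp ia ta).ph (rowS θ) δ n 0) ∧
      w.σ = (if clT p ia then 1 else -1) ∧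
      (∀ v, v ∉ (frD θ β p S₀ b tp ia ta).U (rowS θ) δ n →
        v ∈ Bq ((n : ℤ) * (p (iT p)).1, (n : ℤ) * (p (iT p)).2) R → v ∈ w.D) ∧
      (∀ v, v ∈ Bq ((n : ℤ) * (p (iT p)).1, (n : ℤ) * (p (iT p)).2) (R - 1) → v ∈ w.V) ∧
      (∀ v ∈ (frD θ β p S₀ b tp ia ta).U (rowS θ) δ n,
        v ∈ Bq ((n : ℤ) * (p (iT p)).1, (n : ℤ) * (p (iT p)).2) (R - 1) → v ∈ w.C) ∧
      (∀ j, ¬ w.Z j) ∧ w.KR (RT ((n : ℤ) * (p (iT p)).1, (n : ℤ) * (p (iT p)).2)
        (R - gB p n (mks p b tp) ⌊δ * n⌋₊ (xT H.hp (mks p b tp)))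
        (R - gA p n (mks p b tp) ⌊δ * n⌋₊ (xT H.hp (mks p b tp))) R) := by
  obtain ⟨b1, b3, b5, b6, b7⟩ := H.basic
  obtain ⟨⟨p1, p2, p3⟩, ⟨p4, p5, p6⟩⟩ := row_pos (p := p) H.hQ H.hg H.hδ H.hδg H.hn
    (xT H.hp (mks p b tp))
  have hd16 : 16 ≤ ⌊δ * n⌋₊ := Nat.le_floor (by push_cast; linarith [H.hn])
  have hph := H.phT (θ := θ) (β := β) hbg hR hRd
  have hmem := fun v hv => H.mem_T (θ := θ) (β := β) (ia := ia) (ta := ta) hR (v := v) hv
  set gb := gB p n (mks p b tp) ⌊δ * n⌋₊ (xT H.hp (mks p b tp)) with hgb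
  set ga := gA p n (mks p b tp) ⌊δ * n⌋₊ (xT H.hp (mks p b tp)) with hga
  have hA : (R : ℤ) - ((R - gb : ℕ) : ℤ) = gb := by omega
  have hB : (R : ℤ) - ((R - ga : ℕ) : ℤ) = ga := by omega
  have hS : -(R : ℤ) + ((R - ⌊δ * n⌋₊ : ℕ) : ℤ) = -(⌊δ * n⌋₊ : ℤ) := by omega
  set X : ℤ := (n : ℤ) * (p (iT p)).1 with hX
  set Y : ℤ := (n : ℤ) * (p (iT p)).2 with hY
  have hQ : ∀ v, v ∈ Bq (X, Y) R → (v ∈ (frD θ β p S₀ b tp ia ta).U (rowS θ) δ n ↔
      v - (X, Y) ∈ wTQ (R - gb) (R - ga) (R - ⌊δ * n⌋₊) R) := by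
    intro v hv
    rw [hmem v hv]
    unfold wTQ
    simp only [Set.mem_ofPred_eq, Prod.fst_sub, Prod.snd_sub]
    rw [hA, hB, hS]
    constructor
    · rintro (⟨h1, h2⟩ | ⟨h1, h2⟩ | ⟨h1, h2⟩)
      · left; omega
      · right; left; omega
      · right; right; omega
    · rintro (⟨h1, h2⟩ | ⟨h1, h2⟩ | ⟨h1, h2⟩)
      · left; omega
      · right; left; omega
      · right; right; omega
  obtain ⟨w, w1, w2, w3, w4, w5, w6⟩ := winT_okK (θ := θ) (z := (X, Y))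
    (K := (frD θ β p S₀ b tp ia ta).U (rowS θ) δ n)
    (σ := if clT p ia then 1 else -1) (by split_ifs <;> simp) (by omega) (by omega) (by omega)
    (by omega) (by omega) (by omega)
    (fun v hv => hQ v (by
      obtain ⟨h1, h2, h3, h4⟩ := hv
      simp only [Prod.fst_sub, Prod.snd_sub] at h1 h2 h3 h4
      rw [mem_bq']
      simp only
      omega))
    (fun v hv h => by
      obtain ⟨h1, h2, h3, h4, h5, h6, h7⟩ := h
      simp only [Prod.fst_sub, Prod.snd_sub] at h1 h2 h3 h4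
      have h8 := (hQ v (by
        rw [mem_bq']
        simp only
        omega)).1 hv
      rcases h8 with h8 | h8 | h8
      · exact h5 h8
      · exact h6 h8
      · exact h7 h8)
    (fun g hg _ => by
      rw [ph_D, phr_off (fun v => mem_U v) H.rsep hg, phr_off (fun v => mem_U v) H.rsep hg,
        add_zero])
    hph
  refine ⟨w, w1, w2, fun v hv hv2 => ?_, fun v hv => ?_, fun v hv hv2 => ?_, w6⟩
  · rw [w3]
    have h1 := mem_bq'.1 hv2
    simp only at h1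
    have h2 := fun h => hv ((hQ v hv2).2 h)
    unfold wTQ at h2
    simp only [Set.mem_ofPred_eq, Prod.fst_sub, Prod.snd_sub] at h2
    show _ ∧ _ ∧ _ ∧ _ ∧ _ ∧ _ ∧ _
    simp only [Prod.fst_sub, Prod.snd_sub]
    refine ⟨by omega, by omega, by omega, by omega, fun h => h2 (Or.inl h),
      fun h => h2 (Or.inr (Or.inl h)), fun h => h2 (Or.inr (Or.inr h))⟩
  · rw [w4]
    have h1 := mem_bq'.1 hv
    simp only at h1
    show _ ∧ _ ∧ _ ∧ _
    simp only [Prod.fst_sub, Prod.snd_sub]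
    omega
  · rw [w5]
    have h1 := mem_bq'.1 hv2
    simp only at h1
    refine ⟨hv, ?_⟩
    show _ ∧ _ ∧ _ ∧ _
    simp only [Prod.fst_sub, Prod.snd_sub]
    omega

end rowT

end DobN

end Vale.Agent.P167.N.ID
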