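import Vale.Agent.P167.N.ID.WinL

/-!
# P167, `q < 1`, START: the windows at the hole with three rows, at the foot, at one face of a row

`winT_ok`, `winF_ok`, `winR_ok`.
-/

set_option autoImplicit false

namespace Vale.Agent.P167.N.ID

open Finset
open Vale.Agent.P167.Top
open Vale.Agent.P167.FK
open Vale.Agent.P167.H871
open Vale.Agent.P167.H871.Q
open Vale.Agent.P167.XDL (bS mem_bS)

variable {θ : ℝ} {a : Ed → Bool → ℝ} {EE : Set Ed} {σ : ℤ} {c : ℝ} {z : ℤ × ℤ} {K : Finset (ℤ × ℤ)}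
  {A B S R : ℕ}

theorem SdW.cast {q q' q₁ q₁' : ℤ × ℤ} {φ φ₁ ς : ℝ} {b : Prop} (h : SdW a EE q q' φ ς b)
    (e1 : q = q₁) (e2 : q' = q₁') (e3 : φ = φ₁) : SdW a EE q₁ q₁' φ₁ ς b := by
  subst e1 e2 e3
  exact h

theorem Lq0 (z v : ℤ × ℤ) : Lq z 0 v = v - z := by
  unfold Lq
  rw [show dx 0 = 1 from rfl, show dy 0 = 0 from rfl]
  ext <;> simp

theorem Ls0 (z v : ℤ × ℤ) : Ls z 0 v = z + v := by
  unfold Ls
  rw [show dx 0 = 1 from rfl, show dy 0 = 0 from rfl]
  ext <;> simp

theorem sqL_add (z v : ℤ × ℤ) (d : ℤ) : sqL (z + v) d = z + sqL v d := by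
  unfold sqL
  split_ifs <;> ext <;> simp <;> ring

theorem sqL_e (x y : ℤ) : sqL (x, y) 0 = (x, y) ∧ sqL (x, y) 1 = (x - 1, y) ∧
    sqL (x, y) 2 = (x - 1, y - 1) ∧ sqL (x, y) 3 = (x, y - 1) ∧ sqL (x, y) (-1) = (x, y - 1) ∧
    sqL (x, y) (-2) = (x - 1, y - 1) := by
  unfold sqL
  norm_num
  refine ⟨rfl, ⟨rfl, rfl⟩, rfl, rfl, rfl⟩

theorem pz_cases (z : ℤ × ℤ) : pz z = 1 ∨ pz z = -1 := by
  unfold pz
  split_ifs <;> simp

theorem pz_even {z : ℤ × ℤ} : pz z = 1 ↔ Even (z.1 + z.2) := by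
  unfold pz
  split_ifs with h <;> simp [h]

/-- The neighbours of a site have the other parity. -/
theorem pz_vec (z : ℤ × ℤ) (d : ℤ) : pz (z + vec d) = -pz z := by
  have key : (Even ((z + vec d).1 + (z + vec d).2) ↔ ¬ Even (z.1 + z.2)) := by
    rw [Int.even_iff, Int.even_iff]
    show ((z.1 + dx d) + (z.2 + dy d)) % 2 = 0 ↔ _
    rcases head_cases d with ⟨a, b, c⟩ | ⟨a, b, c⟩ | ⟨a, b, c⟩ | ⟨a, b, c⟩ <;> rw [b, c] <;> omega
  unfold pz
  by_cases h : Even (z.1 + z.2)
  · rw [if_pos h, if_neg fun h' => (key.1 h') h]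
  · rw [if_neg h, if_pos (key.2 h), neg_neg]

/-- The jump of `s` before a zero end is at a good corner. -/
theorem zs_before {m : ℤ} (hσ : σ = 1 ∨ σ = -1) {q : ℤ × ℤ} : zs σ m q = m ∨
    (σ = 1 ∧ ¬ Even (q.1 + q.2)) ∨ (σ = -1 ∧ Even (q.1 + q.2)) := by
  unfold zs
  split_ifs with h
  · exact Or.inl rfl
  · right
    rw [← pz_even]
    rcases hσ with rfl | rfl <;> rcases pz_cases q with h1 | h1
    · exact absurd h1 h
    · exact Or.inl ⟨rfl, by rw [h1]; norm_num⟩
    · exact Or.inr ⟨rfl, h1⟩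
    · exact absurd h1 h

/-- The jump of `s` behind a zero end is at a good corner. -/
theorem zs_after {m : ℤ} (hσ : σ = 1 ∨ σ = -1) {q : ℤ × ℤ} {d : ℤ} : m + 1 = zs σ m q ∨
    (σ = 1 ∧ ¬ Even ((q + vec d).1 + (q + vec d).2)) ∨
    (σ = -1 ∧ Even ((q + vec d).1 + (q + vec d).2)) := by
  unfold zs
  split_ifs with h
  · right
    rw [← pz_even, pz_vec]
    rcases hσ with rfl | rfl <;> rw [h]
    · exact Or.inl ⟨rfl, by norm_num⟩
    · exact Or.inr ⟨rfl, by norm_num⟩
  · exact Or.inl rfl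

theorem zs_rg (σ m : ℤ) (q : ℤ × ℤ) : zs σ m q = m ∨ zs σ m q = m + 1 := by
  unfold zs
  split_ifs
  · exact Or.inl rfl
  · exact Or.inr rfl

/-! ### three rows -/

/-- **The phases at the hole with three rows**: the row `A` going up on the left of the line through
the corner `z`, the row `B` going right below it, the spoke going down on the right of it; regular
upper end of the spoke, zero ends of the rows `A`, `B`. -/
structure PhT (θ : ℝ) (a : Ed → Bool → ℝ) (EE : Set Ed) (σ : ℤ) (c : ℝ) (z : ℤ × ℤ)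
    (A B S R : ℕ) : Prop where
  Sw : ∀ y : ℤ, -(R : ℤ) < y → y < -R + S → SdW a EE (z + (0, y)) (z + (-1, y)) (c + θ / 4)
    (σ * ((3 * θ - Real.pi) / 4)) False
  Se : ∀ y : ℤ, -(R : ℤ) < y → y < -R + S → SdW a EE (z + (0, y)) (z + (1, y)) (c - θ / 4)
    (σ * ((3 * θ - Real.pi) / 4)) False
  S0 : SdW a EE (z + (0, -(R : ℤ) + S - 1)) (z + (0, -(R : ℤ) + S)) c (σ * ((θ - Real.pi) / 4)) True
  Bs : ∀ x : ℤ, R - B ≤ x → x < R → SdW a EE (z + (x, -1)) (z + (x, -2)) (c - θ / 2)
    (σ * ((3 * θ - Real.pi) / 4)) False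
  Bn : ∀ x : ℤ, R - B ≤ x → x < R → SdW a EE (z + (x, -1)) (z + (x, 0)) c
    (σ * ((3 * θ - Real.pi) / 4)) False
  B0 : SdW a EE (z + ((R : ℤ) - B, -1)) (z + ((R : ℤ) - B - 1, -1)) (c - θ / 4) (σ * ((θ - Real.pi) / 4)) False
  Ae : ∀ y : ℤ, R - A ≤ y → y < R → SdW a EE (z + (-1, y)) (z + (0, y)) (c - θ / 4)
    (σ * ((3 * θ - Real.pi) / 4)) False
  Aw : ∀ y : ℤ, R - A ≤ y → y < R → SdW a EE (z + (-1, y)) (z + (-2, y)) (c + θ / 4)
    (σ * ((3 * θ - Real.pi) / 4)) False
  A0 : SdW a EE (z + (-1, (R : ℤ) - A)) (z + (-1, (R : ℤ) - A - 1)) c (σ * ((θ - Real.pi) / 4)) False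

/-- The values of `s`. -/
def sT (A B S R : ℕ) (σ : ℤ) (P : ℕ → ℤ × ℤ) (k : ℕ) : ℤ :=
  if k < 3 * R + 2 * S - 1 then 0 else
  if k < 3 * R + 2 * S + B - 1 then -1 else
  if k = 3 * R + 2 * S + B - 1 then zs σ (-1) (P k) else
  if k < 5 * R + 2 * S + 2 * B then 0 else
  if k < 5 * R + 2 * S + 2 * B + A then -1 else
  if k = 5 * R + 2 * S + 2 * B + A then zs σ (-1) (P k) else 0

theorem sT_rg (A B S R : ℕ) (σ : ℤ) (P : ℕ → ℤ × ℤ) (k : ℕ) :
    sT A B S R σ P k = 0 ∨ sT A B S R σ P k = -1 := by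
  have h1 := zs_rg σ (-1) (P k)
  unfold sT
  split_ifs <;> omega

/-- **The window at the hole with three rows.** -/
theorem winT_ok (hσ : σ = 1 ∨ σ = -1) (hA : 1 ≤ A) (hB : 1 ≤ B) (hS : 1 ≤ S) (hAR : A < R)
    (hBR : B + 1 < R) (hSR : S < R) (hKV : ∀ v, v - z ∈ wTU R → (v ∈ K ↔ v - z ∈ wTQ A B S R))
    (hKD : ∀ v ∈ K, v - z ∉ wTR A B S R)
    (hoff : ∀ g, g ∉ bS K → hdv g - z ∈ wTR A B S R → a g false + a g true = 0)
    (h : PhT θ a EE σ c z A B S R) :
    ∃ w : WinD, w.Ok θ K EE a ∧ w.σ = σ ∧ w.D = {v | v - z ∈ wTR A B S R} ∧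
      w.V = {v | v - z ∈ wTU R} ∧ w.C = {v | v ∈ K ∧ v - z ∈ wTU R} ∧ ∀ j, ¬ w.Z j := by
  obtain ⟨P, U, hb, hV⟩ := wT_bd hA hB hS hAR hBR hSR
  have hL := lwinT hA hB hS hAR hBR hSR hb hV
  have e0 : ∀ v, Lq z 0 v = v - z := Lq0 z
  have key := hL.ok (C₀ := Set.univ) (θ := θ) (K := K) (EE := EE) (a := a) (z := z) (e := 0)
    (σ := σ) (c := c) (s := sT A B S R σ (fun k => z + P k)) (E := fun k => k = R + S)
    (Z := fun _ => False)
    hσ (by intro v; rw [e0]; exact fun h1 => (hKV v h1).2)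
    (by intro v hv; rw [e0]; exact fun h1 _ => (hKV v h1).1 hv)
    (by intro v hv; rw [e0]; exact hKD v hv)
    (by intro g; rw [e0]; exact hoff g) ?_ ?_ ?_
  · refine ⟨_, key, rfl, ?_, ?_, ?_, fun j h => h⟩
    · ext v
      show Lq z 0 v ∈ wTR A B S R ↔ _
      rw [e0]
      rfl
    · ext v
      show Lq z 0 v ∈ wTU R ↔ _
      rw [e0]
      rfl
    · ext v
      show (v ∈ K ∧ Lq z 0 v ∈ wTU R ∧ Lq z 0 v ∈ Set.univ) ↔ v ∈ K ∧ v - z ∈ wTU R
      rw [e0]
      simp
  · rintro i ⟨hi, hiV⟩ -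
    have h1 := hV i hi
    rw [add_zero, Ls0]
    have hsT : sT A B S R σ (fun k => z + P k) i = sT A B S R σ (fun k => z + P k) i := rfl
    conv at hsT => rhs; unfold sT
    generalize hs : sT A B S R σ (fun k => z + P k) i = s at hsT ⊢
    simp only at hsT
    generalize hP : P i = p at h1 hiV hsT ⊢
    generalize U i = u at h1 hiV ⊢
    obtain ⟨x, y⟩ := p
    obtain ⟨a1, a2, a3, a4⟩ := hiV
    unfold Knd
    rw [sqL_add, sqL_add]
    unfold wTV at h1
    rcases h1 with h1 | h1 | h1 | h1 | h1 | h1 | h1 | h1 | h1 | h1 | h1 | h1 | h1 | h1 | h1 | h1 <;>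
      obtain ⟨h2, h3, h4, h5, rfl⟩ := h1
    · exfalso
      rw [show (0 : ℤ) - 1 = -1 by norm_num, (sqL_e x y).2.2.2.2.1] at a1 a2 a3 a4
      simp only at a1 a2 a3 a4 h4 h5
      omega
    · left
      rw [show (1 : ℤ) - 1 = 0 by norm_num, (sqL_e x y).1] at a1 a2 a3 a4 ⊢
      rw [(sqL_e x y).2.1]
      simp only at a1 a2 a3 a4 h4 h5
      have hs0 : s = 0 := by rw [hsT, if_pos (by omega)]
      rw [hs0]
      refine (h.Sw y (by omega) (by omega)).cast (by rw [h4]) (by rw [h4]; norm_num) (by push_cast; ring)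
    · right
      left
      rw [show (0 : ℤ) - 1 = -1 by norm_num, (sqL_e x y).2.2.2.2.1] at a1 a2 a3 a4 ⊢
      rw [(sqL_e x y).1]
      simp only at a1 a2 a3 a4 h4 h5
      have hs0 : s = 0 := by rw [hsT, if_pos (by omega)]
      rw [hs0]
      refine ⟨by omega, h.S0.cast ?_ ?_ (by push_cast; ring)⟩
      · congr 1
        ext <;> simp only <;> omega
      · congr 1
        ext <;> simp only <;> omega
    · left
      rw [show (-1 : ℤ) - 1 = -2 by norm_num, (sqL_e x y).2.2.2.2.2] at a1 a2 a3 a4 ⊢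
      rw [(sqL_e x y).2.2.2.2.1]
      simp only at a1 a2 a3 a4 h4 h5
      have hs0 : s = 0 := by rw [hsT, if_pos (by omega)]
      rw [hs0]
      refine (h.Se (y - 1) (by omega) (by omega)).cast ?_ ?_ (by push_cast; ring)
      · congr 1
        ext <;> simp only <;> omega
      · congr 1
        ext <;> simp only <;> omega
    · exfalso
      rw [show (0 : ℤ) - 1 = -1 by norm_num, (sqL_e x y).2.2.2.2.1] at a1 a2 a3 a4
      simp only at a1 a2 a3 a4 h4 h5
      omega
    · exfalso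
      rw [show (1 : ℤ) - 1 = 0 by norm_num, (sqL_e x y).1] at a1 a2 a3 a4
      simp only at a1 a2 a3 a4 h4 h5
      omega
    · left
      rw [show (2 : ℤ) - 1 = 1 by norm_num, (sqL_e x y).2.1] at a1 a2 a3 a4 ⊢
      rw [(sqL_e x y).2.2.1]
      simp only at a1 a2 a3 a4 h4 h5
      have hs0 : s = -1 := by rw [hsT, if_neg (by omega), if_pos (by omega)]
      rw [hs0]
      refine (h.Bs (x - 1) (by omega) (by omega)).cast ?_ ?_ (by push_cast; ring)
      · congr 1
        ext <;> simp only <;> omega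
      · congr 1
        ext <;> simp only <;> omega
    · right
      right
      rw [show (1 : ℤ) - 1 = 0 by norm_num, (sqL_e x y).1] at a1 a2 a3 a4 ⊢
      rw [(sqL_e x y).2.1]
      simp only at a1 a2 a3 a4 h4 h5
      have hs0 : s = zs σ (-1) (z + (x, y)) := by
        rw [hsT, if_neg (by omega), if_neg (by omega), if_pos (by omega)]
      refine ⟨-1, hs0, h.B0.cast ?_ ?_ (by push_cast; ring)⟩
      · congr 1
        ext <;> simp only <;> omega
      · congr 1
        ext <;> simp only <;> omega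
    · left
      rw [show (0 : ℤ) - 1 = -1 by norm_num, (sqL_e x y).2.2.2.2.1] at a1 a2 a3 a4 ⊢
      rw [(sqL_e x y).1]
      simp only at a1 a2 a3 a4 h4 h5
      have hs0 : s = 0 := by
        rw [hsT, if_neg (by omega), if_neg (by omega), if_neg (by omega), if_pos (by omega)]
      rw [hs0]
      refine (h.Bn x (by omega) (by omega)).cast ?_ ?_ (by push_cast; ring)
      · congr 1
        ext <;> simp only <;> omega
      · congr 1
        ext <;> simp only <;> omega
    · exfalso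
      rw [show (1 : ℤ) - 1 = 0 by norm_num, (sqL_e x y).1] at a1 a2 a3 a4
      simp only at a1 a2 a3 a4 h4 h5
      omega
    · exfalso
      rw [show (2 : ℤ) - 1 = 1 by norm_num, (sqL_e x y).2.1] at a1 a2 a3 a4
      simp only at a1 a2 a3 a4 h4 h5
      omega
    · left
      rw [show (3 : ℤ) - 1 = 2 by norm_num, (sqL_e x y).2.2.1] at a1 a2 a3 a4 ⊢
      rw [(sqL_e x y).2.2.2.1]
      simp only at a1 a2 a3 a4 h4 h5
      have hs0 : s = -1 := by
        rw [hsT, if_neg (by omega), if_neg (by omega), if_neg (by omega), if_neg (by omega),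
          if_pos (by omega)]
      rw [hs0]
      refine (h.Ae (y - 1) (by omega) (by omega)).cast ?_ ?_ (by push_cast; ring)
      · congr 1
        ext <;> simp only <;> omega
      · congr 1
        ext <;> simp only <;> omega
    · right
      right
      rw [show (2 : ℤ) - 1 = 1 by norm_num, (sqL_e x y).2.1] at a1 a2 a3 a4 ⊢
      rw [(sqL_e x y).2.2.1]
      simp only at a1 a2 a3 a4 h4 h5
      have hs0 : s = zs σ (-1) (z + (x, y)) := by
        rw [hsT, if_neg (by omega), if_neg (by omega), if_neg (by omega), if_neg (by omega),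
          if_neg (by omega), if_pos (by omega)]
      refine ⟨-1, hs0, h.A0.cast ?_ ?_ (by push_cast; ring)⟩
      · congr 1
        ext <;> simp only <;> omega
      · congr 1
        ext <;> simp only <;> omega
    · left
      rw [show (1 : ℤ) - 1 = 0 by norm_num, (sqL_e x y).1] at a1 a2 a3 a4 ⊢
      rw [(sqL_e x y).2.1]
      simp only at a1 a2 a3 a4 h4 h5
      have hs0 : s = 0 := by
        rw [hsT, if_neg (by omega), if_neg (by omega), if_neg (by omega), if_neg (by omega),
          if_neg (by omega), if_neg (by omega)]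
      rw [hs0]
      refine (h.Aw y (by omega) (by omega)).cast ?_ ?_ (by push_cast; ring)
      · congr 1
        ext <;> simp only <;> omega
      · congr 1
        ext <;> simp only <;> omega
    · exfalso
      rw [show (2 : ℤ) - 1 = 1 by norm_num, (sqL_e x y).2.1] at a1 a2 a3 a4
      simp only at a1 a2 a3 a4 h4 h5
      omega
    · exfalso
      rw [show (3 : ℤ) - 1 = 2 by norm_num, (sqL_e x y).2.2.1] at a1 a2 a3 a4
      simp only at a1 a2 a3 a4 h4 h5
      omega
  · rintro j ⟨hj, hjV⟩ ⟨hj', hjV'⟩ - -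
    have h1 := hV j hj
    have h2 := hV (j + 1) hj'
    have hstep := hb.step j
    rw [Ls0]
    by_cases g1 : sT A B S R σ (fun k => z + P k) (j + 1) = sT A B S R σ (fun k => z + P k) j
    · exact Or.inl g1
    · -- the jumps are at the zero ends
      have hr1 := sqL_rg (s := P j) (d := U j - 1)
      have hr2 := sqL_rg (s := P (j + 1)) (d := U (j + 1) - 1)
      obtain ⟨b1, b2, b3, b4⟩ := hjV
      obtain ⟨c1, c2, c3, c4⟩ := hjV'
      have hc : j + 1 = 3 * R + 2 * S + B - 1 ∨ j = 3 * R + 2 * S + B - 1 ∨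
          j + 1 = 5 * R + 2 * S + 2 * B + A ∨ j = 5 * R + 2 * S + 2 * B + A := by
        by_contra hcon
        push Not at hcon
        obtain ⟨d1, d2, d3, d4⟩ := hcon
        have hxx : ¬ (j + 1 = 3 * R + 2 * S - 1) := by
          intro he
          unfold wTV at h2
          omega
        have hyy : ¬ (j + 1 = 5 * R + 2 * S + 2 * B) := by
          intro he
          unfold wTV at h2
          omega
        apply g1
        unfold sT
        rw [if_neg (show ¬ j + 1 = 3 * R + 2 * S + B - 1 from d1), if_neg d2,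
          if_neg (show ¬ j + 1 = 5 * R + 2 * S + 2 * B + A from d3), if_neg d4]
        split_ifs <;> omega
      right
      rcases hc with hc | hc | hc | hc
      · have e1 : sT A B S R σ (fun k => z + P k) (j + 1) = zs σ (-1) (z + P (j + 1)) := by
          unfold sT
          rw [if_neg (by omega), if_neg (by omega), if_pos hc]
        have e2 : sT A B S R σ (fun k => z + P k) j = -1 := by
          unfold sT
          rw [if_neg (by omega), if_pos (by omega)]
        rcases zs_before (m := -1) hσ (q := z + P (j + 1)) with h3 | h3 | h3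
        · exact absurd (by rw [e1, e2, h3]) g1
        · exact Or.inl h3
        · exact Or.inr (Or.inl h3)
      · have e1 : sT A B S R σ (fun k => z + P k) j = zs σ (-1) (z + P j) := by
          unfold sT
          rw [if_neg (by omega), if_neg (by omega), if_pos hc]
        have e2 : sT A B S R σ (fun k => z + P k) (j + 1) = 0 := by
          unfold sT
          rw [if_neg (by omega), if_neg (by omega), if_neg (by omega), if_pos (by omega)]
        rcases zs_after (m := -1) hσ (q := z + P j) (d := U j) with h3 | h3 | h3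
        · exact absurd (by rw [e1, e2, ← h3]; norm_num) g1
        · rw [hstep, ← add_assoc]
          exact Or.inl h3
        · rw [hstep, ← add_assoc]
          exact Or.inr (Or.inl h3)
      · have e1 : sT A B S R σ (fun k => z + P k) (j + 1) = zs σ (-1) (z + P (j + 1)) := by
          unfold sT
          rw [if_neg (by omega), if_neg (by omega), if_neg (by omega), if_neg (by omega),
            if_neg (by omega), if_pos hc]
        have e2 : sT A B S R σ (fun k => z + P k) j = -1 := by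
          unfold sT
          rw [if_neg (by omega), if_neg (by omega), if_neg (by omega), if_neg (by omega),
            if_pos (by omega)]
        rcases zs_before (m := -1) hσ (q := z + P (j + 1)) with h3 | h3 | h3
        · exact absurd (by rw [e1, e2, h3]) g1
        · exact Or.inl h3
        · exact Or.inr (Or.inl h3)
      · have e1 : sT A B S R σ (fun k => z + P k) j = zs σ (-1) (z + P j) := by
          unfold sT
          rw [if_neg (by omega), if_neg (by omega), if_neg (by omega), if_neg (by omega),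
            if_neg (by omega), if_pos hc]
        have e2 : sT A B S R σ (fun k => z + P k) (j + 1) = 0 := by
          unfold sT
          rw [if_neg (by omega), if_neg (by omega), if_neg (by omega), if_neg (by omega),
            if_neg (by omega), if_neg (by omega)]
        rcases zs_after (m := -1) hσ (q := z + P j) (d := U j) with h3 | h3 | h3
        · exact absurd (by rw [e1, e2, ← h3]; norm_num) g1
        · rw [hstep, ← add_assoc]
          exact Or.inl h3
        · rw [hstep, ← add_assoc]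
          exact Or.inr (Or.inl h3)
  · rintro i j - - - - hij
    have h1 := sT_rg A B S R σ (fun k => z + P k) i
    have h2 := sT_rg A B S R σ (fun k => z + P k) j
    refine ⟨by omega, by omega, ?_⟩
    rintro (rfl | rfl)
    · have h3 : sT A B S R σ (fun k => z + P k) (R + S) = 0 := by
        unfold sT
        rw [if_pos (by omega)]
      omega
    · have h3 : sT A B S R σ (fun k => z + P k) (R + S) = 0 := by
        unfold sT
        rw [if_pos (by omega)]
      have h4 : sT A B S R σ (fun k => z + P k) i = 0 := by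
        unfold sT
        rw [if_pos (by omega)]
      omega

/-! ### the foot -/

/-- **The phases at the foot of the spoke**: a horizontal row, the spoke going up; zero lower end of
the spoke. -/
structure PhF (θ : ℝ) (a : Ed → Bool → ℝ) (EE : Set Ed) (σ : ℤ) (c : ℝ) (z : ℤ × ℤ)
    (S R : ℕ) : Prop where
  Q : ∀ x : ℤ, -(R : ℤ) ≤ x → x < R → SdW a EE (z + (x, -1)) (z + (x, 0)) c
    (σ * ((3 * θ - Real.pi) / 4)) False
  Sw : ∀ y : ℤ, (R : ℤ) + 1 - S ≤ y → y < R → SdW a EE (z + (0, y)) (z + (-1, y)) (c + θ / 4)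
    (σ * ((3 * θ - Real.pi) / 4)) False
  Se : ∀ y : ℤ, (R : ℤ) + 1 - S ≤ y → y < R → SdW a EE (z + (0, y)) (z + (1, y)) (c - θ / 4)
    (σ * ((3 * θ - Real.pi) / 4)) False
  S0 : SdW a EE (z + (0, (R : ℤ) + 1 - S)) (z + (0, (R : ℤ) - S)) c (σ * ((θ - Real.pi) / 4)) False

/-- The values of `s`. -/
def sF (S R : ℕ) (σ : ℤ) (P : ℕ → ℤ × ℤ) (k : ℕ) : ℤ :=
  if k < 4 * R + 3 then 0 else
  if k < 4 * R + S + 3 then -1 else
  if k = 4 * R + S + 3 then zs σ (-1) (P k) else 0

theorem sF_rg (S R : ℕ) (σ : ℤ) (P : ℕ → ℤ × ℤ) (k : ℕ) :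
    sF S R σ P k = 0 ∨ sF S R σ P k = -1 := by
  have h1 := zs_rg σ (-1) (P k)
  unfold sF
  split_ifs <;> omega

/-- **The window at the foot of the spoke.** -/
theorem winF_ok (hσ : σ = 1 ∨ σ = -1) (hS : 1 ≤ S) (hSR : S < R)
    (hKV : ∀ v, v - z ∈ wFU R → (v ∈ K ↔ v - z ∈ wFQ S R))
    (hKD : ∀ v ∈ K, v - z ∉ wFR S R)
    (hoff : ∀ g, g ∉ bS K → hdv g - z ∈ wFR S R → a g false + a g true = 0)
    (h : PhF θ a EE σ c z S R) :
    ∃ w : WinD, w.Ok θ K EE a ∧ w.σ = σ ∧ w.D = {v | v - z ∈ wFR S R} ∧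
      w.V = {v | v - z ∈ wFU R} ∧ w.C = {v | v ∈ K ∧ v - z ∈ wFU R} ∧ ∀ j, ¬ w.Z j := by
  obtain ⟨P, U, hb, hV⟩ := wF_bd hS hSR
  have hL := lwinF hS hSR hb hV
  have e0 : ∀ v, Lq z 0 v = v - z := Lq0 z
  have key := hL.ok (C₀ := Set.univ) (θ := θ) (K := K) (EE := EE) (a := a) (z := z) (e := 0)
    (σ := σ) (c := c) (s := sF S R σ (fun k => z + P k)) (E := fun _ => False)
    (Z := fun _ => False)
    hσ (by intro v; rw [e0]; exact fun h1 => (hKV v h1).2)
    (by intro v hv; rw [e0]; exact fun h1 _ => (hKV v h1).1 hv)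
    (by intro v hv; rw [e0]; exact hKD v hv)
    (by intro g; rw [e0]; exact hoff g) ?_ ?_ ?_
  · refine ⟨_, key, rfl, ?_, ?_, ?_, fun j h => h⟩
    · ext v
      show Lq z 0 v ∈ wFR S R ↔ _
      rw [e0]
      rfl
    · ext v
      show Lq z 0 v ∈ wFU R ↔ _
      rw [e0]
      rfl
    · ext v
      show (v ∈ K ∧ Lq z 0 v ∈ wFU R ∧ Lq z 0 v ∈ Set.univ) ↔ v ∈ K ∧ v - z ∈ wFU R
      rw [e0]
      simp
  · rintro i ⟨hi, hiV⟩ -
    have h1 := hV i hi
    rw [add_zero, Ls0]
    have hsT : sF S R σ (fun k => z + P k) i = sF S R σ (fun k => z + P k) i := rfl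
    conv at hsT => rhs; unfold sF
    generalize hs : sF S R σ (fun k => z + P k) i = s at hsT ⊢
    simp only at hsT
    generalize hP : P i = p at h1 hiV hsT ⊢
    generalize U i = u at h1 hiV ⊢
    obtain ⟨x, y⟩ := p
    obtain ⟨a1, a2, a3, a4⟩ := hiV
    unfold Knd
    rw [sqL_add, sqL_add]
    unfold wFV at h1
    rcases h1 with h1 | h1 | h1 | h1 | h1 | h1 | h1 | h1 <;>
      obtain ⟨h2, h3, h4, h5, rfl⟩ := h1
    · left
      rw [show (0 : ℤ) - 1 = -1 by norm_num, (sqL_e x y).2.2.2.2.1] at a1 a2 a3 a4 ⊢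
      rw [(sqL_e x y).1]
      simp only at a1 a2 a3 a4 h4 h5
      have hs0 : s = 0 := by rw [hsT, if_pos (by omega)]
      rw [hs0]
      refine (h.Q x (by omega) (by omega)).cast ?_ ?_ (by push_cast; ring)
      · congr 1
        ext <;> simp only <;> omega
      · congr 1
        ext <;> simp only <;> omega
    · exfalso
      rw [show (1 : ℤ) - 1 = 0 by norm_num, (sqL_e x y).1] at a1 a2 a3 a4
      simp only at a1 a2 a3 a4 h4 h5
      omega
    · exfalso
      rw [show (2 : ℤ) - 1 = 1 by norm_num, (sqL_e x y).2.1] at a1 a2 a3 a4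
      simp only at a1 a2 a3 a4 h4 h5
      omega
    · left
      rw [show (3 : ℤ) - 1 = 2 by norm_num, (sqL_e x y).2.2.1] at a1 a2 a3 a4 ⊢
      rw [(sqL_e x y).2.2.2.1]
      simp only at a1 a2 a3 a4 h4 h5
      have hs0 : s = -1 := by rw [hsT, if_neg (by omega), if_pos (by omega)]
      rw [hs0]
      refine (h.Se (y - 1) (by omega) (by omega)).cast ?_ ?_ (by push_cast; ring)
      · congr 1
        ext <;> simp only <;> omega
      · congr 1
        ext <;> simp only <;> omega
    · right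
      right
      rw [show (2 : ℤ) - 1 = 1 by norm_num, (sqL_e x y).2.1] at a1 a2 a3 a4 ⊢
      rw [(sqL_e x y).2.2.1]
      simp only at a1 a2 a3 a4 h4 h5
      have hs0 : s = zs σ (-1) (z + (x, y)) := by
        rw [hsT, if_neg (by omega), if_neg (by omega), if_pos (by omega)]
      refine ⟨-1, hs0, h.S0.cast ?_ ?_ (by push_cast; ring)⟩
      · congr 1
        ext <;> simp only <;> omega
      · congr 1
        ext <;> simp only <;> omega
    · left
      rw [show (1 : ℤ) - 1 = 0 by norm_num, (sqL_e x y).1] at a1 a2 a3 a4 ⊢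
      rw [(sqL_e x y).2.1]
      simp only at a1 a2 a3 a4 h4 h5
      have hs0 : s = 0 := by
        rw [hsT, if_neg (by omega), if_neg (by omega), if_neg (by omega)]
      rw [hs0]
      refine (h.Sw y (by omega) (by omega)).cast ?_ ?_ (by push_cast; ring)
      · congr 1
        ext <;> simp only <;> omega
      · congr 1
        ext <;> simp only <;> omega
    · exfalso
      rw [show (2 : ℤ) - 1 = 1 by norm_num, (sqL_e x y).2.1] at a1 a2 a3 a4
      simp only at a1 a2 a3 a4 h4 h5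
      omega
    · exfalso
      rw [show (3 : ℤ) - 1 = 2 by norm_num, (sqL_e x y).2.2.1] at a1 a2 a3 a4
      simp only at a1 a2 a3 a4 h4 h5
      omega
  · rintro j ⟨hj, hjV⟩ ⟨hj', hjV'⟩ - -
    have h1 := hV j hj
    have h2 := hV (j + 1) hj'
    have hstep := hb.step j
    rw [Ls0]
    by_cases g1 : sF S R σ (fun k => z + P k) (j + 1) = sF S R σ (fun k => z + P k) j
    · exact Or.inl g1
    · -- the jumps are at the zero end
      have hr1 := sqL_rg (s := P j) (d := U j - 1)
      have hr2 := sqL_rg (s := P (j + 1)) (d := U (j + 1) - 1)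
      obtain ⟨b1, b2, b3, b4⟩ := hjV
      obtain ⟨c1, c2, c3, c4⟩ := hjV'
      have hc : j + 1 = 4 * R + S + 3 ∨ j = 4 * R + S + 3 := by
        by_contra hcon
        push Not at hcon
        obtain ⟨d1, d2⟩ := hcon
        have hxx : ¬ (j + 1 = 4 * R + 3) := by
          intro he
          unfold wFV at h1
          have h3 : U j = 2 := by omega
          have h4 : (P j).2 = R + 1 := by omega
          rw [h3, show (2 : ℤ) - 1 = 1 by norm_num] at b4
          have h5 : (sqL (P j) 1).2 = (P j).2 := by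
            have := (sqL_e (P j).1 (P j).2).2.1
            rw [show ((P j).1, (P j).2) = P j from rfl] at this
            rw [this]
          omega
        apply g1
        unfold sF
        rw [if_neg (show ¬ j + 1 = 4 * R + S + 3 from d1), if_neg d2]
        split_ifs <;> omega
      right
      rcases hc with hc | hc
      · have e1 : sF S R σ (fun k => z + P k) (j + 1) = zs σ (-1) (z + P (j + 1)) := by
          unfold sF
          rw [if_neg (by omega), if_neg (by omega), if_pos hc]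
        have e2 : sF S R σ (fun k => z + P k) j = -1 := by
          unfold sF
          rw [if_neg (by omega), if_pos (by omega)]
        rcases zs_before (m := -1) hσ (q := z + P (j + 1)) with h3 | h3 | h3
        · exact absurd (by rw [e1, e2, h3]) g1
        · exact Or.inl h3
        · exact Or.inr (Or.inl h3)
      · have e1 : sF S R σ (fun k => z + P k) j = zs σ (-1) (z + P j) := by
          unfold sF
          rw [if_neg (by omega), if_neg (by omega), if_pos hc]
        have e2 : sF S R σ (fun k => z + P k) (j + 1) = 0 := by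
          unfold sF
          rw [if_neg (by omega), if_neg (by omega), if_neg (by omega)]
        rcases zs_after (m := -1) hσ (q := z + P j) (d := U j) with h3 | h3 | h3
        · exact absurd (by rw [e1, e2, ← h3]; norm_num) g1
        · rw [hstep, ← add_assoc]
          exact Or.inl h3
        · rw [hstep, ← add_assoc]
          exact Or.inr (Or.inl h3)
  · rintro i j - - - - hij
    have h1 := sF_rg S R σ (fun k => z + P k) i
    have h2 := sF_rg S R σ (fun k => z + P k) j
    refine ⟨by omega, by omega, ?_⟩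
    rintro (h | h)
    · exact h.elim
    · exact h.elim

/-! ### one face of a row -/

/-- **The window at one face of a row.** The face is the line from `Ls z e (-R - 1, 0)` in the
direction `e`; the frozen squares of the colour `σ` are those with `x ∈ X₀`; the phase changes by
`θ δ` at `x₀`. -/
theorem winR_ok {e : ℤ} {X₀ : Set ℤ} {x₀ δ : ℤ} (hσ : σ = 1 ∨ σ = -1) (hR : 1 ≤ R)
    (hKV : ∀ v, Lq z e v ∈ wFU R → -1 ≤ (Lq z e v).2 → (v ∈ K ↔ (Lq z e v).2 = -1))
    (hKD : ∀ v ∈ K, Lq z e v ∉ wRR R)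
    (hoff : ∀ g, g ∉ bS K → Lq z e (hdv g) ∈ wRR R → a g false + a g true = 0)
    (h : ∀ x : ℤ, -(R : ℤ) ≤ x → x < R → x ∈ X₀ →
      SdW a EE (sqL (Ls z e (x, 0)) (e - 1)) (sqL (Ls z e (x, 0)) e)
        (c + θ / 4 * ((e + 4 * (if x < x₀ then 0 else δ) : ℤ) : ℝ))
        (σ * ((3 * θ - Real.pi) / 4)) False)
    (hδ : δ = 0 ∨ δ = -1 ∨ (δ = 1 ∧ ((σ = 1 ∧ pz (Ls z e (x₀, 0)) = -1) ∨
      (σ = -1 ∧ pz (Ls z e (x₀, 0)) = 1)))) :
    ∃ w : WinD, w.Ok θ K EE a ∧ w.σ = σ ∧ w.D = {v | Lq z e v ∈ wRR R} ∧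
      w.V = {v | Lq z e v ∈ wFU R} ∧ w.C = {v | v ∈ K ∧ Lq z e v ∈ wFU R ∧ (Lq z e v).1 ∈ X₀} ∧
      (δ ≠ -1 → ∀ j, ¬ w.Z j) ∧ (∀ j, w.Z j → w.P (j + 1) = Ls z e (x₀, 0) ∧ w.u j = e ∧
        w.u (j + 1) = e ∧ w.P j = Ls z e (x₀ - 1, 0)) ∧ (δ = 0 → ∀ j, w.s j = 0) := by
  obtain ⟨P, U, hb, hV⟩ := wR_bd hR
  have hL := lwinR hR hb hV
  have hx : ∀ i, i < 6 * R + 6 → sqL (P i) (U i - 1) ∈ wFU R → (i < 2 * R + 2 ∧
      P i = ((i : ℤ) - R - 1, 0) ∧ U i = 0 ∧ -(R : ℤ) ≤ (P i).1 ∧ (P i).1 < R ∧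
      sqL (P i) (U i - 1) = ((i : ℤ) - R - 1, -1)) := by
    intro i hi hiV
    have h1 := hV i hi
    obtain ⟨a1, a2, a3, a4⟩ := hiV
    generalize P i = p at h1 a1 a2 a3 a4 ⊢
    generalize U i = u at h1 a1 a2 a3 a4 ⊢
    obtain ⟨x, y⟩ := p
    unfold wRV at h1
    rcases h1 with h1 | h1 | h1 | h1 <;> obtain ⟨h2, h3, h4, h5, rfl⟩ := h1
    · rw [show (0 : ℤ) - 1 = -1 by norm_num, (sqL_e x y).2.2.2.2.1] at a1 a2 a3 a4 ⊢
      simp only at a1 a2 a3 a4 h4 h5
      subst h4 h5
      exact ⟨h3, rfl, rfl, by simp only; omega, by simp only; omega, by simp⟩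
    · exfalso
      rw [show (1 : ℤ) - 1 = 0 by norm_num, (sqL_e x y).1] at a1 a2 a3 a4
      simp only at a1 a2 a3 a4 h4 h5
      omega
    · exfalso
      rw [show (2 : ℤ) - 1 = 1 by norm_num, (sqL_e x y).2.1] at a1 a2 a3 a4
      simp only at a1 a2 a3 a4 h4 h5
      omega
    · exfalso
      rw [show (3 : ℤ) - 1 = 2 by norm_num, (sqL_e x y).2.2.1] at a1 a2 a3 a4
      simp only at a1 a2 a3 a4 h4 h5
      omega
  have key := hL.ok (C₀ := {v | v.1 ∈ X₀}) (θ := θ) (K := K) (EE := EE) (a := a) (z := z) (e := e)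
    (σ := σ) (c := c) (s := fun k => if (P k).1 < x₀ then 0 else δ) (E := fun _ => False)
    (Z := fun j => δ = -1 ∧ j < 2 * R + 1 ∧ P j = (x₀ - 1, 0) ∧ P (j + 1) = (x₀, 0) ∧ U j = 0 ∧
      U (j + 1) = 0)
    hσ (fun v h1 h2 => (hKV v h1 (by change (Lq z e v).2 = -1 at h2; omega)).2 h2)
    (fun v hv h1 ⟨s, d, h2, h3⟩ => (hKV v h1 (by
      rw [h2]
      have h4 := sqL_rg (s := s) (d := d - 1)
      have h5 := sqL_rg (s := s) (d := d)
      obtain ⟨-, -, h6, -⟩ := h3
      omega)).1 hv) hKD hoff ?_ ?_ ?_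
  · refine ⟨_, key, rfl, rfl, rfl, rfl, fun h j hj => h hj.1, fun j hj => ?_, fun h j => ?_⟩
    on_goal 2 => exact (if_congr Iff.rfl rfl h).trans (ite_self _)
    obtain ⟨-, -, h1, h2, h3, h4⟩ := hj
    refine ⟨?_, ?_, ?_, ?_⟩
    · show Ls z e (P (j + 1)) = _
      rw [h2]
    · show U j + e = e
      rw [h3, zero_add]
    · show U (j + 1) + e = e
      rw [h4, zero_add]
    · show Ls z e (P j) = _
      rw [h1]
  · rintro i ⟨hi, hiV⟩ hC
    obtain ⟨g1, g2, g3, g4, g5, g6⟩ := hx i hi hiV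
    left
    change (sqL (P i) (U i - 1)).1 ∈ X₀ at hC
    rw [g6] at hC
    rw [g2] at g4 g5 ⊢
    rw [g3, zero_add]
    exact h _ g4 g5 hC
  · rintro j ⟨hj, hjV⟩ ⟨hj', hjV'⟩ - -
    obtain ⟨g1, g2, g3, g4, g5, g6⟩ := hx j hj hjV
    obtain ⟨k1, k2, k3, k4, k5, k6⟩ := hx (j + 1) hj' hjV'
    have e1 : (P j).1 = (j : ℤ) - R - 1 := by rw [g2]
    have e2 : (P (j + 1)).1 = (j : ℤ) - R := by rw [k2]; push_cast; ring
    by_cases h1 : (P (j + 1)).1 < x₀
    · left
      rw [if_pos h1, if_pos (by omega)]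
    · by_cases h2 : (P j).1 < x₀
      · have h3 : P (j + 1) = (x₀, 0) := by
          rw [k2]
          refine Prod.ext ?_ rfl
          simp only
          push_cast
          omega
        have h4 : P j = (x₀ - 1, 0) := by
          rw [g2]
          refine Prod.ext ?_ rfl
          simp only
          omega
        rw [if_neg h1, if_pos h2]
        rcases hδ with hδ | hδ | ⟨hδ, h5⟩
        · exact Or.inl hδ
        · refine Or.inr (Or.inr (Or.inr ⟨⟨hδ, by omega, h4, h3, g3, k3⟩, by rw [hδ]; norm_num⟩))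
        · rw [h3]
          rcases h5 with ⟨h5, h6⟩ | ⟨h5, h6⟩
          · refine Or.inr (Or.inl ⟨h5, fun h7 => ?_⟩)
            rw [← pz_even, h6] at h7
            norm_num at h7
          · exact Or.inr (Or.inr (Or.inl ⟨h5, pz_even.1 h6⟩))
      · left
        rw [if_neg h1, if_neg h2]
  · rintro i j ⟨hi, hiV⟩ ⟨hj, hjV⟩ - - hij
    obtain ⟨g1, g2, g3, g4, g5, g6⟩ := hx i hi hiV
    obtain ⟨k1, k2, k3, k4, k5, k6⟩ := hx j hj hjV
    have e1 : (P i).1 = (i : ℤ) - R - 1 := by rw [g2]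
    have e2 : (P j).1 = (j : ℤ) - R - 1 := by rw [k2]
    have hδ' : δ = 0 ∨ δ = -1 ∨ δ = 1 := by
      rcases hδ with h | h | ⟨h, -⟩
      · exact Or.inl h
      · exact Or.inr (Or.inl h)
      · exact Or.inr (Or.inr h)
    refine ⟨?_, ?_, ?_⟩
    · split_ifs <;> omega
    · split_ifs <;> omega
    · rintro (h | h)
      · exact h.elim
      · exact h.elim

end Vale.Agent.P167.N.ID
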