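import Vale.Agent.P167.N.ID.WinPh
import Vale.Agent.P167.N.ID.WinI

/-!
# P167, `q < 1`, START: the windows at the faces of the rows

* `fdr r b`: the direction of the face `b` of a row, the outside on the left; `sqn r b m x`: the
  number of the square at the step `x` of the frame `(r.st b m, fdr r b)`.
* `sdf_row`: the phases of a face in this frame.
* `rowWin`: the windows at a face, one for each colour.
* `HolW`: the windows at a hole.
-/

set_option autoImplicit false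
set_option linter.unusedSimpArgs false

namespace Vale.Agent.P167.N.ID

open Finset
open Vale.Agent.P167.A (plane)
open Vale.Agent.P167.Top
open Vale.Agent.P167.FK
open Vale.Agent.P167.H871
open Vale.Agent.P167.H871.Q
open Vale.Agent.P167.XDL (bS mem_bS)
open Vale.Agent.P167.H199 (ah at')
open Vale.Agent.P167.Enl (Two two_inj)
open Vale.Agent.P167.H680.T (WallG WCG nm_ht par par_cases)
open Vale.Agent.P167.H945.Q (face)
open Vale.Agent.P167.H199 (strand ret Returns)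
open Vale.Agent.P167.H680.S (nxt)

/-- The direction of the face `b`, the outside on the left. -/
def fdr (r : Row) (b : Bool) : ℤ := if r.o then (if b then 0 else 2) else (if b then 3 else 1)

/-- The number of the square at the step `x`. -/
def sqn (r : Row) (b : Bool) (m : ℕ) (x : ℤ) : ℤ := if b = r.o then m + x else m - 1 - x

section coord

variable {r : Row} {b : Bool} {m k : ℕ} {x : ℤ} {v : ℤ × ℤ}

theorem dxy : dx 0 = 1 ∧ dy 0 = 0 ∧ dx 1 = 0 ∧ dy 1 = 1 ∧ dx 2 = -1 ∧ dy 2 = 0 ∧ dx 3 = 0 ∧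
    dy 3 = -1 := by
  refine ⟨rfl, rfl, rfl, rfl, rfl, rfl, rfl, rfl⟩

/-- The squares of a row in the frame of a face. -/
theorem mem_I_fdr : v ∈ r.I ↔ (Lq (r.st b m) (fdr r b) v).2 = -1 ∧
    0 ≤ sqn r b m (Lq (r.st b m) (fdr r b) v).1 ∧
    sqn r b m (Lq (r.st b m) (fdr r b) v).1 < r.L := by
  obtain ⟨d0, d1, d2, d3, d4, d5, d6, d7⟩ := dxy
  rw [r.mem_I]
  unfold fdr sqn Row.st Lq
  cases ho : r.o <;> cases b <;> simp [d0, d1, d2, d3, d4, d5, d6, d7] <;>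
    constructor <;> rintro ⟨h1, h2, h3⟩ <;> exact ⟨by omega, by omega, by omega⟩

/-- The inner squares of the steps. -/
theorem sqL_in (h : 0 ≤ sqn r b m x) :
    sqL (Ls (r.st b m) (fdr r b) (x, 0)) (fdr r b - 1) = r.sq (sqn r b m x).toNat := by
  obtain ⟨d0, d1, d2, d3, d4, d5, d6, d7⟩ := dxy
  unfold sqn at h ⊢
  unfold fdr Row.st Ls H825.Q.Row.sq sqL
  cases ho : r.o <;> cases b <;> simp [ho, d0, d1, d2, d3, d4, d5, d6, d7] at h ⊢ <;> omega

/-- The face between the squares at a step. -/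
theorem two_step (h : 0 ≤ sqn r b m x) : Two (face r.toRow b (sqn r b m x).toNat)
    (sqL (Ls (r.st b m) (fdr r b) (x, 0)) (fdr r b - 1))
    (sqL (Ls (r.st b m) (fdr r b) (x, 0)) (fdr r b)) := by
  obtain ⟨d0, d1, d2, d3, d4, d5, d6, d7⟩ := dxy
  rw [sqL_in h, face_eq]
  unfold sqn at h ⊢
  unfold fdr Row.st Ls H825.Q.Row.sq sqL
  cases ho : r.o
  · cases b
    · have e := Enl.two_inl (r.x.1 - 1, r.x.2 + ((m + x : ℤ).toNat : ℤ))
      simp only [Bool.false_eq_true, if_false, if_true, ho] at h ⊢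
      have h' := Int.toNat_of_nonneg h
      refine Enl.Two.symm ?_
      convert e using 2 <;> simp [d0, d1, d2, d3, d4, d5, d6, d7] <;> omega
    · have e := Enl.two_inl (r.x.1, r.x.2 + ((m - 1 - x : ℤ).toNat : ℤ))
      simp only [Bool.true_eq_false, if_false, if_true, ho] at h ⊢
      have h' := Int.toNat_of_nonneg h
      convert e using 2 <;> simp [d0, d1, d2, d3, d4, d5, d6, d7] <;> omega
  · cases b
    · have e := Enl.two_inr (r.x.1 + ((m - 1 - x : ℤ).toNat : ℤ), r.x.2 - 1)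
      simp only [Bool.false_eq_true, if_false, if_true, ho] at h ⊢
      have h' := Int.toNat_of_nonneg h
      refine Enl.Two.symm ?_
      convert e using 2 <;> simp [d0, d1, d2, d3, d4, d5, d6, d7] <;> omega
    · have e := Enl.two_inr (r.x.1 + ((m + x : ℤ).toNat : ℤ), r.x.2)
      simp only [if_true, ho] at h ⊢
      have h' := Int.toNat_of_nonneg h
      convert e using 2 <;> simp [d0, d1, d2, d3, d4, d5, d6, d7] <;> omega

end coord

/-! ### the phases of a face -/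

/-- The phase of the square `k` on the face `b`. -/
noncomputable def φf (θ : ℝ) (r : Row) (b : Bool) (k : ℕ) : ℝ :=
  r.cf θ b + if r.k0 ≤ k then r.j else 0

section sys

variable {ι : Type} [Fintype ι] {θ : ℝ} {r : ι → Row} {zz : ι → ℝ} {i : ι} {b : Bool} {m : ℕ}
  {x : ℤ}

theorem face_ne_es {r : Row} {b e : Bool} {k : ℕ} : face r.toRow b k ≠ r.es e := by
  rw [face_eq]
  unfold Row.es
  cases r.o <;> simp

theorem two_notMem {r : Row} {q : ℤ × ℤ} {k : ℕ} (hL : 1 ≤ r.L) (hk : k < r.L)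
    (h : Two (face r.toRow b k) (r.sq k) q) : q ∉ r.I := by
  have h1 : face r.toRow b k ∈ bS r.I := by
    rw [mem_bS_iff hL]
    exact Or.inl ⟨b, k, hk, rfl⟩
  rcases h with ⟨h2, h3⟩ | ⟨h2, h3⟩ <;> rcases mem_bS.1 h1 with ⟨h4, h5⟩ | ⟨h4, h5⟩
  · rwa [h3] at h5
  · rw [h2] at h4
    exact absurd (H680.T.sq_mem.2 hk) h4
  · rw [h3] at h5
    exact absurd (H680.T.sq_mem.2 hk) h5
  · rwa [h2] at h4

/-- **The phases of a face.** -/
theorem sdf_row (hL : ∀ i, 1 ≤ (r i).L) (hs : RSep r) (h0 : 0 ≤ sqn (r i) b m x)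
    (h1 : sqn (r i) b m x < (r i).L) :
    SdW (⟨fun i => (r i).wall θ (zz i), 0⟩ : WCG ι).ph (EEr r)
      (sqL (Ls ((r i).st b m) (fdr (r i) b) (x, 0)) (fdr (r i) b - 1))
      (sqL (Ls ((r i).st b m) (fdr (r i) b) (x, 0)) (fdr (r i) b))
      (φf θ (r i) b (sqn (r i) b m x).toNat)
      ((r i).τ ((r i).sq (sqn (r i) b m x).toNat) * ((3 * θ - Real.pi) / 4)) False := by
  have h2 := two_step h0
  have h3 := sqL_in h0
  have hk : (sqn (r i) b m x).toNat < (r i).L := by omega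
  rw [h3] at h2 ⊢
  refine (sd_row hL hs (H680.T.sq_mem.2 hk) (two_notMem (hL i) hk h2) h2).cast' rfl rfl ?_ ?_ ?_
  · exact Φ_face θ (r i) b _
  · exact σ_face θ (r i) b _
  · constructor
    · intro h
      exact face_ne_es h
    · exact False.elim

/-- The walls are zero off the boundary of the union. -/
theorem phK_off {K : Finset (ℤ × ℤ)} (hK : ∀ v, v ∈ K ↔ ∃ i, v ∈ (r i).I) (hs : RSep r) {g : Ed}
    (hg : g ∉ bS K) : (⟨fun i => (r i).wall θ (zz i), 0⟩ : WCG ι).ph g = 0 := by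
  have h1 : ∀ i, g ∉ bS (r i).I := by
    intro i hi
    apply hg
    have hn : nm (tlv g - hdv g) ≤ 1 := by
      have := nm_ht g
      rwa [H945.Q.nm_comm]
    rw [mem_bS] at hi ⊢
    rcases hi with ⟨h2, h3⟩ | ⟨h2, h3⟩
    · refine Or.inl ⟨(hK _).2 ⟨i, h2⟩, fun h4 => ?_⟩
      obtain ⟨k, hk⟩ := (hK _).1 h4
      exact hs.nb h2 h3 (by rwa [H945.Q.nm_comm]) k hk
    · refine Or.inr ⟨fun h4 => ?_, (hK _).2 ⟨i, h3⟩⟩
      obtain ⟨k, hk⟩ := (hK _).1 h4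
      exact hs.nb h3 h2 hn k hk
  funext b
  show ∑ y, ((r y).wall θ (zz y)).a g b + (0 : ℝ) / 2 = 0
  rw [zero_div, add_zero]
  refine sum_eq_zero fun y _ => ?_
  have h3 : g ∉ ((r y).wall θ (zz y)).S := h1 y
  rw [((r y).wall θ (zz y)).off g h3]
  rfl

/-- **A window at a face**, general form. -/
theorem rowWin' {K : Finset (ℤ × ℤ)} (hK : ∀ v, v ∈ K ↔ ∃ i, v ∈ (r i).I) (hL : ∀ i, 1 ≤ (r i).L)
    (hs : RSep r) {R : ℕ} (hR : 1 ≤ R) (hm : R + 1 ≤ m) (hm' : m + R + 1 ≤ (r i).L)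
    (hiso : ∀ v ∈ K, Lq ((r i).st b m) (fdr (r i) b) v ∈ wFU (R + 1) →
      -1 ≤ (Lq ((r i).st b m) (fdr (r i) b) v).2 → v ∈ (r i).I) {σ : ℤ} (hσ : σ = 1 ∨ σ = -1)
    {X₀ : Set ℤ} {c : ℝ} {x₀ δ : ℤ}
    (hT : ∀ x : ℤ, -(R : ℤ) ≤ x → x < R → x ∈ X₀ →
      (r i).τ ((r i).sq (sqn (r i) b m x).toNat) = σ)
    (hφ : ∀ x : ℤ, -(R : ℤ) ≤ x → x < R → x ∈ X₀ → φf θ (r i) b (sqn (r i) b m x).toNat =
      c + θ / 4 * ((fdr (r i) b + 4 * (if x < x₀ then 0 else δ) : ℤ) : ℝ))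
    (hδ : δ = 0 ∨ δ = -1 ∨ (δ = 1 ∧ ((σ = 1 ∧ pz (Ls ((r i).st b m) (fdr (r i) b) (x₀, 0)) = -1) ∨
      (σ = -1 ∧ pz (Ls ((r i).st b m) (fdr (r i) b) (x₀, 0)) = 1)))) :
    ∃ w : WinD, w.Ok θ K (EEr r) (⟨fun i => (r i).wall θ (zz i), 0⟩ : WCG ι).ph ∧ w.σ = σ ∧
      w.D = {v | Lq ((r i).st b m) (fdr (r i) b) v ∈ wRR R} ∧
      w.V = {v | Lq ((r i).st b m) (fdr (r i) b) v ∈ wFU R} ∧
      w.C = {v | v ∈ K ∧ Lq ((r i).st b m) (fdr (r i) b) v ∈ wFU R ∧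
        (Lq ((r i).st b m) (fdr (r i) b) v).1 ∈ X₀} ∧
      (δ ≠ -1 → ∀ j, ¬ w.Z j) ∧ (∀ j, w.Z j →
        w.P (j + 1) = Ls ((r i).st b m) (fdr (r i) b) (x₀, 0) ∧ w.u j = fdr (r i) b ∧
        w.u (j + 1) = fdr (r i) b ∧ w.P j = Ls ((r i).st b m) (fdr (r i) b) (x₀ - 1, 0)) ∧
      (δ = 0 → ∀ j, w.s j = 0) := by
  have hsq : ∀ x : ℤ, -(R : ℤ) - 1 ≤ x → x < R + 1 → 0 ≤ sqn (r i) b m x ∧
      sqn (r i) b m x < (r i).L := by
    intro x h1 h2
    unfold sqn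
    split_ifs <;> omega
  refine winR_ok (c := c) hσ hR ?_ ?_ ?_ ?_ hδ
  · intro v h1 h2
    obtain ⟨a1, a2, a3, a4⟩ := h1
    constructor
    · intro hv
      exact ((mem_I_fdr (b := b) (m := m)).1 (hiso v hv ⟨by push_cast; omega, by push_cast; omega, by push_cast; omega,
        by push_cast; omega⟩ h2)).1
    · intro hv
      obtain ⟨b1, b2⟩ := hsq (Lq ((r i).st b m) (fdr (r i) b) v).1 (by omega) (by omega)
      exact (hK v).2 ⟨i, mem_I_fdr.2 ⟨hv, b1, b2⟩⟩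
  · rintro v hv ⟨a1, a2, a3, a4⟩
    have := ((mem_I_fdr (b := b) (m := m)).1 (hiso v hv ⟨by push_cast; omega, by push_cast; omega, by push_cast; omega,
        by push_cast; omega⟩ (by omega))).1
    omega
  · intro g hg _
    rw [phK_off hK hs hg]
    simp
  · intro x h1 h2 h3
    obtain ⟨b1, b2⟩ := hsq x (by omega) (by omega)
    refine (sdf_row hL hs b1 b2).cast' rfl rfl (hφ x h1 h2 h3) ?_ Iff.rfl
    rw [hT x h1 h2 h3]

/-- The wall steps of the local curve at one face. -/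
theorem wR_wall {R : ℕ} {P : ℕ → ℤ × ℤ} {U : ℕ → ℤ}
    (hV : ∀ k < 6 * R + 6, wRV R k (P k).1 (P k).2 (U k)) {j : ℕ} (hj : j < 6 * R + 6)
    (hjV : sqL (P j) (U j - 1) ∈ wFU R) : j < 2 * R + 2 ∧ P j = ((j : ℤ) - R - 1, 0) ∧ U j = 0 ∧
      -(R : ℤ) ≤ (P j).1 ∧ (P j).1 < R := by
  have h1 := hV j hj
  obtain ⟨a1, a2, a3, a4⟩ := hjV
  generalize P j = p at h1 a1 a2 a3 a4 ⊢
  generalize U j = u at h1 a1 a2 a3 a4 ⊢
  obtain ⟨x, y⟩ := p
  unfold wRV at h1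
  rcases h1 with h1 | h1 | h1 | h1 <;> obtain ⟨h2, h3, h4, h5, rfl⟩ := h1
  · rw [show (0 : ℤ) - 1 = -1 by norm_num, (sqL_e x y).2.2.2.2.1] at a1 a2 a3 a4
    simp only at a1 a2 a3 a4 h4 h5
    subst h4 h5
    exact ⟨h3, rfl, rfl, by simp only; omega, by simp only; omega⟩
  · exfalso
    rw [show (1 : ℤ) - 1 = 0 by norm_num, (sqL_e x y).1] at a1 a2 a3 a4
    simp only at a1 a2 a3 a4 h4 h5
    omega
  · exfalso
    rw [show (2 : ℤ) - 1 = 1 by norm_num, (sqL_e x y).2.1] at a1 a2 a3 a4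
    simp only at a1 a2 a3 a4 h4 h5
    omega
  · exfalso
    rw [show (3 : ℤ) - 1 = 2 by norm_num, (sqL_e x y).2.2.1] at a1 a2 a3 a4
    simp only at a1 a2 a3 a4 h4 h5
    omega

/-- **The angle of a strand at a face**: it goes from the step `x` to the step `x'`. -/
theorem strand_face {K : Finset (ℤ × ℤ)} (hK : ∀ v, v ∈ K ↔ ∃ i, v ∈ (r i).I)
    (hL : ∀ i, 1 ≤ (r i).L) (hs : RSep r) {R : ℕ} (hR : 1 ≤ R) (hm : R + 1 ≤ m)
    (hm' : m + R + 1 ≤ (r i).L)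
    (hiso : ∀ v ∈ K, Lq ((r i).st b m) (fdr (r i) b) v ∈ wFU (R + 1) →
      -1 ≤ (Lq ((r i).st b m) (fdr (r i) b) v).2 → v ∈ (r i).I) {ω : Cfg} {e : Ed}
    (he : e ∈ bS K) (hr : Returns (nx ω) (bS K) e)
    (hin : ∀ k < ret (nx ω) (bS K) e,
      Lq ((r i).st b m) (fdr (r i) b) (hdv ((nx ω)^[k] e)) ∈ wRR R)
    (hC : Lq ((r i).st b m) (fdr (r i) b) (tlv e) ∈ wFU R)
    (hC' : Lq ((r i).st b m) (fdr (r i) b) (hdv (nxt (bS K) ω e)) ∈ wFU R) :
    ∃ x x' : ℤ, x ≠ x' ∧ -(R : ℤ) ≤ x ∧ x < R ∧ -(R : ℤ) ≤ x' ∧ x' < R ∧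
      e = face (r i).toRow b (sqn (r i) b m x).toNat ∧
      nxt (bS K) ω e = face (r i).toRow b (sqn (r i) b m x').toNat ∧
      tlv e = (r i).sq (sqn (r i) b m x).toNat ∧
      hdv (nxt (bS K) ω e) = (r i).sq (sqn (r i) b m x').toNat ∧
      H199.cang plane θ (⟨fun i => (r i).wall θ (zz i), 0⟩ : WCG ι).ph ω
        (strand (nx ω) (bS K) e) = (if x < x' then -(θ / 2) else θ / 2) +
        (φf θ (r i) b (sqn (r i) b m x).toNat - φf θ (r i) b (sqn (r i) b m x').toNat) +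
        ((r i).τ ((r i).sq (sqn (r i) b m x).toNat) +
          (r i).τ ((r i).sq (sqn (r i) b m x').toNat)) * ((3 * θ - Real.pi) / 4) := by
  set z := (r i).st b m with hz
  set d := fdr (r i) b with hd
  set a := (⟨fun i => (r i).wall θ (zz i), 0⟩ : WCG ι).ph with ha
  have hsq : ∀ x : ℤ, -(R : ℤ) - 1 ≤ x → x < R + 1 → 0 ≤ sqn (r i) b m x ∧
      sqn (r i) b m x < (r i).L := by
    intro x h1 h2
    unfold sqn
    split_ifs <;> omega
  have hKD : ∀ v ∈ K, Lq z d v ∉ wRR R := by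
    rintro v hv ⟨a1, a2, a3, a4⟩
    have : (Lq z d v).2 = -1 := ((mem_I_fdr (b := b) (m := m)).1 (hiso v hv ⟨by push_cast; omega, by push_cast; omega, by push_cast; omega,
        by push_cast; omega⟩ (by omega))).1
    omega
  obtain ⟨P, U, hb, hV⟩ := wR_bd hR
  have hW := lwinR hR hb hV
  have hbf := Bd.frame hb z d
  obtain ⟨hm1, hS⟩ := hr.spec
  have hin0 := hin 0 (by omega)
  rw [Function.iterate_zero, id] at hin0
  have ht0 : tlv e ∈ K := by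
    rcases mem_bS.1 he with ⟨h1, -⟩ | ⟨-, h1⟩
    · exact absurd hin0 (hKD _ h1)
    · exact h1
  set f := nxt (bS K) ω e with hf
  have htl : Lq z d (tlv f) ∈ wRR R := by
    obtain ⟨m', hm'⟩ : ∃ m', ret (nx ω) (bS K) e = m' + 1 := ⟨ret (nx ω) (bS K) e - 1, by omega⟩
    show Lq z d (tlv ((nx ω)^[ret (nx ω) (bS K) e] e)) ∈ wRR R
    rw [hm', Function.iterate_succ_apply', tlv_nx]
    exact hin m' (by omega)
  have hh0 : hdv f ∈ K := by
    rcases mem_bS.1 hS with ⟨h1, -⟩ | ⟨-, h1⟩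
    · exact h1
    · exact absurd htl (hKD _ h1)
  -- the step of an edge
  have hstep : ∀ (g : Ed) (q q' : ℤ × ℤ), Two g q q' → q ∈ K → Lq z d q ∈ wFU R →
      Lq z d q' ∈ wRR R → ∃ j : ℕ, j < 2 * R + 2 ∧ P j = ((j : ℤ) - R - 1, 0) ∧ U j = 0 ∧
        -(R : ℤ) ≤ (P j).1 ∧ (P j).1 < R ∧ P4 g = M4 (Ls z d (P j)) (U j + d) := by
    intro g q q' hg hq hq1 hq2
    have key : ∀ s t, P4 g = M4 s t → q' = sqL s t → q = sqL s (t - 1) →
        ∃ j : ℕ, j < 2 * R + 2 ∧ P j = ((j : ℤ) - R - 1, 0) ∧ U j = 0 ∧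
        -(R : ℤ) ≤ (P j).1 ∧ (P j).1 < R ∧ P4 g = M4 (Ls z d (P j)) (U j + d) := by
      intro s t h4 h5 h6
      obtain ⟨t', rfl⟩ := Ls_surj z d s
      obtain ⟨d', rfl⟩ : ∃ d', t = d' + d := ⟨t - d, by ring⟩
      rw [h5, Lq_sqL] at hq2
      rw [h6, show d' + d - 1 = d' - 1 + d by ring, Lq_sqL] at hq1
      have h7 : sqL t' (d' - 1) ∈ wRQ := by
        have h8 : Lq z d q = sqL t' (d' - 1) := by
          rw [h6, show d' + d - 1 = d' - 1 + d by ring, Lq_sqL]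
        have h9 := sqL_rg (s := t') (d := d' - 1)
        have h10 := sqL_rg (s := t') (d := d')
        obtain ⟨-, -, h11, -⟩ := hq2
        obtain ⟨a1, a2, a3, a4⟩ := hq1
        have h12 := ((mem_I_fdr (b := b) (m := m)).1 (hiso q hq ⟨by rw [h8]; push_cast; omega,
          by rw [h8]; push_cast; omega, by rw [h8]; push_cast; omega,
          by rw [h8]; push_cast; omega⟩ (by rw [h8]; omega))).1
        rw [h8] at h12
        exact h12
      obtain ⟨j, ⟨hj, hjV⟩, hM⟩ := hW.cov _ _ hq2 h7 hq1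
      obtain ⟨g1, g2, g3, g4, g5⟩ := wR_wall hV hj hjV
      exact ⟨j, g1, g2, g3, g4, g5, h4.trans (Ls_M4 z d hM)⟩
    rcases hg with ⟨h1, h2⟩ | ⟨h1, h2⟩
    · obtain ⟨s, t, h4, h5, h6⟩ := exists_side' g
      exact key s t h4 (h2.symm.trans h5) (h1.symm.trans h6)
    · obtain ⟨s, t, h4, h5, h6⟩ := exists_side g
      exact key s t h4 (h1.symm.trans h5) (h2.symm.trans h6)
  obtain ⟨j, j1, j2, j3, j4, j5, j6⟩ := hstep e (tlv e) (hdv e) (Or.inr ⟨rfl, rfl⟩) ht0 hC hin0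
  obtain ⟨j', k1, k2, k3, k4, k5, k6⟩ := hstep f (hdv f) (tlv f) (Or.inl ⟨rfl, rfl⟩) hh0 hC' htl
  obtain ⟨t1, t2⟩ := bd_turn hbf (ω := ω) (e := e) hm1 (show j < 6 * R + 6 by omega)
    (show j' < 6 * R + 6 by omega) j6 k6 hin (hKD _ ht0) (hKD _ hh0)
  have hc := cang_strand (θ := θ) (a := a) he hr (fun k k1 k2 => by
    rw [XDL.ah_add_at]
    have h3 : (nx ω)^[k] e ∉ bS K := H199.ret_min k1 k2
    have h4 : a ((nx ω)^[k] e) = 0 := phK_off hK hs h3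
    rw [h4]
    simp)
  have hx : (P j).1 = (j : ℤ) - R - 1 := by rw [j2]
  have hx' : (P j').1 = (j' : ℤ) - R - 1 := by rw [k2]
  have hPj : P j = ((P j).1, 0) := by rw [j2]
  have hPj' : P j' = ((P j').1, 0) := by rw [k2]
  obtain ⟨b1, b2⟩ := hsq (P j).1 (by omega) (by omega)
  obtain ⟨c1, c2⟩ := hsq (P j').1 (by omega) (by omega)
  have hcr := cross_in hbf j6 hin0
  have hcr' := cross_out hbf k6 (hKD _ hh0)
  obtain ⟨-, -, -, e4, e5⟩ := hcr
  obtain ⟨-, -, -, f4, f5⟩ := hcr'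
  rw [j3, zero_add, hPj] at e4 e5
  rw [k3, zero_add, hPj'] at f4 f5
  have hsd := sdf_row (θ := θ) (zz := zz) (m := m) hL hs b1 b2
  have hsd' := sdf_row (θ := θ) (zz := zz) (m := m) hL hs c1 c2
  have p1 := ((hsd e).1 e5 e4).1
  have p2 := ((hsd' f).2 f4 f5).1
  have q1 := sqL_in (r := r i) (b := b) (m := m) b1
  have q2 := sqL_in (r := r i) (b := b) (m := m) c1
  have w1 := two_step (r := r i) (b := b) (m := m) b1
  have w2 := two_step (r := r i) (b := b) (m := m) c1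
  refine ⟨(P j).1, (P j').1, by omega, j4, j5, k4, k5, two_inj (Or.inr ⟨e4, e5⟩) w1,
    two_inj (Or.inl ⟨f4, f5⟩) w2, e5.trans q1, f4.trans q2, ?_⟩
  rw [hc, t2, j3, k3]
  show _ + ah plane a e + at' plane a f = _
  rw [p1, p2]
  by_cases hjj : j < j'
  · rw [if_pos hjj, if_pos (by omega)]
    push_cast
    ring
  · rw [if_neg hjj, if_neg (by omega)]
    push_cast
    ring

end sys

end Vale.Agent.P167.N.ID
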