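import Vale.Agent.P167.H871.Q.WinC

/-!
# P167, `q < 1`: the window of the foot of a row (above a horizontal row)

The boundary curve of the window: position and direction of the step `k` (`wFV`).
-/

set_option autoImplicit false

namespace Vale.Agent.P167.N.ID

open Finset
open Vale.Agent.P167.Top
open Vale.Agent.P167.H871
open Vale.Agent.P167.H871.Q

/-- The boundary curve: position `(x, y)` and direction `u` at the step `k`. -/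
def wFV (S R k : ℕ) (x y u : ℤ) : Prop :=
  (0 ≤ k ∧ k < 2 * R + 2 ∧ x = k - R - 1 ∧ y = 0 ∧ u = 0) ∨
  (2 * R + 2 ≤ k ∧ k < 3 * R + 3 ∧ x = R + 1 ∧ y = k - 2 * R - 2 ∧ u = 1) ∨
  (3 * R + 3 ≤ k ∧ k < 4 * R + 3 ∧ x = 4 * R + 4 - k ∧ y = R + 1 ∧ u = 2) ∨
  (4 * R + 3 ≤ k ∧ k < 4 * R + S + 3 ∧ x = 1 ∧ y = 5 * R + 4 - k ∧ u = 3) ∨
  (4 * R + S + 3 ≤ k ∧ k < 4 * R + S + 4 ∧ x = 4 * R + S + 4 - k ∧ y = R + 1 - S ∧ u = 2) ∨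
  (4 * R + S + 4 ≤ k ∧ k < 4 * R + 2 * S + 4 ∧ x = 0 ∧ y = k - 3 * R - 2 * S - 3 ∧ u = 1) ∨
  (4 * R + 2 * S + 4 ≤ k ∧ k < 5 * R + 2 * S + 5 ∧ x = 4 * R + 2 * S + 4 - k ∧ y = R + 1 ∧ u = 2) ∨
  (5 * R + 2 * S + 5 ≤ k ∧ k < 6 * R + 2 * S + 6 ∧ x = -R - 1 ∧ y = 6 * R + 2 * S + 6 - k ∧ u = 3)

/-- The region. -/
def wFR (S R : ℕ) : Set (ℤ × ℤ) := {v | -(R : ℤ) - 1 ≤ v.1 ∧ v.1 < R + 1 ∧ 0 ≤ v.2 ∧ v.2 < R + 1 ∧ ¬ (v.1 = 0 ∧ R + 1 - S ≤ v.2)}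

variable {S R : ℕ}

theorem wF_ex (hS : 1 ≤ S) (hSR : S < R) {k : ℕ} (hk : k < 6 * R + 2 * S + 6) :
    ∃ t : ℤ × ℤ × ℤ, wFV S R k t.1 t.2.1 t.2.2 := by
  rcases (by omega : (0 ≤ k ∧ k < 2 * R + 2) ∨ (2 * R + 2 ≤ k ∧ k < 3 * R + 3) ∨ (3 * R + 3 ≤ k ∧ k < 4 * R + 3) ∨ (4 * R + 3 ≤ k ∧ k < 4 * R + S + 3) ∨ (4 * R + S + 3 ≤ k ∧ k < 4 * R + S + 4) ∨ (4 * R + S + 4 ≤ k ∧ k < 4 * R + 2 * S + 4) ∨ (4 * R + 2 * S + 4 ≤ k ∧ k < 5 * R + 2 * S + 5) ∨ (5 * R + 2 * S + 5 ≤ k ∧ k < 6 * R + 2 * S + 6)) with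
    h | h | h | h | h | h | h | h
  · exact ⟨(k - R - 1, 0, 0), Or.inl ⟨h.1, h.2, rfl, rfl, rfl⟩⟩
  · exact ⟨(R + 1, k - 2 * R - 2, 1), Or.inr (Or.inl ⟨h.1, h.2, rfl, rfl, rfl⟩)⟩
  · exact ⟨(4 * R + 4 - k, R + 1, 2), Or.inr (Or.inr (Or.inl ⟨h.1, h.2, rfl, rfl, rfl⟩))⟩
  · exact ⟨(1, 5 * R + 4 - k, 3), Or.inr (Or.inr (Or.inr (Or.inl ⟨h.1, h.2, rfl, rfl, rfl⟩)))⟩
  · exact ⟨(4 * R + S + 4 - k, R + 1 - S, 2), Or.inr (Or.inr (Or.inr (Or.inr (Or.inl ⟨h.1, h.2, rfl, rfl, rfl⟩))))⟩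
  · exact ⟨(0, k - 3 * R - 2 * S - 3, 1), Or.inr (Or.inr (Or.inr (Or.inr (Or.inr (Or.inl ⟨h.1, h.2, rfl, rfl, rfl⟩)))))⟩
  · exact ⟨(4 * R + 2 * S + 4 - k, R + 1, 2), Or.inr (Or.inr (Or.inr (Or.inr (Or.inr (Or.inr (Or.inl ⟨h.1, h.2, rfl, rfl, rfl⟩))))))⟩
  · exact ⟨(-R - 1, 6 * R + 2 * S + 6 - k, 3), Or.inr (Or.inr (Or.inr (Or.inr (Or.inr (Or.inr (Or.inr (⟨h.1, h.2, rfl, rfl, rfl⟩)))))))⟩

theorem wF_inj (hS : 1 ≤ S) (hSR : S < R) {k l : ℕ} (h1 : k < l) {x y u u' : ℤ}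
    (hk : wFV S R k x y u) (hl : wFV S R l x y u') : False := by
  unfold wFV at hk hl
  rcases hk with hk | hk | hk | hk | hk | hk | hk | hk <;>
    rcases hl with hl | hl | hl | hl | hl | hl | hl | hl <;> omega

theorem wF_uniq (hS : 1 ≤ S) (hSR : S < R) {k : ℕ} {x y u x' y' u' : ℤ}
    (hk : wFV S R k x y u) (hl : wFV S R k x' y' u') : x = x' ∧ y = y' ∧ u = u' := by
  unfold wFV at hk hl
  rcases hk with hk | hk | hk | hk | hk | hk | hk | hk <;>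
    rcases hl with hl | hl | hl | hl | hl | hl | hl | hl <;>
    first | (exfalso; omega) | omega

theorem wF_nxt (hS : 1 ≤ S) (hSR : S < R) {k : ℕ} {x y u : ℤ}
    (hk : wFV S R k x y u) (hn : k + 1 < 6 * R + 2 * S + 6) :
    ∃ u', wFV S R (k + 1) (x + (vec u).1) (y + (vec u).2) u' ∧ |u' - u| ≤ 1 := by
  have e0 : vec 0 = (1, 0) := rfl
  have e1 : vec 1 = (0, 1) := rfl
  have e2 : vec 2 = (-1, 0) := rfl
  have e3 : vec 3 = (0, -1) := rfl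
  have e4 : vec (-1) = (0, -1) := rfl
  have e5 : vec (-2) = (-1, 0) := rfl
  rcases hk with ⟨h1, h2, rfl, rfl, rfl⟩ | ⟨h1, h2, rfl, rfl, rfl⟩ | ⟨h1, h2, rfl, rfl, rfl⟩ | ⟨h1, h2, rfl, rfl, rfl⟩ | ⟨h1, h2, rfl, rfl, rfl⟩ | ⟨h1, h2, rfl, rfl, rfl⟩ | ⟨h1, h2, rfl, rfl, rfl⟩ | ⟨h1, h2, rfl, rfl, rfl⟩
  · rw [e0]
    by_cases h : k + 1 < 2 * R + 2
    · exact ⟨0, Or.inl ⟨by omega, h, by omega, by omega, rfl⟩, by norm_num⟩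
    · exact ⟨1, Or.inr (Or.inl ⟨by omega, by omega, by omega, by omega, rfl⟩), by norm_num⟩
  · rw [e1]
    by_cases h : k + 1 < 3 * R + 3
    · exact ⟨1, Or.inr (Or.inl ⟨by omega, h, by omega, by omega, rfl⟩), by norm_num⟩
    · exact ⟨2, Or.inr (Or.inr (Or.inl ⟨by omega, by omega, by omega, by omega, rfl⟩)), by norm_num⟩
  · rw [e2]
    by_cases h : k + 1 < 4 * R + 3
    · exact ⟨2, Or.inr (Or.inr (Or.inl ⟨by omega, h, by omega, by omega, rfl⟩)), by norm_num⟩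
    · exact ⟨3, Or.inr (Or.inr (Or.inr (Or.inl ⟨by omega, by omega, by omega, by omega, rfl⟩))), by norm_num⟩
  · rw [e3]
    by_cases h : k + 1 < 4 * R + S + 3
    · exact ⟨3, Or.inr (Or.inr (Or.inr (Or.inl ⟨by omega, h, by omega, by omega, rfl⟩))), by norm_num⟩
    · exact ⟨2, Or.inr (Or.inr (Or.inr (Or.inr (Or.inl ⟨by omega, by omega, by omega, by omega, rfl⟩)))), by norm_num⟩
  · rw [e2]
    by_cases h : k + 1 < 4 * R + S + 4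
    · exact ⟨2, Or.inr (Or.inr (Or.inr (Or.inr (Or.inl ⟨by omega, h, by omega, by omega, rfl⟩)))), by norm_num⟩
    · exact ⟨1, Or.inr (Or.inr (Or.inr (Or.inr (Or.inr (Or.inl ⟨by omega, by omega, by omega, by omega, rfl⟩))))), by norm_num⟩
  · rw [e1]
    by_cases h : k + 1 < 4 * R + 2 * S + 4
    · exact ⟨1, Or.inr (Or.inr (Or.inr (Or.inr (Or.inr (Or.inl ⟨by omega, h, by omega, by omega, rfl⟩))))), by norm_num⟩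
    · exact ⟨2, Or.inr (Or.inr (Or.inr (Or.inr (Or.inr (Or.inr (Or.inl ⟨by omega, by omega, by omega, by omega, rfl⟩)))))), by norm_num⟩
  · rw [e2]
    by_cases h : k + 1 < 5 * R + 2 * S + 5
    · exact ⟨2, Or.inr (Or.inr (Or.inr (Or.inr (Or.inr (Or.inr (Or.inl ⟨by omega, h, by omega, by omega, rfl⟩)))))), by norm_num⟩
    · exact ⟨3, Or.inr (Or.inr (Or.inr (Or.inr (Or.inr (Or.inr (Or.inr (⟨by omega, by omega, by omega, by omega, rfl⟩))))))), by norm_num⟩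
  · rw [e3]
    exact ⟨3, Or.inr (Or.inr (Or.inr (Or.inr (Or.inr (Or.inr (Or.inr (⟨by omega, hn, by omega, by omega, rfl⟩))))))), by norm_num⟩

theorem wF_left (hS : 1 ≤ S) (hSR : S < R) {k : ℕ} {x y u : ℤ}
    (hk : wFV S R k x y u) :
    sqL (x, y) u ∈ wFR S R ∧ sqL (x, y) (u - 1) ∉ wFR S R := by
  rcases hk with ⟨h1, h2, rfl, rfl, rfl⟩ | ⟨h1, h2, rfl, rfl, rfl⟩ | ⟨h1, h2, rfl, rfl, rfl⟩ | ⟨h1, h2, rfl, rfl, rfl⟩ | ⟨h1, h2, rfl, rfl, rfl⟩ | ⟨h1, h2, rfl, rfl, rfl⟩ | ⟨h1, h2, rfl, rfl, rfl⟩ | ⟨h1, h2, rfl, rfl, rfl⟩ <;>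
    (unfold sqL wFR; simp only [Set.mem_ofPred_eq]; norm_num; omega)

/-- **The boundary curve.** -/
theorem wF_bd (hS : 1 ≤ S) (hSR : S < R) :
    ∃ P U, Bd (wFR S R) (6 * R + 2 * S + 6) P U 1 ∧
      ∀ k < 6 * R + 2 * S + 6, wFV S R k (P k).1 (P k).2 (U k) := by
  exact bd_of (V := wFV S R) (n := 6 * R + 2 * S + 6) (D := wFR S R)
    (x0 := -R - 1) (y0 := 0) (by omega) (Or.inl ⟨le_rfl, by omega, by simp, by simp, rfl⟩)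
    (fun k hk => wF_ex hS hSR hk) (fun h h' => wF_uniq hS hSR h h')
    (fun h h' => wF_nxt hS hSR h h')
    (Or.inr (Or.inr (Or.inr (Or.inr (Or.inr (Or.inr (Or.inr (⟨by omega, by omega, by omega, by omega, rfl⟩))))))))
    (fun h _ _ _ _ h1 h2 => wF_inj hS hSR h h1 h2) (fun h => wF_left hS hSR h)

end Vale.Agent.P167.N.ID
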