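import Vale.Agent.P167.N.ID.WinDob

/-!
# P167, block ID: the windows of the Dobrushin frames at the foot of the spoke

* `rowQ_face`: the faces of the row of the box at the foot.
* `phF`, `winF`: the window above the row; `winG`: the window below the row.
-/

set_option autoImplicit false

namespace Vale.Agent.P167.N.ID

open Finset
open Vale.Agent.P167.FK (Bq)
open Vale.Agent.P167.A (plane)
open Vale.Agent.P167.E6 (IsPolygon Encloses dir)
open Vale.Agent.P167.H825 (pdir ptau enl Box Marks)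
open Vale.Agent.P167.H825.Q (Bc stΦ stτ)
open Vale.Agent.P167.H662 (hsite)
open Vale.Agent.P167.H199 (mks Gap c0)
open Vale.Agent.P167.XDL (bS mem_bS)
open Vale.Agent.P167.H680.T (uI mem_uI WCG)
open Vale.Agent.P167.H871.Q (Ls Lq)
open Vale.Agent.P167.H871 (sqL)
open Vale.Agent.P167.Enl (sW eW tB kOf uN vp oz vz vz_eq oz_eq frmQ mem_frmQ BGap)

variable {l : ℕ} {θ β : ℝ} {p : ZMod l → ℤ × ℤ} {S₀ : Finset (ℤ × ℤ)} {b : Box} {tp : ℝ} {n : ℕ}
  {g δ : ℝ} {ia : ℕ} {ta : ℝ}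

/-- The lifted direction of the bottom of the box. -/
theorem ptau_pQ2 : ptau pQ 2 = 2 := by
  obtain ⟨h0, h1, h2, h3⟩ := pdir_pQ
  show (0 : ℤ) + H825.tn (pdir pQ 0) (pdir pQ (0 + 1)) + H825.tn (pdir pQ 1) (pdir pQ (1 + 1)) = 2
  rw [show (0 + 1 : ℕ) = 1 from rfl, show (1 + 1 : ℕ) = 2 from rfl, h0, h1, h2]
  rfl

namespace DobN

section foot

variable [NeZero l] {R : ℕ} {x : ℤ}

omit [NeZero l] in
theorem tQ_lt (H : DobN p S₀ b tp g δ n) :
    tG pQ (bM p * n) (tqB (bQ b (bM p))) (cT p ia) < bM p * n := by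
  obtain ⟨c1, c2, c3, c4⟩ := H.box
  exact t_lt H.hQ' H.hg' c2 c3 (tG_le _ _ _ _).2

/-- **The faces of the row of the box at the foot of the spoke**: upper (`b'`) and lower face. -/
theorem rowQ_face (H : DobN p S₀ b tp g δ n) (hR : (R : ℝ) ≤ g / 16 * n)
    (h1 : -(R : ℤ) ≤ x) (h2 : x < R) (b' : Bool) :
    SdW ((frD θ β p S₀ b tp ia ta).ph (rowS θ) δ n 0)
      (EEr fun x : IxD l => rD θ β p b tp ia ta n ⌊δ * n⌋₊ x)
      ((n : ℤ) * (p (iT p)).1 + x, -1) ((n : ℤ) * (p (iT p)).1 + x, -(if b' then 0 else 2))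
      (ET θ β p ia + θ / 4 - if b' then 0 else θ / 2)
      (cT p ia * ((3 * θ - Real.pi) / 4)) False := by
  obtain ⟨b1, b3, b5, b6, b7⟩ := H.basic
  obtain ⟨k1, k2⟩ := H.szR hR
  obtain ⟨c1, c2, c3, c4⟩ := H.box
  obtain ⟨z2, z1, z3, z4⟩ := ft_mem (n := n) H.hp H.hN
  have hft : (ftD p n).1 = n * (p (iT p)).1 := rfl
  rw [hft] at z1 z3
  have hd16 : 16 ≤ ⌊δ * n⌋₊ := Nat.le_floor (by push_cast; linarith [H.hn])
  have hN : bM p * n ≠ 0 := by
    have := (Nat.mul_pos (hM (p := p)) b5).ne'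
    exact this
  -- the row of the square
  have hmem : (((n : ℤ) * (p (iT p)).1 + x, -1) : ℤ × ℤ) ∈
      frmQ pQ (mksQ p b) (bM p * n) ⌊δ * n⌋₊ := by
    have hv : (((n : ℤ) * (p (iT p)).1 + x, -1) : ℤ × ℤ) ∈ Bq (ftD p n) R := by
      rw [mem_bq']
      simp only [z2, hft]
      omega
    have := (H.mem_F (θ := θ) (β := β) (ia := ia) (ta := ta) hR hv).2 (Or.inl rfl)
    rw [mem_U'] at this
    rcases this with h | h | h
    · exfalso
      obtain ⟨y, hy⟩ := frmP_row h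
      have h2 := H.rowP_mem hy
      simp only at h2
      omega
    · exact h
    · exfalso
      have := (mem_spk.1 h).2.1
      simp only at this
      omega
  obtain ⟨y, σ, s1, s2, s3⟩ := mem_frmQ.1 hmem
  have hrow := rows_le (p := pQ) H.hQ' H.hg' c1 c2 c3 y
  rw [c4] at hrow
  have hy2 : (y.1 : ℕ) = 2 ∧ ((n : ℤ) * (p (iT p)).1 + x, (-1 : ℤ)) = ((σ : ℤ), (-1 : ℤ)) := by
    rcases opQ (N := bM p * n) (i := y.1) y.1.2 (σ : ℤ) with
      ⟨h', h''⟩ | ⟨h', h''⟩ | ⟨h', h''⟩ | ⟨h', h''⟩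
    · exfalso
      rw [h'', Prod.mk.injEq] at s3
      push_cast at s3
      omega
    · exfalso
      rw [h'', Prod.mk.injEq] at s3
      omega
    · rw [h''] at s3
      exact ⟨h', s3⟩
    · exfalso
      rw [h'', Prod.mk.injEq] at s3
      push_cast at s3
      omega
  obtain ⟨hy1, hy3⟩ := hy2
  rw [Prod.mk.injEq] at hy3
  have hσ : σ < bM p * n := lt_of_lt_of_le s2 hrow
  have ht := H.tQ_lt (ia := ia)
  have hf := sdJ_face (r := fun x : IxD l => rD θ β p b tp ia ta n ⌊δ * n⌋₊ x)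
    (z := fun _ => 0) (y := .inr (.inl y)) (i := y.1) (j := y.2) (σ := σ) (bc := .free)
    (n := bM p * n) (t := tG pQ (bM p * n) (tqB (bQ b (bM p))) (cT p ia)) (d := ⌊δ * n⌋₊)
    (J := fun _ => true) (C := CQ θ β p ia) (c := cT p ia) (β := β) (θ := θ)
    pQ_poly pQ_encl H.hQ' trivial (by omega) ht
    (cT_or p ia) (H.len) H.rsep rfl y.1.2 (Nat.lt_succ_iff.1 y.2.2) s1 s2 b'
  have hka : kOf 4 (bM p * n) (tG pQ (bM p * n) (tqB (bQ b (bM p))) (cT p ia)) y.1 σ <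
      Bc.free.ka 4 (bM p * n) (tG pQ (bM p * n) (tqB (bQ b (bM p))) (cT p ia)) :=
    Enl.kOf_lt y.1.2 hσ ht
  have hu := H825.Q.uN_kOf pQ_poly pQ_encl ht y.1.2 hσ
  rw [hy1, if_neg (by norm_num), ptau_pQ2, pdir_pQ.1] at hu
  have hst : stΦ θ β (uN pQ (bM p * n) (tG pQ (bM p * n) (tqB (bQ b (bM p))) (cT p ia)))
      (Bc.free.ka 4 (bM p * n) (tG pQ (bM p * n) (tqB (bQ b (bM p))) (cT p ia)))
      (kOf 4 (bM p * n) (tG pQ (bM p * n) (tqB (bQ b (bM p))) (cT p ia)) y.1 σ) = θ := by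
    unfold stΦ
    rw [if_pos hka, hy1, hu]
    have : (((2 : Fin 4).val : ℕ) : ℤ) = 2 := rfl
    change θ / 4 * (((((2 : Fin 4).val : ℕ) : ℤ) + 2 : ℤ) : ℝ) + 0 = θ
    rw [this]
    norm_num
  have hsτ : stτ (Bc.free.ka 4 (bM p * n) (tG pQ (bM p * n) (tqB (bQ b (bM p))) (cT p ia)))
      (kOf 4 (bM p * n) (tG pQ (bM p * n) (tqB (bQ b (bM p))) (cT p ia)) y.1 σ) = 1 := by
    unfold stτ
    rw [if_pos hka]
  rw [hst, hsτ, hy1] at hf
  have e4 : Enl.op pQ (bM p * n) 2 (σ : ℤ) = ((n : ℤ) * (p (iT p)).1 + x, -1) := by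
    rw [s3, hy1]
  have e5 : vp pQ (bM p * n) 2 (σ : ℤ) = ((n : ℤ) * (p (iT p)).1 + x, 0) := by
    unfold vp
    have e2 : pQ ((2 : ℕ) : ZMod 4) = (0, 0) := rfl
    rw [pdir_pQ.2.2.1, e2, (vz_eq _ _).1]
    simp
    omega
  refine hf.cast' e4 ?_ ?_ ?_ Iff.rfl
  · cases b'
    · rw [if_neg (by decide), e4, pdir_pQ.2.2.1]
      show ((n : ℤ) * (p (iT p)).1 + x + 0, (-1 : ℤ) + (-1)) = _
      ext
      · simp
      · simp
    · rw [if_pos rfl, e5, pdir_pQ.2.2.1, Enl.face0]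
      simp
  · unfold hJ CQ
    cases b'
    · simp only [Bool.false_eq_true, if_false, if_true]
      ring
    · simp only [if_true]
      ring
  · ring

/-- **The phases at the foot of the spoke.** -/
theorem phF (H : DobN p S₀ b tp g δ n) (hR : ((R : ℕ) : ℝ) ≤ g / 16 * n)
    (hRd : ⌊δ * n⌋₊ + 3 ≤ R) :
    PhF θ ((frD θ β p S₀ b tp ia ta).ph (rowS θ) δ n 0)
      (EEr fun x : IxD l => rD θ β p b tp ia ta n ⌊δ * n⌋₊ x)
      (if clT p ia then 1 else -1) (ET θ β p ia + θ / 4) (ftD p n) (R + 1 - ⌊δ * n⌋₊) R := by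
  obtain ⟨k1, k2⟩ := H.szR hR
  have hy' : 2 * (n : ℤ) ≤ n * (p (iT p)).2 := by
    have := (H.hN (iT p)).2
    nlinarith
  have hS : (R : ℤ) + 1 - ((R + 1 - ⌊δ * n⌋₊ : ℕ) : ℤ) = ⌊δ * n⌋₊ := by omega
  have hS' : (R : ℤ) - ((R + 1 - ⌊δ * n⌋₊ : ℕ) : ℤ) = (⌊δ * n⌋₊ : ℤ) - 1 := by omega
  have a5 : (⌊δ * n⌋₊ : ℤ) ≤ n := by exact_mod_cast H.hδn.2.2.2
  refine ⟨?_, ?_, ?_, ?_⟩
  · intro x h1 h2
    refine (H.rowQ_face hR h1 h2 true).cast' ?_ ?_ ?_ (by rw [sgT_cast]) Iff.rfl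
    · rfl
    · ext
      · rfl
      · show -(if true = true then (0 : ℤ) else 2) = 0 + 0
        simp
    · simp
  · intro y h1 h2
    rw [hS] at h1
    refine (H.spk_w (v := y) (by omega) (by omega)).cast' ?_ ?_ (by ring)
      (by rw [sgT_cast]) Iff.rfl
    · ext
      · show _ = (n : ℤ) * (p (iT p)).1 + 0
        simp
      · show y = 0 + y
        simp
    · ext
      · show (n : ℤ) * (p (iT p)).1 - 1 = (n : ℤ) * (p (iT p)).1 + (-1)
        ring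
      · show y = 0 + y
        simp
  · intro y h1 h2
    rw [hS] at h1
    refine (H.spk_e (v := y) (by omega) (by omega)).cast' ?_ ?_ (by ring)
      (by rw [sgT_cast]) Iff.rfl
    · ext
      · show _ = (n : ℤ) * (p (iT p)).1 + 0
        simp
      · show y = 0 + y
        simp
    · ext
      · rfl
      · show y = 0 + y
        simp
  · rw [hS, hS']
    refine (H.spk_b).cast' ?_ ?_ rfl (by rw [sgT_cast]) Iff.rfl
    · ext
      · show _ = (n : ℤ) * (p (iT p)).1 + 0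
        simp
      · show _ = 0 + (⌊δ * n⌋₊ : ℤ)
        simp
    · ext
      · show _ = (n : ℤ) * (p (iT p)).1 + 0
        simp
      · show _ = 0 + ((⌊δ * n⌋₊ : ℤ) - 1)
        simp

/-- **The window above the row of the box at the foot of the spoke.** -/
theorem winF (H : DobN p S₀ b tp g δ n) (hR : ((R + 1 : ℕ) : ℝ) ≤ g / 16 * n)
    (hRd : ⌊δ * n⌋₊ + 3 ≤ R) :
    ∃ w : WinD, w.Ok θ ((frD θ β p S₀ b tp ia ta).U (rowS θ) δ n)
        (EEr fun x : IxD l => rD θ β p b tp ia ta n ⌊δ * n⌋₊ x)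
        ((frD θ β p S₀ b tp ia ta).ph (rowS θ) δ n 0) ∧
      w.σ = (if clT p ia then 1 else -1) ∧
      (∀ v, v ∉ (frD θ β p S₀ b tp ia ta).U (rowS θ) δ n → 0 ≤ v.2 →
        v ∈ Bq (ftD p n) R → v ∈ w.D) ∧
      (∀ v, v ∈ Bq (ftD p n) R → v ∈ w.V) ∧
      (∀ v ∈ (frD θ β p S₀ b tp ia ta).U (rowS θ) δ n, v ∈ Bq (ftD p n) R → v ∈ w.C) ∧
      (∀ j, ¬ w.Z j) ∧ w.KR (RF (ftD p n) (R + 1 - ⌊δ * n⌋₊) R) := by
  have hR' : (R : ℝ) ≤ g / 16 * n := by push_cast at hR; linarith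
  have hd16 : 16 ≤ ⌊δ * n⌋₊ := Nat.le_floor (by push_cast; linarith [H.hn])
  have hph := H.phF (θ := θ) (β := β) (b := b) (ia := ia) (ta := ta) hR' hRd
  have hmem := fun v hv => H.mem_F (θ := θ) (β := β) (ia := ia) (ta := ta) hR (v := v) hv
  have hS : (R : ℤ) + 1 - ((R + 1 - ⌊δ * n⌋₊ : ℕ) : ℤ) = ⌊δ * n⌋₊ := by omega
  have hft : (ftD p n).1 = n * (p (iT p)).1 := rfl
  have hft2 : (ftD p n).2 = 0 := rfl
  have hQ : ∀ v, v ∈ Bq (ftD p n) ((R + 1 : ℕ) : ℤ) →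
      (v ∈ (frD θ β p S₀ b tp ia ta).U (rowS θ) δ n ↔
        v - ftD p n ∈ wFQ (R + 1 - ⌊δ * n⌋₊) R) := by
    intro v hv
    rw [hmem v hv]
    unfold wFQ
    simp only [Set.mem_ofPred_eq, Prod.fst_sub, Prod.snd_sub]
    rw [hS, hft, hft2]
    constructor
    · rintro (h1 | ⟨h1, h2⟩)
      · left; omega
      · right; omega
    · rintro (h1 | ⟨h1, h2⟩)
      · left; omega
      · right; omega
  obtain ⟨w, w1, w2, w3, w4, w5, w6⟩ := winF_okK (θ := θ) (z := ftD p n)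
    (K := (frD θ β p S₀ b tp ia ta).U (rowS θ) δ n)
    (σ := if clT p ia then 1 else -1) (by split_ifs <;> simp) (by omega) (by omega)
    (fun v hv => hQ v (by
      obtain ⟨h1, h2, h3, h4⟩ := hv
      simp only [Prod.fst_sub, Prod.snd_sub] at h1 h2 h3 h4
      rw [mem_bq']
      push_cast
      omega))
    (fun v hv h => by
      obtain ⟨h1, h2, h3, h4, h5⟩ := h
      simp only [Prod.fst_sub, Prod.snd_sub] at h1 h2 h3 h4 h5
      have h8 := (hQ v (by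
        rw [mem_bq']
        push_cast
        omega)).1 hv
      unfold wFQ at h8
      simp only [Set.mem_ofPred_eq, Prod.fst_sub, Prod.snd_sub] at h8
      rcases h8 with h8 | h8
      · omega
      · exact h5 h8)
    (fun g hg _ => by
      rw [ph_D, phr_off (fun v => mem_U v) H.rsep hg, phr_off (fun v => mem_U v) H.rsep hg,
        add_zero])
    hph
  refine ⟨w, w1, w2, fun v hv hv0 hv2 => ?_, fun v hv => ?_, fun v hv hv2 => ?_, w6⟩
  · rw [w3]
    have h1 := mem_bq'.1 hv2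
    have h2 := fun h => hv ((hQ v (by rw [mem_bq']; push_cast; omega)).2 h)
    unfold wFQ at h2
    simp only [Set.mem_ofPred_eq, Prod.fst_sub, Prod.snd_sub] at h2
    show _ ∧ _ ∧ _ ∧ _ ∧ _
    simp only [Prod.fst_sub, Prod.snd_sub]
    refine ⟨by omega, by omega, by omega, by omega, fun h => h2 (Or.inr h)⟩
  · rw [w4]
    have h1 := mem_bq'.1 hv
    show _ ∧ _ ∧ _ ∧ _
    simp only [Prod.fst_sub, Prod.snd_sub]
    omega
  · rw [w5]
    have h1 := mem_bq'.1 hv2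
    refine ⟨hv, ?_⟩
    show _ ∧ _ ∧ _ ∧ _
    simp only [Prod.fst_sub, Prod.snd_sub]
    omega

theorem Lq2 (z v : ℤ × ℤ) : Lq z 2 v = (z.1 - v.1 - 1, z.2 - v.2 - 1) := by
  unfold Lq
  rw [show Top.dx 2 = -1 from rfl, show Top.dy 2 = 0 from rfl]
  refine Prod.ext ?_ ?_
  · show (v.1 - z.1) * -1 + (v.2 - z.2) * 0 + (-1 + 0 - 1) / 2 = z.1 - v.1 - 1
    norm_num
    ring
  · show (v.2 - z.2) * -1 - (v.1 - z.1) * 0 + (-1 - 0 - 1) / 2 = z.2 - v.2 - 1
    norm_num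
    ring

theorem Ls2 (z s : ℤ × ℤ) : Ls z 2 s = (z.1 - s.1, z.2 - s.2) := by
  unfold Ls
  rw [show Top.dx 2 = -1 from rfl, show Top.dy 2 = 0 from rfl]
  refine Prod.ext ?_ ?_
  · show z.1 + s.1 * -1 - s.2 * 0 = z.1 - s.1
    ring
  · show z.2 + s.1 * 0 + s.2 * -1 = z.2 - s.2
    ring

/-- **The window below the row of the box at the foot of the spoke.** -/
theorem winFb (H : DobN p S₀ b tp g δ n) (hR : ((R + 2 : ℕ) : ℝ) ≤ g / 16 * n)
    (hRd : ⌊δ * n⌋₊ + 3 ≤ R) :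
    ∃ w : WinD, w.Ok θ ((frD θ β p S₀ b tp ia ta).U (rowS θ) δ n)
        (EEr fun x : IxD l => rD θ β p b tp ia ta n ⌊δ * n⌋₊ x)
        ((frD θ β p S₀ b tp ia ta).ph (rowS θ) δ n 0) ∧
      w.σ = (if clT p ia then 1 else -1) ∧
      (∀ v, v.2 < -1 → v ∈ Bq (ftD p n) R → v ∈ w.D) ∧
      (∀ v, v ∈ Bq (ftD p n) (R - 1) → v ∈ w.V) ∧
      (∀ v ∈ (frD θ β p S₀ b tp ia ta).U (rowS θ) δ n, v ∈ Bq (ftD p n) (R - 1) → v ∈ w.C) ∧
      (∀ j, ¬ w.Z j) ∧ w.KR fun _ _ => False := by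
  have hR' : ((R : ℕ) : ℝ) ≤ g / 16 * n := by push_cast at hR; linarith
  have hmem := fun v hv => H.mem_F (θ := θ) (β := β) (ia := ia) (ta := ta) hR (v := v) hv
  have hft : (ftD p n).1 = n * (p (iT p)).1 := rfl
  have hft2 : (ftD p n).2 = 0 := rfl
  obtain ⟨w, w1, w2, w3, w4, w5, w6, -, w7⟩ := winR_ok (θ := θ)
    (a := (frD θ β p S₀ b tp ia ta).ph (rowS θ) δ n 0)
    (EE := EEr fun x : IxD l => rD θ β p b tp ia ta n ⌊δ * n⌋₊ x)
    (z := ((n : ℤ) * (p (iT p)).1, -1)) (R := R)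
    (K := (frD θ β p S₀ b tp ia ta).U (rowS θ) δ n) (c := ET θ β p ia - 3 * θ / 4) (e := 2)
    (X₀ := Set.univ) (x₀ := 0) (δ := 0)
    (σ := if clT p ia then 1 else -1) (by split_ifs <;> simp) (by omega)
    (fun v hv hv2 => by
      rw [Lq2] at hv hv2 ⊢
      obtain ⟨h1, h2, h3, h4⟩ := hv
      simp only at h1 h2 h3 h4 hv2 ⊢
      rw [hmem v (by rw [mem_bq', hft, hft2]; push_cast; omega)]
      constructor
      · rintro (h | h)
        · omega
        · omega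
      · intro h
        left
        omega)
    (fun v hv h => by
      rw [Lq2] at h
      obtain ⟨h1, h2, h3, h4⟩ := h
      simp only at h1 h2 h3 h4
      have h5 := (hmem v (by rw [mem_bq', hft, hft2]; push_cast; omega)).1 hv
      omega)
    (fun g hg _ => by
      rw [ph_D, phr_off (fun v => mem_U v) H.rsep hg, phr_off (fun v => mem_U v) H.rsep hg,
        add_zero])
    (fun x h1 h2 _ => by
      rw [Ls2]
      refine (H.rowQ_face (x := -x - 1) hR' (by omega) (by omega) false).cast' ?_ ?_ ?_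
        (by rw [sgT_cast]) Iff.rfl
      · rw [show (2 : ℤ) - 1 = 1 by norm_num, (sqL_e _ _).2.1]
        refine Prod.ext ?_ ?_
        · show (n : ℤ) * (p (iT p)).1 + (-x - 1) = (n : ℤ) * (p (iT p)).1 - x - 1
          ring
        · show (-1 : ℤ) = -1 - 0
          norm_num
      · rw [(sqL_e _ _).2.2.1]
        refine Prod.ext ?_ ?_
        · show (n : ℤ) * (p (iT p)).1 + (-x - 1) = (n : ℤ) * (p (iT p)).1 - x - 1
          ring
        · show -(if false = true then (0 : ℤ) else 2) = -1 - 0 - 1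
          norm_num
      · rw [ite_self]
        simp only [Bool.false_eq_true, if_false]
        push_cast
        ring)
    (Or.inl rfl)
  refine ⟨w, w1, w2, fun v hv hv2 => ?_, fun v hv => ?_, fun v hv hv2 => ?_,
    w6 (by norm_num), fun i j _ _ _ hs => ?_⟩
  on_goal 4 => rw [w7 rfl, w7 rfl] at hs; omega
  · rw [w3]
    have h1 := mem_bq'.1 hv2
    show Lq _ 2 v ∈ wRR R
    rw [Lq2]
    show _ ∧ _ ∧ _ ∧ _
    simp only
    rw [hft, hft2] at h1
    omega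
  · rw [w4]
    have h1 := mem_bq'.1 hv
    show Lq _ 2 v ∈ wFU R
    rw [Lq2]
    show _ ∧ _ ∧ _ ∧ _
    simp only
    rw [hft, hft2] at h1
    omega
  · rw [w5]
    have h1 := mem_bq'.1 hv2
    refine ⟨hv, ?_, Set.mem_univ _⟩
    show Lq _ 2 v ∈ wFU R
    rw [Lq2]
    show _ ∧ _ ∧ _ ∧ _
    simp only
    rw [hft, hft2] at h1
    omega

end foot

end DobN

end Vale.Agent.P167.N.ID
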