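import Vale.Agent.P167.N.ID.WinTab
import Vale.Agent.P167.H592.T.HoleF

/-!
# P167, `q < 1`, START: the windows of the holes with two rows

`HoleN`: near the point `z` the frozen squares are two rows of one colour, one row which ends at the
hole and one which starts there (direction `d`, kink `κ`), raw outward phases `c` on the near face,
`c - J` on the far face, the mean phase on the end side; `J = θ / 2` (`mA`, `mB` true) or
`J = - θ / 2`. `HoleN.inWin`: every loop in the box which meets the frozen squares lives in a window.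
-/

namespace Vale.Agent.P167.N.ID

open Finset
open Vale.Agent.P167.BR
open Vale.Agent.P167.FK
open Vale.Agent.P167.Top
open Vale.Agent.P167.H871
open Vale.Agent.P167.H871.Q
open Vale.Agent.P167.A (plane)
open Vale.Agent.P167.XDL (bS mem_bS)
open Vale.Agent.P167.H199 (strand ret Returns ah at')
open Vale.Agent.P167.Enl (Lq_box in_Wn)

/-- Change of the origin of the index and of the lift of the direction. -/
theorem Bd.shift {D : Set (ℤ × ℤ)} {n : ℕ} {P : ℕ → ℤ × ℤ} {u : ℕ → ℤ} {σ : ℤ}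
    (h : Bd D n P u σ) (m : ℕ) : Bd D n (fun k => P (k + m)) (fun k => u (k + m)) σ := by
  refine ⟨fun k => ?_, fun k => ?_, fun k => ?_, fun k => ?_, fun k l h1 h2 => ?_, fun k => ?_,
    fun k => ?_⟩
  · rw [show k + 1 + m = k + m + 1 by omega]
    exact h.step _
  · rw [show k + 1 + m = k + m + 1 by omega]
    exact h.turn _
  · rw [show k + n + m = k + m + n by omega]
    exact h.per _
  · rw [show k + n + m = k + m + n by omega]
    exact h.perP _
  · exact h.inj _ _ (by omega) (by omega)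
  · exact h.left _
  · exact h.right _

/-- The jump of the phase over a row: `θ / 2` or `- θ / 2`. -/
noncomputable def Jm (θ : ℝ) (m : Bool) : ℝ := if m then θ / 2 else -(θ / 2)

/-- The phase of a side of a row, relative to the near face; `y`: second coordinate of the outer
square (near face `0`, end side `-1`, far face `-2`). -/
noncomputable def hΦ (J : ℝ) (y : ℤ) : ℝ := if y = 0 then 0 else if y = -1 then -(J / 2) else -J

/-- The stagger constant of a side of a row. -/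
noncomputable def hσ (θ : ℝ) (y : ℤ) : ℝ := if y = -1 then (θ - Real.pi) / 4 else
  (3 * θ - Real.pi) / 4

/-- **A hole with two rows.** -/
structure HoleN (θ c : ℝ) (τ : ℤ) (z : ℤ × ℤ) (d κ : ℤ) (A B R : ℕ) (mA mB : Bool)
    (K : Finset (ℤ × ℤ)) (EE : Set Ed) (a : Ed → Bool → ℝ) : Prop where
  kap : κ = 0 ∨ κ = 1 ∨ κ = -1
  sg : τ = 1 ∨ τ = -1
  posA : 1 ≤ A
  posB : 1 ≤ B
  ltA : A < R
  ltB : B + 1 < R
  /-- the frozen squares are off the window -/
  kd : ∀ v ∈ K, v ∉ Wn z d κ A B R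
  /-- the squares of the box off the window are frozen -/
  kb : ∀ v ∈ Bq z R, v ∉ Wn z d κ A B R → v ∈ K
  mem : ∀ g ∈ bS K, (hdv g ∈ Wn z d κ A B R → tlv g ∈ rA z d A R ∨ tlv g ∈ rB z d κ B R) ∧
    (tlv g ∈ Wn z d κ A B R → hdv g ∈ rA z d A R ∨ hdv g ∈ rB z d κ B R)
  off : ∀ g, g ∉ bS K → hdv g ∈ Wn z d κ A B R → a g false + a g true = 0
  phA : ∀ g ∈ bS K, (hdv g ∈ Wn z d κ A B R → tlv g ∈ rA z d A R →
      ah plane a g = c + hΦ (Jm θ mA) (Lq z d (hdv g)).2 + τ * hσ θ (Lq z d (hdv g)).2 ∧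
        (g ∈ EE ↔ (Lq z d (hdv g)).2 = -1 ∧ mA = true)) ∧
    (tlv g ∈ Wn z d κ A B R → hdv g ∈ rA z d A R →
      at' plane a g = -(c + hΦ (Jm θ mA) (Lq z d (tlv g)).2) + τ * hσ θ (Lq z d (tlv g)).2 ∧
        (g ∈ EE ↔ (Lq z d (tlv g)).2 = -1 ∧ mA = true))
  phB : ∀ g ∈ bS K, (hdv g ∈ Wn z d κ A B R → tlv g ∈ rB z d κ B R →
      ah plane a g = c + κ * (θ / 4) + hΦ (Jm θ mB) (Lq z (κ + d) (hdv g)).2 +
          τ * hσ θ (Lq z (κ + d) (hdv g)).2 ∧
        (g ∈ EE ↔ (Lq z (κ + d) (hdv g)).2 = -1 ∧ mB = false)) ∧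
    (tlv g ∈ Wn z d κ A B R → hdv g ∈ rB z d κ B R →
      at' plane a g = -(c + κ * (θ / 4) + hΦ (Jm θ mB) (Lq z (κ + d) (tlv g)).2) +
          τ * hσ θ (Lq z (κ + d) (tlv g)).2 ∧
        (g ∈ EE ↔ (Lq z (κ + d) (tlv g)).2 = -1 ∧ mB = false))

/-- Good vertices: odd for closed squares, even for open squares. -/
def gdv (τ : ℤ) (v : ℤ × ℤ) : Prop :=
  (τ = 1 ∧ ¬ Even (v.1 + v.2)) ∨ (τ = -1 ∧ Even (v.1 + v.2))

section

variable {z : ℤ × ℤ} {d κ : ℤ} {A B R : ℕ} {P : ℕ → ℤ × ℤ} {U : ℕ → ℤ} {g : Ed} {τ : ℤ}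

theorem Ls_zero' (z : ℤ × ℤ) (d : ℤ) (s : ℤ × ℤ) : Ls z (0 + d) s = Ls z d s := by
  rw [zero_add]

/-- The parity of the end of a step. -/
theorem gdv_step {v : ℤ × ℤ} {u : ℤ} (hτ : τ = 1 ∨ τ = -1) (h : ¬ gdv τ (v + vec u)) :
    gdv τ v := by
  have h1 : Even ((v + vec u).1 + (v + vec u).2) ↔ ¬ Even (v.1 + v.2) := by
    unfold vec
    rcases head_cases u with ⟨a, b, c⟩ | ⟨a, b, c⟩ | ⟨a, b, c⟩ | ⟨a, b, c⟩ <;>
      rw [b, c] <;> simp only [Prod.fst_add, Prod.snd_add, Int.even_iff] <;> omega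
  unfold gdv at h ⊢
  rw [h1] at h
  rcases hτ with rfl | rfl
  · left
    refine ⟨rfl, ?_⟩
    tauto
  · right
    refine ⟨rfl, ?_⟩
    tauto

open Classical in
/-- The phases in units of `θ`. -/
noncomputable def sH (τ : ℤ) (z : ℤ × ℤ) (d κ : ℤ) (A B R : ℕ) (mA mB : Bool) (P : ℕ → ℤ × ℤ)
    (i : ℕ) : ℤ :=
  if i < A then 0
  else if i = A then (if mA = true then 0 else if gdv τ (Ls z d (P (A + 1))) then 0 else 1)
  else if i < 2 * A + 1 then (if mA = true then 0 else 1)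
  else if i < tB κ A R + B then (if mB = true then -1 else 0)
  else if i = tB κ A R + B then
    (if mB = true then (if gdv τ (Ls z d (P (tB κ A R + B + 1))) then -1 else 0) else 0)
  else 0

/-- The wall steps. -/
def WH (κ : ℤ) (A B R : ℕ) (i : ℕ) : Prop :=
  i < 2 * A + 1 ∨ (tB κ A R ≤ i ∧ i < tB κ A R + 2 * B + 1)

/-- The regular end sides. -/
def EH (κ : ℤ) (A B R : ℕ) (mA mB : Bool) (i : ℕ) : Prop :=
  (i = A ∧ mA = true) ∨ (i = tB κ A R + B ∧ mB = false)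

/-- The window of a hole. -/
noncomputable def wH (θ c : ℝ) (τ : ℤ) (z : ℤ × ℤ) (d κ : ℤ) (A B R : ℕ) (mA mB : Bool)
    (P : ℕ → ℤ × ℤ) (U : ℕ → ℤ) : WinD where
  σ := τ
  c := c - θ - θ / 4 * d
  D := Wn z d κ A B R
  V := Bq z R
  C := Set.univ
  n := 2 * A + 8 * R + 2 * B
  P := fun k => Ls z d (P (k + (2 * A + 8 * R + 2 * B - 1)))
  u := fun k => U (k + (2 * A + 8 * R + 2 * B - 1)) + d
  s := fun k => sH τ z d κ A B R mA mB P (k - 1)
  W := fun k => 1 ≤ k ∧ WH κ A B R (k - 1)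
  E := fun k => 1 ≤ k ∧ EH κ A B R mA mB (k - 1)
  Z := fun _ => False

theorem tB_bd (κ : ℤ) (A B R : ℕ) (hR : 2 ≤ R) :
    2 * A + 2 ≤ tB κ A R ∧ tB κ A R + 2 * B + 3 ≤ 2 * A + 8 * R + 2 * B := by
  unfold tB
  split_ifs <;> omega

theorem FtA_sqy (hW : WinI κ A B R P U) {i : ℕ} {f : ℤ} (h : FtA A P U z d g i f) :
    (Lq z d (sqL (Ls z d (P i)) (U i + d))).2 = -f := by
  rw [Lq_sqL]
  obtain ⟨-, h1, h2, h3⟩ := h
  rcases h2 with ⟨k1, rfl⟩ | ⟨rfl, rfl⟩ | ⟨k1, rfl⟩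
  · rw [(hW.aD i k1).1, (hW.aD i k1).2]
    rfl
  · rw [hW.aE.1, hW.aE.2]
    rfl
  · obtain ⟨k, rfl⟩ : ∃ k, i = A + 1 + k := ⟨i - (A + 1), by omega⟩
    rw [(hW.aF k (by omega)).1, (hW.aF k (by omega)).2]
    rfl

theorem FtB_sqy (hW : WinI κ A B R P U) {i : ℕ} {f : ℤ} (h : FtB A B R κ P U z d g i f) :
    (Lq z (κ + d) (sqL (Ls z d (P i)) (U i + d))).2 = -f := by
  obtain ⟨-, h1, h1', h2, h3⟩ := h
  rw [show U i + d = (U i - κ) + (κ + d) by ring]
  rcases h2 with ⟨k1, rfl⟩ | ⟨rfl, rfl⟩ | ⟨k1, rfl⟩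
  · obtain ⟨k, rfl⟩ : ∃ k, i = tB κ A R + k := ⟨i - tB κ A R, by omega⟩
    rw [(hW.bF k (by omega)).1, (hW.bF k (by omega)).2, Ls_Ls, Lq_sqL,
      show κ + 2 - κ = 2 by ring]
    rfl
  · rw [hW.bE.1, hW.bE.2, Ls_Ls, Lq_sqL, show κ + 1 - κ = 1 by ring]
    rfl
  · obtain ⟨k, rfl⟩ : ∃ k, i = tB κ A R + B + 1 + k := ⟨i - (tB κ A R + B + 1), by omega⟩
    rw [(hW.bD k (by omega)).1, (hW.bD k (by omega)).2, Ls_Ls, Lq_sqL,
      show κ - κ = 0 by ring]
    rfl

variable {θ c : ℝ} {mA mB : Bool} {K : Finset (ℤ × ℤ)} {EE : Set Ed} {a : Ed → Bool → ℝ}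

/-- The index of the shifted curve. -/
theorem wH_idx (hb : Bd (RW κ A B R) (2 * A + 8 * R + 2 * B) P U 1) (hR : 1 ≤ R) {k : ℕ}
    (hk : 1 ≤ k) : P (k + (2 * A + 8 * R + 2 * B - 1)) = P (k - 1) ∧
      U (k + (2 * A + 8 * R + 2 * B - 1)) = U (k - 1) + 4 := by
  have e : k + (2 * A + 8 * R + 2 * B - 1) = (k - 1) + (2 * A + 8 * R + 2 * B) := by omega
  rw [e, hb.perP, hb.per]
  exact ⟨rfl, by ring⟩

/-- The shifted curve. -/
theorem wH_bd (hb : Bd (RW κ A B R) (2 * A + 8 * R + 2 * B) P U 1) :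
    Bd (Wn z d κ A B R) (2 * A + 8 * R + 2 * B)
      (fun k => Ls z d (P (k + (2 * A + 8 * R + 2 * B - 1))))
      (fun k => U (k + (2 * A + 8 * R + 2 * B - 1)) + d) 1 :=
  Bd.frame (Bd.shift hb (2 * A + 8 * R + 2 * B - 1)) z d

/-- The turn of the curve at a corner of the box. -/
theorem nV_of {s : ℤ × ℤ} {t : ℤ} (h : sqL s t = (-(R : ℤ) - 1, -1)) :
    sqL (Ls z d s) (t + d) ∉ (Bq z R : Set (ℤ × ℤ)) := by
  intro h1
  have h2 := (Lq_box (u := d)).1 (mem_coe.1 h1)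
  rw [Lq_sqL, h] at h2
  have := h2.1
  simp only at this
  omega

theorem nV_of' {s : ℤ × ℤ} {t : ℤ} (h : sqL s t = ((R : ℤ), -1)) :
    sqL (Ls z d s) (t + d) ∉ (Bq z R : Set (ℤ × ℤ)) := by
  intro h1
  have h2 := (Lq_box (u := d)).1 (mem_coe.1 h1)
  rw [Lq_sqL, h] at h2
  have := h2.2.1
  simp only at this
  omega

/-! ### the values of the phases -/

theorem sH_near {i : ℕ} (h : i < A) : sH τ z d κ A B R mA mB P i = 0 := by
  unfold sH
  rw [if_pos h]

open Classical in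
theorem sH_end : sH τ z d κ A B R mA mB P A =
    if mA = true then 0 else if gdv τ (Ls z d (P (A + 1))) then 0 else 1 := by
  unfold sH
  rw [if_neg (lt_irrefl A), if_pos rfl]

theorem sH_far {i : ℕ} (h : A < i) (h' : i < 2 * A + 1) :
    sH τ z d κ A B R mA mB P i = if mA = true then 0 else 1 := by
  unfold sH
  rw [if_neg (by omega), if_neg (by omega), if_pos h']

theorem sH_farB (hR : 2 ≤ R) {i : ℕ} (h : tB κ A R ≤ i) (h' : i < tB κ A R + B) :
    sH τ z d κ A B R mA mB P i = if mB = true then -1 else 0 := by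
  have := (tB_bd κ A B R hR).1
  unfold sH
  rw [if_neg (by omega), if_neg (by omega), if_neg (by omega), if_pos h']

open Classical in
theorem sH_endB (hR : 2 ≤ R) : sH τ z d κ A B R mA mB P (tB κ A R + B) =
    if mB = true then (if gdv τ (Ls z d (P (tB κ A R + B + 1))) then -1 else 0) else 0 := by
  have := (tB_bd κ A B R hR).1
  unfold sH
  rw [if_neg (by omega), if_neg (by omega), if_neg (by omega), if_neg (lt_irrefl _), if_pos rfl]

theorem sH_nearB (hR : 2 ≤ R) {i : ℕ} (h : tB κ A R + B < i) :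
    sH τ z d κ A B R mA mB P i = 0 := by
  have := (tB_bd κ A B R hR).1
  unfold sH
  rw [if_neg (by omega), if_neg (by omega), if_neg (by omega), if_neg (by omega),
    if_neg (by omega)]

/-- The phases before the hole. -/
theorem sH_bdA {i : ℕ} (h : i < 2 * A + 1) :
    0 ≤ sH τ z d κ A B R mA mB P i ∧ sH τ z d κ A B R mA mB P i ≤ 1 ∧
      (mA = true → sH τ z d κ A B R mA mB P i = 0) := by
  classical
  rcases lt_trichotomy i A with h1 | rfl | h1
  · rw [sH_near h1]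
    exact ⟨le_rfl, by norm_num, fun _ => rfl⟩
  · rw [sH_end]
    split_ifs <;> simp_all
  · rw [sH_far h1 h]
    split_ifs <;> simp_all

/-- The phases after the hole. -/
theorem sH_bdB (hR : 2 ≤ R) {i : ℕ} (h : tB κ A R ≤ i) :
    -1 ≤ sH τ z d κ A B R mA mB P i ∧ sH τ z d κ A B R mA mB P i ≤ 0 ∧
      (mB = false → sH τ z d κ A B R mA mB P i = 0) := by
  classical
  rcases lt_trichotomy i (tB κ A R + B) with h1 | rfl | h1
  · rw [sH_farB hR h h1]
    split_ifs <;> simp_all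
  · rw [sH_endB hR]
    split_ifs <;> simp_all
  · rw [sH_nearB hR h1]
    exact ⟨by norm_num, le_rfl, fun _ => rfl⟩

theorem eeA_in (h : g ∈ EE) : eeA θ EE g = -(θ / 2) := by
  unfold eeA
  rw [if_pos h]

theorem eeA_out (h : g ∉ EE) : eeA θ EE g = 0 := by
  unfold eeA
  rw [if_neg h]

theorem gdv_odd (hτ : τ = 1 ∨ τ = -1) {v : ℤ × ℤ} (hv : Odd (v.1 + v.2)) : gdv τ v ↔ τ = 1 := by
  have h1 : ¬ Even (v.1 + v.2) := Int.not_even_iff_odd.2 hv
  unfold gdv
  rcases hτ with rfl | rfl <;> simp [h1]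

theorem gdv_even (hτ : τ = 1 ∨ τ = -1) {v : ℤ × ℤ} (hv : Even (v.1 + v.2)) :
    gdv τ v ↔ τ = -1 := by
  unfold gdv
  rcases hτ with rfl | rfl <;> simp [hv]

variable (h : HoleN θ c τ z d κ A B R mA mB K EE a)
  (hb : Bd (RW κ A B R) (2 * A + 8 * R + 2 * B) P U 1) (hW : WinI κ A B R P U)

include h hb hW

theorem HoleN.outA (he : g ∈ bS K) (h1 : hdv g ∈ Wn z d κ A B R) (h2 : tlv g ∈ rA z d A R) :
    ∃ i, i < 2 * A + 1 ∧ (g ∈ EE → i = A ∧ mA = true) ∧ P4 g = M4 (Ls z d (P i)) (U i + d) ∧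
      ah plane a g = c + θ / 4 * ((U i + 4 * sH τ z d κ A B R mA mB P i : ℤ) : ℝ) +
        τ * ((3 * θ - Real.pi) / 4 + eeA θ EE g) := by
  classical
  obtain ⟨s, t, hg, hl, hr⟩ := exists_side g
  obtain ⟨i, f, hi⟩ := foot_A h.kap hW (z := z) (d := d) hg (by rw [← hl]; exact h1)
    (by rw [← hr]; exact h2)
  obtain ⟨c1, c2, -, c4, -⟩ := cross_in (Bd.frame hb z d) (j := i) hi.at_ h1
  have hy : (Lq z d (hdv g)).2 = -f := by rw [c4]; exact FtA_sqy hW hi
  obtain ⟨p1, p2⟩ := (h.phA g he).1 h1 h2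
  rw [hy] at p1 p2
  obtain ⟨i1, i2, i3, i4⟩ := hi
  refine ⟨i, i2, fun hE => ?_, i1, ?_⟩
  · obtain ⟨q1, q2⟩ := p2.1 hE
    exact ⟨by omega, q2⟩
  rcases i3 with ⟨k1, rfl⟩ | ⟨rfl, rfl⟩ | ⟨k1, rfl⟩
  · rw [p1, sH_near k1, i4, eeA_out fun hE => by have := (p2.1 hE).1; omega]
    unfold hΦ hσ
    norm_num
  · have hev := FK.even_ls g
    have hod := FK.odd_rs g
    rw [c1] at hev
    rw [c2] at hod
    rw [p1, sH_end, i4, if_congr (gdv_odd h.sg hod) rfl rfl]
    unfold hΦ hσ Jm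
    cases hm : mA
    · rw [eeA_out fun hE => by have := (p2.1 hE).2; rw [hm] at this; exact absurd this (by decide)]
      rcases h.sg with rfl | rfl <;> norm_num <;> ring
    · rw [eeA_in (p2.2 ⟨rfl, hm⟩)]
      norm_num
      ring
  · rw [p1, sH_far k1 i2, i4, eeA_out fun hE => by have := (p2.1 hE).1; omega]
    unfold hΦ hσ Jm
    cases hm : mA <;> norm_num <;> ring

theorem HoleN.innA (he : g ∈ bS K) (h1 : tlv g ∈ Wn z d κ A B R) (h2 : hdv g ∈ rA z d A R) :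
    ∃ i, i < 2 * A + 1 ∧ (g ∈ EE → i = A ∧ mA = true) ∧ P4 g = M4 (Ls z d (P i)) (U i + d) ∧
      at' plane a g = -(c + θ / 4 * ((U i + 4 * sH τ z d κ A B R mA mB P i : ℤ) : ℝ)) +
        τ * ((3 * θ - Real.pi) / 4 + eeA θ EE g) := by
  classical
  obtain ⟨s, t, hg, hl, hr⟩ := exists_side' g
  obtain ⟨i, f, hi⟩ := foot_A h.kap hW (z := z) (d := d) hg (by rw [← hl]; exact h1)
    (by rw [← hr]; exact h2)
  obtain ⟨c1, c2, -, -, c4⟩ := cross_out (Bd.frame hb z d) (j := i) hi.at_ (rA_not h.kap h2)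
  have hy : (Lq z d (tlv g)).2 = -f := by rw [c4]; exact FtA_sqy hW hi
  obtain ⟨p1, p2⟩ := (h.phA g he).2 h1 h2
  rw [hy] at p1 p2
  obtain ⟨i1, i2, i3, i4⟩ := hi
  refine ⟨i, i2, fun hE => ?_, i1, ?_⟩
  · obtain ⟨q1, q2⟩ := p2.1 hE
    exact ⟨by omega, q2⟩
  rcases i3 with ⟨k1, rfl⟩ | ⟨rfl, rfl⟩ | ⟨k1, rfl⟩
  · rw [p1, sH_near k1, i4, eeA_out fun hE => by have := (p2.1 hE).1; omega]
    unfold hΦ hσ
    norm_num
  · have hev := FK.even_ls g
    rw [c1] at hev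
    rw [p1, sH_end, i4, if_congr (gdv_even h.sg hev) rfl rfl]
    unfold hΦ hσ Jm
    cases hm : mA
    · rw [eeA_out fun hE => by have := (p2.1 hE).2; rw [hm] at this; exact absurd this (by decide)]
      rcases h.sg with rfl | rfl <;> norm_num <;> ring
    · rw [eeA_in (p2.2 ⟨rfl, hm⟩)]
      norm_num
      ring
  · rw [p1, sH_far k1 i2, i4, eeA_out fun hE => by have := (p2.1 hE).1; omega]
    unfold hΦ hσ Jm
    cases hm : mA <;> norm_num <;> ring

theorem HoleN.outB (he : g ∈ bS K) (h1 : hdv g ∈ Wn z d κ A B R) (h2 : tlv g ∈ rB z d κ B R) :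
    ∃ i, (tB κ A R ≤ i ∧ i < tB κ A R + 2 * B + 1) ∧
      (g ∈ EE → i = tB κ A R + B ∧ mB = false) ∧ P4 g = M4 (Ls z d (P i)) (U i + d) ∧
      ah plane a g = c + θ / 4 * ((U i + 4 * sH τ z d κ A B R mA mB P i : ℤ) : ℝ) +
        τ * ((3 * θ - Real.pi) / 4 + eeA θ EE g) := by
  classical
  have hR : 2 ≤ R := by have := h.ltB; omega
  obtain ⟨s, t, hg, hl, hr⟩ := exists_side g
  obtain ⟨i, f, hi⟩ := foot_B h.kap hW (z := z) (d := d) hg (by rw [← hl]; exact h1)
    (by rw [← hr]; exact h2)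
  obtain ⟨c1, c2, -, c4, -⟩ := cross_in (Bd.frame hb z d) (j := i) hi.at_ h1
  have hy : (Lq z (κ + d) (hdv g)).2 = -f := by rw [c4]; exact FtB_sqy hW hi
  obtain ⟨p1, p2⟩ := (h.phB g he).1 h1 h2
  rw [hy] at p1 p2
  obtain ⟨i1, i2, i2', i3, i4⟩ := hi
  refine ⟨i, ⟨i2, i2'⟩, fun hE => ?_, i1, ?_⟩
  · obtain ⟨q1, q2⟩ := p2.1 hE
    exact ⟨by omega, q2⟩
  rcases i3 with ⟨k1, rfl⟩ | ⟨rfl, rfl⟩ | ⟨k1, rfl⟩
  · rw [p1, sH_farB hR i2 k1, i4, eeA_out fun hE => by have := (p2.1 hE).1; omega]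
    unfold hΦ hσ Jm
    cases hm : mB <;> push_cast <;> norm_num <;> ring
  · have hod := FK.odd_rs g
    rw [c2] at hod
    rw [p1, sH_endB hR, i4, if_congr (gdv_odd h.sg hod) rfl rfl]
    unfold hΦ hσ Jm
    cases hm : mB
    · rw [eeA_in (p2.2 ⟨rfl, hm⟩)]
      push_cast
      norm_num
      ring
    · rw [eeA_out fun hE => by have := (p2.1 hE).2; rw [hm] at this; exact absurd this (by decide)]
      rcases h.sg with rfl | rfl <;> push_cast <;> norm_num <;> ring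
  · rw [p1, sH_nearB hR k1, i4, eeA_out fun hE => by have := (p2.1 hE).1; omega]
    unfold hΦ hσ
    push_cast
    norm_num
    ring

theorem HoleN.innB (he : g ∈ bS K) (h1 : tlv g ∈ Wn z d κ A B R) (h2 : hdv g ∈ rB z d κ B R) :
    ∃ i, (tB κ A R ≤ i ∧ i < tB κ A R + 2 * B + 1) ∧
      (g ∈ EE → i = tB κ A R + B ∧ mB = false) ∧ P4 g = M4 (Ls z d (P i)) (U i + d) ∧
      at' plane a g = -(c + θ / 4 * ((U i + 4 * sH τ z d κ A B R mA mB P i : ℤ) : ℝ)) +
        τ * ((3 * θ - Real.pi) / 4 + eeA θ EE g) := by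
  classical
  have hR : 2 ≤ R := by have := h.ltB; omega
  obtain ⟨s, t, hg, hl, hr⟩ := exists_side' g
  obtain ⟨i, f, hi⟩ := foot_B h.kap hW (z := z) (d := d) hg (by rw [← hl]; exact h1)
    (by rw [← hr]; exact h2)
  obtain ⟨c1, c2, -, -, c4⟩ := cross_out (Bd.frame hb z d) (j := i) hi.at_ (rB_not h.kap h2)
  have hy : (Lq z (κ + d) (tlv g)).2 = -f := by rw [c4]; exact FtB_sqy hW hi
  obtain ⟨p1, p2⟩ := (h.phB g he).2 h1 h2
  rw [hy] at p1 p2
  obtain ⟨i1, i2, i2', i3, i4⟩ := hi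
  refine ⟨i, ⟨i2, i2'⟩, fun hE => ?_, i1, ?_⟩
  · obtain ⟨q1, q2⟩ := p2.1 hE
    exact ⟨by omega, q2⟩
  rcases i3 with ⟨k1, rfl⟩ | ⟨rfl, rfl⟩ | ⟨k1, rfl⟩
  · rw [p1, sH_farB hR i2 k1, i4, eeA_out fun hE => by have := (p2.1 hE).1; omega]
    unfold hΦ hσ Jm
    cases hm : mB <;> push_cast <;> norm_num <;> ring
  · have hev := FK.even_ls g
    rw [c1] at hev
    rw [p1, sH_endB hR, i4, if_congr (gdv_even h.sg hev) rfl rfl]
    unfold hΦ hσ Jm
    cases hm : mB
    · rw [eeA_in (p2.2 ⟨rfl, hm⟩)]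
      push_cast
      norm_num
      ring
    · rw [eeA_out fun hE => by have := (p2.1 hE).2; rw [hm] at this; exact absurd this (by decide)]
      rcases h.sg with rfl | rfl <;> push_cast <;> norm_num <;> ring
  · rw [p1, sH_nearB hR k1, i4, eeA_out fun hE => by have := (p2.1 hE).1; omega]
    unfold hΦ hσ
    push_cast
    norm_num
    ring

/-- **The window of a hole with two rows.** -/
theorem HoleN.ok : (wH θ c τ z d κ A B R mA mB P U).Ok θ K EE a := by
  classical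
  have hR : 2 ≤ R := by have := h.ltB; omega
  obtain ⟨tb1, tb2⟩ := tB_bd κ A B R hR
  have hbd := wH_bd (z := z) (d := d) hb
  have hsg := h.sg
  have hix : ∀ {i : ℕ}, P (i + 1 + (2 * A + 8 * R + 2 * B - 1)) = P i ∧
      U (i + 1 + (2 * A + 8 * R + 2 * B - 1)) = U i + 4 := fun {i} => by
    have := wH_idx hb (by omega) (k := i + 1) (by omega)
    rw [show i + 1 - 1 = i by omega] at this
    exact this
  refine ⟨h.sg, hbd, h.kd, fun g' _ h2 h3 => h.kb _ (mem_coe.1 h2) h3, fun g he h1 _ => ?_,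
    fun g he h1 _ => ?_, h.off, fun i hi => ?_, fun j hj => ?_, fun j hj => ?_,
    fun j h1 h2 => ?_, fun i j h1 h2 h3 => ?_⟩
  · -- exits
    have key : ∃ i, WH κ A B R i ∧ (g ∈ EE → EH κ A B R mA mB i) ∧
        P4 g = M4 (Ls z d (P i)) (U i + d) ∧
        ah plane a g = c + θ / 4 * ((U i + 4 * sH τ z d κ A B R mA mB P i : ℤ) : ℝ) +
          τ * ((3 * θ - Real.pi) / 4 + eeA θ EE g) := by
      rcases (h.mem g he).1 h1 with h2 | h2
      · obtain ⟨i, k1, k2, k3, k4⟩ := h.outA hb hW he h1 h2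
        exact ⟨i, Or.inl k1, fun hE => Or.inl (k2 hE), k3, k4⟩
      · obtain ⟨i, k1, k2, k3, k4⟩ := h.outB hb hW he h1 h2
        exact ⟨i, Or.inr k1, fun hE => Or.inr (k2 hE), k3, k4⟩
    obtain ⟨i, k1, k2, k3, k4⟩ := key
    refine ⟨i + 1, ⟨by omega, k1⟩, fun hE => ⟨by omega, k2 hE⟩, ?_, ?_⟩
    · show P4 g = M4 (Ls z d (P (i + 1 + (2 * A + 8 * R + 2 * B - 1))))
        (U (i + 1 + (2 * A + 8 * R + 2 * B - 1)) + d)
      rw [hix.1, hix.2, k3]
      exact M4_congr (by omega)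
    · show ah plane a g = c - θ - θ / 4 * d + θ / 4 *
        ((U (i + 1 + (2 * A + 8 * R + 2 * B - 1)) + d + 4 * sH τ z d κ A B R mA mB P i : ℤ) : ℝ) +
          τ * ((3 * θ - Real.pi) / 4 + eeA θ EE g)
      rw [hix.2, k4]
      push_cast
      ring
  · -- entries
    have key : ∃ i, WH κ A B R i ∧ (g ∈ EE → EH κ A B R mA mB i) ∧
        P4 g = M4 (Ls z d (P i)) (U i + d) ∧
        at' plane a g = -(c + θ / 4 * ((U i + 4 * sH τ z d κ A B R mA mB P i : ℤ) : ℝ)) +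
          τ * ((3 * θ - Real.pi) / 4 + eeA θ EE g) := by
      rcases (h.mem g he).2 h1 with h2 | h2
      · obtain ⟨i, k1, k2, k3, k4⟩ := h.innA hb hW he h1 h2
        exact ⟨i, Or.inl k1, fun hE => Or.inl (k2 hE), k3, k4⟩
      · obtain ⟨i, k1, k2, k3, k4⟩ := h.innB hb hW he h1 h2
        exact ⟨i, Or.inr k1, fun hE => Or.inr (k2 hE), k3, k4⟩
    obtain ⟨i, k1, k2, k3, k4⟩ := key
    refine ⟨i + 1, ⟨by omega, k1⟩, fun hE => ⟨by omega, k2 hE⟩, ?_, ?_⟩
    · show P4 g = M4 (Ls z d (P (i + 1 + (2 * A + 8 * R + 2 * B - 1))))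
        (U (i + 1 + (2 * A + 8 * R + 2 * B - 1)) + d)
      rw [hix.1, hix.2, k3]
      exact M4_congr (by omega)
    · show at' plane a g = -(c - θ - θ / 4 * d + θ / 4 *
        ((U (i + 1 + (2 * A + 8 * R + 2 * B - 1)) + d + 4 * sH τ z d κ A B R mA mB P i : ℤ) : ℝ)) +
          τ * ((3 * θ - Real.pi) / 4 + eeA θ EE g)
      rw [hix.2, k4]
      push_cast
      ring
  · obtain ⟨k1, k2 | k2⟩ := hi
    · exact ⟨k1, by change i + 1 < 2 * A + 8 * R + 2 * B; omega⟩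
    · exact ⟨k1, by change i + 1 < 2 * A + 8 * R + 2 * B; omega⟩
  · exact h.kb _ (mem_coe.1 hj) (hbd.right j)
  · -- corners
    by_contra hcon
    rw [not_or, not_le, not_not] at hcon
    obtain ⟨q1, q2⟩ := hcon
    have ht := hbd.turn j
    rw [abs_le] at ht
    change U (j + (2 * A + 8 * R + 2 * B - 1)) + d < U (j + 1 + (2 * A + 8 * R + 2 * B - 1)) + d
      at q1
    change sqL (Ls z d (P (j + 1 + (2 * A + 8 * R + 2 * B - 1))))
      (U (j + (2 * A + 8 * R + 2 * B - 1)) + d - 1) ∈ (Bq z R : Set (ℤ × ℤ)) at q2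
    change -1 ≤ U (j + 1 + (2 * A + 8 * R + 2 * B - 1)) + d -
      (U (j + (2 * A + 8 * R + 2 * B - 1)) + d) ∧
      U (j + 1 + (2 * A + 8 * R + 2 * B - 1)) + d -
      (U (j + (2 * A + 8 * R + 2 * B - 1)) + d) ≤ 1 at ht
    rw [hix.1] at q2
    rw [hix.2] at q1 ht
    rw [show U (j + (2 * A + 8 * R + 2 * B - 1)) + d - 1 = (U j + 2) + d by omega] at q2
    have hj' : (1 ≤ j ∧ WH κ A B R (j - 1)) ∨ WH κ A B R j := by
      rcases hj with ⟨h1, h2⟩ | ⟨-, h2⟩
      · exact Or.inl ⟨h1, h2⟩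
      · right
        rwa [show j + 1 - 1 = j by omega] at h2
    have hprev : 1 ≤ j → U j = U (j - 1) + 1 := fun h1 => by
      have := (wH_idx hb (by omega) h1).2
      rw [this] at q1 ht
      omega
    -- the possible places
    have hcase : j = 0 ∨ (1 ≤ j ∧ j < A) ∨ (1 ≤ j ∧ j = A) ∨ (A < j ∧ j < 2 * A + 1) ∨
        j = 2 * A + 1 ∨ j = tB κ A R ∨ (tB κ A R < j ∧ j < tB κ A R + B) ∨
        j = tB κ A R + B ∨ (tB κ A R + B < j ∧ j < tB κ A R + 2 * B + 1) ∨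
        j = tB κ A R + 2 * B + 1 := by
      rcases hj' with ⟨h1, h2 | h2⟩ | h2 | h2 <;> omega
    have pA := h.posA
    have pB := h.posB
    rcases hcase with rfl | ⟨h1, h2⟩ | ⟨h1, h2⟩ | ⟨h1, h2⟩ | h1 | h1 | ⟨h1, h2⟩ | h1 | ⟨h1, h2⟩ | h1
    · rw [(hW.aD 0 pA).1, (hW.aD 0 pA).2] at q2
      exact nV_of (s := (-(R : ℤ) + (0 : ℕ), 0)) (t := 0 + 2)
        (by norm_num [sqL]; ring) q2
    · have := hprev h1
      rw [(hW.aD j h2).2, (hW.aD (j - 1) (by omega)).2] at this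
      omega
    · have := hprev h1
      rw [h2, hW.aE.2, (hW.aD (A - 1) (by omega)).2] at this
      omega
    · have := hprev (by omega)
      obtain ⟨k, rfl⟩ : ∃ k, j = A + 1 + k := ⟨j - (A + 1), by omega⟩
      rw [(hW.aF k (by omega)).2] at this
      rcases Nat.eq_zero_or_pos k with rfl | hk
      · rw [show A + 1 + 0 - 1 = A by omega, hW.aE.2] at this
        omega
      · rw [show A + 1 + k - 1 = A + 1 + (k - 1) by omega, (hW.aF (k - 1) (by omega)).2] at this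
        omega
    · subst h1
      have e1 := hprev (by omega)
      have e2 := hW.aF (A - 1) (by omega)
      rw [show A + 1 + (A - 1) = 2 * A by omega] at e2
      rw [show 2 * A + 1 - 1 = 2 * A by omega] at e1
      have e3 : P (2 * A + 1) = (-(R : ℤ), -1) := by
        rw [hb.step (2 * A), e2.1, e2.2]
        show (-(R : ℤ) + A - (A - 1 : ℕ) + -1, (-1 : ℤ) + 0) = _
        rw [Nat.cast_sub (by omega)]
        ext
        · push_cast
          ring
        · simp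
      rw [e3, e1, e2.2] at q2
      exact nV_of (s := (-(R : ℤ), -1)) (t := -2 + 1 + 2)
        (by norm_num [sqL]; ring) q2
    · subst h1
      have e1 := hW.bF 0 (by omega)
      rw [add_zero] at e1
      rw [e1.1, e1.2, Ls_Ls, show κ + 2 + 2 + d = 4 + (κ + d) by ring] at q2
      exact nV_of' (s := ((R : ℤ) - (0 : ℕ), -1)) (t := 4) (by norm_num [sqL]) q2
    · have := hprev (by omega)
      obtain ⟨k, rfl⟩ : ∃ k, j = tB κ A R + k := ⟨j - tB κ A R, by omega⟩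
      rw [(hW.bF k (by omega)).2, show tB κ A R + k - 1 = tB κ A R + (k - 1) by omega,
        (hW.bF (k - 1) (by omega)).2] at this
      omega
    · have := hprev (by omega)
      rw [h1, hW.bE.2, show tB κ A R + B - 1 = tB κ A R + (B - 1) by omega,
        (hW.bF (B - 1) (by omega)).2] at this
      omega
    · have := hprev (by omega)
      obtain ⟨k, rfl⟩ : ∃ k, j = tB κ A R + B + 1 + k := ⟨j - (tB κ A R + B + 1), by omega⟩
      rw [(hW.bD k (by omega)).2] at this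
      rcases Nat.eq_zero_or_pos k with rfl | hk
      · rw [show tB κ A R + B + 1 + 0 - 1 = tB κ A R + B by omega, hW.bE.2] at this
        omega
      · rw [show tB κ A R + B + 1 + k - 1 = tB κ A R + B + 1 + (k - 1) by omega,
          (hW.bD (k - 1) (by omega)).2] at this
        omega
    · subst h1
      have e1 := hprev (by omega)
      have e2 := hW.bD (B - 1) (by omega)
      rw [show tB κ A R + B + 1 + (B - 1) = tB κ A R + 2 * B by omega] at e2
      rw [show tB κ A R + 2 * B + 1 - 1 = tB κ A R + 2 * B by omega] at e1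
      have e3 : P (tB κ A R + 2 * B + 1) = Ls 0 κ ((R : ℤ), 0) := by
        rw [hb.step (tB κ A R + 2 * B), e2.1, e2.2, show vec κ = vec (0 + κ) by rw [zero_add],
          ← Ls_vec]
        congr 1
        show ((R : ℤ) - B + (B - 1 : ℕ) + 1, (0 : ℤ) + 0) = _
        rw [Nat.cast_sub (by omega)]
        ext
        · push_cast
          ring
        · simp
      rw [e3, e1, e2.2, Ls_Ls, show κ + 1 + 2 + d = 3 + (κ + d) by ring] at q2
      exact nV_of' (s := ((R : ℤ), 0)) (t := 3) (by norm_num [sqL]) q2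
  · -- the jumps
    have key : ∀ i, WH κ A B R i → WH κ A B R (i + 1) →
        sH τ z d κ A B R mA mB P (i + 1) = sH τ z d κ A B R mA mB P i ∨
          gdv τ (Ls z d (P (i + 1))) := by
      intro i k1 k2
      have hst : ¬ gdv τ (Ls z d (P (i + 2))) → gdv τ (Ls z d (P (i + 1))) := fun hh => by
        have e := (Bd.frame hb z d).step (i + 1)
        change Ls z d (P (i + 2)) = Ls z d (P (i + 1)) + _ at e
        rw [e] at hh
        exact gdv_step h.sg hh
      have hc : i + 1 < A ∨ i + 1 = A ∨ i = A ∨ (A < i ∧ i + 1 < 2 * A + 1) ∨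
          (tB κ A R ≤ i ∧ i + 1 < tB κ A R + B) ∨ i + 1 = tB κ A R + B ∨ i = tB κ A R + B ∨
          (tB κ A R + B < i) := by
        rcases k1 with k1 | k1 <;> rcases k2 with k2 | k2 <;> omega
      have pA := h.posA
      have pB := h.posB
      rcases hc with c1 | c1 | c1 | ⟨c1, c2⟩ | ⟨c1, c2⟩ | c1 | c1 | c1
      · left
        rw [sH_near c1, sH_near (by omega)]
      · have e1 : sH τ z d κ A B R mA mB P (i + 1) =
            if mA = true then 0 else if gdv τ (Ls z d (P (i + 2))) then 0 else 1 := by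
          rw [show i + 2 = A + 1 by omega, c1]
          exact sH_end
        by_cases hg : gdv τ (Ls z d (P (i + 2)))
        · left
          rw [e1, sH_near (by omega), if_pos hg, ite_self]
        · exact Or.inr (hst hg)
      · subst c1
        by_cases hg : gdv τ (Ls z d (P (i + 1)))
        · exact Or.inr hg
        · left
          rw [sH_far (by omega) (by omega), sH_end, if_neg hg]
      · left
        rw [sH_far (by omega) c2, sH_far c1 (by omega)]
      · left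
        rw [sH_farB hR (by omega) c2, sH_farB hR c1 (by omega)]
      · have e1 : sH τ z d κ A B R mA mB P (i + 1) =
            if mB = true then (if gdv τ (Ls z d (P (i + 2))) then -1 else 0) else 0 := by
          rw [show i + 2 = tB κ A R + B + 1 by omega, c1]
          exact sH_endB hR
        by_cases hg : gdv τ (Ls z d (P (i + 2)))
        · left
          rw [e1, sH_farB hR (by omega) (by omega), if_pos hg]
        · exact Or.inr (hst hg)
      · subst c1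
        by_cases hg : gdv τ (Ls z d (P (tB κ A R + B + 1)))
        · exact Or.inr hg
        · left
          rw [sH_nearB hR (by omega), sH_endB hR, if_neg hg, ite_self]
      · left
        rw [sH_nearB hR (by omega), sH_nearB hR c1]
    obtain ⟨g1, g2⟩ := h1
    have g3 := h2.2
    rw [show j + 1 - 1 = (j - 1) + 1 by omega] at g3
    show sH τ z d κ A B R mA mB P (j + 1 - 1) = sH τ z d κ A B R mA mB P (j - 1) ∨
      (τ = 1 ∧ ¬ Even ((Ls z d (P (j + 1 + (2 * A + 8 * R + 2 * B - 1)))).1 +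
        (Ls z d (P (j + 1 + (2 * A + 8 * R + 2 * B - 1)))).2)) ∨
      (τ = -1 ∧ Even ((Ls z d (P (j + 1 + (2 * A + 8 * R + 2 * B - 1)))).1 +
        (Ls z d (P (j + 1 + (2 * A + 8 * R + 2 * B - 1)))).2)) ∨
      (False ∧ _)
    rw [hix.1]
    rcases key _ g2 g3 with g4 | g4
    · left
      rw [show j + 1 - 1 = (j - 1) + 1 by omega, g4]
    · right
      rw [show j - 1 + 1 = j by omega] at g4
      rcases g4 with g4 | g4
      · exact Or.inl g4
      · exact Or.inr (Or.inl g4)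
  · -- the pairs
    obtain ⟨g1, g2⟩ := h1
    obtain ⟨g3, g4⟩ := h2
    show -1 ≤ sH τ z d κ A B R mA mB P (i - 1) - sH τ z d κ A B R mA mB P (j - 1) ∧
      sH τ z d κ A B R mA mB P (i - 1) - sH τ z d κ A B R mA mB P (j - 1) ≤ 2 ∧
      (((1 ≤ i ∧ EH κ A B R mA mB (i - 1)) ∨ (1 ≤ j ∧ EH κ A B R mA mB (j - 1))) →
        0 ≤ sH τ z d κ A B R mA mB P (i - 1) - sH τ z d κ A B R mA mB P (j - 1) ∧
        sH τ z d κ A B R mA mB P (i - 1) - sH τ z d κ A B R mA mB P (j - 1) ≤ 1)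
    unfold EH
    rcases g2 with g2 | g2 <;> rcases g4 with g4 | g4
    · obtain ⟨a1, a2, a3⟩ := sH_bdA (τ := τ) (z := z) (d := d) (κ := κ) (B := B) (R := R)
        (mA := mA) (mB := mB) (P := P) g2
      obtain ⟨b1, b2, b3⟩ := sH_bdA (τ := τ) (z := z) (d := d) (κ := κ) (B := B) (R := R)
        (mA := mA) (mB := mB) (P := P) g4
      refine ⟨by omega, by omega, fun hE => ?_⟩
      have hmA : mA = true := by
        rcases hE with ⟨-, ⟨-, h'⟩ | ⟨h', -⟩⟩ | ⟨-, ⟨-, h'⟩ | ⟨h', -⟩⟩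
        · exact h'
        · omega
        · exact h'
        · omega
      rw [a3 hmA, b3 hmA]
      norm_num
    · obtain ⟨a1, a2, a3⟩ := sH_bdA (τ := τ) (z := z) (d := d) (κ := κ) (B := B) (R := R)
        (mA := mA) (mB := mB) (P := P) g2
      obtain ⟨b1, b2, b3⟩ := sH_bdB (τ := τ) (z := z) (d := d) (mA := mA) (mB := mB) (P := P)
        (B := B) hR g4.1
      refine ⟨by omega, by omega, fun hE => ?_⟩
      have hm : mA = true ∨ mB = false := by
        rcases hE with ⟨-, ⟨-, h'⟩ | ⟨h', -⟩⟩ | ⟨-, ⟨-, h'⟩ | ⟨-, h'⟩⟩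
        · exact Or.inl h'
        · omega
        · exact Or.inl h'
        · exact Or.inr h'
      rcases hm with hm | hm
      · have := a3 hm
        omega
      · have := b3 hm
        omega
    · omega
    · obtain ⟨a1, a2, a3⟩ := sH_bdB (τ := τ) (z := z) (d := d) (mA := mA) (mB := mB) (P := P)
        (B := B) hR g2.1
      obtain ⟨b1, b2, b3⟩ := sH_bdB (τ := τ) (z := z) (d := d) (mA := mA) (mB := mB) (P := P)
        (B := B) hR g4.1
      refine ⟨by omega, by omega, fun hE => ?_⟩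
      have hm : mB = false := by
        rcases hE with ⟨-, ⟨h', -⟩ | ⟨-, h'⟩⟩ | ⟨-, ⟨h', -⟩ | ⟨-, h'⟩⟩
        · omega
        · exact h'
        · omega
        · exact h'
      rw [a3 hm, b3 hm]
      norm_num

omit hb hW in
/-- **The loops at a hole with two rows live in a window.** -/
theorem HoleN.inWin {ω : Cfg} {ℓ : Finset Ed} (hl : IsLoop ω ℓ)
    (hV : ∀ y ∈ ℓ, hdv y ∈ Bq z R) (hc : ∀ v ∈ K, v ∈ Bq z R → ω v = decide (τ = -1))
    (hm : ∃ e ∈ bS K, e ∈ ℓ) : InWin0 θ K EE a ω ℓ := by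
  obtain ⟨P, U, hb, hW⟩ := exists_win h.kap h.posA h.posB h.ltA h.ltB
  refine ⟨wH θ c τ z d κ A B R mA mB P U, h.ok hb hW, ⟨hl, fun y hy => mem_coe.2 (hV y hy),
    fun y hy hK => ⟨trivial, hc _ hK (hV y hy)⟩, hm, ?_⟩, fun _ => id⟩
  obtain ⟨e, he, hel⟩ := hm
  rcases mem_bS.1 he with ⟨h1, h2⟩ | ⟨h1, h2⟩
  · -- the tail is in the window
    have hxi : e ∈ ℓ.image (nx ω) := by rw [hl.image]; exact hel
    obtain ⟨y, hy, rfl⟩ := mem_image.1 hxi
    refine ⟨y, hy, ?_⟩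
    rw [tlv_nx] at h2
    by_contra h3
    exact h2 (h.kb _ (hV y hy) h3)
  · refine ⟨e, hel, ?_⟩
    by_contra h3
    exact h1 (h.kb _ (hV e hel) h3)

end

end Vale.Agent.P167.N.ID
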