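import Vale.Agent.P167.H871.Q.WinC

/-!
# P167, `q < 1`: the window at one face of a row

The boundary curve of the window: position and direction of the step `k` (`wRV`).
-/

set_option autoImplicit false

namespace Vale.Agent.P167.N.ID

open Finset
open Vale.Agent.P167.Top
open Vale.Agent.P167.H871
open Vale.Agent.P167.H871.Q

/-- The boundary curve: position `(x, y)` and direction `u` at the step `k`. -/
def wRV (R k : ℕ) (x y u : ℤ) : Prop :=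
  (0 ≤ k ∧ k < 2 * R + 2 ∧ x = k - R - 1 ∧ y = 0 ∧ u = 0) ∨
  (2 * R + 2 ≤ k ∧ k < 3 * R + 3 ∧ x = R + 1 ∧ y = k - 2 * R - 2 ∧ u = 1) ∨
  (3 * R + 3 ≤ k ∧ k < 5 * R + 5 ∧ x = 4 * R + 4 - k ∧ y = R + 1 ∧ u = 2) ∨
  (5 * R + 5 ≤ k ∧ k < 6 * R + 6 ∧ x = -R - 1 ∧ y = 6 * R + 6 - k ∧ u = 3)

/-- The region. -/
def wRR (R : ℕ) : Set (ℤ × ℤ) := {v | -(R : ℤ) - 1 ≤ v.1 ∧ v.1 < R + 1 ∧ 0 ≤ v.2 ∧ v.2 < R + 1}

variable {R : ℕ}

theorem wR_ex (hR : 1 ≤ R) {k : ℕ} (hk : k < 6 * R + 6) :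
    ∃ t : ℤ × ℤ × ℤ, wRV R k t.1 t.2.1 t.2.2 := by
  rcases (by omega : (0 ≤ k ∧ k < 2 * R + 2) ∨ (2 * R + 2 ≤ k ∧ k < 3 * R + 3) ∨ (3 * R + 3 ≤ k ∧ k < 5 * R + 5) ∨ (5 * R + 5 ≤ k ∧ k < 6 * R + 6)) with
    h | h | h | h
  · exact ⟨(k - R - 1, 0, 0), Or.inl ⟨h.1, h.2, rfl, rfl, rfl⟩⟩
  · exact ⟨(R + 1, k - 2 * R - 2, 1), Or.inr (Or.inl ⟨h.1, h.2, rfl, rfl, rfl⟩)⟩
  · exact ⟨(4 * R + 4 - k, R + 1, 2), Or.inr (Or.inr (Or.inl ⟨h.1, h.2, rfl, rfl, rfl⟩))⟩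
  · exact ⟨(-R - 1, 6 * R + 6 - k, 3), Or.inr (Or.inr (Or.inr (⟨h.1, h.2, rfl, rfl, rfl⟩)))⟩

theorem wR_inj (hR : 1 ≤ R) {k l : ℕ} (h1 : k < l) {x y u u' : ℤ}
    (hk : wRV R k x y u) (hl : wRV R l x y u') : False := by
  unfold wRV at hk hl
  rcases hk with hk | hk | hk | hk <;>
    rcases hl with hl | hl | hl | hl <;> omega

theorem wR_uniq (hR : 1 ≤ R) {k : ℕ} {x y u x' y' u' : ℤ}
    (hk : wRV R k x y u) (hl : wRV R k x' y' u') : x = x' ∧ y = y' ∧ u = u' := by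
  unfold wRV at hk hl
  rcases hk with hk | hk | hk | hk <;>
    rcases hl with hl | hl | hl | hl <;>
    first | (exfalso; omega) | omega

theorem wR_nxt (hR : 1 ≤ R) {k : ℕ} {x y u : ℤ}
    (hk : wRV R k x y u) (hn : k + 1 < 6 * R + 6) :
    ∃ u', wRV R (k + 1) (x + (vec u).1) (y + (vec u).2) u' ∧ |u' - u| ≤ 1 := by
  have e0 : vec 0 = (1, 0) := rfl
  have e1 : vec 1 = (0, 1) := rfl
  have e2 : vec 2 = (-1, 0) := rfl
  have e3 : vec 3 = (0, -1) := rfl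
  have e4 : vec (-1) = (0, -1) := rfl
  have e5 : vec (-2) = (-1, 0) := rfl
  rcases hk with ⟨h1, h2, rfl, rfl, rfl⟩ | ⟨h1, h2, rfl, rfl, rfl⟩ | ⟨h1, h2, rfl, rfl, rfl⟩ | ⟨h1, h2, rfl, rfl, rfl⟩
  · rw [e0]
    by_cases h : k + 1 < 2 * R + 2
    · exact ⟨0, Or.inl ⟨by omega, h, by omega, by omega, rfl⟩, by norm_num⟩
    · exact ⟨1, Or.inr (Or.inl ⟨by omega, by omega, by omega, by omega, rfl⟩), by norm_num⟩
  · rw [e1]
    by_cases h : k + 1 < 3 * R + 3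
    · exact ⟨1, Or.inr (Or.inl ⟨by omega, h, by omega, by omega, rfl⟩), by norm_num⟩
    · exact ⟨2, Or.inr (Or.inr (Or.inl ⟨by omega, by omega, by omega, by omega, rfl⟩)), by norm_num⟩
  · rw [e2]
    by_cases h : k + 1 < 5 * R + 5
    · exact ⟨2, Or.inr (Or.inr (Or.inl ⟨by omega, h, by omega, by omega, rfl⟩)), by norm_num⟩
    · exact ⟨3, Or.inr (Or.inr (Or.inr (⟨by omega, by omega, by omega, by omega, rfl⟩))), by norm_num⟩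
  · rw [e3]
    exact ⟨3, Or.inr (Or.inr (Or.inr (⟨by omega, hn, by omega, by omega, rfl⟩))), by norm_num⟩

theorem wR_left (hR : 1 ≤ R) {k : ℕ} {x y u : ℤ}
    (hk : wRV R k x y u) :
    sqL (x, y) u ∈ wRR R ∧ sqL (x, y) (u - 1) ∉ wRR R := by
  rcases hk with ⟨h1, h2, rfl, rfl, rfl⟩ | ⟨h1, h2, rfl, rfl, rfl⟩ | ⟨h1, h2, rfl, rfl, rfl⟩ | ⟨h1, h2, rfl, rfl, rfl⟩ <;>
    (unfold sqL wRR; simp only [Set.mem_ofPred_eq]; norm_num; omega)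

/-- **The boundary curve.** -/
theorem wR_bd (hR : 1 ≤ R) :
    ∃ P U, Bd (wRR R) (6 * R + 6) P U 1 ∧
      ∀ k < 6 * R + 6, wRV R k (P k).1 (P k).2 (U k) := by
  exact bd_of (V := wRV R) (n := 6 * R + 6) (D := wRR R)
    (x0 := -R - 1) (y0 := 0) (by omega) (Or.inl ⟨le_rfl, by omega, by simp, by simp, rfl⟩)
    (fun k hk => wR_ex hR hk) (fun h h' => wR_uniq hR h h')
    (fun h h' => wR_nxt hR h h')
    (Or.inr (Or.inr (Or.inr (⟨by omega, by omega, by omega, by omega, rfl⟩))))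
    (fun h _ _ _ _ h1 h2 => wR_inj hR h h1 h2) (fun h => wR_left hR h)

end Vale.Agent.P167.N.ID
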