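import Vale.Agent.P167.H871.Q.WinC

/-!
# P167, `q < 1`: the window of the hole with three rows (left side going up, bottom side going right, spoke going down)

The boundary curve of the window: position and direction of the step `k` (`wTV`).
-/

set_option autoImplicit false

namespace Vale.Agent.P167.N.ID

open Finset
open Vale.Agent.P167.Top
open Vale.Agent.P167.H871
open Vale.Agent.P167.H871.Q

/-- The boundary curve: position `(x, y)` and direction `u` at the step `k`. -/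
def wTV (A B S R k : ℕ) (x y u : ℤ) : Prop :=
  (0 ≤ k ∧ k < R ∧ x = k - R ∧ y = -R ∧ u = 0) ∨
  (R ≤ k ∧ k < R + S ∧ x = 0 ∧ y = k - 2 * R ∧ u = 1) ∨
  (R + S ≤ k ∧ k < R + S + 1 ∧ x = k - R - S ∧ y = S - R ∧ u = 0) ∨
  (R + S + 1 ≤ k ∧ k < R + 2 * S + 1 ∧ x = 1 ∧ y = 2 * S + 1 - k ∧ u = -1) ∨
  (R + 2 * S + 1 ≤ k ∧ k < 2 * R + 2 * S ∧ x = k - R - 2 * S ∧ y = -R ∧ u = 0) ∨
  (2 * R + 2 * S ≤ k ∧ k < 3 * R + 2 * S - 1 ∧ x = R ∧ y = k - 3 * R - 2 * S ∧ u = 1) ∨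
  (3 * R + 2 * S - 1 ≤ k ∧ k < 3 * R + 2 * S + B - 1 ∧ x = 4 * R + 2 * S - 1 - k ∧ y = -1 ∧ u = 2) ∨
  (3 * R + 2 * S + B - 1 ≤ k ∧ k < 3 * R + 2 * S + B ∧ x = R - B ∧ y = k - 3 * R - 2 * S - B ∧ u = 1) ∨
  (3 * R + 2 * S + B ≤ k ∧ k < 3 * R + 2 * S + 2 * B ∧ x = k - 2 * R - 2 * B - 2 * S ∧ y = 0 ∧ u = 0) ∨
  (3 * R + 2 * S + 2 * B ≤ k ∧ k < 4 * R + 2 * S + 2 * B ∧ x = R ∧ y = k - 3 * R - 2 * S - 2 * B ∧ u = 1) ∨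
  (4 * R + 2 * S + 2 * B ≤ k ∧ k < 5 * R + 2 * S + 2 * B ∧ x = 5 * R + 2 * S + 2 * B - k ∧ y = R ∧ u = 2) ∨
  (5 * R + 2 * S + 2 * B ≤ k ∧ k < 5 * R + 2 * S + 2 * B + A ∧ x = 0 ∧ y = 6 * R + 2 * S + 2 * B - k ∧ u = 3) ∨
  (5 * R + 2 * S + 2 * B + A ≤ k ∧ k < 5 * R + 2 * S + 2 * B + A + 1 ∧ x = 5 * R + 2 * S + 2 * B + A - k ∧ y = R - A ∧ u = 2) ∨
  (5 * R + 2 * S + 2 * B + A + 1 ≤ k ∧ k < 5 * R + 2 * S + 2 * B + 2 * A + 1 ∧ x = -1 ∧ y = k - 4 * R - 2 * A - 2 * S - 2 * B - 1 ∧ u = 1) ∨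
  (5 * R + 2 * S + 2 * B + 2 * A + 1 ≤ k ∧ k < 6 * R + 2 * S + 2 * B + 2 * A ∧ x = 5 * R + 2 * S + 2 * B + 2 * A - k ∧ y = R ∧ u = 2) ∨
  (6 * R + 2 * S + 2 * B + 2 * A ≤ k ∧ k < 8 * R + 2 * S + 2 * B + 2 * A ∧ x = -R ∧ y = 7 * R + 2 * S + 2 * B + 2 * A - k ∧ u = 3)

/-- The region. -/
def wTR (A B S R : ℕ) : Set (ℤ × ℤ) := {v | -(R : ℤ) ≤ v.1 ∧ v.1 < R ∧ -(R : ℤ) ≤ v.2 ∧ v.2 < R ∧
  ¬ (v.1 = -1 ∧ R - A ≤ v.2) ∧ ¬ (v.2 = -1 ∧ R - B ≤ v.1) ∧ ¬ (v.1 = 0 ∧ v.2 < -R + S)}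

variable {A B S R : ℕ}

theorem wT_ex (hA : 1 ≤ A) (hB : 1 ≤ B) (hS : 1 ≤ S) (hAR : A < R) (hBR : B + 1 < R) (hSR : S < R) {k : ℕ} (hk : k < 8 * R + 2 * S + 2 * B + 2 * A) :
    ∃ t : ℤ × ℤ × ℤ, wTV A B S R k t.1 t.2.1 t.2.2 := by
  rcases (by omega : (0 ≤ k ∧ k < R) ∨ (R ≤ k ∧ k < R + S) ∨ (R + S ≤ k ∧ k < R + S + 1) ∨ (R + S + 1 ≤ k ∧ k < R + 2 * S + 1) ∨ (R + 2 * S + 1 ≤ k ∧ k < 2 * R + 2 * S) ∨ (2 * R + 2 * S ≤ k ∧ k < 3 * R + 2 * S - 1) ∨ (3 * R + 2 * S - 1 ≤ k ∧ k < 3 * R + 2 * S + B - 1) ∨ (3 * R + 2 * S + B - 1 ≤ k ∧ k < 3 * R + 2 * S + B) ∨ (3 * R + 2 * S + B ≤ k ∧ k < 3 * R + 2 * S + 2 * B) ∨ (3 * R + 2 * S + 2 * B ≤ k ∧ k < 4 * R + 2 * S + 2 * B) ∨ (4 * R + 2 * S + 2 * B ≤ k ∧ k < 5 * R + 2 * S + 2 * B) ∨ (5 * R + 2 * S + 2 * B ≤ k ∧ k < 5 * R + 2 * S + 2 * B + A) ∨ (5 * R + 2 * S + 2 * B + A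 ≤ k ∧ k < 5 * R + 2 * S + 2 * B + A + 1) ∨ (5 * R + 2 * S + 2 * B + A + 1 ≤ k ∧ k < 5 * R + 2 * S + 2 * B + 2 * A + 1) ∨ (5 * R + 2 * S + 2 * B + 2 * A + 1 ≤ k ∧ k < 6 * R + 2 * S + 2 * B + 2 * A) ∨ (6 * R + 2 * S + 2 * B + 2 * A ≤ k ∧ k < 8 * R + 2 * S + 2 * B + 2 * A)) with
    h | h | h | h | h | h | h | h | h | h | h | h | h | h | h | h
  · exact ⟨(k - R, -R, 0), Or.inl ⟨h.1, h.2, rfl, rfl, rfl⟩⟩
  · exact ⟨(0, k - 2 * R, 1), Or.inr (Or.inl ⟨h.1, h.2, rfl, rfl, rfl⟩)⟩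
  · exact ⟨(k - R - S, S - R, 0), Or.inr (Or.inr (Or.inl ⟨h.1, h.2, rfl, rfl, rfl⟩))⟩
  · exact ⟨(1, 2 * S + 1 - k, -1), Or.inr (Or.inr (Or.inr (Or.inl ⟨h.1, h.2, rfl, rfl, rfl⟩)))⟩
  · exact ⟨(k - R - 2 * S, -R, 0), Or.inr (Or.inr (Or.inr (Or.inr (Or.inl ⟨h.1, h.2, rfl, rfl, rfl⟩))))⟩
  · exact ⟨(R, k - 3 * R - 2 * S, 1), Or.inr (Or.inr (Or.inr (Or.inr (Or.inr (Or.inl ⟨h.1, h.2, rfl, rfl, rfl⟩)))))⟩
  · exact ⟨(4 * R + 2 * S - 1 - k, -1, 2), Or.inr (Or.inr (Or.inr (Or.inr (Or.inr (Or.inr (Or.inl ⟨h.1, h.2, rfl, rfl, rfl⟩))))))⟩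
  · exact ⟨(R - B, k - 3 * R - 2 * S - B, 1), Or.inr (Or.inr (Or.inr (Or.inr (Or.inr (Or.inr (Or.inr (Or.inl ⟨h.1, h.2, rfl, rfl, rfl⟩)))))))⟩
  · exact ⟨(k - 2 * R - 2 * B - 2 * S, 0, 0), Or.inr (Or.inr (Or.inr (Or.inr (Or.inr (Or.inr (Or.inr (Or.inr (Or.inl ⟨h.1, h.2, rfl, rfl, rfl⟩))))))))⟩
  · exact ⟨(R, k - 3 * R - 2 * S - 2 * B, 1), Or.inr (Or.inr (Or.inr (Or.inr (Or.inr (Or.inr (Or.inr (Or.inr (Or.inr (Or.inl ⟨h.1, h.2, rfl, rfl, rfl⟩)))))))))⟩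
  · exact ⟨(5 * R + 2 * S + 2 * B - k, R, 2), Or.inr (Or.inr (Or.inr (Or.inr (Or.inr (Or.inr (Or.inr (Or.inr (Or.inr (Or.inr (Or.inl ⟨h.1, h.2, rfl, rfl, rfl⟩))))))))))⟩
  · exact ⟨(0, 6 * R + 2 * S + 2 * B - k, 3), Or.inr (Or.inr (Or.inr (Or.inr (Or.inr (Or.inr (Or.inr (Or.inr (Or.inr (Or.inr (Or.inr (Or.inl ⟨h.1, h.2, rfl, rfl, rfl⟩)))))))))))⟩
  · exact ⟨(5 * R + 2 * S + 2 * B + A - k, R - A, 2), Or.inr (Or.inr (Or.inr (Or.inr (Or.inr (Or.inr (Or.inr (Or.inr (Or.inr (Or.inr (Or.inr (Or.inr (Or.inl ⟨h.1, h.2, rfl, rfl, rfl⟩))))))))))))⟩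
  · exact ⟨(-1, k - 4 * R - 2 * A - 2 * S - 2 * B - 1, 1), Or.inr (Or.inr (Or.inr (Or.inr (Or.inr (Or.inr (Or.inr (Or.inr (Or.inr (Or.inr (Or.inr (Or.inr (Or.inr (Or.inl ⟨h.1, h.2, rfl, rfl, rfl⟩)))))))))))))⟩
  · exact ⟨(5 * R + 2 * S + 2 * B + 2 * A - k, R, 2), Or.inr (Or.inr (Or.inr (Or.inr (Or.inr (Or.inr (Or.inr (Or.inr (Or.inr (Or.inr (Or.inr (Or.inr (Or.inr (Or.inr (Or.inl ⟨h.1, h.2, rfl, rfl, rfl⟩))))))))))))))⟩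
  · exact ⟨(-R, 7 * R + 2 * S + 2 * B + 2 * A - k, 3), Or.inr (Or.inr (Or.inr (Or.inr (Or.inr (Or.inr (Or.inr (Or.inr (Or.inr (Or.inr (Or.inr (Or.inr (Or.inr (Or.inr (Or.inr (⟨h.1, h.2, rfl, rfl, rfl⟩)))))))))))))))⟩

theorem wT_inj (hA : 1 ≤ A) (hB : 1 ≤ B) (hS : 1 ≤ S) (hAR : A < R) (hBR : B + 1 < R) (hSR : S < R) {k l : ℕ} (h1 : k < l) {x y u u' : ℤ}
    (hk : wTV A B S R k x y u) (hl : wTV A B S R l x y u') : False := by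
  unfold wTV at hk hl
  rcases hk with hk | hk | hk | hk | hk | hk | hk | hk | hk | hk | hk | hk | hk | hk | hk | hk <;>
    rcases hl with hl | hl | hl | hl | hl | hl | hl | hl | hl | hl | hl | hl | hl | hl | hl | hl <;> omega

theorem wT_uniq (hA : 1 ≤ A) (hB : 1 ≤ B) (hS : 1 ≤ S) (hAR : A < R) (hBR : B + 1 < R) (hSR : S < R) {k : ℕ} {x y u x' y' u' : ℤ}
    (hk : wTV A B S R k x y u) (hl : wTV A B S R k x' y' u') : x = x' ∧ y = y' ∧ u = u' := by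
  unfold wTV at hk hl
  rcases hk with hk | hk | hk | hk | hk | hk | hk | hk | hk | hk | hk | hk | hk | hk | hk | hk <;>
    rcases hl with hl | hl | hl | hl | hl | hl | hl | hl | hl | hl | hl | hl | hl | hl | hl | hl <;>
    first | (exfalso; omega) | omega

theorem wT_nxt (hA : 1 ≤ A) (hB : 1 ≤ B) (hS : 1 ≤ S) (hAR : A < R) (hBR : B + 1 < R) (hSR : S < R) {k : ℕ} {x y u : ℤ}
    (hk : wTV A B S R k x y u) (hn : k + 1 < 8 * R + 2 * S + 2 * B + 2 * A) :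
    ∃ u', wTV A B S R (k + 1) (x + (vec u).1) (y + (vec u).2) u' ∧ |u' - u| ≤ 1 := by
  have e0 : vec 0 = (1, 0) := rfl
  have e1 : vec 1 = (0, 1) := rfl
  have e2 : vec 2 = (-1, 0) := rfl
  have e3 : vec 3 = (0, -1) := rfl
  have e4 : vec (-1) = (0, -1) := rfl
  have e5 : vec (-2) = (-1, 0) := rfl
  rcases hk with ⟨h1, h2, rfl, rfl, rfl⟩ | ⟨h1, h2, rfl, rfl, rfl⟩ | ⟨h1, h2, rfl, rfl, rfl⟩ | ⟨h1, h2, rfl, rfl, rfl⟩ | ⟨h1, h2, rfl, rfl, rfl⟩ | ⟨h1, h2, rfl, rfl, rfl⟩ | ⟨h1, h2, rfl, rfl, rfl⟩ | ⟨h1, h2, rfl, rfl, rfl⟩ | ⟨h1, h2, rfl, rfl, rfl⟩ | ⟨h1, h2, rfl, rfl, rfl⟩ | ⟨h1, h2, rfl, rfl, rfl⟩ | ⟨h1, h2, rfl, rfl, rfl⟩ | ⟨h1, h2, rfl, rfl, rfl⟩ | ⟨h1, h2, rfl, rfl, rfl⟩ | ⟨h1, h2, rfl, rfl, rfl⟩ | ⟨h1, h2, rfl, rfl, rfl⟩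
  · rw [e0]
    by_cases h : k + 1 < R
    · exact ⟨0, Or.inl ⟨by omega, h, by omega, by omega, rfl⟩, by norm_num⟩
    · exact ⟨1, Or.inr (Or.inl ⟨by omega, by omega, by omega, by omega, rfl⟩), by norm_num⟩
  · rw [e1]
    by_cases h : k + 1 < R + S
    · exact ⟨1, Or.inr (Or.inl ⟨by omega, h, by omega, by omega, rfl⟩), by norm_num⟩
    · exact ⟨0, Or.inr (Or.inr (Or.inl ⟨by omega, by omega, by omega, by omega, rfl⟩)), by norm_num⟩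
  · rw [e0]
    by_cases h : k + 1 < R + S + 1
    · exact ⟨0, Or.inr (Or.inr (Or.inl ⟨by omega, h, by omega, by omega, rfl⟩)), by norm_num⟩
    · exact ⟨-1, Or.inr (Or.inr (Or.inr (Or.inl ⟨by omega, by omega, by omega, by omega, rfl⟩))), by norm_num⟩
  · rw [e4]
    by_cases h : k + 1 < R + 2 * S + 1
    · exact ⟨-1, Or.inr (Or.inr (Or.inr (Or.inl ⟨by omega, h, by omega, by omega, rfl⟩))), by norm_num⟩
    · exact ⟨0, Or.inr (Or.inr (Or.inr (Or.inr (Or.inl ⟨by omega, by omega, by omega, by omega, rfl⟩)))), by norm_num⟩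
  · rw [e0]
    by_cases h : k + 1 < 2 * R + 2 * S
    · exact ⟨0, Or.inr (Or.inr (Or.inr (Or.inr (Or.inl ⟨by omega, h, by omega, by omega, rfl⟩)))), by norm_num⟩
    · exact ⟨1, Or.inr (Or.inr (Or.inr (Or.inr (Or.inr (Or.inl ⟨by omega, by omega, by omega, by omega, rfl⟩))))), by norm_num⟩
  · rw [e1]
    by_cases h : k + 1 < 3 * R + 2 * S - 1
    · exact ⟨1, Or.inr (Or.inr (Or.inr (Or.inr (Or.inr (Or.inl ⟨by omega, h, by omega, by omega, rfl⟩))))), by norm_num⟩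
    · exact ⟨2, Or.inr (Or.inr (Or.inr (Or.inr (Or.inr (Or.inr (Or.inl ⟨by omega, by omega, by omega, by omega, rfl⟩)))))), by norm_num⟩
  · rw [e2]
    by_cases h : k + 1 < 3 * R + 2 * S + B - 1
    · exact ⟨2, Or.inr (Or.inr (Or.inr (Or.inr (Or.inr (Or.inr (Or.inl ⟨by omega, h, by omega, by omega, rfl⟩)))))), by norm_num⟩
    · exact ⟨1, Or.inr (Or.inr (Or.inr (Or.inr (Or.inr (Or.inr (Or.inr (Or.inl ⟨by omega, by omega, by omega, by omega, rfl⟩))))))), by norm_num⟩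
  · rw [e1]
    by_cases h : k + 1 < 3 * R + 2 * S + B
    · exact ⟨1, Or.inr (Or.inr (Or.inr (Or.inr (Or.inr (Or.inr (Or.inr (Or.inl ⟨by omega, h, by omega, by omega, rfl⟩))))))), by norm_num⟩
    · exact ⟨0, Or.inr (Or.inr (Or.inr (Or.inr (Or.inr (Or.inr (Or.inr (Or.inr (Or.inl ⟨by omega, by omega, by omega, by omega, rfl⟩)))))))), by norm_num⟩
  · rw [e0]
    by_cases h : k + 1 < 3 * R + 2 * S + 2 * B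
    · exact ⟨0, Or.inr (Or.inr (Or.inr (Or.inr (Or.inr (Or.inr (Or.inr (Or.inr (Or.inl ⟨by omega, h, by omega, by omega, rfl⟩)))))))), by norm_num⟩
    · exact ⟨1, Or.inr (Or.inr (Or.inr (Or.inr (Or.inr (Or.inr (Or.inr (Or.inr (Or.inr (Or.inl ⟨by omega, by omega, by omega, by omega, rfl⟩))))))))), by norm_num⟩
  · rw [e1]
    by_cases h : k + 1 < 4 * R + 2 * S + 2 * B
    · exact ⟨1, Or.inr (Or.inr (Or.inr (Or.inr (Or.inr (Or.inr (Or.inr (Or.inr (Or.inr (Or.inl ⟨by omega, h, by omega, by omega, rfl⟩))))))))), by norm_num⟩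
    · exact ⟨2, Or.inr (Or.inr (Or.inr (Or.inr (Or.inr (Or.inr (Or.inr (Or.inr (Or.inr (Or.inr (Or.inl ⟨by omega, by omega, by omega, by omega, rfl⟩)))))))))), by norm_num⟩
  · rw [e2]
    by_cases h : k + 1 < 5 * R + 2 * S + 2 * B
    · exact ⟨2, Or.inr (Or.inr (Or.inr (Or.inr (Or.inr (Or.inr (Or.inr (Or.inr (Or.inr (Or.inr (Or.inl ⟨by omega, h, by omega, by omega, rfl⟩)))))))))), by norm_num⟩
    · exact ⟨3, Or.inr (Or.inr (Or.inr (Or.inr (Or.inr (Or.inr (Or.inr (Or.inr (Or.inr (Or.inr (Or.inr (Or.inl ⟨by omega, by omega, by omega, by omega, rfl⟩))))))))))), by norm_num⟩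
  · rw [e3]
    by_cases h : k + 1 < 5 * R + 2 * S + 2 * B + A
    · exact ⟨3, Or.inr (Or.inr (Or.inr (Or.inr (Or.inr (Or.inr (Or.inr (Or.inr (Or.inr (Or.inr (Or.inr (Or.inl ⟨by omega, h, by omega, by omega, rfl⟩))))))))))), by norm_num⟩
    · exact ⟨2, Or.inr (Or.inr (Or.inr (Or.inr (Or.inr (Or.inr (Or.inr (Or.inr (Or.inr (Or.inr (Or.inr (Or.inr (Or.inl ⟨by omega, by omega, by omega, by omega, rfl⟩)))))))))))), by norm_num⟩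
  · rw [e2]
    by_cases h : k + 1 < 5 * R + 2 * S + 2 * B + A + 1
    · exact ⟨2, Or.inr (Or.inr (Or.inr (Or.inr (Or.inr (Or.inr (Or.inr (Or.inr (Or.inr (Or.inr (Or.inr (Or.inr (Or.inl ⟨by omega, h, by omega, by omega, rfl⟩)))))))))))), by norm_num⟩
    · exact ⟨1, Or.inr (Or.inr (Or.inr (Or.inr (Or.inr (Or.inr (Or.inr (Or.inr (Or.inr (Or.inr (Or.inr (Or.inr (Or.inr (Or.inl ⟨by omega, by omega, by omega, by omega, rfl⟩))))))))))))), by norm_num⟩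
  · rw [e1]
    by_cases h : k + 1 < 5 * R + 2 * S + 2 * B + 2 * A + 1
    · exact ⟨1, Or.inr (Or.inr (Or.inr (Or.inr (Or.inr (Or.inr (Or.inr (Or.inr (Or.inr (Or.inr (Or.inr (Or.inr (Or.inr (Or.inl ⟨by omega, h, by omega, by omega, rfl⟩))))))))))))), by norm_num⟩
    · exact ⟨2, Or.inr (Or.inr (Or.inr (Or.inr (Or.inr (Or.inr (Or.inr (Or.inr (Or.inr (Or.inr (Or.inr (Or.inr (Or.inr (Or.inr (Or.inl ⟨by omega, by omega, by omega, by omega, rfl⟩)))))))))))))), by norm_num⟩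
  · rw [e2]
    by_cases h : k + 1 < 6 * R + 2 * S + 2 * B + 2 * A
    · exact ⟨2, Or.inr (Or.inr (Or.inr (Or.inr (Or.inr (Or.inr (Or.inr (Or.inr (Or.inr (Or.inr (Or.inr (Or.inr (Or.inr (Or.inr (Or.inl ⟨by omega, h, by omega, by omega, rfl⟩)))))))))))))), by norm_num⟩
    · exact ⟨3, Or.inr (Or.inr (Or.inr (Or.inr (Or.inr (Or.inr (Or.inr (Or.inr (Or.inr (Or.inr (Or.inr (Or.inr (Or.inr (Or.inr (Or.inr (⟨by omega, by omega, by omega, by omega, rfl⟩))))))))))))))), by norm_num⟩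
  · rw [e3]
    exact ⟨3, Or.inr (Or.inr (Or.inr (Or.inr (Or.inr (Or.inr (Or.inr (Or.inr (Or.inr (Or.inr (Or.inr (Or.inr (Or.inr (Or.inr (Or.inr (⟨by omega, hn, by omega, by omega, rfl⟩))))))))))))))), by norm_num⟩

theorem wT_left (hA : 1 ≤ A) (hB : 1 ≤ B) (hS : 1 ≤ S) (hAR : A < R) (hBR : B + 1 < R) (hSR : S < R) {k : ℕ} {x y u : ℤ}
    (hk : wTV A B S R k x y u) :
    sqL (x, y) u ∈ wTR A B S R ∧ sqL (x, y) (u - 1) ∉ wTR A B S R := by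
  rcases hk with ⟨h1, h2, rfl, rfl, rfl⟩ | ⟨h1, h2, rfl, rfl, rfl⟩ | ⟨h1, h2, rfl, rfl, rfl⟩ | ⟨h1, h2, rfl, rfl, rfl⟩ | ⟨h1, h2, rfl, rfl, rfl⟩ | ⟨h1, h2, rfl, rfl, rfl⟩ | ⟨h1, h2, rfl, rfl, rfl⟩ | ⟨h1, h2, rfl, rfl, rfl⟩ | ⟨h1, h2, rfl, rfl, rfl⟩ | ⟨h1, h2, rfl, rfl, rfl⟩ | ⟨h1, h2, rfl, rfl, rfl⟩ | ⟨h1, h2, rfl, rfl, rfl⟩ | ⟨h1, h2, rfl, rfl, rfl⟩ | ⟨h1, h2, rfl, rfl, rfl⟩ | ⟨h1, h2, rfl, rfl, rfl⟩ | ⟨h1, h2, rfl, rfl, rfl⟩ <;>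
    (unfold sqL wTR; simp only [Set.mem_ofPred_eq]; norm_num; omega)

/-- **The boundary curve.** -/
theorem wT_bd (hA : 1 ≤ A) (hB : 1 ≤ B) (hS : 1 ≤ S) (hAR : A < R) (hBR : B + 1 < R) (hSR : S < R) :
    ∃ P U, Bd (wTR A B S R) (8 * R + 2 * S + 2 * B + 2 * A) P U 1 ∧
      ∀ k < 8 * R + 2 * S + 2 * B + 2 * A, wTV A B S R k (P k).1 (P k).2 (U k) := by
  exact bd_of (V := wTV A B S R) (n := 8 * R + 2 * S + 2 * B + 2 * A) (D := wTR A B S R)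
    (x0 := -R) (y0 := -R) (by omega) (Or.inl ⟨le_rfl, by omega, by simp, by simp, rfl⟩)
    (fun k hk => wT_ex hA hB hS hAR hBR hSR hk) (fun h h' => wT_uniq hA hB hS hAR hBR hSR h h')
    (fun h h' => wT_nxt hA hB hS hAR hBR hSR h h')
    (Or.inr (Or.inr (Or.inr (Or.inr (Or.inr (Or.inr (Or.inr (Or.inr (Or.inr (Or.inr (Or.inr (Or.inr (Or.inr (Or.inr (Or.inr (⟨by omega, by omega, by omega, by omega, rfl⟩))))))))))))))))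
    (fun h _ _ _ _ h1 h2 => wT_inj hA hB hS hAR hBR hSR h h1 h2) (fun h => wT_left hA hB hS hAR hBR hSR h)

end Vale.Agent.P167.N.ID
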