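import Vale.Agent.P167.N.ID.WinBld
import Vale.Agent.P167.N.ID.WinTB
import Vale.Agent.P167.N.ID.WinFB
import Vale.Agent.P167.N.ID.WinRB

/-!
# P167, `q < 1`, START: the three local windows

`lwinT`: the hole with three rows; `lwinF`: the foot of the spoke; `lwinR`: one face of a row.
-/

set_option autoImplicit false

namespace Vale.Agent.P167.N.ID

open Finset
open Vale.Agent.P167.Top
open Vale.Agent.P167.H871
open Vale.Agent.P167.H871.Q

theorem LWin.mk' {D V Q : Set (ℤ × ℤ)} {n : ℕ} {P : ℕ → ℤ × ℤ} {U : ℕ → ℤ}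
    (bd : Bd D n P U 1) (kd : ∀ v ∈ Q, v ∉ D)
    (adj : ∀ s d, sqL s d ∈ D → sqL s (d - 1) ∈ V → sqL s (d - 1) ∉ D → sqL s (d - 1) ∈ Q)
    (cov : ∀ s d, sqL s d ∈ D → sqL s (d - 1) ∈ Q → sqL s (d - 1) ∈ V →
      ∃ i < n, P i = s ∧ U i % 4 = d % 4)
    (lt : ∀ i < n, sqL (P i) (U i - 1) ∈ V → 1 ≤ i ∧ i + 1 < n)
    (cor : ∀ j, j + 1 < n → sqL (P (j + 1)) (U j - 1) ∈ V → U (j + 1) ≤ U j) :
    LWin D V Q n P U (fun i => i < n ∧ sqL (P i) (U i - 1) ∈ V) where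
  bd := bd
  kd := kd
  adj := adj
  cov := by
    intro s d h1 h2 h3
    obtain ⟨i, hi, h4, h5⟩ := cov s d h1 h2 h3
    refine ⟨i, ⟨hi, ?_⟩, ?_⟩
    · rw [h4, sqL_congr (show (U i - 1) % 4 = (d - 1) % 4 by omega)]
      exact h3
    · rw [h4]
      exact M4_congr h5.symm
  lt := fun i hi => lt i hi.1 hi.2
  rt := fun j hj => adj _ _ (bd.left j) hj (bd.right j)
  cor := by
    intro j hj
    have h1 : j + 1 < n := by
      rcases hj with hj | hj
      · exact (lt j hj.1 hj.2).2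
      · exact hj.1
    by_cases h2 : sqL (P (j + 1)) (U j - 1) ∈ V
    · exact Or.inl (cor j h1 h2)
    · exact Or.inr h2

/-- The squares at a site. -/
theorem sqL_rg {s : ℤ × ℤ} {d : ℤ} : (sqL s d).1 ≤ s.1 ∧ s.1 ≤ (sqL s d).1 + 1 ∧
    (sqL s d).2 ≤ s.2 ∧ s.2 ≤ (sqL s d).2 + 1 := by
  unfold sqL
  split_ifs <;> refine ⟨?_, ?_, ?_, ?_⟩ <;> simp only <;> omega

/-! ### three rows -/

/-- The region. -/
def wTU (R : ℕ) : Set (ℤ × ℤ) :=
  {v | -(R : ℤ) + 1 ≤ v.1 ∧ v.1 < R - 1 ∧ -(R : ℤ) + 1 ≤ v.2 ∧ v.2 < R - 1}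

/-- The frozen squares. -/
def wTQ (A B S R : ℕ) : Set (ℤ × ℤ) :=
  {v | (v.1 = -1 ∧ R - A ≤ v.2) ∨ (v.2 = -1 ∧ R - B ≤ v.1) ∨ (v.1 = 0 ∧ v.2 < -R + S)}

variable {A B S R : ℕ}

theorem wT_cor (hA : 1 ≤ A) (hB : 1 ≤ B) (hS : 1 ≤ S) (hAR : A < R) (hBR : B + 1 < R) (hSR : S < R)
    {k : ℕ} {x y u x' y' u' : ℤ} (hk : wTV A B S R k x y u) (hl : wTV A B S R (k + 1) x' y' u')
    (h1 : -(R : ℤ) + 1 ≤ x') (h2 : x' ≤ R - 1) (h3 : -(R : ℤ) + 1 ≤ y') (h4 : y' ≤ R - 1) :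
    u' ≤ u := by
  unfold wTV at hk hl
  rcases hk with hk | hk | hk | hk | hk | hk | hk | hk | hk | hk | hk | hk | hk | hk | hk | hk <;>
    rcases hl with hl | hl | hl | hl | hl | hl | hl | hl | hl | hl | hl | hl | hl | hl | hl | hl <;>
    omega

theorem wT_cov (hA : 1 ≤ A) (hB : 1 ≤ B) (hS : 1 ≤ S) (hAR : A < R) (hBR : B + 1 < R) (hSR : S < R)
    {x y d : ℤ} (h1 : sqL (x, y) d ∈ wTR A B S R) (h2 : sqL (x, y) (d - 1) ∈ wTQ A B S R)
    (h3 : sqL (x, y) (d - 1) ∈ wTU R) :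
    ∃ k u, k < 8 * R + 2 * S + 2 * B + 2 * A ∧ wTV A B S R k x y u ∧ u % 4 = d % 4 := by
  rcases (by omega : d % 4 = 0 ∨ d % 4 = 1 ∨ d % 4 = 2 ∨ d % 4 = 3) with h | h | h | h
  · rw [sqL_congr (d' := 0) (by omega)] at h1
    rw [sqL_congr (d' := -1) (by omega)] at h2 h3
    simp only [sqL, wTR, wTQ, wTU, Set.mem_ofPred_eq] at h1 h2 h3
    norm_num at h1 h2 h3
    rcases h2 with h2 | h2 | h2
    · omega
    · exact ⟨(x + 2 * R + 2 * B + 2 * S).toNat, 0, by omega, Or.inr (Or.inr (Or.inr (Or.inr (Or.inr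
        (Or.inr (Or.inr (Or.inr (Or.inl ⟨by omega, by omega, by omega, by omega, rfl⟩)))))))),
        by omega⟩
    · exact ⟨R + S, 0, by omega, Or.inr (Or.inr (Or.inl ⟨by omega, by omega, by omega, by omega,
        rfl⟩)), by omega⟩
  · rw [sqL_congr (d' := 1) (by omega)] at h1
    rw [sqL_congr (d' := 0) (by omega)] at h2 h3
    simp only [sqL, wTR, wTQ, wTU, Set.mem_ofPred_eq] at h1 h2 h3
    norm_num at h1 h2 h3
    rcases h2 with h2 | h2 | h2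
    · exact ⟨(y + 4 * R + 2 * A + 2 * S + 2 * B + 1).toNat, 1, by omega, Or.inr (Or.inr (Or.inr
        (Or.inr (Or.inr (Or.inr (Or.inr (Or.inr (Or.inr (Or.inr (Or.inr (Or.inr (Or.inr
        (Or.inl ⟨by omega, by omega, by omega, by omega, rfl⟩))))))))))))), by omega⟩
    · exact ⟨3 * R + 2 * S + B - 1, 1, by omega, Or.inr (Or.inr (Or.inr (Or.inr (Or.inr (Or.inr
        (Or.inr (Or.inl ⟨by omega, by omega, by omega, by omega, rfl⟩))))))), by omega⟩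
    · exact ⟨(y + 2 * R).toNat, 1, by omega, Or.inr (Or.inl ⟨by omega, by omega, by omega,
        by omega, rfl⟩), by omega⟩
  · rw [sqL_congr (d' := 2) (by omega)] at h1
    rw [sqL_congr (d' := 1) (by omega)] at h2 h3
    simp only [sqL, wTR, wTQ, wTU, Set.mem_ofPred_eq] at h1 h2 h3
    norm_num at h1 h2 h3
    rcases h2 with h2 | h2 | h2
    · exact ⟨5 * R + 2 * S + 2 * B + A, 2, by omega, Or.inr (Or.inr (Or.inr (Or.inr (Or.inr (Or.inr
        (Or.inr (Or.inr (Or.inr (Or.inr (Or.inr (Or.inr (Or.inl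
        ⟨by omega, by omega, by omega, by omega, rfl⟩)))))))))))), by omega⟩
    · exact ⟨(4 * R + 2 * S - 1 - x).toNat, 2, by omega, Or.inr (Or.inr (Or.inr (Or.inr (Or.inr
        (Or.inr (Or.inl ⟨by omega, by omega, by omega, by omega, rfl⟩)))))), by omega⟩
    · omega
  · rw [sqL_congr (d' := 3) (by omega)] at h1
    rw [sqL_congr (d' := 2) (by omega)] at h2 h3
    simp only [sqL, wTR, wTQ, wTU, Set.mem_ofPred_eq] at h1 h2 h3
    norm_num at h1 h2 h3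
    rcases h2 with h2 | h2 | h2
    · exact ⟨(6 * R + 2 * S + 2 * B - y).toNat, 3, by omega, Or.inr (Or.inr (Or.inr (Or.inr (Or.inr
        (Or.inr (Or.inr (Or.inr (Or.inr (Or.inr (Or.inr (Or.inl
        ⟨by omega, by omega, by omega, by omega, rfl⟩))))))))))), by omega⟩
    · omega
    · exact ⟨(2 * S + 1 - y).toNat, -1, by omega, Or.inr (Or.inr (Or.inr (Or.inl
        ⟨by omega, by omega, by omega, by omega, rfl⟩))), by omega⟩

/-- **The window at the hole with three rows.** -/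
theorem lwinT (hA : 1 ≤ A) (hB : 1 ≤ B) (hS : 1 ≤ S) (hAR : A < R) (hBR : B + 1 < R) (hSR : S < R)
    {P : ℕ → ℤ × ℤ} {U : ℕ → ℤ}
    (hb : Bd (wTR A B S R) (8 * R + 2 * S + 2 * B + 2 * A) P U 1)
    (hV : ∀ k < 8 * R + 2 * S + 2 * B + 2 * A, wTV A B S R k (P k).1 (P k).2 (U k)) :
    LWin (wTR A B S R) (wTU R) (wTQ A B S R) (8 * R + 2 * S + 2 * B + 2 * A) P U
      (fun i => i < 8 * R + 2 * S + 2 * B + 2 * A ∧ sqL (P i) (U i - 1) ∈ wTU R) := by
  refine LWin.mk' hb ?_ ?_ ?_ ?_ ?_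
  · rintro v hv ⟨-, -, -, -, h1, h2, h3⟩
    rcases hv with hv | hv | hv
    · exact h1 hv
    · exact h2 hv
    · exact h3 hv
  · intro s d h1 h2 h3
    obtain ⟨a1, a2, a3, a4⟩ := h2
    by_contra h4
    refine h3 ⟨by omega, by omega, by omega, by omega, fun h => h4 (Or.inl h),
      fun h => h4 (Or.inr (Or.inl h)), fun h => h4 (Or.inr (Or.inr h))⟩
  · intro s d h1 h2 h3
    obtain ⟨k, u, hk, h4, h5⟩ := wT_cov hA hB hS hAR hBR hSR (x := s.1) (y := s.2) h1 h2 h3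
    obtain ⟨e1, e2, e3⟩ := wT_uniq hA hB hS hAR hBR hSR (hV k hk) h4
    exact ⟨k, hk, Prod.ext e1 e2, by rw [e3]; exact h5⟩
  · intro i hi h1
    have h2 := hV i hi
    obtain ⟨a1, a2, a3, a4⟩ := h1
    have h3 := sqL_rg (s := P i) (d := U i - 1)
    constructor
    · by_contra hc
      unfold wTV at h2
      omega
    · by_contra hc
      have h4 : (P i).1 = -R := by
        unfold wTV at h2
        omega
      omega
  · intro j hj h1
    obtain ⟨a1, a2, a3, a4⟩ := h1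
    have h3 := sqL_rg (s := P (j + 1)) (d := U j - 1)
    exact wT_cor hA hB hS hAR hBR hSR (hV j (by omega)) (hV (j + 1) hj) (by omega) (by omega)
      (by omega) (by omega)

/-! ### the foot -/

/-- The region. -/
def wFU (R : ℕ) : Set (ℤ × ℤ) := {v | -(R : ℤ) ≤ v.1 ∧ v.1 < R ∧ -(R : ℤ) ≤ v.2 ∧ v.2 < R}

/-- The frozen squares. -/
def wFQ (S R : ℕ) : Set (ℤ × ℤ) := {v | v.2 = -1 ∨ (v.1 = 0 ∧ R + 1 - S ≤ v.2)}

theorem wF_cor (hS : 1 ≤ S) (hSR : S < R)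
    {k : ℕ} {x y u x' y' u' : ℤ} (hk : wFV S R k x y u) (hl : wFV S R (k + 1) x' y' u')
    (h1 : -(R : ℤ) ≤ x') (h2 : x' ≤ R) (h3 : -(R : ℤ) ≤ y') (h4 : y' ≤ R) :
    u' ≤ u := by
  unfold wFV at hk hl
  rcases hk with hk | hk | hk | hk | hk | hk | hk | hk <;>
    rcases hl with hl | hl | hl | hl | hl | hl | hl | hl <;> omega

theorem wF_cov (hS : 1 ≤ S) (hSR : S < R)
    {x y d : ℤ} (h1 : sqL (x, y) d ∈ wFR S R) (h2 : sqL (x, y) (d - 1) ∈ wFQ S R)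
    (h3 : sqL (x, y) (d - 1) ∈ wFU R) :
    ∃ k u, k < 6 * R + 2 * S + 6 ∧ wFV S R k x y u ∧ u % 4 = d % 4 := by
  rcases (by omega : d % 4 = 0 ∨ d % 4 = 1 ∨ d % 4 = 2 ∨ d % 4 = 3) with h | h | h | h
  · rw [sqL_congr (d' := 0) (by omega)] at h1
    rw [sqL_congr (d' := -1) (by omega)] at h2 h3
    simp only [sqL, wFR, wFQ, wFU, Set.mem_ofPred_eq] at h1 h2 h3
    norm_num at h1 h2 h3
    rcases h2 with h2 | h2
    · exact ⟨(x + R + 1).toNat, 0, by omega, Or.inl ⟨by omega, by omega, by omega, by omega, rfl⟩,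
        by omega⟩
    · omega
  · rw [sqL_congr (d' := 1) (by omega)] at h1
    rw [sqL_congr (d' := 0) (by omega)] at h2 h3
    simp only [sqL, wFR, wFQ, wFU, Set.mem_ofPred_eq] at h1 h2 h3
    norm_num at h1 h2 h3
    rcases h2 with h2 | h2
    · omega
    · exact ⟨(y + 3 * R + 2 * S + 3).toNat, 1, by omega, Or.inr (Or.inr (Or.inr (Or.inr (Or.inr
        (Or.inl ⟨by omega, by omega, by omega, by omega, rfl⟩))))), by omega⟩
  · rw [sqL_congr (d' := 2) (by omega)] at h1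
    rw [sqL_congr (d' := 1) (by omega)] at h2 h3
    simp only [sqL, wFR, wFQ, wFU, Set.mem_ofPred_eq] at h1 h2 h3
    norm_num at h1 h2 h3
    rcases h2 with h2 | h2
    · omega
    · exact ⟨4 * R + S + 3, 2, by omega, Or.inr (Or.inr (Or.inr (Or.inr
        (Or.inl ⟨by omega, by omega, by omega, by omega, rfl⟩)))), by omega⟩
  · rw [sqL_congr (d' := 3) (by omega)] at h1
    rw [sqL_congr (d' := 2) (by omega)] at h2 h3
    simp only [sqL, wFR, wFQ, wFU, Set.mem_ofPred_eq] at h1 h2 h3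
    norm_num at h1 h2 h3
    rcases h2 with h2 | h2
    · omega
    · exact ⟨(5 * R + 4 - y).toNat, 3, by omega, Or.inr (Or.inr (Or.inr
        (Or.inl ⟨by omega, by omega, by omega, by omega, rfl⟩))), by omega⟩

theorem wF_adj {x y d : ℤ} (h1 : sqL (x, y) d ∈ wFR S R)
    (h2 : sqL (x, y) (d - 1) ∈ wFU R) (h3 : sqL (x, y) (d - 1) ∉ wFR S R) :
    sqL (x, y) (d - 1) ∈ wFQ S R := by
  rcases (by omega : d % 4 = 0 ∨ d % 4 = 1 ∨ d % 4 = 2 ∨ d % 4 = 3) with h | h | h | h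
  · rw [sqL_congr (d' := 0) (by omega)] at h1
    rw [sqL_congr (d' := -1) (by omega)] at h2 h3 ⊢
    simp only [sqL, wFR, wFQ, wFU, Set.mem_ofPred_eq] at h1 h2 h3 ⊢
    norm_num at h1 h2 h3 ⊢
    omega
  · rw [sqL_congr (d' := 1) (by omega)] at h1
    rw [sqL_congr (d' := 0) (by omega)] at h2 h3 ⊢
    simp only [sqL, wFR, wFQ, wFU, Set.mem_ofPred_eq] at h1 h2 h3 ⊢
    norm_num at h1 h2 h3 ⊢
    omega
  · rw [sqL_congr (d' := 2) (by omega)] at h1
    rw [sqL_congr (d' := 1) (by omega)] at h2 h3 ⊢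
    simp only [sqL, wFR, wFQ, wFU, Set.mem_ofPred_eq] at h1 h2 h3 ⊢
    norm_num at h1 h2 h3 ⊢
    omega
  · rw [sqL_congr (d' := 3) (by omega)] at h1
    rw [sqL_congr (d' := 2) (by omega)] at h2 h3 ⊢
    simp only [sqL, wFR, wFQ, wFU, Set.mem_ofPred_eq] at h1 h2 h3 ⊢
    norm_num at h1 h2 h3 ⊢
    omega

/-- **The window at the foot.** -/
theorem lwinF (hS : 1 ≤ S) (hSR : S < R) {P : ℕ → ℤ × ℤ} {U : ℕ → ℤ}
    (hb : Bd (wFR S R) (6 * R + 2 * S + 6) P U 1)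
    (hV : ∀ k < 6 * R + 2 * S + 6, wFV S R k (P k).1 (P k).2 (U k)) :
    LWin (wFR S R) (wFU R) (wFQ S R) (6 * R + 2 * S + 6) P U
      (fun i => i < 6 * R + 2 * S + 6 ∧ sqL (P i) (U i - 1) ∈ wFU R) := by
  refine LWin.mk' hb ?_ ?_ ?_ ?_ ?_
  · rintro v hv ⟨-, -, h1, -, h2⟩
    rcases hv with hv | hv
    · omega
    · exact h2 hv
  · intro s d h1 h2 h3
    exact wF_adj (x := s.1) (y := s.2) h1 h2 h3
  · intro s d h1 h2 h3
    obtain ⟨k, u, hk, h4, h5⟩ := wF_cov hS hSR (x := s.1) (y := s.2) h1 h2 h3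
    obtain ⟨e1, e2, e3⟩ := wF_uniq hS hSR (hV k hk) h4
    exact ⟨k, hk, Prod.ext e1 e2, by rw [e3]; exact h5⟩
  · intro i hi h1
    have h2 := hV i hi
    obtain ⟨a1, a2, a3, a4⟩ := h1
    have h3 := sqL_rg (s := P i) (d := U i - 1)
    constructor
    · by_contra hc
      have h4 : (P i).1 = -R - 1 := by
        unfold wFV at h2
        omega
      omega
    · by_contra hc
      have h4 : (P i).1 = -R - 1 := by
        unfold wFV at h2
        omega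
      omega
  · intro j hj h1
    obtain ⟨a1, a2, a3, a4⟩ := h1
    have h3 := sqL_rg (s := P (j + 1)) (d := U j - 1)
    exact wF_cor hS hSR (hV j (by omega)) (hV (j + 1) hj) (by omega) (by omega)
      (by omega) (by omega)

/-! ### one face of a row -/

/-- The frozen squares. -/
def wRQ : Set (ℤ × ℤ) := {v | v.2 = -1}

theorem wR_cor (hR : 1 ≤ R)
    {k : ℕ} {x y u x' y' u' : ℤ} (hk : wRV R k x y u) (hl : wRV R (k + 1) x' y' u')
    (h1 : -(R : ℤ) ≤ x') (h2 : x' ≤ R) (h3 : -(R : ℤ) ≤ y') (h4 : y' ≤ R) :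
    u' ≤ u := by
  unfold wRV at hk hl
  rcases hk with hk | hk | hk | hk <;> rcases hl with hl | hl | hl | hl <;> omega

theorem wR_cov {x y d : ℤ} (h1 : sqL (x, y) d ∈ wRR R) (h2 : sqL (x, y) (d - 1) ∈ wRQ)
    (h3 : sqL (x, y) (d - 1) ∈ wFU R) :
    ∃ k u, k < 6 * R + 6 ∧ wRV R k x y u ∧ u % 4 = d % 4 := by
  rcases (by omega : d % 4 = 0 ∨ d % 4 = 1 ∨ d % 4 = 2 ∨ d % 4 = 3) with h | h | h | h
  · rw [sqL_congr (d' := 0) (by omega)] at h1
    rw [sqL_congr (d' := -1) (by omega)] at h2 h3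
    simp only [sqL, wRR, wRQ, wFU, Set.mem_ofPred_eq] at h1 h2 h3
    norm_num at h1 h2 h3
    exact ⟨(x + R + 1).toNat, 0, by omega, Or.inl ⟨by omega, by omega, by omega, by omega, rfl⟩,
      by omega⟩
  · exfalso
    rw [sqL_congr (d' := 1) (by omega)] at h1
    rw [sqL_congr (d' := 0) (by omega)] at h2 h3
    simp only [sqL, wRR, wRQ, wFU, Set.mem_ofPred_eq] at h1 h2 h3
    norm_num at h1 h2 h3
    omega
  · exfalso
    rw [sqL_congr (d' := 2) (by omega)] at h1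
    rw [sqL_congr (d' := 1) (by omega)] at h2 h3
    simp only [sqL, wRR, wRQ, wFU, Set.mem_ofPred_eq] at h1 h2 h3
    norm_num at h1 h2 h3
    omega
  · exfalso
    rw [sqL_congr (d' := 3) (by omega)] at h1
    rw [sqL_congr (d' := 2) (by omega)] at h2 h3
    simp only [sqL, wRR, wRQ, wFU, Set.mem_ofPred_eq] at h1 h2 h3
    norm_num at h1 h2 h3
    omega

theorem wR_adj {x y d : ℤ} (h1 : sqL (x, y) d ∈ wRR R)
    (h2 : sqL (x, y) (d - 1) ∈ wFU R) (h3 : sqL (x, y) (d - 1) ∉ wRR R) :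
    sqL (x, y) (d - 1) ∈ wRQ := by
  rcases (by omega : d % 4 = 0 ∨ d % 4 = 1 ∨ d % 4 = 2 ∨ d % 4 = 3) with h | h | h | h
  · rw [sqL_congr (d' := 0) (by omega)] at h1
    rw [sqL_congr (d' := -1) (by omega)] at h2 h3 ⊢
    simp only [sqL, wRR, wRQ, wFU, Set.mem_ofPred_eq] at h1 h2 h3 ⊢
    norm_num at h1 h2 h3 ⊢
    omega
  · rw [sqL_congr (d' := 1) (by omega)] at h1
    rw [sqL_congr (d' := 0) (by omega)] at h2 h3 ⊢
    simp only [sqL, wRR, wRQ, wFU, Set.mem_ofPred_eq] at h1 h2 h3 ⊢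
    norm_num at h1 h2 h3 ⊢
    omega
  · rw [sqL_congr (d' := 2) (by omega)] at h1
    rw [sqL_congr (d' := 1) (by omega)] at h2 h3 ⊢
    simp only [sqL, wRR, wRQ, wFU, Set.mem_ofPred_eq] at h1 h2 h3 ⊢
    norm_num at h1 h2 h3 ⊢
    omega
  · rw [sqL_congr (d' := 3) (by omega)] at h1
    rw [sqL_congr (d' := 2) (by omega)] at h2 h3 ⊢
    simp only [sqL, wRR, wRQ, wFU, Set.mem_ofPred_eq] at h1 h2 h3 ⊢
    norm_num at h1 h2 h3 ⊢
    omega

/-- **The window at one face of a row.** -/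
theorem lwinR (hR : 1 ≤ R) {P : ℕ → ℤ × ℤ} {U : ℕ → ℤ}
    (hb : Bd (wRR R) (6 * R + 6) P U 1)
    (hV : ∀ k < 6 * R + 6, wRV R k (P k).1 (P k).2 (U k)) :
    LWin (wRR R) (wFU R) wRQ (6 * R + 6) P U
      (fun i => i < 6 * R + 6 ∧ sqL (P i) (U i - 1) ∈ wFU R) := by
  refine LWin.mk' hb ?_ ?_ ?_ ?_ ?_
  · rintro v hv ⟨-, -, h1, -⟩
    change v.2 = -1 at hv
    omega
  · intro s d h1 h2 h3
    exact wR_adj (x := s.1) (y := s.2) h1 h2 h3
  · intro s d h1 h2 h3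
    obtain ⟨k, u, hk, h4, h5⟩ := wR_cov (x := s.1) (y := s.2) h1 h2 h3
    obtain ⟨e1, e2, e3⟩ := wR_uniq hR (hV k hk) h4
    exact ⟨k, hk, Prod.ext e1 e2, by rw [e3]; exact h5⟩
  · intro i hi h1
    have h2 := hV i hi
    obtain ⟨a1, a2, a3, a4⟩ := h1
    have h3 := sqL_rg (s := P i) (d := U i - 1)
    constructor
    · by_contra hc
      have h4 : (P i).1 = -R - 1 := by
        unfold wRV at h2
        omega
      omega
    · by_contra hc
      have h4 : (P i).1 = -R - 1 := by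
        unfold wRV at h2
        omega
      omega
  · intro j hj h1
    obtain ⟨a1, a2, a3, a4⟩ := h1
    have h3 := sqL_rg (s := P (j + 1)) (d := U j - 1)
    exact wR_cor hR (hV j (by omega)) (hV (j + 1) hj) (by omega) (by omega)
      (by omega) (by omega)

end Vale.Agent.P167.N.ID
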