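import Vale.Agent.P167.H680.S.Tel
import Vale.Agent.P167.H871.Q.Win
import Vale.Agent.P167.H871.Q.Ext

/-!
# P167, `q < 1`, START: the number of the positive strands of a loop

`count_pos`: a loop of one colour, all of whose outer strands are natural (corrected turning `2` or
`-2`) and all of whose inner strands have the corrected turning `2 σ`, has exactly one outer strand of
corrected turning `2 σ`. `arc_closed`, `arc_open`: the inner strands next to a closed path.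
-/

namespace Vale.Agent.P167.N.ID

open Finset
open Vale.Agent.P167.BR
open Vale.Agent.P167.FK
open Vale.Agent.P167.Top
open Vale.Agent.P167.H871
open Vale.Agent.P167.H871.Q
open Vale.Agent.P167.A (plane)
open Vale.Agent.P167.XDL (bS mem_bS)
open Vale.Agent.P167.H199 (strand ret mem_strand loop_nx loop_iter ret_min ret_le
  strand_sub sum_strand Returns strand_unique)
open Vale.Agent.P167.H680.S (nxt nxt_mem trS sum_rule)
open Vale.Agent.P167.QX (returns_loop card_out_in fLp wS)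

variable {ω : Cfg} {ℓ : Finset Ed} {K : Finset (ℤ × ℤ)} {b x : Ed} {σ : ℤ}

/-- **The number of the positive outer strands of a loop.** -/
theorem count_pos (hl : IsLoop ω ℓ) (hS : ∃ e ∈ bS K, e ∈ ℓ)
    (hσ : σ = 1 ∨ σ = -1) (g c : Ed → ℤ)
    (hout : ∀ b ∈ bS K, b ∈ ℓ → hdv b ∉ K →
      trS (bS K) ω b = g (nxt (bS K) ω b) - g b + c b ∧ (c b = 2 ∨ c b = -2))
    (hinn : ∀ b ∈ bS K, b ∈ ℓ → hdv b ∈ K →
      trS (bS K) ω b = g (nxt (bS K) ω b) - g b + 2 * σ) :
    ((bS K).filter fun e => (hdv e ∉ K ∧ e ∈ ℓ) ∧ c e = 2 * σ).card = 1 := by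
  have h1 := sum_rule hl hS g (fun b => if hdv b ∈ K then 2 * σ else c b) (fun b hb hbl => by
    by_cases h : hdv b ∈ K
    · simp only [if_pos h]
      exact hinn b hb hbl h
    · simp only [if_neg h]
      exact (hout b hb hbl h).1)
  have h2 : ∑ b ∈ (bS K).filter (· ∈ ℓ), (if hdv b ∈ K then 2 * σ else c b) =
      2 * σ * ((bS K).filter fun e => hdv e ∈ K ∧ e ∈ ℓ).card +
        ∑ b ∈ (bS K).filter (fun e => hdv e ∉ K ∧ e ∈ ℓ), c b := by
    rw [sum_ite, filter_filter, filter_filter, sum_const, nsmul_eq_mul, mul_comm]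
    have e1 : (bS K).filter (fun a => a ∈ ℓ ∧ hdv a ∈ K) =
        (bS K).filter fun e => hdv e ∈ K ∧ e ∈ ℓ := filter_congr fun a _ => and_comm
    have e2 : (bS K).filter (fun a => a ∈ ℓ ∧ hdv a ∉ K) =
        (bS K).filter fun e => hdv e ∉ K ∧ e ∈ ℓ := filter_congr fun a _ => and_comm
    rw [e1, e2]
  have h3 : ∑ b ∈ (bS K).filter (fun e => hdv e ∉ K ∧ e ∈ ℓ), c b =
      2 * σ * ((bS K).filter fun e => (hdv e ∉ K ∧ e ∈ ℓ) ∧ c e = 2 * σ).card -
      2 * σ * ((bS K).filter fun e => (hdv e ∉ K ∧ e ∈ ℓ) ∧ ¬ c e = 2 * σ).card := by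
    rw [← sum_filter_add_sum_filter_not _ (fun e => c e = 2 * σ), filter_filter, filter_filter,
      sum_congr rfl (g := fun _ => 2 * σ) fun b hb => (mem_filter.1 hb).2.2,
      sum_congr (s₁ := (bS K).filter fun a => (hdv a ∉ K ∧ a ∈ ℓ) ∧ ¬ c a = 2 * σ) rfl
        (g := fun _ => -(2 * σ)) fun b hb => by
        obtain ⟨k1, ⟨k2, k3⟩, k4⟩ := mem_filter.1 hb
        have := (hout b k1 k3 k2).2
        rcases hσ with rfl | rfl <;> omega, sum_const, sum_const]
    simp only [nsmul_eq_mul]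
    ring
  have h4 := card_out_in (I := K) hl
  have h5 : ((bS K).filter fun e => hdv e ∉ K ∧ e ∈ ℓ).card =
      ((bS K).filter fun e => (hdv e ∉ K ∧ e ∈ ℓ) ∧ c e = 2 * σ).card +
      ((bS K).filter fun e => (hdv e ∉ K ∧ e ∈ ℓ) ∧ ¬ c e = 2 * σ).card := by
    rw [← card_filter_add_card_filter_not (s := (bS K).filter fun e => hdv e ∉ K ∧ e ∈ ℓ)
      (fun e => c e = 2 * σ), filter_filter, filter_filter]
  rw [h2, h3, ← h4] at h1
  rw [h5] at h1
  push_cast at h1
  generalize ((bS K).filter fun e => (hdv e ∉ K ∧ e ∈ ℓ) ∧ c e = 2 * σ).card = p at h1 ⊢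
  generalize ((bS K).filter fun e => (hdv e ∉ K ∧ e ∈ ℓ) ∧ ¬ c e = 2 * σ).card = p' at h1
  rcases hσ with rfl | rfl <;> omega

/-- **Killed or natural.** A loop of one colour whose outer strands have the corrected turnings
`± 2 σ`, `± 6 σ` and whose inner strands have the corrected turning `2 σ`: either there is an outer
strand of corrected turning `- 6 σ` (weight zero), or all outer strands are natural and exactly one of
them is positive. -/
theorem count_kill (hl : IsLoop ω ℓ) (hS : ∃ e ∈ bS K, e ∈ ℓ) (hσ : σ = 1 ∨ σ = -1)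
    (g c : Ed → ℤ)
    (hout : ∀ b ∈ bS K, b ∈ ℓ → hdv b ∉ K → trS (bS K) ω b = g (nxt (bS K) ω b) - g b + c b ∧
      (c b = 2 * σ ∨ c b = -2 * σ ∨ c b = 6 * σ ∨ c b = -6 * σ))
    (hinn : ∀ b ∈ bS K, b ∈ ℓ → hdv b ∈ K →
      trS (bS K) ω b = g (nxt (bS K) ω b) - g b + 2 * σ) :
    (∃ b ∈ bS K, b ∈ ℓ ∧ hdv b ∉ K ∧ c b = -6 * σ) ∨
      ((∀ b ∈ bS K, b ∈ ℓ → hdv b ∉ K → c b = 2 * σ ∨ c b = -2 * σ) ∧
        ((bS K).filter fun e => (hdv e ∉ K ∧ e ∈ ℓ) ∧ c e = 2 * σ).card = 1) := by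
  by_cases hk : ∃ b ∈ bS K, b ∈ ℓ ∧ hdv b ∉ K ∧ c b = -6 * σ
  · exact Or.inl hk
  right
  have hnk : ∀ b ∈ bS K, b ∈ ℓ → hdv b ∉ K → c b ≠ -6 * σ := fun b h1 h2 h3 h4 =>
    hk ⟨b, h1, h2, h3, h4⟩
  have h1 := sum_rule hl hS g (fun b => if hdv b ∈ K then 2 * σ else c b) (fun b hb hbl => by
    by_cases h : hdv b ∈ K
    · simp only [if_pos h]
      exact hinn b hb hbl h
    · simp only [if_neg h]
      exact (hout b hb hbl h).1)
  have h2 : ∑ b ∈ (bS K).filter (· ∈ ℓ), (if hdv b ∈ K then 2 * σ else c b) =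
      2 * σ * ((bS K).filter fun e => hdv e ∈ K ∧ e ∈ ℓ).card +
        ∑ b ∈ (bS K).filter (fun e => hdv e ∉ K ∧ e ∈ ℓ), c b := by
    rw [sum_ite, filter_filter, filter_filter, sum_const, nsmul_eq_mul, mul_comm]
    have e1 : (bS K).filter (fun a => a ∈ ℓ ∧ hdv a ∈ K) =
        (bS K).filter fun e => hdv e ∈ K ∧ e ∈ ℓ := filter_congr fun a _ => and_comm
    have e2 : (bS K).filter (fun a => a ∈ ℓ ∧ hdv a ∉ K) =
        (bS K).filter fun e => hdv e ∉ K ∧ e ∈ ℓ := filter_congr fun a _ => and_comm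
    rw [e1, e2]
  have h3 : 2 * σ * (((bS K).filter fun e => hdv e ∉ K ∧ e ∈ ℓ).card : ℤ) +
      ∑ b ∈ (bS K).filter (fun e => hdv e ∉ K ∧ e ∈ ℓ), c b =
      ∑ b ∈ (bS K).filter (fun e => hdv e ∉ K ∧ e ∈ ℓ), (2 * σ + c b) := by
    rw [sum_add_distrib, sum_const, nsmul_eq_mul]
    ring
  rw [h2, ← card_out_in (I := K) hl, h3] at h1
  set E := (bS K).filter fun e => hdv e ∉ K ∧ e ∈ ℓ with hE
  have hterm : ∀ b ∈ E, 0 ≤ σ * (2 * σ + c b) := by
    intro b hb
    obtain ⟨k1, k2, k3⟩ := mem_filter.1 hb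
    have k4 := (hout b k1 k3 k2).2
    have k5 := hnk b k1 k3 k2
    rcases hσ with rfl | rfl <;> omega
  have hsum : ∑ b ∈ E, σ * (2 * σ + c b) = 4 := by
    rw [← mul_sum]
    have h0 : 0 ≤ ∑ b ∈ E, σ * (2 * σ + c b) := sum_nonneg hterm
    rw [← mul_sum] at h0
    generalize ∑ b ∈ E, (2 * σ + c b) = X at h0 h1 ⊢
    rcases hσ with rfl | rfl <;> omega
  have hle : ∀ b ∈ E, σ * (2 * σ + c b) ≤ 4 := fun b hb => by
    rw [← hsum]; exact single_le_sum hterm hb
  have hval : ∀ b ∈ E, c b = 2 * σ ∨ c b = -2 * σ := by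
    intro b hb
    obtain ⟨k1, k2, k3⟩ := mem_filter.1 hb
    have k4 := (hout b k1 k3 k2).2
    have k5 := hnk b k1 k3 k2
    have k6 := hle b hb
    rcases hσ with rfl | rfl <;> omega
  refine ⟨fun b k1 k2 k3 => hval b (mem_filter.2 ⟨k1, k3, k2⟩), ?_⟩
  have h6 : ∑ b ∈ E, σ * (2 * σ + c b) = 4 * (E.filter fun b => c b = 2 * σ).card := by
    rw [← sum_filter_add_sum_filter_not E (fun b => c b = 2 * σ),
      sum_congr rfl (g := fun _ => (4 : ℤ)) fun b hb => by
        rw [(mem_filter.1 hb).2]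
        rcases hσ with rfl | rfl <;> norm_num,
      sum_congr (s₁ := E.filter fun b => ¬ c b = 2 * σ) rfl (g := fun _ => (0 : ℤ)) fun b hb => by
        have := hval b (mem_filter.1 hb).1
        rw [this.resolve_left (mem_filter.1 hb).2]
        rcases hσ with rfl | rfl <;> norm_num, sum_const, sum_const]
    simp only [nsmul_eq_mul]
    ring
  rw [h6, hE, filter_filter] at hsum
  omega

/-! ### edges across the steps of a closed path -/

theorem M4_inj {s s' : ℤ × ℤ} {d d' : ℤ} (h : M4 s d = M4 s' d') (hd : d % 4 = d' % 4) : s = s' := by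
  rw [M4_congr hd, M4_eq, M4_eq] at h
  have h1 := congrArg Prod.fst h
  have h2 := congrArg Prod.snd h
  simp only at h1 h2
  exact Prod.ext (by omega) (by omega)

variable {D : Set (ℤ × ℤ)} {n : ℕ} {P : ℕ → ℤ × ℤ} {u : ℕ → ℤ} {τ : ℤ} {j : ℕ}

/-- An edge which leaves `D` through the step `j`. -/
theorem cross_out (hb : Bd D n P u τ) (h : P4 x = M4 (P j) (u j)) (hd : hdv x ∉ D) :
    ls x = P (j + 1) ∧ rs x = P j ∧ hd4 x % 4 = (u j - 1) % 4 ∧ hdv x = sqL (P j) (u j - 1) ∧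
      tlv x = sqL (P j) (u j) := by
  obtain ⟨r1, r2, -, -, -, -⟩ := rs_eq x
  rcases side h with ⟨-, h1, -⟩ | ⟨h1, h2, h3⟩
  · exact absurd (h1 ▸ hb.left j) hd
  · have e1 : ls x = P (j + 1) := by
      refine M4_inj (d := hd4 x - 1) (d' := u j + 2) ?_ (by omega)
      rw [← r2, h, hb.step j, M4_rev]
    refine ⟨e1, ?_, h1, h2, h3⟩
    rw [r1, e1, hb.step j]
    unfold vec
    rcases head_cases (u j) with ⟨a, y, c⟩ | ⟨a, y, c⟩ | ⟨a, y, c⟩ | ⟨a, y, c⟩ <;>
      rcases head_cases (hd4 x - 1) with ⟨a', y', c'⟩ | ⟨a', y', c'⟩ | ⟨a', y', c'⟩ |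
        ⟨a', y', c'⟩ <;>
      first
      | (exfalso; omega)
      | (rw [y, c, y', c']; ext <;> simp)

/-- An edge which enters `D` through the step `j`. -/
theorem cross_in (hb : Bd D n P u τ) (h : P4 x = M4 (P j) (u j)) (hd : hdv x ∈ D) :
    ls x = P j ∧ rs x = P (j + 1) ∧ hd4 x % 4 = (u j + 1) % 4 ∧ hdv x = sqL (P j) (u j) ∧
      tlv x = sqL (P j) (u j - 1) := by
  obtain ⟨r1, r2, -, -, -, -⟩ := rs_eq x
  rcases side h with ⟨h1, h2, h3⟩ | ⟨-, h1, -⟩
  · have e1 : ls x = P j := by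
      refine M4_inj (d := hd4 x - 1) (d' := u j) ?_ (by omega)
      rw [← r2, h]
    refine ⟨e1, ?_, h1, h2, h3⟩
    rw [r1, e1, hb.step j, vec_congr (by omega : (hd4 x - 1) % 4 = u j % 4)]
  · exact absurd hd (h1 ▸ hb.right j)

/-- **The inner strand from the step `j` next to closed squares.** -/
theorem arc_closed (hb : Bd D n P u τ) (hKD : ∀ v ∈ K, v ∉ D) (hx : P4 x = M4 (P j) (u j))
    (h1 : hdv x ∈ K) (h2 : ω (hdv x) = false) (hle : u (j + 1) ≤ u j)
    (hcf : hdv (nx ω x) ∈ D ∨ (hdv (nx ω x) ∈ K ∧ ω (hdv (nx ω x)) = false)) :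
    P4 (nxt (bS K) ω x) = M4 (P (j + 1)) (u (j + 1)) ∧ hdv (nxt (bS K) ω x) ∈ D ∧
      tlv (nxt (bS K) ω x) ∈ K ∧ trS (bS K) ω x = u (j + 1) - u j + 2 := by
  obtain ⟨c1, -, c3, -, -⟩ := cross_out hb hx (hKD _ h1)
  have l1 : ls (nx ω x) = P (j + 1) := (P167.ls_nx h2).trans c1
  have t1 : trn ω x = 1 := by unfold trn; rw [if_neg (by rw [h2]; decide)]
  have d1 : hd4 (nx ω x) % 4 = u j % 4 := by
    have := hd4_nx ω x
    rw [t1] at this
    omega
  obtain ⟨-, r2, r3, -, -, -⟩ := rs_eq (nx ω x)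
  rw [l1] at r2 r3
  have ht := hb.turn j
  rw [abs_le] at ht
  rcases (by omega : u (j + 1) = u j - 1 ∨ u (j + 1) = u j) with h3 | h3
  · have e1 : hdv (nx ω x) = sqL (P (j + 1)) (u (j + 1)) := by
      rw [r3]; exact sqL_congr (by omega)
    have hD1 : hdv (nx ω x) ∈ D := e1 ▸ hb.left (j + 1)
    have hS : (nx ω)^[1] x ∈ bS K := by
      rw [Function.iterate_one, mem_bS]
      exact Or.inr ⟨fun h => hKD _ h hD1, by rw [tlv_nx]; exact h1⟩
    have hret : ret (nx ω) (bS K) x = 1 := by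
      have a1 := ret_le (f := nx ω) le_rfl hS
      have a2 := (show Returns (nx ω) (bS K) x from ⟨1, le_rfl, hS⟩).spec.1
      omega
    unfold nxt trS
    rw [hret, Function.iterate_one]
    refine ⟨?_, hD1, by rw [tlv_nx]; exact h1, ?_⟩
    · rw [r2]; exact M4_congr (by omega)
    · rw [sum_range_one, Function.iterate_zero, id, t1]; omega
  · have e1 : hdv (nx ω x) = sqL (P (j + 1)) (u (j + 1) - 1) := by
      rw [r3]; exact sqL_congr (by omega)
    have hD1 : hdv (nx ω x) ∉ D := e1 ▸ hb.right (j + 1)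
    obtain ⟨k1, k2⟩ := hcf.resolve_left hD1
    have t2 : trn ω (nx ω x) = 1 := by unfold trn; rw [if_neg (by rw [k2]; decide)]
    have l2 : ls (nx ω (nx ω x)) = P (j + 1) := (P167.ls_nx k2).trans l1
    have d2 : hd4 (nx ω (nx ω x)) % 4 = (u j + 1) % 4 := by
      have := hd4_nx ω (nx ω x)
      rw [t2] at this
      omega
    obtain ⟨-, q2, q3, -, -, -⟩ := rs_eq (nx ω (nx ω x))
    rw [l2] at q2 q3
    have e2 : hdv (nx ω (nx ω x)) = sqL (P (j + 1)) (u (j + 1)) := by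
      rw [q3]; exact sqL_congr (by omega)
    have hD2 : hdv (nx ω (nx ω x)) ∈ D := e2 ▸ hb.left (j + 1)
    have i2 : (nx ω)^[2] x = nx ω (nx ω x) := rfl
    have hS : (nx ω)^[2] x ∈ bS K := by
      rw [i2, mem_bS]
      exact Or.inr ⟨fun h => hKD _ h hD2, by rw [tlv_nx]; exact k1⟩
    have hret : ret (nx ω) (bS K) x = 2 := by
      have a1 := ret_le (f := nx ω) one_le_two hS
      have hR : Returns (nx ω) (bS K) x := ⟨2, one_le_two, hS⟩
      have a2 := hR.spec.1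
      rcases (by omega : ret (nx ω) (bS K) x = 1 ∨ ret (nx ω) (bS K) x = 2) with h | h
      · exfalso
        have a3 := hR.spec.2
        rw [h, Function.iterate_one, mem_bS, tlv_nx] at a3
        tauto
      · exact h
    unfold nxt trS
    rw [hret, i2]
    refine ⟨?_, hD2, by rw [tlv_nx]; exact k1, ?_⟩
    · rw [q2]; exact M4_congr (by omega)
    · rw [sum_range_succ, sum_range_one, Function.iterate_zero, id, Function.iterate_one, t1, t2]
      omega

/-- **The inner strand from the step `j + 1` next to open squares.** -/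
theorem arc_open (hb : Bd D n P u τ) (hKD : ∀ v ∈ K, v ∉ D) (hx : P4 x = M4 (P (j + 1)) (u (j + 1)))
    (h1 : hdv x ∈ K) (h2 : ω (hdv x) = true) (hle : u (j + 1) ≤ u j)
    (hcf : hdv (nx ω x) ∈ D ∨ (hdv (nx ω x) ∈ K ∧ ω (hdv (nx ω x)) = true)) :
    P4 (nxt (bS K) ω x) = M4 (P j) (u j) ∧ hdv (nxt (bS K) ω x) ∈ D ∧
      tlv (nxt (bS K) ω x) ∈ K ∧ trS (bS K) ω x = u j - u (j + 1) - 2 := by
  obtain ⟨-, c1, c3, -, -⟩ := cross_out hb hx (hKD _ h1)
  have l1 : rs (nx ω x) = P (j + 1) := (P167.rs_nx h2).trans c1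
  have t1 : trn ω x = -1 := by unfold trn; rw [if_pos h2]
  have d1 : hd4 (nx ω x) % 4 = (u (j + 1) - 2) % 4 := by
    have := hd4_nx ω x
    rw [t1] at this
    omega
  have hP4 : ∀ y : Ed, P4 y = M4 (rs y) (hd4 y + 1) := fun y => by
    obtain ⟨r1, r2, -⟩ := rs_eq y
    rw [r2, r1, show hd4 y + 1 = hd4 y - 1 + 2 by ring, M4_rev]
  obtain ⟨-, -, -, -, r3, -⟩ := rs_eq (nx ω x)
  rw [l1] at r3
  have s1 : sqL (P (j + 1)) (u j + 1) = sqL (P j) (u j) := by rw [hb.step j, sqL_next']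
  have s2 : sqL (P (j + 1)) (u j - 2) = sqL (P j) (u j - 1) := by
    rw [hb.step j]
    have := sqL_next' (P j + vec (u j)) (u j + 1)
    rw [← sqL_next (P j) (u j)]
  have s3 : M4 (P (j + 1)) (u j - 2) = M4 (P j) (u j) := by
    rw [hb.step j, ← M4_rev (P j)]; exact M4_congr (by omega)
  have ht := hb.turn j
  rw [abs_le] at ht
  rcases (by omega : u (j + 1) = u j - 1 ∨ u (j + 1) = u j) with h3 | h3
  · have e1 : hdv (nx ω x) = sqL (P j) (u j) := by
      rw [r3, ← s1]; exact sqL_congr (by omega)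
    have hD1 : hdv (nx ω x) ∈ D := e1 ▸ hb.left j
    have hS : (nx ω)^[1] x ∈ bS K := by
      rw [Function.iterate_one, mem_bS]
      exact Or.inr ⟨fun h => hKD _ h hD1, by rw [tlv_nx]; exact h1⟩
    have hret : ret (nx ω) (bS K) x = 1 := by
      have a1 := ret_le (f := nx ω) le_rfl hS
      have a2 := (show Returns (nx ω) (bS K) x from ⟨1, le_rfl, hS⟩).spec.1
      omega
    unfold nxt trS
    rw [hret, Function.iterate_one]
    refine ⟨?_, hD1, by rw [tlv_nx]; exact h1, ?_⟩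
    · rw [hP4, l1, ← s3]; exact M4_congr (by omega)
    · rw [sum_range_one, Function.iterate_zero, id, t1]; omega
  · have e1 : hdv (nx ω x) = sqL (P j) (u j - 1) := by
      rw [r3, ← s2]; exact sqL_congr (by omega)
    have hD1 : hdv (nx ω x) ∉ D := e1 ▸ hb.right j
    obtain ⟨k1, k2⟩ := hcf.resolve_left hD1
    have t2 : trn ω (nx ω x) = -1 := by unfold trn; rw [if_pos k2]
    have l2 : rs (nx ω (nx ω x)) = P (j + 1) := (P167.rs_nx k2).trans l1
    have d2 : hd4 (nx ω (nx ω x)) % 4 = (u (j + 1) - 3) % 4 := by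
      have := hd4_nx ω (nx ω x)
      rw [t2] at this
      omega
    obtain ⟨-, -, -, -, q3, -⟩ := rs_eq (nx ω (nx ω x))
    rw [l2] at q3
    have e2 : hdv (nx ω (nx ω x)) = sqL (P j) (u j) := by
      rw [q3, ← s1]; exact sqL_congr (by omega)
    have hD2 : hdv (nx ω (nx ω x)) ∈ D := e2 ▸ hb.left j
    have i2 : (nx ω)^[2] x = nx ω (nx ω x) := rfl
    have hS : (nx ω)^[2] x ∈ bS K := by
      rw [i2, mem_bS]
      exact Or.inr ⟨fun h => hKD _ h hD2, by rw [tlv_nx]; exact k1⟩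
    have hret : ret (nx ω) (bS K) x = 2 := by
      have a1 := ret_le (f := nx ω) one_le_two hS
      have hR : Returns (nx ω) (bS K) x := ⟨2, one_le_two, hS⟩
      have a2 := hR.spec.1
      rcases (by omega : ret (nx ω) (bS K) x = 1 ∨ ret (nx ω) (bS K) x = 2) with h | h
      · exfalso
        have a3 := hR.spec.2
        rw [h, Function.iterate_one, mem_bS, tlv_nx] at a3
        tauto
      · exact h
    unfold nxt trS
    rw [hret, i2]
    refine ⟨?_, hD2, by rw [tlv_nx]; exact k1, ?_⟩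
    · rw [hP4, l2, ← s3]; exact M4_congr (by omega)
    · rw [sum_range_succ, sum_range_one, Function.iterate_zero, id, Function.iterate_one, t1, t2]
      omega

end Vale.Agent.P167.N.ID
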