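import Vale.Agent.P167.N.ID.WinE
import Vale.Agent.P167.N.ID.WinHd
import Vale.Agent.P167.N.ID.MajW

/-!
# P167, `q < 1`, START: the weights of the small strands at the rows

* `ang_face`: the weight of a strand which joins two squares of a face: at most `1`, and at most
  `2 cos θ` over a junction of the second kind on its killed face.
* `WinD.Ok.strandD`, `WinD.Ok.wS_le`: strands in windows.
-/

set_option autoImplicit false

namespace Vale.Agent.P167.N.ID

open Finset
open Vale.Agent.P167.A (plane)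
open Vale.Agent.P167.BR
open Vale.Agent.P167.Top
open Vale.Agent.P167.FK
open Vale.Agent.P167.H871
open Vale.Agent.P167.H871.Q
open Vale.Agent.P167.XDL (bS mem_bS)
open Vale.Agent.P167.H199 (ah at' strand ret Returns)
open Vale.Agent.P167.Enl (Two two_inj)
open Vale.Agent.P167.H680.T (WallG WCG nm_ht par par_cases)
open Vale.Agent.P167.H945.Q (face faces)
open Vale.Agent.P167.H680.S (nxt)
open Vale.Agent.P167.QX (wS fLp)

/-! ### weights -/

section wt

variable {θ : ℝ} {r : Row} {b : Bool} {m k k' : ℕ} {x x' : ℤ} {A : ℝ}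

theorem sin_two_le (h13 : Real.pi / 3 ≤ θ) (h12 : θ < Real.pi / 2) :
    0 < Real.sin θ ∧ 0 < Real.cos θ ∧ 2 * Real.cos θ ≤ 1 := by
  have hp := Real.pi_pos
  have h1 : Real.cos θ ≤ Real.cos (Real.pi / 3) :=
    Real.cos_le_cos_of_nonneg_of_le_pi (by positivity) (by linarith) h13
  rw [Real.cos_pi_div_three] at h1
  exact ⟨Real.sin_pos_of_pos_of_lt_pi (by linarith) (by linarith),
    Real.cos_pos_of_mem_Ioo ⟨by linarith, h12⟩, by linarith⟩

/-- The angles of the strands with weight at most one. -/
theorem cos_list (h13 : Real.pi / 3 ≤ θ) (h12 : θ < Real.pi / 2)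
    (h : A = Real.pi / 2 ∨ A = -(Real.pi / 2) ∨ A = θ - Real.pi / 2 ∨ A = -(θ - Real.pi / 2) ∨
      A = 2 * θ - Real.pi / 2 ∨ A = -(2 * θ - Real.pi / 2) ∨ A = 3 * θ - Real.pi / 2 ∨
      A = -(3 * θ - Real.pi / 2)) : |Real.cos A| ≤ Real.sin θ := by
  obtain ⟨hs, hc, hc1⟩ := sin_two_le h13 h12
  have e0 : |(0 : ℝ)| ≤ Real.sin θ := by rw [abs_zero]; exact hs.le
  have e1 : |Real.sin θ| ≤ Real.sin θ := (abs_of_pos hs).le
  have e2 : |Real.sin (2 * θ)| ≤ Real.sin θ := by
    rw [Real.sin_two_mul, abs_of_pos (by positivity)]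
    nlinarith
  have e3 : |Real.sin (3 * θ)| ≤ Real.sin θ := by
    have h2 : Real.sin (3 * θ) = Real.sin θ * (4 * Real.cos θ ^ 2 - 1) := by
      rw [Real.sin_three_mul]
      have := Real.sin_sq_add_cos_sq θ
      linear_combination (-4 * Real.sin θ) * this
    rw [h2, abs_mul, abs_of_pos hs]
    have h3 : |4 * Real.cos θ ^ 2 - 1| ≤ 1 := by
      rw [abs_le]
      constructor <;> nlinarith
    nlinarith
  rcases h with rfl | rfl | rfl | rfl | rfl | rfl | rfl | rfl
  · rwa [Real.cos_pi_div_two]
  · rwa [Real.cos_neg, Real.cos_pi_div_two]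
  · rwa [Real.cos_sub_pi_div_two]
  · rwa [Real.cos_neg, Real.cos_sub_pi_div_two]
  · rwa [Real.cos_sub_pi_div_two]
  · rwa [Real.cos_neg, Real.cos_sub_pi_div_two]
  · rwa [Real.cos_sub_pi_div_two]
  · rwa [Real.cos_neg, Real.cos_sub_pi_div_two]

/-- The strands over a junction of the second kind, on its killed face. -/
def Mxk (θ : ℝ) (r : Row) (b : Bool) (k k' : ℕ) : Prop :=
  r.K2 θ ∧ b = r.kf ∧ ¬ (r.k0 ≤ k ↔ r.k0 ≤ k')

open Classical in
/-- **The weights of the strands at a face.** -/
theorem ang_face (h13 : Real.pi / 3 ≤ θ) (h12 : θ < Real.pi / 2) (hv : r.Val θ) (hx : x ≠ x')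
    (h0 : 0 ≤ sqn r b m x) (h1 : sqn r b m x < r.L) (h0' : 0 ≤ sqn r b m x')
    (h1' : sqn r b m x' < r.L) :
    |Real.cos ((if x < x' then -(θ / 2) else θ / 2) +
        (φf θ r b (sqn r b m x).toNat - φf θ r b (sqn r b m x').toNat) +
        (r.τ (r.sq (sqn r b m x).toNat) + r.τ (r.sq (sqn r b m x').toNat)) *
          ((3 * θ - Real.pi) / 4))| ≤
      (if Mxk θ r b (sqn r b m x).toNat (sqn r b m x').toNat then 2 * Real.cos θ else 1) *
        Real.sin θ := by
  obtain ⟨hs, hc, hc1⟩ := sin_two_le h13 h12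
  obtain ⟨y, hy, hy'⟩ : ∃ y, (if x < x' then -(θ / 2) else θ / 2) = y ∧
      ((y = -(θ / 2) ∧ (b = r.o → (sqn r b m x).toNat < (sqn r b m x').toNat) ∧
        (b ≠ r.o → (sqn r b m x').toNat < (sqn r b m x).toNat)) ∨
      (y = θ / 2 ∧ (b = r.o → (sqn r b m x').toNat < (sqn r b m x).toNat) ∧
        (b ≠ r.o → (sqn r b m x).toNat < (sqn r b m x').toNat))) := by
    refine ⟨_, rfl, ?_⟩
    unfold sqn at h0 h1 h0' h1' ⊢
    by_cases h : x < x'
    · left
      refine ⟨if_pos h, fun hb => ?_, fun hb => ?_⟩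
      · rw [if_pos hb] at h0 h1 h0' h1'
        rw [if_pos hb, if_pos hb]
        omega
      · rw [if_neg hb] at h0 h1 h0' h1'
        rw [if_neg hb, if_neg hb]
        omega
    · right
      refine ⟨if_neg h, fun hb => ?_, fun hb => ?_⟩
      · rw [if_pos hb] at h0 h1 h0' h1'
        rw [if_pos hb, if_pos hb]
        omega
      · rw [if_neg hb] at h0 h1 h0' h1'
        rw [if_neg hb, if_neg hb]
        omega
  rw [hy]
  clear hy
  generalize hk : (sqn r b m x).toNat = k at hy' ⊢
  generalize hk' : (sqn r b m x').toNat = k' at hy' ⊢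
  rw [r.τ_sq, r.τ_sq]
  unfold φf
  by_cases hM : Mxk θ r b k k'
  · rw [if_pos hM]
    obtain ⟨⟨g1, g2⟩, g3, g4⟩ := hM
    have hj : |r.j| = (3 * θ - Real.pi) / 2 := by
      rcases hv.kind with ⟨-, h⟩ | ⟨⟨h | h, h'⟩ | ⟨-, h⟩, -⟩
      · rw [h] at g1
        norm_num at g1
      · exact absurd h g2
      · rw [h, abs_sub_comm, abs_of_nonneg (by linarith)]
      · rw [h] at g1
        norm_num at g1
    have key : |Real.cos (2 * θ - Real.pi / 2)| ≤ 2 * Real.cos θ * Real.sin θ := by
      rw [Real.cos_sub_pi_div_two, Real.sin_two_mul, abs_of_pos (by positivity)]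
      linarith
    have key' : |Real.cos (-(2 * θ - Real.pi / 2))| ≤ 2 * Real.cos θ * Real.sin θ := by
      rwa [Real.cos_neg]
    rw [g1]
    unfold Row.kf at g3
    by_cases hk1 : r.k0 ≤ k
    · have hk2 : ¬ r.k0 ≤ k' := fun h => g4 (by simp [hk1, h])
      rw [if_pos hk1, if_pos hk1, if_neg hk2, if_neg hk2]
      by_cases hj0 : 0 < r.j
      · rw [if_pos hj0] at g3
        rw [abs_of_pos hj0] at hj
        obtain ⟨-, h, -⟩ | ⟨rfl, -, -⟩ := hy'
        · have := h g3
          omega
        · rw [hj]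
          convert key using 3
          ring
      · rw [if_neg hj0] at g3
        rw [abs_of_nonpos (by linarith)] at hj
        have g3' : b ≠ r.o := by rw [g3]; cases r.o <;> decide
        obtain ⟨rfl, -, -⟩ | ⟨-, -, h⟩ := hy'
        · rw [show r.j = -((3 * θ - Real.pi) / 2) by linarith]
          convert key' using 3
          ring
        · have := h g3'
          omega
    · have hk2 : r.k0 ≤ k' := by
        by_contra h
        exact g4 (by simp [hk1, h])
      rw [if_neg hk1, if_neg hk1, if_pos hk2, if_pos hk2]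
      by_cases hj0 : 0 < r.j
      · rw [if_pos hj0] at g3
        rw [abs_of_pos hj0] at hj
        obtain ⟨rfl, -, -⟩ | ⟨-, h, -⟩ := hy'
        · rw [hj]
          convert key' using 3
          ring
        · have := h g3
          omega
      · rw [if_neg hj0] at g3
        rw [abs_of_nonpos (by linarith)] at hj
        have g3' : b ≠ r.o := by rw [g3]; cases r.o <;> decide
        obtain ⟨-, -, h⟩ | ⟨rfl, -, -⟩ := hy'
        · have := h g3'
          omega
        · rw [show r.j = -((3 * θ - Real.pi) / 2) by linarith]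
          convert key using 3
          ring
  · rw [if_neg hM, one_mul]
    by_cases hkk : r.k0 ≤ k ↔ r.k0 ≤ k'
    · have hη : (if r.k0 ≤ k then r.η else 1) = 1 ∨ (if r.k0 ≤ k then r.η else 1) = -1 := by
        split_ifs
        · exact hv.eta
        · exact Or.inl rfl
      have e1 : (if r.k0 ≤ k' then r.η else 1) = (if r.k0 ≤ k then r.η else 1) :=
        if_congr hkk.symm rfl rfl
      have e2 : (if r.k0 ≤ k' then r.j else 0) = (if r.k0 ≤ k then r.j else 0) :=
        if_congr hkk.symm rfl rfl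
      rw [e1, e2]
      generalize (if r.k0 ≤ k then r.η else 1) = η at hη ⊢
      generalize (if r.k0 ≤ k then r.j else 0) = j
      apply cos_list h13 h12
      replace hy' : y = -(θ / 2) ∨ y = θ / 2 := hy'.imp And.left And.left
      rcases hη with rfl | rfl <;> rcases hv.s with hs' | hs' <;> rw [hs'] <;>
        rcases hy' with rfl | rfl
      · right; right; left; ring
      · right; right; right; right; left; ring
      · right; right; right; right; right; left; ring
      · right; right; right; left; ring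
      · right; right; right; right; right; left; ring
      · right; right; right; left; ring
      · right; right; left; ring
      · right; right; right; right; left; ring
    · rcases hv.eta with hη | hη
      · -- base or plain
        rw [hη, ite_self, ite_self]
        apply cos_list h13 h12
        replace hy' : y = -(θ / 2) ∨ y = θ / 2 := hy'.imp And.left And.left
        have hj : r.j = 0 ∨ r.j = θ ∨ r.j = -θ := by
          rcases hv.kind with ⟨h, -⟩ | ⟨⟨-, h⟩ | ⟨h, -⟩, -⟩
          · exact Or.inl h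
          · rw [h] at hη
            norm_num at hη
          · right
            rcases le_total 0 r.j with h2 | h2
            · rw [abs_of_nonneg h2] at h; exact Or.inl h
            · rw [abs_of_nonpos h2] at h; right; linarith
        generalize hz : (r.cf θ b + (if r.k0 ≤ k then r.j else 0) -
          (r.cf θ b + if r.k0 ≤ k' then r.j else 0)) = z
        have hz' : z = 0 ∨ z = θ ∨ z = -θ := by
          rw [← hz]
          split_ifs
          · left; ring
          · rcases hj with h | h | h
            · left; linarith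
            · right; left; linarith
            · right; right; linarith
          · rcases hj with h | h | h
            · left; linarith
            · right; right; linarith
            · right; left; linarith
          · left; ring
        clear hz
        rcases hv.s with hs' | hs' <;> rw [hs'] <;> rcases hy' with rfl | rfl <;>
          rcases hz' with rfl | rfl | rfl <;>
          first
          | (left; ring; done)
          | (right; left; ring; done)
          | (right; right; left; ring; done)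
          | (right; right; right; left; ring; done)
          | (right; right; right; right; left; ring; done)
          | (right; right; right; right; right; left; ring; done)
          | (right; right; right; right; right; right; left; ring; done)
          | (right; right; right; right; right; right; right; ring; done)
      · -- junctions
        have hj : |r.j| = (Real.pi - θ) / 2 ∨ (|r.j| = (3 * θ - Real.pi) / 2 ∧ b ≠ r.kf) := by
          rcases hv.kind with ⟨-, h⟩ | ⟨⟨h | h, h'⟩ | ⟨-, h⟩, -⟩
          · rw [hη] at h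
            norm_num at h
          · exact Or.inl h
          · by_cases h2 : |r.j| = (Real.pi - θ) / 2
            · exact Or.inl h2
            · right
              refine ⟨?_, fun hb => hM ⟨⟨hη, h2⟩, hb, hkk⟩⟩
              rw [h, abs_sub_comm, abs_of_nonneg (by linarith)]
          · rw [hη] at h
            norm_num at h
        rw [hη]
        apply cos_list h13 h12
        unfold Row.kf at hj
        by_cases hk1 : r.k0 ≤ k
        · have hk2 : ¬ r.k0 ≤ k' := fun h => hkk (by simp [hk1, h])
          rw [if_pos hk1, if_pos hk1, if_neg hk2, if_neg hk2]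
          have hyb : (b = r.o ∧ y = θ / 2) ∨ (b ≠ r.o ∧ y = -(θ / 2)) := by
            by_cases hb : b = r.o
            · rcases hy' with ⟨-, h, -⟩ | ⟨h, -, -⟩
              · have := h hb
                omega
              · exact Or.inl ⟨hb, h⟩
            · rcases hy' with ⟨h, -, -⟩ | ⟨-, -, h⟩
              · exact Or.inr ⟨hb, h⟩
              · have := h hb
                omega
          by_cases hj0 : 0 < r.j
          · rw [if_pos hj0, abs_of_pos hj0] at hj
            rcases hyb with ⟨hb, rfl⟩ | ⟨hb, rfl⟩ <;> rcases hj with hj | ⟨hj, hb'⟩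
            · rw [hj]; left; ring
            · exact absurd hb hb'
            · rw [hj]; right; right; right; left; ring
            · rw [hj]; right; right; left; ring
          · rw [if_neg hj0, abs_of_nonpos (by linarith)] at hj
            rcases hyb with ⟨hb, rfl⟩ | ⟨hb, rfl⟩ <;> rcases hj with hj | ⟨hj, hb'⟩
            · rw [show r.j = -((Real.pi - θ) / 2) by linarith]; right; right; left; ring
            · rw [show r.j = -((3 * θ - Real.pi) / 2) by linarith]
              right; right; right; left; ring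
            · rw [show r.j = -((Real.pi - θ) / 2) by linarith]; right; left; ring
            · exfalso
              revert hb hb'
              cases b <;> cases r.o <;> simp
        · have hk2 : r.k0 ≤ k' := by
            by_contra h
            exact hkk (by simp [hk1, h])
          rw [if_neg hk1, if_neg hk1, if_pos hk2, if_pos hk2]
          have hyb : (b = r.o ∧ y = -(θ / 2)) ∨ (b ≠ r.o ∧ y = θ / 2) := by
            by_cases hb : b = r.o
            · rcases hy' with ⟨h, -, -⟩ | ⟨-, h, -⟩
              · exact Or.inl ⟨hb, h⟩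
              · have := h hb
                omega
            · rcases hy' with ⟨-, -, h⟩ | ⟨h, -, -⟩
              · have := h hb
                omega
              · exact Or.inr ⟨hb, h⟩
          by_cases hj0 : 0 < r.j
          · rw [if_pos hj0, abs_of_pos hj0] at hj
            rcases hyb with ⟨hb, rfl⟩ | ⟨hb, rfl⟩ <;> rcases hj with hj | ⟨hj, hb'⟩
            · rw [hj]; right; left; ring
            · exact absurd hb hb'
            · rw [hj]; right; right; left; ring
            · rw [hj]; right; right; right; left; ring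
          · rw [if_neg hj0, abs_of_nonpos (by linarith)] at hj
            rcases hyb with ⟨hb, rfl⟩ | ⟨hb, rfl⟩ <;> rcases hj with hj | ⟨hj, hb'⟩
            · rw [show r.j = -((Real.pi - θ) / 2) by linarith]; right; right; right; left; ring
            · rw [show r.j = -((3 * θ - Real.pi) / 2) by linarith]
              right; right; left; ring
            · rw [show r.j = -((Real.pi - θ) / 2) by linarith]; left; ring
            · exfalso
              revert hb hb'
              cases b <;> cases r.o <;> simp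

end wt

/-! ### coordinates -/

section coord

variable {r : Row} {b c : Bool} {m k : ℕ} {x ρ : ℤ} {v : ℤ × ℤ}

theorem Lq_st (h : nm (v - r.sq m) ≤ ρ) :
    (-(ρ + 1) ≤ (Lq (r.st b m) (fdr r b) v).1 ∧ (Lq (r.st b m) (fdr r b) v).1 ≤ ρ + 1) ∧
      -(ρ + 1) ≤ (Lq (r.st b m) (fdr r b) v).2 ∧ (Lq (r.st b m) (fdr r b) v).2 ≤ ρ + 1 := by
  obtain ⟨d0, d1, d2, d3, d4, d5, d6, d7⟩ := dxy
  rw [nm_le_iff] at h
  simp only [Prod.fst_sub, Prod.snd_sub] at h
  unfold H825.Q.Row.sq at h
  unfold fdr Row.st Lq
  cases ho : r.o <;> cases b <;>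
    simp [ho, d0, d1, d2, d3, d4, d5, d6, d7] at h ⊢ <;> omega

theorem nm_st {m' : ℕ} (h : Lq (r.st b m) (fdr r b) v ∈ wFU m') : nm (v - r.sq m) ≤ m' + 1 := by
  obtain ⟨d0, d1, d2, d3, d4, d5, d6, d7⟩ := dxy
  obtain ⟨h1, h2, h3, h4⟩ := h
  rw [nm_le_iff]
  simp only [Prod.fst_sub, Prod.snd_sub]
  unfold H825.Q.Row.sq
  unfold fdr Row.st Lq at h1 h2 h3 h4
  cases ho : r.o <;> cases b <;>
    simp [ho, d0, d1, d2, d3, d4, d5, d6, d7] at h1 h2 h3 h4 ⊢ <;> omega

theorem es_sq (hL : 1 ≤ r.L) (hk : k < r.L) (h : tlv (r.es c) = r.sq k ∨ hdv (r.es c) = r.sq k) :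
    k = 0 ∨ k = r.L - 1 := by
  unfold Row.es H825.Q.Row.sq at h
  cases ho : r.o <;> cases c <;>
    simp only [ho, Bool.false_eq_true, if_false, if_true, tlv, hdv] at h <;>
    split_ifs at h <;> simp only [Prod.ext_iff] at h <;> omega

/-- The step of the frame at the square `m`. -/
theorem sqn_self (r : Row) (b : Bool) (k : ℕ) : sqn r b k (if b = r.o then 0 else -1) = k := by
  unfold sqn
  split_ifs <;> omega

theorem two_face (hL : 1 ≤ r.L) (hk : k < r.L) :
    Two (face r.toRow b k) (r.sq k)
      (sqL (Ls (r.st b k) (fdr r b) (if b = r.o then 0 else -1, 0)) (fdr r b)) ∧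
      sqL (Ls (r.st b k) (fdr r b) (if b = r.o then 0 else -1, 0)) (fdr r b) ∉ r.I := by
  have h0 := sqn_self r b k
  have h1 := two_step (r := r) (b := b) (m := k) (x := if b = r.o then 0 else -1) (by omega)
  have h2 := sqL_in (r := r) (b := b) (m := k) (x := if b = r.o then 0 else -1) (by omega)
  rw [h2, h0, Int.toNat_natCast] at h1
  exact ⟨h1, two_notMem hL hk h1⟩

theorem Lq_sq (h : 0 ≤ sqn r b m x) :
    Lq (r.st b m) (fdr r b) (r.sq (sqn r b m x).toNat) = (x, -1) := by
  rw [← sqL_in h]
  have h1 := Lq_sqL (r.st b m) (fdr r b) (x, 0) (-1)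
  rw [show (-1 : ℤ) + fdr r b = fdr r b - 1 by ring] at h1
  rw [h1, (sqL_e x 0).2.2.2.2.1]
  norm_num

theorem Lq_out : Lq (r.st b m) (fdr r b) (sqL (Ls (r.st b m) (fdr r b) (x, 0)) (fdr r b)) =
    (x, 0) := by
  have h1 := Lq_sqL (r.st b m) (fdr r b) (x, 0) 0
  rw [zero_add] at h1
  rw [h1, (sqL_e x 0).1]

end coord

/-! ### strands in windows -/

section win

variable {θ : ℝ} {w : WinD} {K : Finset (ℤ × ℤ)} {EE : Set Ed} {a : Ed → Bool → ℝ}
  {ω : Cfg} {ℓ : Finset Ed} {e x : Ed}

/-- A strand which starts in the window and lives in `V` stays in the window. -/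
theorem WinD.Ok.strandD (h : w.Ok θ K EE a) (heK : hdv e ∉ K) (hD : hdv e ∈ w.D)
    (hV : ∀ k < ret (nx ω) (bS K) e, hdv ((nx ω)^[k] e) ∈ w.V) :
    ∀ k < ret (nx ω) (bS K) e, hdv ((nx ω)^[k] e) ∈ w.D := by
  intro k
  induction k with
  | zero => exact fun _ => hD
  | succ k ih =>
    intro hk
    have h1 := ih (by omega)
    by_contra h2
    refine QX.out_stays heK hk (h.adj _ ?_ (hV _ hk) h2)
    rw [Function.iterate_succ_apply', tlv_nx]
    exact h1

/-- **The weights of the strands in a window**, off the regular end sides. -/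
theorem WinD.Ok.wS_le (h : w.Ok θ K EE a) (h13 : Real.pi / 3 ≤ θ) (h12 : θ < Real.pi / 2)
    (he : e ∈ bS K) (hr : Returns (nx ω) (bS K) e)
    (hin : ∀ k < ret (nx ω) (bS K) e, hdv ((nx ω)^[k] e) ∈ w.D) (hC : tlv e ∈ w.C)
    (hC' : hdv (nxt (bS K) ω e) ∈ w.C) (hE : e ∉ EE) (hE' : nxt (bS K) ω e ∉ EE) :
    |wS θ K a ω e| ≤ 1 := by
  obtain ⟨hs, hc, hc1⟩ := sin_two_le h13 h12
  obtain ⟨i, j, i1, j1, hij, -, -, -, -, -, hA⟩ := h.exit he hr hin hC hC'
  unfold wS
  rw [abs_div, abs_of_pos hs, div_le_one hs, hA]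
  unfold eeA
  rw [if_neg hE, if_neg hE', add_zero, add_zero]
  apply cos_list h13 h12
  have hσ := h.sg
  obtain ⟨t, ht, ht'⟩ : ∃ t, 4 * (w.s i - w.s j) + (if i < j then -2 else 2) = t ∧
      (t = -6 ∨ t = -2 ∨ t = 2 ∨ t = 6) := by
    refine ⟨_, rfl, ?_⟩
    rcases lt_or_gt_of_ne hij with h1 | h1
    · have h2 := h.pr i j i1 j1 h1
      rw [if_pos h1]
      omega
    · have h2 := h.pr j i j1 i1 h1
      rw [if_neg (by omega)]
      omega
  rw [ht]
  generalize w.σ = σ at hσ ⊢
  rcases hσ with rfl | rfl <;> rcases ht' with rfl | rfl | rfl | rfl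
  · right; left; push_cast; ring
  · right; right; left; push_cast; ring
  · right; right; right; right; left; push_cast; ring
  · right; right; right; right; right; right; left; push_cast; ring
  · right; right; right; right; right; right; right; push_cast; ring
  · right; right; right; right; right; left; push_cast; ring
  · right; right; right; left; push_cast; ring
  · left; push_cast; ring

end win

/-! ### the faces of the rows -/

section faces

variable {ι : Type} [Fintype ι] {θ : ℝ} {r : ι → Row} {zz : ι → ℝ} {i : ι} {R k : ℕ}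
  {K : Finset (ℤ × ℤ)} {ω : Cfg} {ℓ : Finset Ed} {e : Ed}

/-- An exit from an inner square of a row is a face. -/
theorem exit_face (hK : ∀ v, v ∈ K ↔ ∃ i, v ∈ (r i).I) (hL : ∀ i, 1 ≤ (r i).L) (h1 : 1 ≤ k)
    (h2 : k + 1 < (r i).L) (heK : hdv e ∉ K) (ht : tlv e = (r i).sq k) :
    ∃ b, e = face (r i).toRow b k ∧ Lq ((r i).st b k) (fdr (r i) b) (hdv e) =
      (if b = (r i).o then 0 else -1, 0) := by
  have hI : tlv e ∈ (r i).I := by
    rw [ht]
    exact H680.T.sq_mem.2 (show k < (r i).L by omega)
  have he : e ∈ bS (r i).I := mem_bS.2 (Or.inr ⟨fun h => heK ((hK _).2 ⟨i, h⟩), hI⟩)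
  rcases (mem_bS_iff (hL i)).1 he with ⟨b, k', hk', rfl⟩ | ⟨c, rfl⟩
  · obtain ⟨g1, g2⟩ := two_face (b := b) (hL i) hk'
    rcases g1 with ⟨g3, g4⟩ | ⟨g3, g4⟩
    · rw [g4] at hI
      exact absurd hI g2
    · have hkk : k' = k := H680.T.sq_inj (g4.symm.trans ht)
      subst hkk
      exact ⟨b, rfl, by rw [g3]; exact Lq_out⟩
  · rcases es_sq (hL i) (show k < (r i).L by omega) (Or.inl ht) with h | h <;> omega

/-- Isolation in the frame of a face. -/
theorem iso_fdr {b : Bool} (hiso : ∀ v ∈ K, nm (v - (r i).sq k) ≤ R + 2 → v ∈ (r i).I) :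
    ∀ v ∈ K, Lq ((r i).st b k) (fdr (r i) b) v ∈ wFU (R + 1) →
      -1 ≤ (Lq ((r i).st b k) (fdr (r i) b) v).2 → v ∈ (r i).I := fun v hv h1 _ =>
  hiso v hv (by
    have := nm_st h1
    push_cast at this
    linarith)

open Classical in
/-- **[W1] The small strands at the faces of the rows.** -/
theorem face_w1 (hK : ∀ v, v ∈ K ↔ ∃ i, v ∈ (r i).I) (hL : ∀ i, 1 ≤ (r i).L) (hs : RSep r)
    (hv : (r i).Val θ) (h13 : Real.pi / 3 ≤ θ) (h12 : θ < Real.pi / 2) (hk : R + 1 ≤ k)
    (hk' : k + R + 1 ≤ (r i).L) (hiso : ∀ v ∈ K, nm (v - (r i).sq k) ≤ R + 2 → v ∈ (r i).I)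
    (hR : 4 ≤ R) (hg : Good ω) (he : e ∈ bS K) (heK : hdv e ∉ K) (ht : tlv e = (r i).sq k)
    (hsm : ∀ j < ret (nx ω) (bS K) e, nm (hdv ((nx ω)^[j] e) - hdv e) ≤ (R : ℤ) - 4) :
    ∃ b, ∃ k' : ℕ, k' < (r i).L ∧ e = face (r i).toRow b k ∧
      nxt (bS K) ω e = face (r i).toRow b k' ∧
      |wS θ K (⟨fun i => (r i).wall θ (zz i), 0⟩ : WCG ι).ph ω e| ≤
        if Mxk θ (r i) b k k' then 2 * Real.cos θ else 1 := by
  obtain ⟨hsin, hc, hc1⟩ := sin_two_le h13 h12
  obtain ⟨b, hb, hq⟩ := exit_face hK hL (by omega) (by omega) heK ht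
  have hr := QX.returns_good hg he
  have hiso' := iso_fdr (b := b) hiso
  obtain ⟨w, hw, -, hD, hV, -⟩ := rowWin' (θ := θ) (zz := zz) hK hL hs (b := b) (m := k) (R := R)
    (by omega) hk hk' hiso' (Or.inl rfl) (X₀ := ∅) (c := 0) (x₀ := 0) (δ := 0)
    (fun x _ _ h => h.elim) (fun x _ _ h => h.elim) (Or.inl rfl)
  have hnt : nm (hdv e - (r i).sq k) ≤ 1 := by
    rw [← ht]
    exact nm_ht e
  have hnear : ∀ v : ℤ × ℤ, nm (v - (r i).sq k) ≤ R - 2 →
      Lq ((r i).st b k) (fdr (r i) b) v ∈ wFU R := by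
    intro v hv
    obtain ⟨⟨g1, g2⟩, g3, g4⟩ := Lq_st (b := b) hv
    exact ⟨by omega, by omega, by omega, by omega⟩
  have hfar : ∀ j < ret (nx ω) (bS K) e, nm (hdv ((nx ω)^[j] e) - (r i).sq k) ≤ (R : ℤ) - 3 := by
    intro j hj
    have h1 := hsm j hj
    have h2 := H945.Q.nm_sub_le (hdv ((nx ω)^[j] e)) (hdv e) ((r i).sq k)
    omega
  have hinD := hw.strandD heK (by
      rw [hD]
      show Lq _ _ (hdv e) ∈ wRR R
      rw [hq]
      refine ⟨?_, ?_, ?_, ?_⟩ <;> simp only <;> (try split_ifs) <;> omega)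
    (fun j hj => by
      rw [hV]
      exact hnear _ (by have := hfar j hj; omega))
  have hC : Lq ((r i).st b k) (fdr (r i) b) (tlv e) ∈ wFU R := hnear _ (by
    rw [ht, sub_self]
    have : nm (0 : ℤ × ℤ) = 0 := by simp [nm]
    omega)
  have hC' : Lq ((r i).st b k) (fdr (r i) b) (hdv (nxt (bS K) ω e)) ∈ wFU R := by
    obtain ⟨hm, -⟩ := hr.spec
    obtain ⟨j, hj⟩ : ∃ j, ret (nx ω) (bS K) e = j + 1 := ⟨ret (nx ω) (bS K) e - 1, by omega⟩
    have h1 : tlv (nxt (bS K) ω e) = hdv ((nx ω)^[j] e) := by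
      unfold nxt
      rw [hj, Function.iterate_succ_apply', tlv_nx]
    have h2 := nm_ht (nxt (bS K) ω e)
    rw [h1] at h2
    have h3 := hfar j (by omega)
    have h4 := H945.Q.nm_sub_le (hdv (nxt (bS K) ω e)) (hdv ((nx ω)^[j] e)) ((r i).sq k)
    exact hnear _ (by omega)
  obtain ⟨x, x', hx, hx1, hx2, hx3, hx4, hx5, hx6, hx7, hx8, hx9⟩ := strand_face (θ := θ) (zz := zz)
    hK hL hs (b := b) (m := k) (R := R) (by omega) hk hk' hiso' he hr (fun j hj => by
      have := hinD j hj
      rwa [hD] at this) hC hC'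
  have hsq : ∀ x : ℤ, -(R : ℤ) ≤ x → x < R → 0 ≤ sqn (r i) b k x ∧ sqn (r i) b k x < (r i).L := by
    intro x h1 h2
    unfold sqn
    split_ifs <;> omega
  obtain ⟨b1, b2⟩ := hsq x hx1 hx2
  obtain ⟨c1, c2⟩ := hsq x' hx3 hx4
  have hkx : (sqn (r i) b k x).toNat = k := H680.T.sq_inj (hx7.symm.trans ht)
  refine ⟨b, (sqn (r i) b k x').toNat, by omega, hb, hx6, ?_⟩
  have h1 := ang_face h13 h12 hv hx b1 b2 c1 c2
  unfold wS
  rw [abs_div, abs_of_pos hsin, div_le_iff₀ hsin, hx9]
  rw [hkx] at h1 ⊢
  exact h1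

end faces

end Vale.Agent.P167.N.ID
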