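import Vale.Agent.P167.N.ID.WinM

/-!
# P167, `q < 1`, START: the windows of the small loops at the faces of the rows

* `face_win`: the windows at a face, for the colour of the square `k`.
* `face_w2`: a small loop at a face lives in a window; the base pieces have an end next to the
  invisible base site.
-/

set_option autoImplicit false

namespace Vale.Agent.P167.N.ID

open Finset
open Vale.Agent.P167.A (plane)
open Vale.Agent.P167.BR
open Vale.Agent.P167.Top
open Vale.Agent.P167.FK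
open Vale.Agent.P167.H871
open Vale.Agent.P167.H871.Q
open Vale.Agent.P167.XDL (bS mem_bS)
open Vale.Agent.P167.H199 (ah at' strand ret Returns)
open Vale.Agent.P167.Enl (Two two_inj)
open Vale.Agent.P167.H680.T (WallG WCG nm_ht par par_cases)
open Vale.Agent.P167.H945.Q (face faces)
open Vale.Agent.P167.H680.S (nxt nxt_mem)
open Vale.Agent.P167.QX (wS fLp)

theorem Ls_st {r : Row} {b : Bool} {m k : ℕ} {x : ℤ} (h : if b = r.o then (k : ℤ) = m + x else
    (k : ℤ) = m - x) : Ls (r.st b m) (fdr r b) (x, 0) = r.st b k := by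
  obtain ⟨d0, d1, d2, d3, d4, d5, d6, d7⟩ := dxy
  unfold fdr Row.st Ls
  cases ho : r.o <;> cases b <;>
    simp [ho, d0, d1, d2, d3, d4, d5, d6, d7] at h ⊢ <;> omega

theorem pz_par (z : ℤ × ℤ) : (pz z : ℝ) = par z := by
  unfold pz par
  split_ifs <;> simp

section faces

variable {ι : Type} [Fintype ι] {θ : ℝ} {r : ι → Row} {zz : ι → ℝ} {i : ι} {R k : ℕ}
  {K : Finset (ℤ × ℤ)} {ω : Cfg} {ℓ : Finset Ed} {e : Ed} {b : Bool}

/-- **The window at a face, for the colour of the square `k`.** -/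
theorem face_win (hK : ∀ v, v ∈ K ↔ ∃ i, v ∈ (r i).I) (hL : ∀ i, 1 ≤ (r i).L) (hs : RSep r)
    (hv : (r i).Val θ) (h0 : 0 < θ) (hk : R + 1 ≤ k)
    (hk' : k + R + 1 ≤ (r i).L) (hiso : ∀ v ∈ K, nm (v - (r i).sq k) ≤ R + 2 → v ∈ (r i).I)
    (hR : 1 ≤ R) (hk0 : (r i).j ≠ 0 → (r i).η = 1 → 1 ≤ (r i).k0) :
    ∃ w : WinD, w.Ok θ K (EEr r) (⟨fun i => (r i).wall θ (zz i), 0⟩ : WCG ι).ph ∧
      (w.σ : ℝ) = (r i).τ ((r i).sq k) ∧
      w.D = {v | Lq ((r i).st b k) (fdr (r i) b) v ∈ wRR R} ∧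
      w.V = {v | Lq ((r i).st b k) (fdr (r i) b) v ∈ wFU R} ∧
      (∀ v, (v ∈ K ∧ Lq ((r i).st b k) (fdr (r i) b) v ∈ wFU R ∧
        ((r i).η = 1 ∨ ((r i).k0 ≤ (sqn (r i) b k (Lq ((r i).st b k) (fdr (r i) b) v).1).toNat ↔
          (r i).k0 ≤ k))) → v ∈ w.C) ∧
      ∀ j, w.Z j → ((r i).j ≠ 0 ∧ (r i).η = 1) ∧ b = !(r i).kf ∧ w.u j = fdr (r i) b ∧ w.u (j + 1) = fdr (r i) b ∧
        ∃ x x' : ℤ, w.P j = Ls ((r i).st b k) (fdr (r i) b) (x, 0) ∧
          w.P (j + 1) = Ls ((r i).st b k) (fdr (r i) b) (x', 0) ∧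
          (sqn (r i) b k x = (r i).k0 ∨ sqn (r i) b k x = (r i).k0 - 1) ∧
          (sqn (r i) b k x' = (r i).k0 ∨ sqn (r i) b k x' = (r i).k0 - 1) := by
  have hiso' := iso_fdr (b := b) hiso
  rcases hv.eta with hη | hη
  · -- one colour
    have hτ : ∀ m, (r i).τ ((r i).sq m) = (r i).s := fun m => by
      rw [(r i).τ_sq, hη, ite_self, mul_one]
    obtain ⟨σ, hσ, hσs⟩ : ∃ σ : ℤ, (σ = 1 ∨ σ = -1) ∧ (σ : ℝ) = (r i).s := by
      rcases hv.s with h | h
      · exact ⟨1, Or.inl rfl, by rw [h]; norm_num⟩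
      · exact ⟨-1, Or.inr rfl, by rw [h]; norm_num⟩
    obtain ⟨δj, hδj, hδj'⟩ : ∃ δj : ℤ, (δj : ℝ) * θ = (r i).j ∧ (δj = 0 ∨ ((r i).j ≠ 0 ∧
        ((δj = 1 ∧ 0 < (r i).j) ∨ (δj = -1 ∧ (r i).j < 0)))) := by
      rcases hv.kind with ⟨h, -⟩ | ⟨⟨-, h⟩ | ⟨h, -⟩, -⟩
      · exact ⟨0, by rw [h]; norm_num, Or.inl rfl⟩
      · rw [hη] at h
        norm_num at h
      · rcases le_or_gt 0 (r i).j with h2 | h2
        · rw [abs_of_nonneg h2] at h
          exact ⟨1, by rw [h]; norm_num, Or.inr ⟨by rw [h]; exact h0.ne', Or.inl ⟨rfl, by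
            rw [h]; exact h0⟩⟩⟩
        · rw [abs_of_neg h2] at h
          exact ⟨-1, by push_cast; linarith, Or.inr ⟨h2.ne, Or.inr ⟨rfl, h2⟩⟩⟩
    by_cases hb : b = (r i).o
    · obtain ⟨w, w1, w2, w3, w4, w5, w6, w7, -⟩ := rowWin' (θ := θ) (zz := zz) hK hL hs (b := b)
        (m := k) (R := R) hR hk hk' hiso' hσ (X₀ := Set.univ)
        (c := (r i).cf θ b - θ / 4 * fdr (r i) b) (x₀ := (r i).k0 - k) (δ := δj)
        (fun x _ _ _ => by rw [hτ, hσs])
        (fun x h1 h2 _ => by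
          unfold φf sqn
          rw [if_pos hb]
          by_cases h3 : x < ((r i).k0 : ℤ) - k
          · rw [if_pos h3, if_neg (by omega)]
            push_cast
            ring
          · rw [if_neg h3, if_pos (by omega), ← hδj]
            push_cast
            ring) (by
          rcases hδj' with h | ⟨hj0, ⟨h, h'⟩ | ⟨h, h'⟩⟩
          · exact Or.inl h
          · refine Or.inr (Or.inr ⟨h, ?_⟩)
            have hkf : (r i).kf = b := by unfold Row.kf; rw [if_pos h', hb]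
            have hgd := hv.gd hη hj0
            rw [hkf, ← pz_par, ← hσs] at hgd
            rw [Ls_st (k := (r i).k0) (by rw [if_pos hb]; ring)]
            have hgd' : pz ((r i).st b (r i).k0) * σ = -1 := by exact_mod_cast hgd
            rcases hσ with rfl | rfl
            · left; exact ⟨rfl, by omega⟩
            · right; exact ⟨rfl, by omega⟩
          · exact Or.inr (Or.inl h))
      refine ⟨w, w1, by rw [w2, hσs, hτ], w3, w4, fun v hv => ?_, fun j hj => ?_⟩
      · rw [w5]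
        exact ⟨hv.1, hv.2.1, trivial⟩
      · obtain ⟨g1, g2, g3, g4⟩ := w7 j hj
        have hδ : δj = -1 := by
          by_contra h
          exact w6 h j hj
        refine ⟨⟨?_, hη⟩, ?_, g2, g3, _, _, g4, g1, Or.inr ?_, Or.inl ?_⟩
        · rcases hδj' with h | ⟨h, -⟩
          · omega
          · exact h
        · rcases hδj' with h | ⟨-, ⟨h, -⟩ | ⟨-, h⟩⟩
          · omega
          · omega
          · unfold Row.kf
            rw [if_neg (by linarith), Bool.not_not, hb]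
        · unfold sqn
          rw [if_pos hb]
          ring
        · unfold sqn
          rw [if_pos hb]
          ring
    · obtain ⟨w, w1, w2, w3, w4, w5, w6, w7, -⟩ := rowWin' (θ := θ) (zz := zz) hK hL hs (b := b)
        (m := k) (R := R) hR hk hk' hiso' hσ (X₀ := Set.univ)
        (c := (r i).cf θ b + (r i).j - θ / 4 * fdr (r i) b) (x₀ := k - (r i).k0) (δ := -δj)
        (fun x _ _ _ => by rw [hτ, hσs])
        (fun x h1 h2 _ => by
          unfold φf sqn
          rw [if_neg hb]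
          by_cases h3 : x < (k : ℤ) - (r i).k0
          · rw [if_pos h3, if_pos (by omega)]
            push_cast
            ring
          · rw [if_neg h3, if_neg (by omega), ← hδj]
            push_cast
            ring) (by
          rcases hδj' with h | ⟨hj0, ⟨h, h'⟩ | ⟨h, h'⟩⟩
          · exact Or.inl (by rw [h]; rfl)
          · exact Or.inr (Or.inl (by rw [h]))
          · refine Or.inr (Or.inr ⟨by rw [h]; rfl, ?_⟩)
            have hkf : (r i).kf = b := by
              unfold Row.kf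
              rw [if_neg (by linarith)]
              revert hb
              cases b <;> cases (r i).o <;> simp
            have hgd := hv.gd hη hj0
            rw [hkf, ← pz_par, ← hσs] at hgd
            rw [Ls_st (k := (r i).k0) (by rw [if_neg hb]; ring)]
            have hgd' : pz ((r i).st b (r i).k0) * σ = -1 := by exact_mod_cast hgd
            rcases hσ with rfl | rfl
            · left; exact ⟨rfl, by omega⟩
            · right; exact ⟨rfl, by omega⟩)
      refine ⟨w, w1, by rw [w2, hσs, hτ], w3, w4, fun v hv => ?_, fun j hj => ?_⟩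
      · rw [w5]
        exact ⟨hv.1, hv.2.1, trivial⟩
      · obtain ⟨g1, g2, g3, g4⟩ := w7 j hj
        have hδ : -δj = -1 := by
          by_contra h
          exact w6 h j hj
        refine ⟨⟨?_, hη⟩, ?_, g2, g3, _, _, g4, g1, Or.inl ?_, Or.inr ?_⟩
        · rcases hδj' with h | ⟨h, -⟩
          · omega
          · exact h
        · rcases hδj' with h | ⟨-, ⟨-, h⟩ | ⟨h, -⟩⟩
          · omega
          · unfold Row.kf
            rw [if_pos h]
            revert hb
            cases b <;> cases (r i).o <;> simp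
          · omega
        · unfold sqn
          rw [if_neg hb]
          ring
        · unfold sqn
          rw [if_neg hb]
          ring
  · -- junction
    obtain ⟨σ, hσ, hσs⟩ : ∃ σ : ℤ, (σ = 1 ∨ σ = -1) ∧ (σ : ℝ) = (r i).τ ((r i).sq k) := by
      rw [(r i).τ_sq, hη]
      rcases hv.s with h | h <;> rw [h] <;> split_ifs
      · exact ⟨-1, Or.inr rfl, by norm_num⟩
      · exact ⟨1, Or.inl rfl, by norm_num⟩
      · exact ⟨1, Or.inl rfl, by norm_num⟩
      · exact ⟨-1, Or.inr rfl, by norm_num⟩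
    obtain ⟨w, w1, w2, w3, w4, w5, w6, w7, -⟩ := rowWin' (θ := θ) (zz := zz) hK hL hs (b := b)
      (m := k) (R := R) hR hk hk' hiso' hσ
      (X₀ := {x | (r i).k0 ≤ (sqn (r i) b k x).toNat ↔ (r i).k0 ≤ k})
      (c := φf θ (r i) b k - θ / 4 * fdr (r i) b) (x₀ := 0) (δ := 0)
      (fun x _ _ hx => by
        rw [hσs, (r i).τ_sq, (r i).τ_sq]
        congr 1
        exact if_congr hx rfl rfl)
      (fun x _ _ hx => by
        have e1 : φf θ (r i) b (sqn (r i) b k x).toNat = φf θ (r i) b k := by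
          unfold φf
          congr 1
          exact if_congr hx rfl rfl
        rw [e1, ite_self]
        push_cast
        ring) (Or.inl rfl)
    refine ⟨w, w1, by rw [w2, hσs], w3, w4, fun v hv => ?_, fun j hj => ?_⟩
    · rw [w5]
      refine ⟨hv.1, hv.2.1, ?_⟩
      rcases hv.2.2 with h | h
      · rw [hη] at h
        norm_num at h
      · exact h
    · exact absurd hj (w6 (by norm_num) j)

/-- **[W2] The small loops at the faces of the rows live in windows.** -/
theorem face_w2 (hK : ∀ v, v ∈ K ↔ ∃ i, v ∈ (r i).I) (hL : ∀ i, 1 ≤ (r i).L) (hs : RSep r)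
    (hv : (r i).Val θ) (h0 : 0 < θ) (hk : R + 1 ≤ k)
    (hk' : k + R + 1 ≤ (r i).L) (hiso : ∀ v ∈ K, nm (v - (r i).sq k) ≤ R + 2 → v ∈ (r i).I)
    (hR : 4 ≤ R) (hk0 : (r i).j ≠ 0 → (r i).η = 1 → 1 ≤ (r i).k0) (hl : IsLoop ω ℓ)
    (he : e ∈ bS K) (heK : hdv e ∉ K) (ht : tlv e = (r i).sq k) (hel : e ∈ ℓ)
    (hsm : ∀ y ∈ ℓ, nm (hdv y - hdv e) ≤ (R : ℤ) - 4) (hf : ∀ v ∈ (r i).I, ω v = (r i).fr v)
    (hcol : ∀ y ∈ ℓ, hdv y ∈ K → ω (hdv y) = ω (tlv e)) :
    ∃ w : WinD, w.Ok θ K (EEr r) (⟨fun i => (r i).wall θ (zz i), 0⟩ : WCG ι).ph ∧ w.Lv K ω ℓ ∧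
      ∀ x ∈ ℓ, x ∈ bS K → hdv x ∈ K → w.Bse K ω x →
        nxt (bS K) ω x = face (r i).toRow (!(r i).kf) (r i).k0 ∨
          nxt (bS K) ω x = face (r i).toRow (!(r i).kf) ((r i).k0 - 1) := by
  obtain ⟨b, hb, hq⟩ := exit_face hK hL (by omega) (by omega) heK ht
  obtain ⟨w, w1, w2, w3, w4, w5, w6⟩ := face_win (θ := θ) (zz := zz) (b := b) hK hL hs hv h0 hk hk'
    hiso (by omega) hk0
  have hnt : nm (hdv e - (r i).sq k) ≤ 1 := by
    rw [← ht]
    exact nm_ht e
  have hnear : ∀ v : ℤ × ℤ, nm (v - (r i).sq k) ≤ R - 2 →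
      Lq ((r i).st b k) (fdr (r i) b) v ∈ wFU R := by
    intro v hv
    obtain ⟨⟨g1, g2⟩, g3, g4⟩ := Lq_st (b := b) hv
    exact ⟨by omega, by omega, by omega, by omega⟩
  have hfar : ∀ y ∈ ℓ, nm (hdv y - (r i).sq k) ≤ (R : ℤ) - 3 := by
    intro y hy
    have h1 := hsm y hy
    have h2 := H945.Q.nm_sub_le (hdv y) (hdv e) ((r i).sq k)
    omega
  have hsqk : (r i).sq k ∈ (r i).I := H680.T.sq_mem.2 (show k < (r i).L by omega)
  have hLv : w.Lv K ω ℓ := by
    refine ⟨hl, fun y hy => ?_, fun y hy hyK => ?_, ⟨e, he, hel⟩, ⟨e, hel, ?_⟩⟩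
    · rw [w4]
      exact hnear _ (by have := hfar y hy; omega)
    · have hy1 := hfar y hy
      have hyI : hdv y ∈ (r i).I := hiso _ hyK (by omega)
      have hco := hcol y hy hyK
      rw [ht, hf _ hyI, hf _ hsqk] at hco
      obtain ⟨k'', hk'', hyk⟩ := H945.Q.exists_sq hyI
      have hfr : ω (hdv y) = decide (w.σ = -1) := by
        rw [hf _ hyI, hco]
        unfold H825.Q.Row.fr
        rw [← w2]
        exact decide_eq_decide.2 (by norm_cast)
      refine ⟨w5 _ ⟨hyK, hnear _ (by omega), ?_⟩, hfr⟩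
      rcases hv.eta with hη | hη
      · exact Or.inl hη
      · right
        obtain ⟨x, hx⟩ : ∃ x, sqn (r i) b k x = k'' := by
          unfold sqn
          by_cases h : b = (r i).o
          · exact ⟨(k'' : ℤ) - k, by rw [if_pos h]; ring⟩
          · exact ⟨(k : ℤ) - 1 - k'', by rw [if_neg h]; ring⟩
        have h1 := Lq_sq (r := r i) (b := b) (m := k) (x := x) (by omega)
        rw [hx, Int.toNat_natCast] at h1
        rw [← hyk, h1, hx, Int.toNat_natCast]
        rw [← hyk] at hco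
        unfold H825.Q.Row.fr at hco
        rw [(r i).τ_sq, (r i).τ_sq, hη, decide_eq_decide] at hco
        rcases hv.s with h | h <;> rw [h] at hco <;> split_ifs at hco with c1 c2 c2 <;>
          simp only [c1, c2, iff_true, iff_false, not_false_eq_true, not_true_eq_false] <;>
          norm_num at hco
    · rw [w3]
      show Lq _ _ (hdv e) ∈ wRR R
      rw [hq]
      refine ⟨?_, ?_, ?_, ?_⟩ <;> simp only <;> (try split_ifs) <;> omega
  refine ⟨w, w1, hLv, fun x hx hxS hxK hB => ?_⟩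
  obtain ⟨hnm, hnl⟩ := nxt_mem (S := bS K) hl hxS hx
  have hnK : hdv (nxt (bS K) ω x) ∉ K := by
    have hr := QX.returns_loop hl hx hxS
    obtain ⟨hm, -⟩ := hr.spec
    obtain ⟨j, hj⟩ : ∃ j, ret (nx ω) (bS K) x = j + 1 := ⟨ret (nx ω) (bS K) x - 1, by omega⟩
    have h1 : tlv (nxt (bS K) ω x) = hdv ((nx ω)^[j] x) := by
      unfold nxt
      rw [hj, Function.iterate_succ_apply', tlv_nx]
    have h2 : tlv (nxt (bS K) ω x) ∈ K := by
      rw [h1]
      exact QX.in_stays hxK (by omega)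
    rcases mem_bS.1 hnm with ⟨-, h3⟩ | ⟨h3, -⟩
    · exact absurd h2 h3
    · exact h3
  have hnD := w1.stay hLv _ hnl hnK
  obtain ⟨j, hj, hB⟩ := hB
  obtain ⟨hjη, hbk, u1, u2, x1, x2, P1, P2, s1, s2⟩ := w6 j hj
  have hk1 : 1 ≤ (r i).k0 := hk0 hjη.1 hjη.2
  have key : ∀ (x₁ : ℤ) (j₁ : ℕ), (sqn (r i) b k x₁ = (r i).k0 ∨ sqn (r i) b k x₁ = (r i).k0 - 1) →
      P4 (nxt (bS K) ω x) = M4 (w.P j₁) (w.u j₁) → w.u j₁ = fdr (r i) b →
      w.P j₁ = Ls ((r i).st b k) (fdr (r i) b) (x₁, 0) →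
      nxt (bS K) ω x = face (r i).toRow (!(r i).kf) (r i).k0 ∨
        nxt (bS K) ω x = face (r i).toRow (!(r i).kf) ((r i).k0 - 1) := by
    intro x₁ j₁ h1 h2 h3 h4
    obtain ⟨-, -, -, c4, c5⟩ := cross_in w1.bd h2 hnD
    rw [h3, h4] at c4 c5
    have h5 := two_inj (Or.inr ⟨c4, c5⟩) (two_step (r := r i) (b := b) (m := k) (x := x₁)
      (by omega))
    rw [hbk] at h5 h1
    rcases h1 with h1 | h1
    · left
      rw [h5, h1, Int.toNat_natCast]
    · right
      rw [h5, h1]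
      congr 1
      omega
  rcases hB with ⟨-, hB⟩ | ⟨-, hB⟩
  · exact key x2 (j + 1) s2 hB u2 P2
  · exact key x1 j s1 hB u1 P1

end faces

end Vale.Agent.P167.N.ID
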