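import Vale.Agent.P167.N.ID.WinNa
import Vale.Agent.P167.N.ID.RowCols
import Vale.Agent.P167.N.ID.L1SgA

/-!
# P167, `q < 1`, START: the windows of a frame, at one scale

* `Scl`: the scales; `far_row`: squares of the rows far from the holes.
* `w1_n`, `w2_n`, `w3_n`, `w0_n`: the four parts of `FrS.WinG` at one scale.
-/

set_option autoImplicit false

namespace Vale.Agent.P167.N.ID

open Finset Filter
open Vale.Agent.P167.A (plane)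
open Vale.Agent.P167.BR hiding dv
open Vale.Agent.P167.Top
open Vale.Agent.P167.FK
open Vale.Agent.P167.H871
open Vale.Agent.P167.H871.Q
open Vale.Agent.P167.XDL (bS mem_bS)
open Vale.Agent.P167.H199 (ah at' strand ret Returns)
open Vale.Agent.P167.Enl (Two two_inj)
open Vale.Agent.P167.H680.T (WallG WCG nm_ht par par_cases mem_uI)
open Vale.Agent.P167.H945.Q (face faces nm_sub_le nm_comm lrs)
open Vale.Agent.P167.H680.S (nxt nxt_mem)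
open Vale.Agent.P167.QX (wS fLp InB)
open Vale.Agent.P167.H562.QM (MajA)

/-- The scales. -/
structure Scl (g δ κ' κ₁ : ℝ) (n : ℕ) : Prop where
  big : 64 ≤ δ * n
  dk : 16 * δ ≤ κ'
  kg : 64 * κ' ≤ g
  kh : 64 * κ' ≤ κ₁
  g1 : g ≤ 1

theorem Scl.bd {g δ κ' κ₁ : ℝ} {n : ℕ} (h : Scl g δ κ' κ₁ n) :
    16 * (δ * n) ≤ κ' * n ∧ 64 * (κ' * n) ≤ g * n ∧ 64 * (κ' * n) ≤ κ₁ * n ∧ 0 < (n : ℝ) ∧
      0 < δ ∧ 0 < κ' := by
  have hn : (0 : ℝ) ≤ n := Nat.cast_nonneg n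
  have hn0 : (0 : ℝ) < n := by
    rcases hn.lt_or_eq with h1 | h1
    · exact h1
    · have := h.big
      rw [← h1, mul_zero] at this
      norm_num at this
  have hδ : 0 < δ := by
    by_contra h1
    have h2 : δ * n ≤ 0 := mul_nonpos_of_nonpos_of_nonneg (not_lt.1 h1) hn
    linarith [h.big]
  refine ⟨?_, ?_, ?_, hn0, hδ, by linarith [h.dk]⟩
  · have := mul_le_mul_of_nonneg_right h.dk hn
    linarith
  · have := mul_le_mul_of_nonneg_right h.kg hn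
    linarith
  · have := mul_le_mul_of_nonneg_right h.kh hn
    linarith

theorem nm_zero2 : nm (0 : ℤ × ℤ) = 0 := by simp [nm]

theorem nm_hullW {u v w : ℤ × ℤ} (h1 : min u.1 v.1 ≤ w.1) (h2 : w.1 ≤ max u.1 v.1)
    (h3 : min u.2 v.2 ≤ w.2) (h4 : w.2 ≤ max u.2 v.2) : nm (u - w) ≤ nm (u - v) := by
  have h5 := le_refl (nm (u - v))
  rw [nm_le_iff] at h5 ⊢
  simp only [Prod.fst_sub, Prod.snd_sub] at h5 ⊢
  omega

theorem nm_sq2 {r : H825.Q.Row} {a b : ℕ} {m : ℤ} (h1 : (a : ℤ) ≤ b + m) (h2 : (b : ℤ) ≤ a + m) :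
    nm (r.sq a - r.sq b) ≤ m := by
  rw [nm_le_iff]
  unfold H825.Q.Row.sq
  cases r.o <;> simp <;> omega

section one

variable {Φ : FrS Row} {θ β : ℝ} {hc : 0 ≤ Real.cos θ} {l : ℕ} {p : ZMod l → ℤ × ℤ}
  {S₀ : Finset (ℤ × ℤ)} {g δ κ' κ₁ : ℝ} {n : ℕ} {ω : Cfg} {e : Ed} {ℓ : Finset Ed} {i : Φ.ι} {k : ℕ}

theorem mem_UK (Φ : FrS Row) (θ δ : ℝ) (n : ℕ) :
    ∀ v, v ∈ Φ.U (rowS θ) δ n ↔ ∃ i, v ∈ (Φ.r δ n i).I := fun _ => mem_uI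

theorem GeoN.rsep (hG : Φ.GeoN (rowS θ) (rowF hc) {true} θ β p S₀ g δ n)
    (hS : Scl g δ κ' κ₁ n) : RSep (Φ.r δ n) := by
  intro i k hik u hu v hv
  have h1 := hG.sepr i k hik u hu v hv
  have h2 := hS.big
  have h3 : (1 : ℝ) < nm (u - v) := by linarith
  exact_mod_cast h3

theorem GeoN.mg (hG : Φ.GeoN (rowS θ) (rowF hc) {true} θ β p S₀ g δ n) (i : Φ.ι) :
    (Φ.r δ n i).Val θ ∧ g * n ≤ (Φ.r δ n i).mg := hG.val i

theorem GeoN.one_le (hG : Φ.GeoN (rowS θ) (rowF hc) {true} θ β p S₀ g δ n)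
    (hS : Scl g δ κ' κ₁ n) (i : Φ.ι) : 1 ≤ (Φ.r δ n i).L := by
  obtain ⟨b1, b2, b3, b4, b5, b6⟩ := hS.bd
  have h1 := (GeoN.mg hG i).2
  have h2 := (Φ.r δ n i).mg_le
  have h3 : (1 : ℝ) ≤ (Φ.r δ n i).mg := by linarith [hS.big]
  have h4 : 1 ≤ (Φ.r δ n i).mg := by exact_mod_cast h3
  omega

theorem Rsz (hS : Scl g δ κ' κ₁ n) : (((⌊κ' * n⌋₊ + 5 : ℕ) : ℤ) : ℝ) ≤ κ' * n + 5 ∧
    κ' * n < ⌊κ' * n⌋₊ + 1 := by
  obtain ⟨b1, b2, b3, b4, b5, b6⟩ := hS.bd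
  have h1 := Nat.floor_le (show 0 ≤ κ' * n by positivity)
  have h2 := Nat.lt_floor_add_one (κ' * n)
  push_cast
  exact ⟨by linarith, h2⟩

/-- Smallness in integers. -/
theorem sm_int (hS : Scl g δ κ' κ₁ n) {a : ℤ} (h : (a : ℝ) < κ' * n) :
    a ≤ ((⌊κ' * n⌋₊ + 5 : ℕ) : ℤ) - 4 := by
  have h1 : (a : ℝ) < ((⌊κ' * n⌋₊ + 1 : ℤ) : ℝ) := by
    push_cast
    linarith [(Rsz hS).2]
  have h2 : a < ⌊κ' * n⌋₊ + 1 := by exact_mod_cast h1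
  push_cast
  omega

/-- **Squares of the rows far from the holes.** -/
theorem far_row (hG : Φ.GeoN (rowS θ) (rowF hc) {true} θ β p S₀ g δ n) (hE : Φ.Ends δ n)
    (hS : Scl g δ κ' κ₁ n) (hk : k < (Φ.r δ n i).L)
    (hfar : ∀ x, 2 * (κ' * n) < nm ((Φ.r δ n i).sq k - Φ.h δ n x)) :
    ⌊κ' * n⌋₊ + 5 + 1 ≤ k ∧ k + (⌊κ' * n⌋₊ + 5) + 1 ≤ (Φ.r δ n i).L ∧
      ∀ v ∈ Φ.U (rowS θ) δ n, nm (v - (Φ.r δ n i).sq k) ≤ ((⌊κ' * n⌋₊ + 5 : ℕ) : ℤ) + 2 →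
        v ∈ (Φ.r δ n i).I := by
  obtain ⟨b1, b2, b3, b4, b5, b6⟩ := hS.bd
  have hb := hS.big
  obtain ⟨r1, r2⟩ := Rsz hS
  have hend : ∀ e : Bool, ((⌊κ' * n⌋₊ + 5 : ℕ) : ℤ) <
      nm ((Φ.r δ n i).sq k - (Φ.r δ n i).sq (if e then (Φ.r δ n i).L - 1 else 0)) := by
    intro e
    obtain ⟨x, hx⟩ := hE i e
    have h1 := hfar x
    have h2 : (nm ((Φ.r δ n i).sq k - Φ.h δ n x) : ℝ) ≤
        nm ((Φ.r δ n i).sq k - (Φ.r δ n i).sq (if e then (Φ.r δ n i).L - 1 else 0)) +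
        nm ((Φ.r δ n i).sq (if e then (Φ.r δ n i).L - 1 else 0) - Φ.h δ n x) := by
      exact_mod_cast nm_sub_le _ _ _
    have h3 : (((⌊κ' * n⌋₊ + 5 : ℕ) : ℤ) : ℝ) <
      nm ((Φ.r δ n i).sq k - (Φ.r δ n i).sq (if e then (Φ.r δ n i).L - 1 else 0)) := by
      linarith
    exact_mod_cast h3
  refine ⟨?_, ?_, ?_⟩
  · by_contra h
    have h1 := hend false
    rw [if_neg (by decide)] at h1
    have h2 : nm ((Φ.r δ n i).sq k - (Φ.r δ n i).sq 0) ≤ k :=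
      nm_sq2 (by push_cast; omega) (by push_cast; omega)
    omega
  · by_contra h
    have h1 := hend true
    rw [if_pos rfl] at h1
    have h2 : nm ((Φ.r δ n i).sq k - (Φ.r δ n i).sq ((Φ.r δ n i).L - 1)) ≤
      (((Φ.r δ n i).L - 1 : ℕ) : ℤ) - k := nm_sq2 (by omega) (by omega)
    omega
  · intro v hv hvk
    obtain ⟨j, hj⟩ := (mem_UK Φ θ δ n v).1 hv
    by_cases hij : i = j
    · subst hij
      exact hj
    · exfalso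
      have hk' : (Φ.r δ n i).sq k ∈ (Φ.r δ n i).I := H680.T.sq_mem.2 hk
      rw [nm_comm] at hvk
      have hvk' : (nm ((Φ.r δ n i).sq k - v) : ℝ) ≤ (((⌊κ' * n⌋₊ + 5 : ℕ) : ℤ) : ℝ) + 2 := by
        exact_mod_cast hvk
      obtain ⟨x, w, h1, h2, h3, h4, h5⟩ := hG.hull i j hij _ hk' v hj (by linarith)
      have h6 := nm_hullW h1 h2 h3 h4
      have h7 := nm_sub_le ((Φ.r δ n i).sq k) w (Φ.h δ n x)
      have h8 : (nm ((Φ.r δ n i).sq k - Φ.h δ n x) : ℝ) ≤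
          nm ((Φ.r δ n i).sq k - v) + nm (w - Φ.h δ n x) := by exact_mod_cast h7.trans (by omega)
      linarith [hfar x]

/-- The colours at the holes. -/
theorem col_hole (hG : Φ.GeoN (rowS θ) (rowF hc) {true} θ β p S₀ g δ n)
    (hf : Φ.Frz (rowS θ) δ n ω) {x : Φ.H} {v : ℤ × ℤ} (hv : v ∈ Φ.U (rowS θ) δ n)
    (h : (nm (v - Φ.h δ n x) : ℝ) < g * n) : ω v = Φ.b δ n x := by
  obtain ⟨i, hi⟩ := (mem_UK Φ θ δ n v).1 hv
  rw [hf i v hi, hG.col x i v hi h]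

/-- The columns of the rows. -/
theorem cols_n (hG : Φ.GeoN (rowS θ) (rowF hc) {true} θ β p S₀ g δ n)
    (hf : Φ.Frz (rowS θ) δ n ω) {w : ℤ} (hw : (w : ℝ) ≤ g * n) (i : Φ.ι) :
    Cols (Φ.r δ n i).toRow w ω := by
  obtain ⟨h1, h2⟩ := GeoN.mg hG i
  exact cols_row (h1.ok h2) hw (hf i)

/-- **A small loop is of one colour.** -/
theorem mono_n (hG : Φ.GeoN (rowS θ) (rowF hc) {true} θ β p S₀ g δ n) (hS : Scl g δ κ' κ₁ n)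
    (hf : Φ.Frz (rowS θ) δ n ω) (hl : IsLoop ω ℓ) (hsm : SmL (κ' * n) ℓ) {y y' : Ed} (hy : y ∈ ℓ)
    (hy' : y' ∈ ℓ) (hK : hdv y ∈ Φ.U (rowS θ) δ n) (hK' : hdv y' ∈ Φ.U (rowS θ) δ n) :
    ω (hdv y) = ω (hdv y') := by
  obtain ⟨b1, b2, b3, b4, b5, b6⟩ := hS.bd
  have hb := hS.big
  obtain ⟨r1, r2⟩ := Rsz hS
  obtain ⟨i, hi⟩ := (mem_UK Φ θ δ n _).1 hK
  obtain ⟨j, hj⟩ := (mem_UK Φ θ δ n _).1 hK'
  refine mono_loop (g := fun i => (Φ.r δ n i).toRow) (w := 2 * ((⌊κ' * n⌋₊ + 5 : ℕ) : ℤ) + 4)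
    (ρ := ((⌊κ' * n⌋₊ + 5 : ℕ) : ℤ)) (c := hdv y) hl
    (cols_n hG hf (by push_cast at r1 ⊢; linarith)) le_rfl (fun z hz => ?_) hy hy' hi hj
  have := sm_int hS (hsm z hz y hy)
  omega

end one

end Vale.Agent.P167.N.ID
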