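import Vale.Agent.P167.N.ID.WtG

/-!
# P167, `q < 1`: the killed strand of a row whose factor is zero

`zero_strand`: if the factor of a special point of a row is zero, there is a strand of weight zero
which stays in the box around the special point.
-/

set_option autoImplicit false

namespace Vale.Agent.P167.N.ID

open Finset
open Vale.Agent.P167
open Vale.Agent.P167.Top
open Vale.Agent.P167.BR (be be_even be_odd)
open Vale.Agent.P167.XDL (bS mem_bS)
open Vale.Agent.P167.FK
open Vale.Agent.P167.H199 (strand ret Returns mem_strand ret_min ret_le)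
open Vale.Agent.P167.QX (rS InB rS_nonneg Bx wS natS)
open Vale.Agent.P167.H632 (pr)
open Vale.Agent.P167.H945.Q (face faces natw relw tj jn lrs)
open Vale.Agent.P167.H871 (IsC)
open Vale.Agent.P167.H871.Q (Foot rqr w0 w1 Stays Rays Frz te ee nm_sqm sq_sqm sq_line sqm alt_jn
  isC_w1 Alm fz0 fd Ls)
open Vale.Agent.P167.N.ID.W
open Vale.Agent.P167.H680.T (par)

variable {r : Row} {b : Bool} {ω : Cfg} {θ z κ : ℝ} {n : ℕ} {d ρ : ℤ} {t : ℕ}

theorem Row.Val.ok (h : r.Val θ) (hm : κ * n ≤ r.mg) : r.Ok θ κ n := by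
  have hmL : (r.mg : ℝ) ≤ r.L := by exact_mod_cast r.mg_le
  refine ⟨hm.trans hmL, h.s, ?_, h.gd⟩
  by_cases hp : r.Plain
  · exact Or.inl hp
  · have hk := h.k0_le hp
    rw [Row.mg_not hp] at hm
    rcases h.kind with h1 | ⟨h1, -⟩
    · exact absurd h1 hp
    · rw [Nat.cast_min, Nat.cast_sub hk] at hm
      have a1 := hm.trans (min_le_left _ _)
      have a2 := hm.trans (min_le_right _ _)
      exact Or.inr ⟨h1, a1, by linarith⟩

/-- **A killed strand.** -/
theorem zero_strand (h : r.Ok θ κ n) (h13 : Real.pi / 3 ≤ θ) (h12 : θ < Real.pi / 2) (hg : Good ω)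
    (hfr : ∀ v ∈ r.I, ω v = r.toRow.fr v) (hd : 4 ≤ ρ) (h3 : 16 * (ρ : ℝ) ≤ κ * n) (k : Bool)
    (hT : r.T θ r.I k ρ ω = 0) :
    ∃ e, tlv e ∈ r.I ∧ hdv e ∉ r.I ∧ InB (Bq (r.ctr k) ρ) r.I ω e ∧
      wS θ r.I (r.wall θ z).a ω e = 0 := by
  classical
  have hpi := Real.pi_pos
  have hs : 0 < Real.sin θ := Real.sin_pos_of_pos_of_lt_pi (by linarith) (by linarith)
  have hc : 0 < Real.cos θ := Real.cos_pos_of_mem_Ioo ⟨by linarith, h12⟩
  have hG := geo_row (d := 1) h le_rfl (by omega) h3
  have hL : 1 ≤ r.L := hG.L1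
  have hLL := hG.L
  have hk0 : ¬ r.Plain → 16 * ρ ≤ (r.k0 : ℤ) ∧ (r.k0 : ℤ) + 16 * ρ ≤ r.L := hG.k0
  have hk : r.Plain ∨ (0 < r.k0 ∧ r.k0 < r.L) := by
    by_cases hp : r.Plain
    · exact Or.inl hp
    · have := hk0 hp
      right
      omega
  have hP : Ph r.toRow θ r.g (r.Φ θ) (r.σ θ) := by
    first | exact ph_rowW hL hk | exact ph_row hL hk
  have hη : r.η = 1 ∨ r.η = -1 := by
    rcases h.kind with ⟨-, h4⟩ | ⟨⟨-, h4⟩ | ⟨-, h4⟩, -⟩
    · exact Or.inl h4
    · exact Or.inr h4
    · exact Or.inl h4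
  have hf : Frz r.toRow ω := ⟨h.s, hη, hfr⟩
  have hρ1 : 1 ≤ ρ := by omega
  have hw : ∀ e, rS θ r.I (r.wall θ z).a ω e = 0 → wS θ r.I (r.wall θ z).a ω e = 0 := by
    intro e he
    unfold rS natS at he
    rw [div_eq_zero_iff] at he
    rcases he with he | he
    · exact abs_eq_zero.1 he
    · exfalso
      split_ifs at he <;> linarith
  cases k
  · -- the middle
    have hp : ¬ r.Plain := by
      intro hp
      unfold Row.T at hT
      rw [if_neg (by decide), if_pos hp] at hT
      norm_num at hT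
    have hK2 : ¬ r.K2 θ := by
      intro hK
      unfold Row.T Row.T2 at hT
      rw [if_neg (by decide), if_neg hp, if_pos hK] at hT
      have : (0 : ℝ) < 2 * Real.cos θ := by linarith
      exact (pow_pos this _).ne' hT
    have hTm : TK r.I r.zm ρ ω = 0 := by
      unfold Row.T at hT
      rwa [if_neg (by decide), if_neg hp, if_neg hK2] at hT
    have hk1 := hk0 hp
    obtain ⟨c1, c2⟩ := ch_kf r
    have hzm : r.zm = rqr r.toRow r.kf ((m0 r.toRow r.kf : ℕ) : ZMod (2 * r.L + 2)) :=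
      zb_eq hL (by omega)
    have hm1 : ρ < m0 r.toRow r.kf ∧ (m0 r.toRow r.kf : ℤ) + ρ < r.L := by
      unfold m0
      split_ifs <;> omega
    have hkind : (r.η = -1 ∧ |r.j| = (Real.pi - θ) / 2) ∨ (r.η = 1 ∧ |r.j| = θ) := by
      rcases h.kind with h4 | ⟨⟨-, h4⟩ | ⟨h5, h4⟩, -⟩
      · exact absurd h4 hp
      · left
        refine ⟨h4, ?_⟩
        by_contra h5
        exact hK2 ⟨h4, h5⟩
      · exact Or.inr ⟨h4, h5⟩
    rcases kill_cases (b := r.kf) hg hρ1 hzm (by omega) (by omega) (by omega) with ⟨M1, -⟩ |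
      ⟨M0, e, i, j, F, hst, hin, hdir, hi, hj⟩
    · rw [hTm] at M1
      norm_num at M1
    have hw0 := (far_start (r := r.toRow) (b := r.kf) (t := m0 r.toRow r.kf) (ρ := ρ) hL
      (by show _ ≤ r.L + 1; omega) hm1.1 (by show ρ < r.L; omega)).1
    have hR := rays_rqr (r := r.toRow) (b := r.kf) (t := m0 r.toRow r.kf) (ρ := ρ) hL
      (by show _ ≤ r.L + 1; omega) hρ1
    have hw0' : w0 r.toRow r.kf ∉ Bq r.zm ρ := by rw [hzm]; exact hw0
    have hR' : Rays r.I (Bq r.zm ρ : Set (ℤ × ℤ)) := by rw [hzm]; exact hR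
    have hov : min i j < m0 r.toRow r.kf ∧ m0 r.toRow r.kf ≤ max i j := by
      split_ifs at hdir <;> omega
    have hij : i < r.L ∧ j < r.L := by
      obtain ⟨i0, j0, F0, -, -, -, hB⟩ := H871.Q.row_cls (b := r.kf) hL hR' hw0' F.out F.tl F.rt
        hst
      have ei : i0 = i := by
        by_contra hne
        exact XDL.be_ne (H871.Q.rqr_polygon (r := r.toRow) (b := r.kf) hL) F0.hi F.hi hne
          (F0.e1.symm.trans F.e1)
      have ej : j0 = j := by
        by_contra hne
        exact XDL.be_ne (H871.Q.rqr_polygon (r := r.toRow) (b := r.kf) hL) F0.hj F.hj hne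
          (F0.e2.symm.trans F.e2)
      subst ei ej
      by_contra hcon
      have h6 := hB r.L (by show r.L ≤ 2 * r.L + 2; omega) (by omega) (by omega) _ (isC_w1 hL)
      have aJ : Alm (r.sq r.k0) ρ (Bq r.zm ρ) := alm_of (hG.cm hp)
      have h5 := aJ.nm h6
      unfold w1 at h5
      rw [sq_sqm, nm_sqm, abs_le] at h5
      split_ifs at h5 <;> omega
    have hval := val_mid (z := z) hP hs hL hR' hw0' hf F hst hij.1 hij.2
      (by show r.k0 ≤ r.L; omega) hov.1 hov.2
    have h0 : rS θ r.I (r.wall θ z).a ω e = 0 := by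
      rcases hkind with ⟨k1, k2⟩ | ⟨k1, k2⟩
      · have hv := (v_K1 (b := r.kf) hs h.s k1).1 (c1.trans k2)
        split_ifs at hdir
        · exact (hval.1 (by omega)).trans hv.1
        · exact (hval.2 (by omega)).trans hv.2
      · have hv := v_K3 (b := r.kf) k1 (c1.trans k2)
        have hj0 : r.j ≠ 0 := by
          intro h5
          rw [h5, abs_zero] at k2
          linarith
        have hpar := h.gd k1 hj0
        rcases h.s with h5 | h5
        · rw [h5, mul_one] at hpar
          have := par_cz.1 hpar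
          rw [show cz r.zm = false from this, if_neg (by decide)] at hdir
          exact (hval.2 (by omega)).trans (hv.1 h5)
        · rw [h5, mul_neg, mul_one, neg_inj] at hpar
          have := par_cz.2 hpar
          rw [show cz r.zm = true from this, if_pos rfl] at hdir
          exact (hval.1 (by omega)).trans (hv.2 h5)
    exact ⟨e, F.tl, F.out, hin, hw e h0⟩
  · -- the tip
    obtain ⟨t, ht, hz⟩ := Row.zt_rqr (r := r) hL
    have hTt : TK r.I r.zt ρ ω = 0 := by
      unfold Row.T at hT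
      rwa [if_pos rfl] at hT
    rcases kill_cases (b := r.g) hg hρ1 hz (by omega) (by omega) (by omega) with ⟨T1, hN⟩ |
      ⟨T0, e, i, j, F, hst, hin, hdir, hi, hj⟩
    · rw [hTt] at T1
      norm_num at T1
    have hw0 := (far_start (r := r.toRow) (b := r.g) (t := t) (ρ := ρ) hL (by omega) (by omega)
      (by omega)).1
    have hR := rays_rqr (r := r.toRow) (b := r.g) (t := t) (ρ := ρ) hL (by omega) hρ1
    rw [← hz] at hw0 hR
    have hfar : H945.Q.Plain r.toRow ∨ (0 < r.k0 → r.k0 < r.L →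
        ¬ (r.sq r.k0 ∈ Bq r.zt ρ ∧ r.sq (r.k0 - 1) ∈ Bq r.zt ρ)) := by
      by_cases hp : r.Plain
      · exact Or.inl hp
      refine Or.inr fun _ _ h5 => ?_
      have h6 := (alm_of (ρ := ρ) hG.ct).nm h5.1
      have h7 := hk0 hp
      rw [sq_sqm, sq_sqm, nm_sqm, abs_le] at h6
      unfold te at h6
      split_ifs at h6 <;> omega
    have hτ := se_te hL hk
    have hpar := Row.par_zt (r := r) h.s hη
    have h0 : rS θ r.I (r.wall θ z).a ω e = 0 := by
      refine kill_tip (z := z) hP hs hL hR hw0 hf hfar F hst ht ?_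
      show (r.τ (r.sq (te r.toRow r.g)) = 1 ∧ _) ∨ (r.τ (r.sq (te r.toRow r.g)) = -1 ∧ _)
      rw [hτ]
      rcases hf.col (r.sq (te r.toRow r.g)) with h5 | h5
      · have h5' : r.se r.p = 1 := by rw [← hτ]; exact h5
        left
        refine ⟨h5', ?_⟩
        rw [h5', mul_one] at hpar
        rw [par_cz.1 hpar, if_neg (by decide)] at hdir
        exact hdir
      · have h5' : r.se r.p = -1 := by rw [← hτ]; exact h5
        right
        refine ⟨h5', ?_⟩
        rw [h5', mul_neg, mul_one, neg_inj] at hpar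
        rw [par_cz.2 hpar, if_pos rfl] at hdir
        exact hdir
    exact ⟨e, F.tl, F.out, hin, hw e h0⟩

end Vale.Agent.P167.N.ID
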