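import Vale.Agent.P167.N.ID.WinMb
import Vale.Agent.P167.N.ID.L1Geo
import Vale.Agent.P167.N.ID.Cnt
import Vale.Agent.P167.N.ID.WinZ
import Vale.Agent.P167.QX.TS

/-!
# P167, `q < 1`, START: small loops are of one colour; strands of a row and of the frame

* `mono_loop`: a small loop visits frozen squares of one colour only.
* `own_ret`, `own_wS`: a strand at one row in a box which only meets this row.
* `face_uniq`: the faces are different.
-/

set_option autoImplicit false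

namespace Vale.Agent.P167.N.ID

open Finset
open Vale.Agent.P167.A (plane)
open Vale.Agent.P167.BR
open Vale.Agent.P167.Top
open Vale.Agent.P167.FK
open Vale.Agent.P167.H871
open Vale.Agent.P167.H871.Q
open Vale.Agent.P167.XDL (bS mem_bS)
open Vale.Agent.P167.H199 (ah at' strand ret Returns)
open Vale.Agent.P167.Enl (Two two_inj)
open Vale.Agent.P167.H680.T (WallG WCG nm_ht par par_cases)
open Vale.Agent.P167.H945.Q (face faces)
open Vale.Agent.P167.H680.S (nxt nxt_mem)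
open Vale.Agent.P167.QX (wS fLp Bx mem_Bx InB thin_row)

/-! ### colours -/

section col

variable {ω : Cfg} {ℓ : Finset Ed} {r : H825.Q.Row} {w ρ : ℤ} {c : ℤ × ℤ} {y : Ed}

/-- The colour of the squares of a row visited by a small loop, from the winding number. -/
theorem colW_row (hl : IsLoop ω ℓ) (hc : Cols r w ω) (hw : 2 * ρ + 4 ≤ w)
    (hsm : ∀ y ∈ ℓ, nm (hdv y - c) ≤ ρ) (hy : y ∈ ℓ) (hI : hdv y ∈ r.I) :
    ω (hdv y) = decide (W ℓ (ls y) = 0) := by
  obtain ⟨σ, hW⟩ := loop_pot r.I hl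
  set p : ℤ × ℤ := (c.1 - ρ - 1, c.2 - ρ - 1) with hp
  set q : ℤ × ℤ := (c.1 + ρ + 2, c.2 + ρ + 2) with hq
  have hB : ∀ v : ℤ × ℤ, nm (v - c) ≤ ρ + 1 → v ∈ Bx p q := by
    intro v hv
    rw [nm_le_iff] at hv
    simp only [Prod.fst_sub, Prod.snd_sub] at hv
    rw [mem_Bx, hp, hq]
    simp only
    omega
  have hbox : ∀ y ∈ ℓ, hdv y ∈ Bx p q ∧ tlv y ∈ Bx p q := by
    intro y hy
    have h1 := hsm y hy
    have h2 : nm (tlv y - hdv y) ≤ 1 := by
      rw [H945.Q.nm_comm]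
      exact nm_ht y
    have h3 := H945.Q.nm_sub_le (tlv y) (hdv y) c
    exact ⟨hB _ (by omega), hB _ (by omega)⟩
  have hesc : ∀ b, QX.Esc r.I ω b p q := fun b => esc_cols hc (by rw [hp, hq]; simp only; omega)
    (by rw [hp, hq]; simp only; omega)
  have hne : ∃ v ∈ r.I, v ∈ Bx p q := ⟨_, hI, (hbox y hy).1⟩
  have h1 := hW.left y hy
  have h2 := hW.right y hy
  cases hb : ω (hdv y) with
  | true =>
    have h3 := no_col (thin_row r) hl hW hbox hne (hesc true) hI hb rfl (Or.inl rfl)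
      (by unfold Pb; simp [FK.even_ls y])
    rw [h3]
    simp
  | false =>
    have h3 := no_col (thin_row r) hl hW hbox hne (hesc false) hI hb rfl (Or.inr rfl)
      (by unfold Pb; simpa using FK.odd_rs y)
    rw [h3] at h2
    have h4 : W ℓ (ls y) ≠ 0 := by
      rw [h1]
      rcases hW.sgn with h | h
      · rw [h]
        norm_num
      · rw [h] at h2
        norm_num at h2
    simp [h4]

/-- The winding number on the left is constant along the loop. -/
theorem W_left (hl : IsLoop ω ℓ) {y y' : Ed} (hy : y ∈ ℓ) (hy' : y' ∈ ℓ) :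
    W ℓ (ls y) = W ℓ (ls y') := by
  obtain ⟨σ, hW⟩ := loop_pot ∅ hl
  rw [hW.left y hy, hW.left y' hy']

/-- **A small loop visits frozen squares of one colour only.** -/
theorem mono_loop {ι : Type} {g : ι → H825.Q.Row} (hl : IsLoop ω ℓ) (hc : ∀ i, Cols (g i) w ω)
    (hw : 2 * ρ + 4 ≤ w) (hsm : ∀ y ∈ ℓ, nm (hdv y - c) ≤ ρ) {y y' : Ed} (hy : y ∈ ℓ)
    (hy' : y' ∈ ℓ) {i j : ι} (hi : hdv y ∈ (g i).I) (hj : hdv y' ∈ (g j).I) :
    ω (hdv y) = ω (hdv y') := by
  rw [colW_row hl (hc i) hw hsm hy hi, colW_row hl (hc j) hw hsm hy' hj, W_left hl hy hy']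

end col

/-! ### strands of one row -/

section own

variable {ω : Cfg} {I K B : Finset (ℤ × ℤ)} {e : Ed} {θ : ℝ}

/-- The cuts along a strand in the box. -/
theorem own_bS (hb : InB B I ω e) (hK : ∀ v ∈ B, v ∈ K ↔ v ∈ I) :
    ∀ k ≤ ret (nx ω) (bS I) e, ((nx ω)^[k] e ∈ bS K ↔ (nx ω)^[k] e ∈ bS I) := by
  obtain ⟨-, h1, h2⟩ := hb
  intro k hk
  have h3 := h2 k hk
  have h4 : tlv ((nx ω)^[k] e) ∈ B := by
    rcases Nat.eq_zero_or_pos k with rfl | h0
    · exact h1
    · obtain ⟨j, rfl⟩ : ∃ j, k = j + 1 := ⟨k - 1, by omega⟩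
      rw [Function.iterate_succ_apply', tlv_nx]
      exact h2 j (by omega)
  rw [mem_bS, mem_bS, hK _ h3, hK _ h4]

/-- **The strand at a row is a strand of the frame.** -/
theorem own_ret (hb : InB B I ω e) (hK : ∀ v ∈ B, v ∈ K ↔ v ∈ I) :
    ret (nx ω) (bS K) e = ret (nx ω) (bS I) e := by
  obtain ⟨h1, h2⟩ := hb.1.spec
  have h3 := own_bS hb hK
  refine le_antisymm (H199.ret_le h1 ((h3 _ le_rfl).2 h2)) ?_
  by_contra h
  push Not at h
  have h4 : Returns (nx ω) (bS K) e := ⟨_, h1, (h3 _ le_rfl).2 h2⟩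
  obtain ⟨h5, h6⟩ := h4.spec
  exact H199.ret_min h5 h ((h3 _ h.le).1 h6)

/-- The weights agree. -/
theorem own_wS {a a' : Ed → Bool → ℝ} (hb : InB B I ω e) (hK : ∀ v ∈ B, v ∈ K ↔ v ∈ I)
    (ha : ∀ y, hdv y ∈ B → tlv y ∈ B → a y = a' y) : wS θ K a ω e = wS θ I a' ω e := by
  have hS : strand (nx ω) (bS K) e = strand (nx ω) (bS I) e := by
    unfold H199.strand
    rw [own_ret hb hK]
  unfold wS
  rw [hS]
  obtain ⟨-, h1, h2⟩ := hb
  have h4 : ∀ k ≤ ret (nx ω) (bS I) e, tlv ((nx ω)^[k] e) ∈ B := by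
    intro k hk
    rcases Nat.eq_zero_or_pos k with rfl | h0
    · exact h1
    · obtain ⟨j, rfl⟩ : ∃ j, k = j + 1 := ⟨k - 1, by omega⟩
      rw [Function.iterate_succ_apply', tlv_nx]
      exact h2 j (by omega)
  unfold H199.cang
  congr 2
  refine sum_congr rfl fun y hy => ?_
  obtain ⟨k, hk, rfl⟩ := H199.mem_strand.1 hy
  have e1 := ha _ (h2 k hk.le) (h4 k hk.le)
  have e2 := ha _ (h2 (k + 1) hk) (h4 (k + 1) hk)
  rw [Function.iterate_succ_apply'] at e2
  have f1 : H199.ah plane a ((nx ω)^[k] e) = H199.ah plane a' ((nx ω)^[k] e) := by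
    unfold H199.ah
    rw [e1]
  have f2 : H199.at' plane a (plane.nx ω ((nx ω)^[k] e)) =
      H199.at' plane a' (plane.nx ω ((nx ω)^[k] e)) := by
    rw [A.plane_nx]
    unfold H199.at'
    rw [e2]
  rw [f1, f2]

end own

/-! ### faces -/

section face

variable {ι : Type} {r : ι → Row} {i i' : ι} {b b' : Bool} {k k' : ℕ}

theorem face_inj {r : Row} (h : face r.toRow b k = face r.toRow b' k') : b = b' ∧ k = k' := by
  rw [face_eq, face_eq] at h
  cases ho : r.o <;> rw [ho] at h <;> cases b <;> cases b' <;>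
    simp only [Bool.false_eq_true, if_false, if_true, Sum.inl.injEq, Sum.inr.injEq,
      Prod.mk.injEq] at h <;> simp <;> omega

/-- The faces are different. -/
theorem face_uniq (hL : ∀ i, 1 ≤ (r i).L) (hs : RSep r) (hk : k < (r i).L) (hk' : k' < (r i').L)
    (h : face (r i).toRow b k = face (r i').toRow b' k') : i = i' ∧ b = b' ∧ k = k' := by
  have hi : i = i' := by
    by_contra hne
    obtain ⟨h1, h2⟩ := two_face (b := b) (hL i) hk
    obtain ⟨h3, h4⟩ := two_face (b := b') (hL i') hk'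
    rw [← h] at h3
    have g1 : (r i).sq k ∈ (r i).I := H680.T.sq_mem.2 hk
    have g2 : (r i').sq k' ∈ (r i').I := H680.T.sq_mem.2 hk'
    have h5 := hs i i' hne _ g1 _ g2
    have h6 := nm_ht (face (r i).toRow b k)
    have h7 : nm (tlv (face (r i).toRow b k) - hdv (face (r i).toRow b k)) ≤ 1 := by
      rwa [H945.Q.nm_comm]
    have h0 : nm (0 : ℤ × ℤ) = 0 := by simp [nm]
    rcases h1 with ⟨a1, a2⟩ | ⟨a1, a2⟩ <;> rcases h3 with ⟨b1, b2⟩ | ⟨b1, b2⟩
    · rw [← a1, ← b1, sub_self] at h5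
      omega
    · rw [← a1, ← b2] at h5
      omega
    · rw [← a2, ← b1] at h5
      omega
    · rw [← a2, ← b2, sub_self] at h5
      omega
  subst hi
  exact ⟨rfl, face_inj h⟩

end face

end Vale.Agent.P167.N.ID
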