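import Vale.Agent.P167.N.ID.WinOne
import Vale.Agent.P167.N.ID.WinI

/-!
# P167, `q < 1`, START: the windows at the spoke, off the holes

`NatO w B cl`: off `B` the phases of the walls of every component of the window are natural;
`winT_ok'`, `winF_ok'`, `winR_ok'`: the windows of `WinI` with this property.
-/

set_option autoImplicit false

namespace Vale.Agent.P167.N.ID

open Finset
open Vale.Agent.P167.Top
open Vale.Agent.P167.FK
open Vale.Agent.P167.H871
open Vale.Agent.P167.H871.Q
open Vale.Agent.P167.XDL (bS mem_bS)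

variable {θ : ℝ} {a : Ed → Bool → ℝ} {EE : Set Ed} {σ : ℤ} {c : ℝ} {z : ℤ × ℤ} {K : Finset (ℤ × ℤ)}
  {A B S R : ℕ}

theorem mem_bqW {v : ℤ × ℤ} {r : ℤ} :
    v ∈ Bq z r ↔ z.1 - r ≤ v.1 ∧ v.1 < z.1 + r ∧ z.2 - r ≤ v.2 ∧ v.2 < z.2 + r := by
  unfold Bq
  rw [mem_product, mem_Ico, mem_Ico]
  omega

/-- Off `B` the phases of the walls of every component of the window are natural. -/
def NatO (w : WinD) (B : Finset (ℤ × ℤ)) {α : Type} (cl : ℤ × ℤ → α) : Prop :=
  (∀ i, w.W i → sqL (w.P i) (w.u i) ∉ (B : Set (ℤ × ℤ)) → ¬ w.E i) ∧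
  ∀ i j, w.W i → w.W j → i < j → sqL (w.P i) (w.u i) ∉ (B : Set (ℤ × ℤ)) →
    sqL (w.P j) (w.u j) ∉ (B : Set (ℤ × ℤ)) →
    cl (sqL (w.P i) (w.u i)) = cl (sqL (w.P j) (w.u j)) → w.s j ≤ w.s i ∧ w.s i ≤ w.s j + 1

/-- The components at a corner: west, south east, north east. -/
def cl3 (z v : ℤ × ℤ) : ℕ := if v.1 < z.1 then 0 else if v.2 < z.2 then 1 else 2

/-- The components at the foot: west, east. -/
def cl2 (z v : ℤ × ℤ) : Bool := decide (v.1 < z.1)

/-! ### three rows -/

/-- **The steps at the hole with three rows, off the hole.** -/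
theorem wT_cls (hA : 1 ≤ A) (hB : 1 ≤ B) (hS : 1 ≤ S) (hAR : A < R) (hBR : B + 1 < R)
    (hSR : S < R) {ρ : ℤ} (hρ : 1 ≤ ρ) (hρA : (R : ℤ) - A ≤ ρ) (hρB : (R : ℤ) - B ≤ ρ)
    (hρS : (R : ℤ) - S ≤ ρ) {k : ℕ} {p : ℤ × ℤ} {u : ℤ} (h : wTV A B S R k p.1 p.2 u)
    (hU : sqL p (u - 1) ∈ wTU R) (hb : z + sqL p u ∉ (Bq z ρ : Set (ℤ × ℤ))) :
    k ≠ R + S ∧
    ((cl3 z (z + sqL p u) = 0 ∧ (k < R + S ∨ 5 * R + 2 * S + 2 * B + A < k)) ∨
      (cl3 z (z + sqL p u) = 1 ∧ R + S < k ∧ k < 3 * R + 2 * S + B - 1) ∨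
      (cl3 z (z + sqL p u) = 2 ∧ 3 * R + 2 * S + B - 1 < k ∧ k < 5 * R + 2 * S + 2 * B + A)) := by
  obtain ⟨x, y⟩ := p
  obtain ⟨a1, a2, a3, a4⟩ := hU
  have hb' : ¬ (-ρ ≤ (sqL (x, y) u).1 ∧ (sqL (x, y) u).1 < ρ ∧ -ρ ≤ (sqL (x, y) u).2 ∧
      (sqL (x, y) u).2 < ρ) := fun h' => hb (mem_coe.2 (mem_bqW.2 (by
    simp only [Prod.fst_add, Prod.snd_add]
    omega)))
  have c0 : (sqL (x, y) u).1 < 0 → cl3 z (z + sqL (x, y) u) = 0 := fun h' => by
    unfold cl3
    rw [if_pos (by simp only [Prod.fst_add]; omega)]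
  have c1 : 0 ≤ (sqL (x, y) u).1 → (sqL (x, y) u).2 < 0 → cl3 z (z + sqL (x, y) u) = 1 :=
    fun h' h'' => by
      unfold cl3
      rw [if_neg (by simp only [Prod.fst_add]; omega),
        if_pos (by simp only [Prod.snd_add]; omega)]
  have c2 : 0 ≤ (sqL (x, y) u).1 → 0 ≤ (sqL (x, y) u).2 → cl3 z (z + sqL (x, y) u) = 2 :=
    fun h' h'' => by
      unfold cl3
      rw [if_neg (by simp only [Prod.fst_add]; omega),
        if_neg (by simp only [Prod.snd_add]; omega)]
  simp only at h
  unfold wTV at h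
  obtain ⟨s0, s1, s2, s3, s4, s5⟩ := sqL_e x y
  rcases h with h | h | h | h | h | h | h | h | h | h | h | h | h | h | h | h <;>
    obtain ⟨h2, h3, h4, h5, rfl⟩ := h
  · exfalso
    rw [show (0 : ℤ) - 1 = -1 by norm_num, s4] at a1 a2 a3 a4
    simp only at a1 a2 a3 a4
    omega
  · rw [s1] at hb' c0 ⊢
    simp only at hb' c0
    exact ⟨by omega, Or.inl ⟨c0 (by omega), Or.inl (by omega)⟩⟩
  · exfalso
    rw [s0] at hb'
    simp only at hb'
    omega
  · rw [s4] at hb' c1 ⊢
    simp only at hb' c1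
    exact ⟨by omega, Or.inr (Or.inl ⟨c1 (by omega) (by omega), by omega, by omega⟩)⟩
  · exfalso
    rw [show (0 : ℤ) - 1 = -1 by norm_num, s4] at a1 a2 a3 a4
    simp only at a1 a2 a3 a4
    omega
  · exfalso
    rw [show (1 : ℤ) - 1 = 0 by norm_num, s0] at a1 a2 a3 a4
    simp only at a1 a2 a3 a4
    omega
  · rw [s2] at hb' c1 ⊢
    simp only at hb' c1
    exact ⟨by omega, Or.inr (Or.inl ⟨c1 (by omega) (by omega), by omega, by omega⟩)⟩
  · exfalso
    rw [s1] at hb'
    simp only at hb'
    omega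
  · rw [s0] at hb' c2 ⊢
    simp only at hb' c2
    exact ⟨by omega, Or.inr (Or.inr ⟨c2 (by omega) (by omega), by omega, by omega⟩)⟩
  · exfalso
    rw [show (1 : ℤ) - 1 = 0 by norm_num, s0] at a1 a2 a3 a4
    simp only at a1 a2 a3 a4
    omega
  · exfalso
    rw [show (2 : ℤ) - 1 = 1 by norm_num, s1] at a1 a2 a3 a4
    simp only at a1 a2 a3 a4
    omega
  · rw [s3] at hb' c2 ⊢
    simp only at hb' c2
    exact ⟨by omega, Or.inr (Or.inr ⟨c2 (by omega) (by omega), by omega, by omega⟩)⟩
  · exfalso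
    rw [s2] at hb'
    simp only at hb'
    omega
  · rw [s1] at hb' c0 ⊢
    simp only at hb' c0
    exact ⟨by omega, Or.inl ⟨c0 (by omega), Or.inr (by omega)⟩⟩
  · exfalso
    rw [show (2 : ℤ) - 1 = 1 by norm_num, s1] at a1 a2 a3 a4
    simp only at a1 a2 a3 a4
    omega
  · exfalso
    rw [show (3 : ℤ) - 1 = 2 by norm_num, s2] at a1 a2 a3 a4
    simp only at a1 a2 a3 a4
    omega

/-- **The window at the hole with three rows.** -/
theorem winT_ok' (hσ : σ = 1 ∨ σ = -1) (hA : 1 ≤ A) (hB : 1 ≤ B) (hS : 1 ≤ S) (hAR : A < R)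
    (hBR : B + 1 < R) (hSR : S < R) (hKV : ∀ v, v - z ∈ wTU R → (v ∈ K ↔ v - z ∈ wTQ A B S R))
    (hKD : ∀ v ∈ K, v - z ∉ wTR A B S R)
    (hoff : ∀ g, g ∉ bS K → hdv g - z ∈ wTR A B S R → a g false + a g true = 0)
    (h : PhT θ a EE σ c z A B S R) {ρ : ℤ} (hρ : 1 ≤ ρ) (hρA : (R : ℤ) - A ≤ ρ)
    (hρB : (R : ℤ) - B ≤ ρ) (hρS : (R : ℤ) - S ≤ ρ) :
    ∃ w : WinD, w.Ok θ K EE a ∧ w.σ = σ ∧ w.D = {v | v - z ∈ wTR A B S R} ∧
      w.V = {v | v - z ∈ wTU R} ∧ w.C = {v | v ∈ K ∧ v - z ∈ wTU R} ∧ (∀ j, ¬ w.Z j) ∧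
      NatO w (Bq z ρ) (cl3 z) := by
  obtain ⟨P, U, hb, hV⟩ := wT_bd hA hB hS hAR hBR hSR
  have hL := lwinT hA hB hS hAR hBR hSR hb hV
  have e0 : ∀ v, Lq z 0 v = v - z := Lq0 z
  have key := hL.ok (C₀ := Set.univ) (θ := θ) (K := K) (EE := EE) (a := a) (z := z) (e := 0)
    (σ := σ) (c := c) (s := sT A B S R σ (fun k => z + P k)) (E := fun k => k = R + S)
    (Z := fun _ => False)
    hσ (by intro v; rw [e0]; exact fun h1 => (hKV v h1).2)
    (by intro v hv; rw [e0]; exact fun h1 _ => (hKV v h1).1 hv)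
    (by intro v hv; rw [e0]; exact hKD v hv)
    (by intro g; rw [e0]; exact hoff g) ?_ ?_ ?_
  · refine ⟨_, key, rfl, ?_, ?_, ?_, fun j h => h, ?_⟩
    · ext v
      show Lq z 0 v ∈ wTR A B S R ↔ _
      rw [e0]
      rfl
    · ext v
      show Lq z 0 v ∈ wTU R ↔ _
      rw [e0]
      rfl
    · ext v
      show (v ∈ K ∧ Lq z 0 v ∈ wTU R ∧ Lq z 0 v ∈ Set.univ) ↔ v ∈ K ∧ v - z ∈ wTU R
      rw [e0]
      simp
    · have hcl : ∀ i, (i < 8 * R + 2 * S + 2 * B + 2 * A ∧ sqL (P i) (U i - 1) ∈ wTU R) →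
          sqL (Ls z 0 (P i)) (U i + 0) ∉ (Bq z ρ : Set (ℤ × ℤ)) → i ≠ R + S ∧
          ((cl3 z (sqL (Ls z 0 (P i)) (U i + 0)) = 0 ∧ (i < R + S ∨
              5 * R + 2 * S + 2 * B + A < i)) ∨
            (cl3 z (sqL (Ls z 0 (P i)) (U i + 0)) = 1 ∧ R + S < i ∧
              i < 3 * R + 2 * S + B - 1) ∨
            (cl3 z (sqL (Ls z 0 (P i)) (U i + 0)) = 2 ∧ 3 * R + 2 * S + B - 1 < i ∧
              i < 5 * R + 2 * S + 2 * B + A)) := by
        rintro i ⟨hi, hiV⟩ hB'
        rw [add_zero, Ls0, sqL_add] at hB' ⊢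
        exact wT_cls hA hB hS hAR hBR hSR hρ hρA hρB hρS (hV i hi) hiV hB'
      refine ⟨fun i hi hB' hE => (hcl i hi.1 hB').1 hE, ?_⟩
      intro i j hi hj hij b1 b2 hc
      have h1 := (hcl i hi.1 b1).2
      have h2 := (hcl j hj.1 b2).2
      change sT A B S R σ (fun k => z + P k) j ≤ sT A B S R σ (fun k => z + P k) i ∧
        sT A B S R σ (fun k => z + P k) i ≤ sT A B S R σ (fun k => z + P k) j + 1
      change cl3 z (sqL (Ls z 0 (P i)) (U i + 0)) = cl3 z (sqL (Ls z 0 (P j)) (U j + 0)) at hc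
      have hR : 2 ≤ R := by omega
      rcases h1 with ⟨h1, h3⟩ | ⟨h1, h3, h5⟩ | ⟨h1, h3, h5⟩ <;>
        rcases h2 with ⟨h2, h4⟩ | ⟨h2, h4, h6⟩ | ⟨h2, h4, h6⟩ <;> rw [h1, h2] at hc
      · have key : ∀ k, (k < R + S ∨ 5 * R + 2 * S + 2 * B + A < k) →
            sT A B S R σ (fun k => z + P k) k = 0 := by
          intro k hk
          unfold sT
          rcases hk with hk | hk
          · rw [if_pos (by omega)]
          · rw [if_neg (by omega), if_neg (by omega), if_neg (by omega), if_neg (by omega),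
              if_neg (by omega), if_neg (by omega)]
        rw [key i h3, key j h4]
        omega
      · exact absurd hc (by decide)
      · exact absurd hc (by decide)
      · exact absurd hc (by decide)
      · have key : ∀ k, R + S < k → k < 3 * R + 2 * S + B - 1 →
            sT A B S R σ (fun k => z + P k) k = if k < 3 * R + 2 * S - 1 then 0 else -1 := by
          intro k hk hk'
          unfold sT
          by_cases h : k < 3 * R + 2 * S - 1
          · rw [if_pos h, if_pos h]
          · rw [if_neg h, if_neg h, if_pos (by omega)]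
        rw [key i h3 h5, key j h4 h6]
        split_ifs <;> omega
      · exact absurd hc (by decide)
      · exact absurd hc (by decide)
      · exact absurd hc (by decide)
      · have key : ∀ k, 3 * R + 2 * S + B - 1 < k → k < 5 * R + 2 * S + 2 * B + A →
            sT A B S R σ (fun k => z + P k) k =
              if k < 5 * R + 2 * S + 2 * B then 0 else -1 := by
          intro k hk hk'
          unfold sT
          rw [if_neg (by omega), if_neg (by omega), if_neg (by omega)]
          by_cases h : k < 5 * R + 2 * S + 2 * B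
          · rw [if_pos h, if_pos h]
          · rw [if_neg h, if_neg h, if_pos (by omega)]
        rw [key i h3 h5, key j h4 h6]
        split_ifs <;> omega
  · rintro i ⟨hi, hiV⟩ -
    have h1 := hV i hi
    rw [add_zero, Ls0]
    have hsT : sT A B S R σ (fun k => z + P k) i = sT A B S R σ (fun k => z + P k) i := rfl
    conv at hsT => rhs; unfold sT
    generalize hs : sT A B S R σ (fun k => z + P k) i = s at hsT ⊢
    simp only at hsT
    generalize hP : P i = p at h1 hiV hsT ⊢
    generalize U i = u at h1 hiV ⊢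
    obtain ⟨x, y⟩ := p
    obtain ⟨a1, a2, a3, a4⟩ := hiV
    unfold Knd
    rw [sqL_add, sqL_add]
    unfold wTV at h1
    rcases h1 with h1 | h1 | h1 | h1 | h1 | h1 | h1 | h1 | h1 | h1 | h1 | h1 | h1 | h1 | h1 | h1 <;>
      obtain ⟨h2, h3, h4, h5, rfl⟩ := h1
    · exfalso
      rw [show (0 : ℤ) - 1 = -1 by norm_num, (sqL_e x y).2.2.2.2.1] at a1 a2 a3 a4
      simp only at a1 a2 a3 a4 h4 h5
      omega
    · left
      rw [show (1 : ℤ) - 1 = 0 by norm_num, (sqL_e x y).1] at a1 a2 a3 a4 ⊢
      rw [(sqL_e x y).2.1]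
      simp only at a1 a2 a3 a4 h4 h5
      have hs0 : s = 0 := by rw [hsT, if_pos (by omega)]
      rw [hs0]
      refine (h.Sw y (by omega) (by omega)).cast (by rw [h4]) (by rw [h4]; norm_num) (by push_cast; ring)
    · right
      left
      rw [show (0 : ℤ) - 1 = -1 by norm_num, (sqL_e x y).2.2.2.2.1] at a1 a2 a3 a4 ⊢
      rw [(sqL_e x y).1]
      simp only at a1 a2 a3 a4 h4 h5
      have hs0 : s = 0 := by rw [hsT, if_pos (by omega)]
      rw [hs0]
      refine ⟨by omega, h.S0.cast ?_ ?_ (by push_cast; ring)⟩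
      · congr 1
        ext <;> simp only <;> omega
      · congr 1
        ext <;> simp only <;> omega
    · left
      rw [show (-1 : ℤ) - 1 = -2 by norm_num, (sqL_e x y).2.2.2.2.2] at a1 a2 a3 a4 ⊢
      rw [(sqL_e x y).2.2.2.2.1]
      simp only at a1 a2 a3 a4 h4 h5
      have hs0 : s = 0 := by rw [hsT, if_pos (by omega)]
      rw [hs0]
      refine (h.Se (y - 1) (by omega) (by omega)).cast ?_ ?_ (by push_cast; ring)
      · congr 1
        ext <;> simp only <;> omega
      · congr 1
        ext <;> simp only <;> omega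
    · exfalso
      rw [show (0 : ℤ) - 1 = -1 by norm_num, (sqL_e x y).2.2.2.2.1] at a1 a2 a3 a4
      simp only at a1 a2 a3 a4 h4 h5
      omega
    · exfalso
      rw [show (1 : ℤ) - 1 = 0 by norm_num, (sqL_e x y).1] at a1 a2 a3 a4
      simp only at a1 a2 a3 a4 h4 h5
      omega
    · left
      rw [show (2 : ℤ) - 1 = 1 by norm_num, (sqL_e x y).2.1] at a1 a2 a3 a4 ⊢
      rw [(sqL_e x y).2.2.1]
      simp only at a1 a2 a3 a4 h4 h5
      have hs0 : s = -1 := by rw [hsT, if_neg (by omega), if_pos (by omega)]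
      rw [hs0]
      refine (h.Bs (x - 1) (by omega) (by omega)).cast ?_ ?_ (by push_cast; ring)
      · congr 1
        ext <;> simp only <;> omega
      · congr 1
        ext <;> simp only <;> omega
    · right
      right
      rw [show (1 : ℤ) - 1 = 0 by norm_num, (sqL_e x y).1] at a1 a2 a3 a4 ⊢
      rw [(sqL_e x y).2.1]
      simp only at a1 a2 a3 a4 h4 h5
      have hs0 : s = zs σ (-1) (z + (x, y)) := by
        rw [hsT, if_neg (by omega), if_neg (by omega), if_pos (by omega)]
      refine ⟨-1, hs0, h.B0.cast ?_ ?_ (by push_cast; ring)⟩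
      · congr 1
        ext <;> simp only <;> omega
      · congr 1
        ext <;> simp only <;> omega
    · left
      rw [show (0 : ℤ) - 1 = -1 by norm_num, (sqL_e x y).2.2.2.2.1] at a1 a2 a3 a4 ⊢
      rw [(sqL_e x y).1]
      simp only at a1 a2 a3 a4 h4 h5
      have hs0 : s = 0 := by
        rw [hsT, if_neg (by omega), if_neg (by omega), if_neg (by omega), if_pos (by omega)]
      rw [hs0]
      refine (h.Bn x (by omega) (by omega)).cast ?_ ?_ (by push_cast; ring)
      · congr 1
        ext <;> simp only <;> omega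
      · congr 1
        ext <;> simp only <;> omega
    · exfalso
      rw [show (1 : ℤ) - 1 = 0 by norm_num, (sqL_e x y).1] at a1 a2 a3 a4
      simp only at a1 a2 a3 a4 h4 h5
      omega
    · exfalso
      rw [show (2 : ℤ) - 1 = 1 by norm_num, (sqL_e x y).2.1] at a1 a2 a3 a4
      simp only at a1 a2 a3 a4 h4 h5
      omega
    · left
      rw [show (3 : ℤ) - 1 = 2 by norm_num, (sqL_e x y).2.2.1] at a1 a2 a3 a4 ⊢
      rw [(sqL_e x y).2.2.2.1]
      simp only at a1 a2 a3 a4 h4 h5
      have hs0 : s = -1 := by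
        rw [hsT, if_neg (by omega), if_neg (by omega), if_neg (by omega), if_neg (by omega),
          if_pos (by omega)]
      rw [hs0]
      refine (h.Ae (y - 1) (by omega) (by omega)).cast ?_ ?_ (by push_cast; ring)
      · congr 1
        ext <;> simp only <;> omega
      · congr 1
        ext <;> simp only <;> omega
    · right
      right
      rw [show (2 : ℤ) - 1 = 1 by norm_num, (sqL_e x y).2.1] at a1 a2 a3 a4 ⊢
      rw [(sqL_e x y).2.2.1]
      simp only at a1 a2 a3 a4 h4 h5
      have hs0 : s = zs σ (-1) (z + (x, y)) := by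
        rw [hsT, if_neg (by omega), if_neg (by omega), if_neg (by omega), if_neg (by omega),
          if_neg (by omega), if_pos (by omega)]
      refine ⟨-1, hs0, h.A0.cast ?_ ?_ (by push_cast; ring)⟩
      · congr 1
        ext <;> simp only <;> omega
      · congr 1
        ext <;> simp only <;> omega
    · left
      rw [show (1 : ℤ) - 1 = 0 by norm_num, (sqL_e x y).1] at a1 a2 a3 a4 ⊢
      rw [(sqL_e x y).2.1]
      simp only at a1 a2 a3 a4 h4 h5
      have hs0 : s = 0 := by
        rw [hsT, if_neg (by omega), if_neg (by omega), if_neg (by omega), if_neg (by omega),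
          if_neg (by omega), if_neg (by omega)]
      rw [hs0]
      refine (h.Aw y (by omega) (by omega)).cast ?_ ?_ (by push_cast; ring)
      · congr 1
        ext <;> simp only <;> omega
      · congr 1
        ext <;> simp only <;> omega
    · exfalso
      rw [show (2 : ℤ) - 1 = 1 by norm_num, (sqL_e x y).2.1] at a1 a2 a3 a4
      simp only at a1 a2 a3 a4 h4 h5
      omega
    · exfalso
      rw [show (3 : ℤ) - 1 = 2 by norm_num, (sqL_e x y).2.2.1] at a1 a2 a3 a4
      simp only at a1 a2 a3 a4 h4 h5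
      omega
  · rintro j ⟨hj, hjV⟩ ⟨hj', hjV'⟩ - -
    have h1 := hV j hj
    have h2 := hV (j + 1) hj'
    have hstep := hb.step j
    rw [Ls0]
    by_cases g1 : sT A B S R σ (fun k => z + P k) (j + 1) = sT A B S R σ (fun k => z + P k) j
    · exact Or.inl g1
    · -- the jumps are at the zero ends
      have hr1 := sqL_rg (s := P j) (d := U j - 1)
      have hr2 := sqL_rg (s := P (j + 1)) (d := U (j + 1) - 1)
      obtain ⟨b1, b2, b3, b4⟩ := hjV
      obtain ⟨c1, c2, c3, c4⟩ := hjV'
      have hc : j + 1 = 3 * R + 2 * S + B - 1 ∨ j = 3 * R + 2 * S + B - 1 ∨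
          j + 1 = 5 * R + 2 * S + 2 * B + A ∨ j = 5 * R + 2 * S + 2 * B + A := by
        by_contra hcon
        push Not at hcon
        obtain ⟨d1, d2, d3, d4⟩ := hcon
        have hxx : ¬ (j + 1 = 3 * R + 2 * S - 1) := by
          intro he
          unfold wTV at h2
          omega
        have hyy : ¬ (j + 1 = 5 * R + 2 * S + 2 * B) := by
          intro he
          unfold wTV at h2
          omega
        apply g1
        unfold sT
        rw [if_neg (show ¬ j + 1 = 3 * R + 2 * S + B - 1 from d1), if_neg d2,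
          if_neg (show ¬ j + 1 = 5 * R + 2 * S + 2 * B + A from d3), if_neg d4]
        split_ifs <;> omega
      right
      rcases hc with hc | hc | hc | hc
      · have e1 : sT A B S R σ (fun k => z + P k) (j + 1) = zs σ (-1) (z + P (j + 1)) := by
          unfold sT
          rw [if_neg (by omega), if_neg (by omega), if_pos hc]
        have e2 : sT A B S R σ (fun k => z + P k) j = -1 := by
          unfold sT
          rw [if_neg (by omega), if_pos (by omega)]
        rcases zs_before (m := -1) hσ (q := z + P (j + 1)) with h3 | h3 | h3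
        · exact absurd (by rw [e1, e2, h3]) g1
        · exact Or.inl h3
        · exact Or.inr (Or.inl h3)
      · have e1 : sT A B S R σ (fun k => z + P k) j = zs σ (-1) (z + P j) := by
          unfold sT
          rw [if_neg (by omega), if_neg (by omega), if_pos hc]
        have e2 : sT A B S R σ (fun k => z + P k) (j + 1) = 0 := by
          unfold sT
          rw [if_neg (by omega), if_neg (by omega), if_neg (by omega), if_pos (by omega)]
        rcases zs_after (m := -1) hσ (q := z + P j) (d := U j) with h3 | h3 | h3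
        · exact absurd (by rw [e1, e2, ← h3]; norm_num) g1
        · rw [hstep, ← add_assoc]
          exact Or.inl h3
        · rw [hstep, ← add_assoc]
          exact Or.inr (Or.inl h3)
      · have e1 : sT A B S R σ (fun k => z + P k) (j + 1) = zs σ (-1) (z + P (j + 1)) := by
          unfold sT
          rw [if_neg (by omega), if_neg (by omega), if_neg (by omega), if_neg (by omega),
            if_neg (by omega), if_pos hc]
        have e2 : sT A B S R σ (fun k => z + P k) j = -1 := by
          unfold sT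
          rw [if_neg (by omega), if_neg (by omega), if_neg (by omega), if_neg (by omega),
            if_pos (by omega)]
        rcases zs_before (m := -1) hσ (q := z + P (j + 1)) with h3 | h3 | h3
        · exact absurd (by rw [e1, e2, h3]) g1
        · exact Or.inl h3
        · exact Or.inr (Or.inl h3)
      · have e1 : sT A B S R σ (fun k => z + P k) j = zs σ (-1) (z + P j) := by
          unfold sT
          rw [if_neg (by omega), if_neg (by omega), if_neg (by omega), if_neg (by omega),
            if_neg (by omega), if_pos hc]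
        have e2 : sT A B S R σ (fun k => z + P k) (j + 1) = 0 := by
          unfold sT
          rw [if_neg (by omega), if_neg (by omega), if_neg (by omega), if_neg (by omega),
            if_neg (by omega), if_neg (by omega)]
        rcases zs_after (m := -1) hσ (q := z + P j) (d := U j) with h3 | h3 | h3
        · exact absurd (by rw [e1, e2, ← h3]; norm_num) g1
        · rw [hstep, ← add_assoc]
          exact Or.inl h3
        · rw [hstep, ← add_assoc]
          exact Or.inr (Or.inl h3)
  · rintro i j - - - - hij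
    have h1 := sT_rg A B S R σ (fun k => z + P k) i
    have h2 := sT_rg A B S R σ (fun k => z + P k) j
    refine ⟨by omega, by omega, ?_⟩
    rintro (rfl | rfl)
    · have h3 : sT A B S R σ (fun k => z + P k) (R + S) = 0 := by
        unfold sT
        rw [if_pos (by omega)]
      omega
    · have h3 : sT A B S R σ (fun k => z + P k) (R + S) = 0 := by
        unfold sT
        rw [if_pos (by omega)]
      have h4 : sT A B S R σ (fun k => z + P k) i = 0 := by
        unfold sT
        rw [if_pos (by omega)]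
      omega

/-! ### the foot -/

/-- **The steps at the foot, off the hole.** -/
theorem wF_cls (hS : 1 ≤ S) (hSR : S < R) {ρ : ℤ} (hρ : 1 ≤ ρ) (hρS : (R : ℤ) + 1 - S ≤ ρ)
    {k : ℕ} {p : ℤ × ℤ} {u : ℤ} (h : wFV S R k p.1 p.2 u)
    (hU : sqL p (u - 1) ∈ wFU R) (hb : z + sqL p u ∉ (Bq z ρ : Set (ℤ × ℤ))) :
    (cl2 z (z + sqL p u) = true ∧ (k < R + 1 ∨ 4 * R + S + 3 < k)) ∨
      (cl2 z (z + sqL p u) = false ∧ R + 1 ≤ k ∧ k < 4 * R + S + 3) := by
  obtain ⟨x, y⟩ := p
  obtain ⟨a1, a2, a3, a4⟩ := hU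
  have hb' : ¬ (-ρ ≤ (sqL (x, y) u).1 ∧ (sqL (x, y) u).1 < ρ ∧ -ρ ≤ (sqL (x, y) u).2 ∧
      (sqL (x, y) u).2 < ρ) := fun h' => hb (mem_coe.2 (mem_bqW.2 (by
    simp only [Prod.fst_add, Prod.snd_add]
    omega)))
  have c0 : (sqL (x, y) u).1 < 0 → cl2 z (z + sqL (x, y) u) = true := fun h' => by
    unfold cl2
    exact decide_eq_true (by simp only [Prod.fst_add]; omega)
  have c1 : 0 ≤ (sqL (x, y) u).1 → cl2 z (z + sqL (x, y) u) = false := fun h' => by
    unfold cl2
    exact decide_eq_false (by simp only [Prod.fst_add]; omega)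
  simp only at h
  unfold wFV at h
  obtain ⟨s0, s1, s2, s3, s4, s5⟩ := sqL_e x y
  rcases h with h | h | h | h | h | h | h | h <;>
    obtain ⟨h2, h3, h4, h5, rfl⟩ := h
  · rw [s0] at hb' c0 c1 ⊢
    simp only at hb' c0 c1
    by_cases hx : x < 0
    · exact Or.inl ⟨c0 hx, Or.inl (by omega)⟩
    · exact Or.inr ⟨c1 (by omega), by omega, by omega⟩
  · exfalso
    rw [show (1 : ℤ) - 1 = 0 by norm_num, s0] at a1 a2 a3 a4
    simp only at a1 a2 a3 a4
    omega
  · exfalso
    rw [show (2 : ℤ) - 1 = 1 by norm_num, s1] at a1 a2 a3 a4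
    simp only at a1 a2 a3 a4
    omega
  · rw [s3] at hb' c1 ⊢
    simp only at hb' c1
    exact Or.inr ⟨c1 (by omega), by omega, by omega⟩
  · exfalso
    rw [s2] at hb'
    simp only at hb'
    omega
  · rw [s1] at hb' c0 ⊢
    simp only at hb' c0
    exact Or.inl ⟨c0 (by omega), Or.inr (by omega)⟩
  · exfalso
    rw [show (2 : ℤ) - 1 = 1 by norm_num, s1] at a1 a2 a3 a4
    simp only at a1 a2 a3 a4
    omega
  · exfalso
    rw [show (3 : ℤ) - 1 = 2 by norm_num, s2] at a1 a2 a3 a4
    simp only at a1 a2 a3 a4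
    omega

/-- **The window at the foot of the spoke.** -/
theorem winF_ok' (hσ : σ = 1 ∨ σ = -1) (hS : 1 ≤ S) (hSR : S < R)
    (hKV : ∀ v, v - z ∈ wFU R → (v ∈ K ↔ v - z ∈ wFQ S R))
    (hKD : ∀ v ∈ K, v - z ∉ wFR S R)
    (hoff : ∀ g, g ∉ bS K → hdv g - z ∈ wFR S R → a g false + a g true = 0)
    (h : PhF θ a EE σ c z S R) {ρ : ℤ} (hρ : 1 ≤ ρ) (hρS : (R : ℤ) + 1 - S ≤ ρ) :
    ∃ w : WinD, w.Ok θ K EE a ∧ w.σ = σ ∧ w.D = {v | v - z ∈ wFR S R} ∧
      w.V = {v | v - z ∈ wFU R} ∧ w.C = {v | v ∈ K ∧ v - z ∈ wFU R} ∧ (∀ j, ¬ w.Z j) ∧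
      NatO w (Bq z ρ) (cl2 z) := by
  obtain ⟨P, U, hb, hV⟩ := wF_bd hS hSR
  have hL := lwinF hS hSR hb hV
  have e0 : ∀ v, Lq z 0 v = v - z := Lq0 z
  have key := hL.ok (C₀ := Set.univ) (θ := θ) (K := K) (EE := EE) (a := a) (z := z) (e := 0)
    (σ := σ) (c := c) (s := sF S R σ (fun k => z + P k)) (E := fun _ => False)
    (Z := fun _ => False)
    hσ (by intro v; rw [e0]; exact fun h1 => (hKV v h1).2)
    (by intro v hv; rw [e0]; exact fun h1 _ => (hKV v h1).1 hv)
    (by intro v hv; rw [e0]; exact hKD v hv)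
    (by intro g; rw [e0]; exact hoff g) ?_ ?_ ?_
  · refine ⟨_, key, rfl, ?_, ?_, ?_, fun j h => h, ?_⟩
    · ext v
      show Lq z 0 v ∈ wFR S R ↔ _
      rw [e0]
      rfl
    · ext v
      show Lq z 0 v ∈ wFU R ↔ _
      rw [e0]
      rfl
    · ext v
      show (v ∈ K ∧ Lq z 0 v ∈ wFU R ∧ Lq z 0 v ∈ Set.univ) ↔ v ∈ K ∧ v - z ∈ wFU R
      rw [e0]
      simp
    · have hcl : ∀ i, (i < 6 * R + 2 * S + 6 ∧ sqL (P i) (U i - 1) ∈ wFU R) →
          sqL (Ls z 0 (P i)) (U i + 0) ∉ (Bq z ρ : Set (ℤ × ℤ)) →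
          (cl2 z (sqL (Ls z 0 (P i)) (U i + 0)) = true ∧ (i < R + 1 ∨ 4 * R + S + 3 < i)) ∨
            (cl2 z (sqL (Ls z 0 (P i)) (U i + 0)) = false ∧ R + 1 ≤ i ∧ i < 4 * R + S + 3) := by
        rintro i ⟨hi, hiV⟩ hB'
        rw [add_zero, Ls0, sqL_add] at hB' ⊢
        exact wF_cls hS hSR hρ hρS (hV i hi) hiV hB'
      refine ⟨fun i hi hB' hE => hE, ?_⟩
      intro i j hi hj hij b1 b2 hc
      have h1 := hcl i hi.1 b1
      have h2 := hcl j hj.1 b2
      change sF S R σ (fun k => z + P k) j ≤ sF S R σ (fun k => z + P k) i ∧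
        sF S R σ (fun k => z + P k) i ≤ sF S R σ (fun k => z + P k) j + 1
      change cl2 z (sqL (Ls z 0 (P i)) (U i + 0)) = cl2 z (sqL (Ls z 0 (P j)) (U j + 0)) at hc
      rcases h1 with ⟨h1, h3⟩ | ⟨h1, h3, h5⟩ <;>
        rcases h2 with ⟨h2, h4⟩ | ⟨h2, h4, h6⟩ <;> rw [h1, h2] at hc
      · have key : ∀ k, (k < R + 1 ∨ 4 * R + S + 3 < k) →
            sF S R σ (fun k => z + P k) k = 0 := by
          intro k hk
          unfold sF
          rcases hk with hk | hk
          · rw [if_pos (by omega)]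
          · rw [if_neg (by omega), if_neg (by omega), if_neg (by omega)]
        rw [key i h3, key j h4]
        omega
      · exact absurd hc (by decide)
      · exact absurd hc (by decide)
      · have key : ∀ k, R + 1 ≤ k → k < 4 * R + S + 3 →
            sF S R σ (fun k => z + P k) k = if k < 4 * R + 3 then 0 else -1 := by
          intro k hk hk'
          unfold sF
          by_cases h : k < 4 * R + 3
          · rw [if_pos h, if_pos h]
          · rw [if_neg h, if_neg h, if_pos (by omega)]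
        rw [key i h3 h5, key j h4 h6]
        split_ifs <;> omega
  · rintro i ⟨hi, hiV⟩ -
    have h1 := hV i hi
    rw [add_zero, Ls0]
    have hsT : sF S R σ (fun k => z + P k) i = sF S R σ (fun k => z + P k) i := rfl
    conv at hsT => rhs; unfold sF
    generalize hs : sF S R σ (fun k => z + P k) i = s at hsT ⊢
    simp only at hsT
    generalize hP : P i = p at h1 hiV hsT ⊢
    generalize U i = u at h1 hiV ⊢
    obtain ⟨x, y⟩ := p
    obtain ⟨a1, a2, a3, a4⟩ := hiV
    unfold Knd
    rw [sqL_add, sqL_add]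
    unfold wFV at h1
    rcases h1 with h1 | h1 | h1 | h1 | h1 | h1 | h1 | h1 <;>
      obtain ⟨h2, h3, h4, h5, rfl⟩ := h1
    · left
      rw [show (0 : ℤ) - 1 = -1 by norm_num, (sqL_e x y).2.2.2.2.1] at a1 a2 a3 a4 ⊢
      rw [(sqL_e x y).1]
      simp only at a1 a2 a3 a4 h4 h5
      have hs0 : s = 0 := by rw [hsT, if_pos (by omega)]
      rw [hs0]
      refine (h.Q x (by omega) (by omega)).cast ?_ ?_ (by push_cast; ring)
      · congr 1
        ext <;> simp only <;> omega
      · congr 1
        ext <;> simp only <;> omega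
    · exfalso
      rw [show (1 : ℤ) - 1 = 0 by norm_num, (sqL_e x y).1] at a1 a2 a3 a4
      simp only at a1 a2 a3 a4 h4 h5
      omega
    · exfalso
      rw [show (2 : ℤ) - 1 = 1 by norm_num, (sqL_e x y).2.1] at a1 a2 a3 a4
      simp only at a1 a2 a3 a4 h4 h5
      omega
    · left
      rw [show (3 : ℤ) - 1 = 2 by norm_num, (sqL_e x y).2.2.1] at a1 a2 a3 a4 ⊢
      rw [(sqL_e x y).2.2.2.1]
      simp only at a1 a2 a3 a4 h4 h5
      have hs0 : s = -1 := by rw [hsT, if_neg (by omega), if_pos (by omega)]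
      rw [hs0]
      refine (h.Se (y - 1) (by omega) (by omega)).cast ?_ ?_ (by push_cast; ring)
      · congr 1
        ext <;> simp only <;> omega
      · congr 1
        ext <;> simp only <;> omega
    · right
      right
      rw [show (2 : ℤ) - 1 = 1 by norm_num, (sqL_e x y).2.1] at a1 a2 a3 a4 ⊢
      rw [(sqL_e x y).2.2.1]
      simp only at a1 a2 a3 a4 h4 h5
      have hs0 : s = zs σ (-1) (z + (x, y)) := by
        rw [hsT, if_neg (by omega), if_neg (by omega), if_pos (by omega)]
      refine ⟨-1, hs0, h.S0.cast ?_ ?_ (by push_cast; ring)⟩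
      · congr 1
        ext <;> simp only <;> omega
      · congr 1
        ext <;> simp only <;> omega
    · left
      rw [show (1 : ℤ) - 1 = 0 by norm_num, (sqL_e x y).1] at a1 a2 a3 a4 ⊢
      rw [(sqL_e x y).2.1]
      simp only at a1 a2 a3 a4 h4 h5
      have hs0 : s = 0 := by
        rw [hsT, if_neg (by omega), if_neg (by omega), if_neg (by omega)]
      rw [hs0]
      refine (h.Sw y (by omega) (by omega)).cast ?_ ?_ (by push_cast; ring)
      · congr 1
        ext <;> simp only <;> omega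
      · congr 1
        ext <;> simp only <;> omega
    · exfalso
      rw [show (2 : ℤ) - 1 = 1 by norm_num, (sqL_e x y).2.1] at a1 a2 a3 a4
      simp only at a1 a2 a3 a4 h4 h5
      omega
    · exfalso
      rw [show (3 : ℤ) - 1 = 2 by norm_num, (sqL_e x y).2.2.1] at a1 a2 a3 a4
      simp only at a1 a2 a3 a4 h4 h5
      omega
  · rintro j ⟨hj, hjV⟩ ⟨hj', hjV'⟩ - -
    have h1 := hV j hj
    have h2 := hV (j + 1) hj'
    have hstep := hb.step j
    rw [Ls0]
    by_cases g1 : sF S R σ (fun k => z + P k) (j + 1) = sF S R σ (fun k => z + P k) j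
    · exact Or.inl g1
    · -- the jumps are at the zero end
      have hr1 := sqL_rg (s := P j) (d := U j - 1)
      have hr2 := sqL_rg (s := P (j + 1)) (d := U (j + 1) - 1)
      obtain ⟨b1, b2, b3, b4⟩ := hjV
      obtain ⟨c1, c2, c3, c4⟩ := hjV'
      have hc : j + 1 = 4 * R + S + 3 ∨ j = 4 * R + S + 3 := by
        by_contra hcon
        push Not at hcon
        obtain ⟨d1, d2⟩ := hcon
        have hxx : ¬ (j + 1 = 4 * R + 3) := by
          intro he
          unfold wFV at h1
          have h3 : U j = 2 := by omega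
          have h4 : (P j).2 = R + 1 := by omega
          rw [h3, show (2 : ℤ) - 1 = 1 by norm_num] at b4
          have h5 : (sqL (P j) 1).2 = (P j).2 := by
            have := (sqL_e (P j).1 (P j).2).2.1
            rw [show ((P j).1, (P j).2) = P j from rfl] at this
            rw [this]
          omega
        apply g1
        unfold sF
        rw [if_neg (show ¬ j + 1 = 4 * R + S + 3 from d1), if_neg d2]
        split_ifs <;> omega
      right
      rcases hc with hc | hc
      · have e1 : sF S R σ (fun k => z + P k) (j + 1) = zs σ (-1) (z + P (j + 1)) := by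
          unfold sF
          rw [if_neg (by omega), if_neg (by omega), if_pos hc]
        have e2 : sF S R σ (fun k => z + P k) j = -1 := by
          unfold sF
          rw [if_neg (by omega), if_pos (by omega)]
        rcases zs_before (m := -1) hσ (q := z + P (j + 1)) with h3 | h3 | h3
        · exact absurd (by rw [e1, e2, h3]) g1
        · exact Or.inl h3
        · exact Or.inr (Or.inl h3)
      · have e1 : sF S R σ (fun k => z + P k) j = zs σ (-1) (z + P j) := by
          unfold sF
          rw [if_neg (by omega), if_neg (by omega), if_pos hc]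
        have e2 : sF S R σ (fun k => z + P k) (j + 1) = 0 := by
          unfold sF
          rw [if_neg (by omega), if_neg (by omega), if_neg (by omega)]
        rcases zs_after (m := -1) hσ (q := z + P j) (d := U j) with h3 | h3 | h3
        · exact absurd (by rw [e1, e2, ← h3]; norm_num) g1
        · rw [hstep, ← add_assoc]
          exact Or.inl h3
        · rw [hstep, ← add_assoc]
          exact Or.inr (Or.inl h3)
  · rintro i j - - - - hij
    have h1 := sF_rg S R σ (fun k => z + P k) i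
    have h2 := sF_rg S R σ (fun k => z + P k) j
    refine ⟨by omega, by omega, ?_⟩
    rintro (h | h)
    · exact h.elim
    · exact h.elim

end Vale.Agent.P167.N.ID
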