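import Vale.Agent.P167.N.ID.WinN

/-!
# P167, `q < 1`, START: the windows of a frame, at one scale: strands (W1)
-/

set_option autoImplicit false

namespace Vale.Agent.P167.N.ID

open Finset Filter
open Vale.Agent.P167.A (plane)
open Vale.Agent.P167.BR hiding dv
open Vale.Agent.P167.Top
open Vale.Agent.P167.FK
open Vale.Agent.P167.H871
open Vale.Agent.P167.H871.Q
open Vale.Agent.P167.XDL (bS mem_bS)
open Vale.Agent.P167.H199 (ah at' strand ret Returns)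
open Vale.Agent.P167.Enl (Two two_inj)
open Vale.Agent.P167.H680.T (WallG WCG nm_ht par par_cases mem_uI)
open Vale.Agent.P167.H945.Q (face faces nm_sub_le nm_comm lrs)
open Vale.Agent.P167.H680.S (nxt nxt_mem)
open Vale.Agent.P167.QX (wS fLp InB)
open Vale.Agent.P167.H562.QM (MajA)

section defs

variable {ι : Type} (θ : ℝ) (r : ι → Row) (K : Finset (ℤ × ℤ)) (d : ℝ) (ω : Cfg)

/-- The strands over a junction of the second kind, on its killed face. -/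
def MxE (e : Ed) : Prop :=
  ∃ i, ∃ k k' : ℕ, k < (r i).L ∧ k' < (r i).L ∧ e = face (r i).toRow (r i).kf k ∧
    nxt (bS K) ω e = face (r i).toRow (r i).kf k' ∧ Mxk θ (r i) (r i).kf k k'

/-- The end sides and the sides next to the invisible bases. -/
def FTs : Set Ed :=
  {g | ∃ i, (∃ c, g = (r i).es c) ∨ g = face (r i).toRow (!(r i).kf) (r i).k0 ∨
    g = face (r i).toRow (!(r i).kf) ((r i).k0 - 1)}

open Classical in
/-- The exceptional strands. -/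
noncomputable def ftK : Finset Ed :=
  (bS K).filter fun e => hdv e ∉ K ∧ (e ∈ FTs r ∨ nxt (bS K) ω e ∈ FTs r)

open Classical in
/-- The factors of the strands. -/
noncomputable def τK (e : Ed) : ℝ :=
  if MxE θ r K ω e ∧ SmS (bS K) d ω e then 2 * Real.cos θ else 1

end defs

section gen

variable {ι : Type} [Fintype ι] {θ : ℝ} {r : ι → Row} {K : Finset (ℤ × ℤ)} {d : ℝ} {ω : Cfg}
  {i : ι} {b : Bool} {k : ℕ} {e e' : Ed} {S : Finset Ed}

omit [Fintype ι] in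
theorem face_tl (hK : ∀ v, v ∈ K ↔ ∃ i, v ∈ (r i).I) (hL : ∀ i, 1 ≤ (r i).L) (hk : k < (r i).L)
    (h : hdv (face (r i).toRow b k) ∉ K) : tlv (face (r i).toRow b k) = (r i).sq k := by
  obtain ⟨h1, -⟩ := two_face (b := b) (hL i) hk
  rcases h1 with ⟨h2, h3⟩ | ⟨h2, h3⟩
  · first
    | exact h3
    | exact absurd ((hK _).2 ⟨i, h2 ▸ H680.T.sq_mem.2 hk⟩) h
  · first
    | exact h3
    | exact absurd ((hK _).2 ⟨i, h2 ▸ H680.T.sq_mem.2 hk⟩) h

omit [Fintype ι] in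
theorem face_hd (hK : ∀ v, v ∈ K ↔ ∃ i, v ∈ (r i).I) (hL : ∀ i, 1 ≤ (r i).L) (hs : RSep r)
    (hk : k < (r i).L) (h : hdv (face (r i).toRow b k) ∈ K) :
    hdv (face (r i).toRow b k) = (r i).sq k := by
  obtain ⟨h1, h0⟩ := two_face (b := b) (hL i) hk
  have hsq : (r i).sq k ∈ (r i).I := H680.T.sq_mem.2 hk
  have hn := hs.nb hsq h0 (two_nm h1)
  rcases h1 with ⟨h2, h3⟩ | ⟨h2, h3⟩
  · first
    | exact h2
    | (rw [h2] at h
       obtain ⟨j, hj⟩ := (hK _).1 h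
       exact absurd hj (hn j))
  · first
    | exact h2
    | (rw [h2] at h
       obtain ⟨j, hj⟩ := (hK _).1 h
       exact absurd hj (hn j))

theorem nxt_inj_good (hg : Good ω) (he : e ∈ S) (he' : e' ∈ S)
    (h : nxt S ω e = nxt S ω e') : e = e' := by
  obtain ⟨ℓ, hl, hel⟩ := hg e
  obtain ⟨ℓ', hl', hel'⟩ := hg e'
  have h1 := (nxt_mem hl he hel).2
  have h2 := (nxt_mem hl' he' hel').2
  obtain ⟨m, hm⟩ := (H685.loop_gen hl' h2 e').1 hel'
  have h3 : e' ∈ ℓ := by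
    rw [← hm, ← h]
    exact H199.loop_iter hl h1 m
  exact H680.S.nxt_inj hl he hel he' h3 h

/-- The number of the exceptional strands. -/
theorem ftK_card (hg : Good ω) : (ftK r K ω).card ≤ 8 * Fintype.card ι := by
  classical
  set A : Finset Ed := univ.biUnion fun i => {(r i).es true, (r i).es false,
    face (r i).toRow (!(r i).kf) (r i).k0, face (r i).toRow (!(r i).kf) ((r i).k0 - 1)} with hA
  have hAc : A.card ≤ 4 * Fintype.card ι := by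
    refine card_biUnion_le.trans ?_
    refine (sum_le_card_nsmul _ _ 4 fun i _ => card_le_four).trans ?_
    rw [card_univ, smul_eq_mul, mul_comm]
  have hAm : ∀ g, g ∈ FTs r → g ∈ A := by
    rintro g ⟨i, h⟩
    refine mem_biUnion.2 ⟨i, mem_univ _, ?_⟩
    simp only [mem_insert, mem_singleton]
    rcases h with ⟨c, rfl⟩ | h | h
    · cases c
      · exact Or.inr (Or.inl rfl)
      · exact Or.inl rfl
    · exact Or.inr (Or.inr (Or.inl h))
    · exact Or.inr (Or.inr (Or.inr h))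
  have h1 : ftK r K ω ⊆ A ∪ (bS K).filter (fun e => nxt (bS K) ω e ∈ A) := by
    intro e he
    obtain ⟨h1, -, h2⟩ := mem_filter.1 he
    rcases h2 with h2 | h2
    · exact mem_union_left _ (hAm _ h2)
    · exact mem_union_right _ (mem_filter.2 ⟨h1, hAm _ h2⟩)
  have h2 : ((bS K).filter (fun e => nxt (bS K) ω e ∈ A)).card ≤ A.card := by
    refine card_le_card_of_injOn (fun e => nxt (bS K) ω e) (fun e he => ?_) fun e he e' he' h => ?_
    · exact (mem_filter.1 he).2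
    · exact nxt_inj_good hg (mem_filter.1 he).1 (mem_filter.1 he').1 h
  have h3 := (card_le_card h1).trans (card_union_le _ _)
  omega

theorem τK_nonneg (hc : 0 ≤ Real.cos θ) (e : Ed) : 0 ≤ τK θ r K d ω e := by
  unfold τK
  split_ifs
  · linarith
  · exact zero_le_one

theorem nm_sq_ge {r : H825.Q.Row} {a b : ℕ} : (a : ℤ) - b ≤ nm (r.sq a - r.sq b) ∧
    (b : ℤ) - a ≤ nm (r.sq a - r.sq b) := by
  have h5 := le_refl (nm (r.sq a - r.sq b))
  rw [nm_le_iff] at h5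
  simp only [Prod.fst_sub, Prod.snd_sub] at h5
  generalize nm (r.sq a - r.sq b) = m at h5 ⊢
  unfold H825.Q.Row.sq at h5
  cases ho : r.o <;> simp [ho] at h5 <;> omega

end gen

section one

variable {Φ : FrS Row} {θ β : ℝ} {hc : 0 ≤ Real.cos θ} {l : ℕ} {p : ZMod l → ℤ × ℤ}
  {S₀ : Finset (ℤ × ℤ)} {g δ κ' κ₁ : ℝ} {n : ℕ} {ω : Cfg} {e x : Ed} {ℓ : Finset Ed} {i : Φ.ι}
  {k : ℕ} {v c : ℤ × ℤ}

theorem near_Bq (hS : Scl g δ κ' κ₁ n) (h : (nm (v - c) : ℝ) ≤ 8 * (κ' * n)) :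
    v ∈ Bq c ⌊κ₁ * n⌋ := by
  obtain ⟨b1, b2, b3, b4, b5, b6⟩ := hS.bd
  have hb := hS.big
  have h1 : nm (v - c) + 1 ≤ ⌊κ₁ * n⌋ := by
    rw [Int.le_floor]
    push_cast
    linarith
  have h2 : nm (v - c) ≤ ⌊κ₁ * n⌋ - 1 := by omega
  rw [nm_le_iff] at h2
  simp only [Prod.fst_sub, Prod.snd_sub] at h2
  rw [QX.Bq_eq, QX.mem_Bx]
  simp only
  omega

/-- The end of a small strand. -/
theorem end_near (hg : Good ω) {K : Finset (ℤ × ℤ)} {d : ℝ} (hx : x ∈ bS K)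
    (hsm : SmS (bS K) d ω x) : (nm (hdv (nxt (bS K) ω x) - hdv x) : ℝ) ≤ d + 1 := by
  have hr := QX.returns_good hg hx
  obtain ⟨hm, -⟩ := hr.spec
  obtain ⟨j, hj⟩ : ∃ j, ret (nx ω) (bS K) x = j + 1 := ⟨ret (nx ω) (bS K) x - 1, by omega⟩
  have h1 : tlv (nxt (bS K) ω x) = hdv ((nx ω)^[j] x) := by
    unfold nxt
    rw [hj, Function.iterate_succ_apply', tlv_nx]
  have h2 := nm_ht (nxt (bS K) ω x)
  rw [h1] at h2
  have h3 := hsm j (by omega)
  have h4 : (nm (hdv (nxt (bS K) ω x) - hdv x) : ℝ) ≤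
      nm (hdv (nxt (bS K) ω x) - hdv ((nx ω)^[j] x)) + nm (hdv ((nx ω)^[j] x) - hdv x) := by
    exact_mod_cast nm_sub_le _ _ _
  have h5 : (nm (hdv (nxt (bS K) ω x) - hdv ((nx ω)^[j] x)) : ℝ) ≤ 1 := by exact_mod_cast h2
  linarith

/-- The strands over the junctions are far from the holes. -/
theorem mxe_far (hG : Φ.GeoN (rowS θ) (rowF hc) {true} θ β p S₀ g δ n) (hS : Scl g δ κ' κ₁ n)
    (hg : Good ω) (hx : x ∈ bS (Φ.U (rowS θ) δ n)) (hxK : hdv x ∉ Φ.U (rowS θ) δ n)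
    (hsm : SmS (bS (Φ.U (rowS θ) δ n)) (κ' * n) ω x)
    (hM : MxE θ (Φ.r δ n) (Φ.U (rowS θ) δ n) ω x) (y : Φ.H) :
    2 * (κ' * n) < nm (tlv x - Φ.h δ n y) := by
  obtain ⟨b1, b2, b3, b4, b5, b6⟩ := hS.bd
  have hb := hS.big
  have hK := mem_UK Φ θ δ n
  have hL := GeoN.one_le hG hS
  have hs := GeoN.rsep hG hS
  obtain ⟨i, k, k', hk, hk', e1, e2, ⟨g1, g2⟩, -, g4⟩ := hM
  have ht : tlv x = (Φ.r δ n i).sq k := by
    rw [e1]
    refine face_tl hK hL hk ?_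
    rw [← e1]
    exact hxK
  have hnK : hdv (nxt (bS (Φ.U (rowS θ) δ n)) ω x) ∈ Φ.U (rowS θ) δ n :=
    (QX.exc_last hxK (QX.returns_good hg hx)).1
  have hh : hdv (nxt (bS (Φ.U (rowS θ) δ n)) ω x) = (Φ.r δ n i).sq k' := by
    rw [e2] at hnK ⊢
    exact face_hd hK hL hs hk' hnK
  have hd := end_near hg hx hsm
  have ho := hG.oth i false (by decide) (Or.inr fun hp => by
    have := hp.2
    rw [g1] at this
    norm_num at this) y
  change g * n ≤ (nm ((Φ.r δ n i).ctr false - Φ.h δ n y) : ℝ) at ho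
  have hcz : (Φ.r δ n i).ctr false = (Φ.r δ n i).st (Φ.r δ n i).kf (Φ.r δ n i).k0 := by
    unfold Row.ctr
    rw [if_neg Bool.false_ne_true]
    rfl
  rw [hcz] at ho
  have h1 := (Φ.r δ n i).near_st (Φ.r δ n i).kf (Φ.r δ n i).k0
  have h2 : (nm ((Φ.r δ n i).sq k - (Φ.r δ n i).sq k') : ℝ) ≤ κ' * n + 2 := by
    have h3 := nm_sub_le ((Φ.r δ n i).sq k) (hdv x) ((Φ.r δ n i).sq k')
    have h4 : nm ((Φ.r δ n i).sq k - hdv x) ≤ 1 := by
      rw [← ht, nm_comm]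
      exact nm_ht x
    rw [← hh, nm_comm (hdv x)] at h3
    rw [← hh]
    have h5 : (nm ((Φ.r δ n i).sq k - hdv (nxt (bS (Φ.U (rowS θ) δ n)) ω x)) : ℝ) ≤
      1 + nm (hdv (nxt (bS (Φ.U (rowS θ) δ n)) ω x) - hdv x) := by
      exact_mod_cast h3.trans (by omega)
    linarith
  obtain ⟨h6, h7⟩ := nm_sq_ge (r := (Φ.r δ n i).toRow) (a := k) (b := k')
  have h8 : nm ((Φ.r δ n i).sq k - (Φ.r δ n i).sq (Φ.r δ n i).k0) ≤
      nm ((Φ.r δ n i).sq k - (Φ.r δ n i).sq k') := by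
    refine nm_sq2 ?_ ?_ <;> omega
  have h9 := nm_sub_le ((Φ.r δ n i).st (Φ.r δ n i).kf (Φ.r δ n i).k0)
    ((Φ.r δ n i).sq (Φ.r δ n i).k0) (Φ.h δ n y)
  have h10 := nm_sub_le ((Φ.r δ n i).sq (Φ.r δ n i).k0) ((Φ.r δ n i).sq k) (Φ.h δ n y)
  rw [nm_comm ((Φ.r δ n i).sq (Φ.r δ n i).k0) ((Φ.r δ n i).sq k)] at h10
  rw [ht]
  have h11 : (nm ((Φ.r δ n i).st (Φ.r δ n i).kf (Φ.r δ n i).k0 - Φ.h δ n y) : ℝ) ≤
      1 + (nm ((Φ.r δ n i).sq k - (Φ.r δ n i).sq k') + nm ((Φ.r δ n i).sq k - Φ.h δ n y)) := by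
    exact_mod_cast h9.trans (by omega)
  linarith

/-- **[W1] at one scale.** -/
theorem w1_n (h13 : Real.pi / 3 ≤ θ) (h12 : θ < Real.pi / 2)
    (hG : Φ.GeoN (rowS θ) (rowF hc) {true} θ β p S₀ g δ n) (hE : Φ.Ends δ n)
    (hS : Scl g δ κ' κ₁ n)
    (hH : ∀ y, HolW θ (Φ.U (rowS θ) δ n) (EEr (Φ.r δ n)) (Φ.ph (rowS θ) δ n 0) (Φ.h δ n y)
      ⌊κ₁ * n⌋ (Φ.b δ n y))
    (hg : Good ω) (hx : x ∈ bS (Φ.U (rowS θ) δ n)) (hxK : hdv x ∉ Φ.U (rowS θ) δ n)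
    (hsm : SmS (bS (Φ.U (rowS θ) δ n)) (κ' * n) ω x) :
    |wS θ (Φ.U (rowS θ) δ n) (Φ.ph (rowS θ) δ n 0) ω x| ≤
      (if x ∈ ftK (Φ.r δ n) (Φ.U (rowS θ) δ n) ω then (Real.sin θ)⁻¹ else 1) *
        τK θ (Φ.r δ n) (Φ.U (rowS θ) δ n) (κ' * n) ω x := by
  classical
  obtain ⟨b1, b2, b3, b4, b5, b6⟩ := hS.bd
  have hb := hS.big
  obtain ⟨hsn, hcs, hc1⟩ := sin_two_le h13 h12
  have hK := mem_UK Φ θ δ n
  have hL := GeoN.one_le hG hS
  have hs := GeoN.rsep hG hS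
  have hi1 : 1 ≤ (Real.sin θ)⁻¹ := (one_le_inv₀ hsn).2 (Real.sin_le_one θ)
  have hif : 1 ≤ (if x ∈ ftK (Φ.r δ n) (Φ.U (rowS θ) δ n) ω then (Real.sin θ)⁻¹ else 1) := by
    split_ifs
    · exact hi1
    · exact le_rfl
  have htK : tlv x ∈ Φ.U (rowS θ) δ n := by
    rcases mem_bS.1 hx with ⟨h1, -⟩ | ⟨-, h1⟩
    · exact absurd h1 hxK
    · exact h1
  obtain ⟨i, hi⟩ := (hK _).1 htK
  obtain ⟨k, hk, ht⟩ := H945.Q.exists_sq hi
  by_cases hn : ∀ y, 2 * (κ' * n) < nm ((Φ.r δ n i).sq k - Φ.h δ n y)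
  · -- far from the holes
    obtain ⟨f1, f2, f3⟩ := far_row hG hE hS hk hn
    obtain ⟨b, k', hk', e1, e2, hw⟩ := face_w1 (zz := fun _ => 0) hK hL hs (GeoN.mg hG i).1 h13 h12
      f1 f2 f3 (by omega) hg hx hxK ht.symm (fun j hj => sm_int hS (hsm j hj))
    change |wS θ (Φ.U (rowS θ) δ n) (Φ.ph (rowS θ) δ n 0) ω x| ≤ _ at hw
    by_cases hM : Mxk θ (Φ.r δ n i) b k k'
    · rw [if_pos hM] at hw
      have hbk := hM.2.1
      have hE : MxE θ (Φ.r δ n) (Φ.U (rowS θ) δ n) ω x := by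
        subst hbk
        exact ⟨i, k, k', hk, hk', e1, e2, hM⟩
      have hτ : τK θ (Φ.r δ n) (Φ.U (rowS θ) δ n) (κ' * n) ω x = 2 * Real.cos θ := if_pos ⟨hE, hsm⟩
      rw [hτ]
      refine hw.trans ?_
      nlinarith
    · rw [if_neg hM] at hw
      have hE : ¬ MxE θ (Φ.r δ n) (Φ.U (rowS θ) δ n) ω x := by
        rintro ⟨i', k1, k1', hk1, hk1', g1, g2, g3⟩
        obtain ⟨rfl, rfl, rfl⟩ := face_uniq hL hs hk hk1 (e1.symm.trans g1)
        obtain ⟨-, -, rfl⟩ := face_uniq hL hs hk' hk1' (e2.symm.trans g2)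
        exact hM g3
      have hτ : τK θ (Φ.r δ n) (Φ.U (rowS θ) δ n) (κ' * n) ω x = 1 := if_neg fun h => hE h.1
      rw [hτ]
      linarith
  · -- at a hole
    push Not at hn
    obtain ⟨y, hy⟩ := hn
    rw [ht] at hy
    have hE : ¬ MxE θ (Φ.r δ n) (Φ.U (rowS θ) δ n) ω x := fun hM => by
      have := mxe_far hG hS hg hx hxK hsm hM y
      linarith
    have hτ : τK θ (Φ.r δ n) (Φ.U (rowS θ) δ n) (κ' * n) ω x = 1 := if_neg fun h => hE h.1
    rw [hτ, mul_one]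
    split_ifs with hft
    · unfold wS
      rw [abs_div, abs_of_pos hsn, div_eq_mul_inv]
      have h1 := Real.abs_cos_le_one (H199.cang plane θ (Φ.ph (rowS θ) δ n 0) ω
        (strand (nx ω) (bS (Φ.U (rowS θ) δ n)) x))
      have h2 : 0 ≤ (Real.sin θ)⁻¹ := by linarith
      nlinarith
    · have hnf : x ∉ FTs (Φ.r δ n) ∧ nxt (bS (Φ.U (rowS θ) δ n)) ω x ∉ FTs (Φ.r δ n) := by
        unfold ftK at hft
        rw [mem_filter] at hft
        push Not at hft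
        exact hft hx hxK
      have hr := QX.returns_good hg hx
      have hxh : (nm (hdv x - Φ.h δ n y) : ℝ) ≤ 2 * (κ' * n) + 1 := by
        have h1 : (nm (hdv x - Φ.h δ n y) : ℝ) ≤ nm (hdv x - tlv x) + nm (tlv x - Φ.h δ n y) := by
          exact_mod_cast nm_sub_le _ _ _
        have h2 : (nm (hdv x - tlv x) : ℝ) ≤ 1 := by exact_mod_cast nm_ht x
        linarith
      obtain ⟨w, w1, w2, w3, w4, w5, w6⟩ := hH y (hdv x) hxK (near_Bq hS (by linarith))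
      have hV : ∀ j < ret (nx ω) (bS (Φ.U (rowS θ) δ n)) x, hdv ((nx ω)^[j] x) ∈ w.V := by
        intro j hj
        refine w3 _ (near_Bq hS ?_)
        have h1 : (nm (hdv ((nx ω)^[j] x) - Φ.h δ n y) : ℝ) ≤
            nm (hdv ((nx ω)^[j] x) - hdv x) + nm (hdv x - Φ.h δ n y) := by
          exact_mod_cast nm_sub_le _ _ _
        have h2 := hsm j hj
        linarith
      have hnK : hdv (nxt (bS (Φ.U (rowS θ) δ n)) ω x) ∈ Φ.U (rowS θ) δ n :=
        (QX.exc_last hxK hr).1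
      refine w1.wS_le h13 h12 hx hr (w1.strandD hxK w2 hV) (w4 _ htK (near_Bq hS (by linarith)))
        (w4 _ hnK (near_Bq hS ?_)) (fun h => hnf.1 ?_) (fun h => hnf.2 ?_)
      · have h1 : (nm (hdv (nxt (bS (Φ.U (rowS θ) δ n)) ω x) - Φ.h δ n y) : ℝ) ≤
            nm (hdv (nxt (bS (Φ.U (rowS θ) δ n)) ω x) - hdv x) + nm (hdv x - Φ.h δ n y) := by
          exact_mod_cast nm_sub_le _ _ _
        have h2 := end_near hg hx hsm
        linarith
      · obtain ⟨j, hj⟩ := h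
        exact ⟨j, Or.inl ⟨_, hj⟩⟩
      · obtain ⟨j, hj⟩ := h
        exact ⟨j, Or.inl ⟨_, hj⟩⟩

end one

end Vale.Agent.P167.N.ID
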