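import Vale.Agent.P167.N.ID.WinNb

/-!
# P167, `q < 1`, START: the windows of a frame, at one scale: loops (W2)
-/

set_option autoImplicit false

namespace Vale.Agent.P167.N.ID

open Finset Filter
open Vale.Agent.P167.A (plane)
open Vale.Agent.P167.BR hiding dv
open Vale.Agent.P167.Top
open Vale.Agent.P167.FK
open Vale.Agent.P167.H871
open Vale.Agent.P167.H871.Q
open Vale.Agent.P167.XDL (bS mem_bS)
open Vale.Agent.P167.H199 (ah at' strand ret Returns)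
open Vale.Agent.P167.Enl (Two two_inj)
open Vale.Agent.P167.H680.T (WallG WCG nm_ht par par_cases mem_uI)
open Vale.Agent.P167.H945.Q (face faces nm_sub_le nm_comm lrs)
open Vale.Agent.P167.H680.S (nxt nxt_mem)
open Vale.Agent.P167.QX (wS fLp InB)
open Vale.Agent.P167.H562.QM (MajA)

section gen

variable {K : Finset (ℤ × ℤ)} {ω : Cfg} {ℓ : Finset Ed} {e x : Ed} {θ : ℝ} {w : WinD}
  {a : Ed → Bool → ℝ} {ι : Type} {r : ι → Row}

/-- The next cut edge of an entry is an exit. -/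
theorem nxtW_exit (hr : Returns (nx ω) (bS K) x) (hK : hdv x ∈ K) :
    hdv (nxt (bS K) ω x) ∉ K := by
  obtain ⟨hm, hS⟩ := hr.spec
  obtain ⟨j, hj⟩ : ∃ j, ret (nx ω) (bS K) x = j + 1 := ⟨ret (nx ω) (bS K) x - 1, by omega⟩
  have h1 : tlv (nxt (bS K) ω x) = hdv ((nx ω)^[j] x) := by
    unfold nxt
    rw [hj, Function.iterate_succ_apply', tlv_nx]
  have h2 : tlv (nxt (bS K) ω x) ∈ K := by
    rw [h1]
    exact QX.in_stays hK (by omega)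
  rcases mem_bS.1 hS with ⟨-, h3⟩ | ⟨h3, -⟩
  · exact absurd h2 h3
  · exact h3

/-- The edge before an edge of a loop. -/
theorem loopW_prev (hl : IsLoop ω ℓ) (he : e ∈ ℓ) : ∃ y ∈ ℓ, hdv y = tlv e := by
  have hxi : e ∈ ℓ.image (nx ω) := by rw [hl.image]; exact he
  obtain ⟨y, hy, rfl⟩ := mem_image.1 hxi
  exact ⟨y, hy, (tlv_nx ω y).symm⟩

/-- A loop which meets the frozen squares has an exit. -/
theorem loopW_exit (hl : IsLoop ω ℓ) (hm : ∃ e ∈ bS K, e ∈ ℓ) :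
    ∃ e ∈ bS K, e ∈ ℓ ∧ hdv e ∉ K := by
  obtain ⟨e, he, hel⟩ := hm
  by_cases h : hdv e ∈ K
  · have h1 := nxt_mem (S := bS K) hl he hel
    exact ⟨_, h1.1, h1.2, nxtW_exit (QX.returns_loop hl hel he) h⟩
  · exact ⟨e, he, hel, h⟩

/-- **The factor of a loop in a window without exceptional strands.** -/
theorem WinD.Ok.loop_one (h : w.Ok θ K (EEr r) a) (h0 : 0 < θ) (h1 : θ < Real.pi / 2)
    (hv : w.Lv K ω ℓ)
    (hB : ∀ x ∈ ℓ, x ∈ bS K → hdv x ∈ K → w.Bse K ω x → nxt (bS K) ω x ∈ FTs r)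
    (hft : ∀ x ∈ bS K, hdv x ∉ K → x ∈ ℓ → x ∉ ftK r K ω) :
    fLp θ K a ω ℓ = 0 ∨ fLp θ K a ω ℓ = 1 := by
  classical
  rcases h.loop h0 h1 hv with ⟨h2, -⟩ | ⟨ρ, q, h2, h3, h4⟩
  · exact Or.inl h2
  · right
    have hq : q = 1 := by
      rcases h3 with h3 | ⟨-, x, hx, hxS, hxK, hxB⟩
      · exact h3
      · exfalso
        have g1 := nxt_mem (S := bS K) hv.loop hxS hx
        have g2 := nxtW_exit (QX.returns_loop hv.loop hx hxS) hxK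
        refine hft _ g1.1 g2 g1.2 ?_
        unfold ftK
        exact mem_filter.2 ⟨g1.1, g2, Or.inl (hB x hx hxS hxK hxB)⟩
    rw [h2, hq, one_mul]
    refine prod_eq_one fun e he => ?_
    obtain ⟨g1, g2, g3⟩ := mem_exs.1 he
    have g4 := hft e g1 g2 g3
    unfold ftK at g4
    rw [mem_filter] at g4
    push Not at g4
    obtain ⟨g5, g6⟩ := g4 g1 g2
    refine (h4 e he).2.2 (fun h => g5 ?_) (fun h => g6 ?_)
    · obtain ⟨j, hj⟩ := h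
      exact ⟨j, Or.inl ⟨_, hj⟩⟩
    · obtain ⟨j, hj⟩ := h
      exact ⟨j, Or.inl ⟨_, hj⟩⟩

end gen

section one

variable {Φ : FrS Row} {θ β : ℝ} {hc : 0 ≤ Real.cos θ} {l : ℕ} {p : ZMod l → ℤ × ℤ}
  {S₀ : Finset (ℤ × ℤ)} {g δ κ' κ₁ : ℝ} {n : ℕ} {ω : Cfg} {e x : Ed} {ℓ : Finset Ed} {i : Φ.ι}
  {k : ℕ} {v c : ℤ × ℤ}

/-- The exits of a loop of one colour are not over junctions. -/
theorem mxe_mono (hG : Φ.GeoN (rowS θ) (rowF hc) {true} θ β p S₀ g δ n) (hS : Scl g δ κ' κ₁ n)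
    (hf : Φ.Frz (rowS θ) δ n ω) (hl : IsLoop ω ℓ) (hsm : SmL (κ' * n) ℓ)
    (hx : x ∈ bS (Φ.U (rowS θ) δ n)) (hxK : hdv x ∉ Φ.U (rowS θ) δ n) (hxl : x ∈ ℓ) :
    ¬ MxE θ (Φ.r δ n) (Φ.U (rowS θ) δ n) ω x := by
  rintro ⟨i, k, k', hk, hk', e1, e2, ⟨g1, g2⟩, -, g4⟩
  have hK := mem_UK Φ θ δ n
  have hL := GeoN.one_le hG hS
  have hs := GeoN.rsep hG hS
  have ht : tlv x = (Φ.r δ n i).sq k := by
    rw [e1]
    refine face_tl hK hL hk ?_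
    rw [← e1]
    exact hxK
  have hnK : hdv (nxt (bS (Φ.U (rowS θ) δ n)) ω x) ∈ Φ.U (rowS θ) δ n :=
    (QX.exc_last hxK (QX.returns_loop hl hxl hx)).1
  have hh : hdv (nxt (bS (Φ.U (rowS θ) δ n)) ω x) = (Φ.r δ n i).sq k' := by
    rw [e2] at hnK ⊢
    exact face_hd hK hL hs hk' hnK
  obtain ⟨y, hy, hyt⟩ := loopW_prev hl hxl
  have hyK : hdv y ∈ Φ.U (rowS θ) δ n := by
    rw [hyt, ht]
    exact (hK _).2 ⟨i, H680.T.sq_mem.2 hk⟩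
  have h1 := mono_n hG hS hf hl hsm hy (nxt_mem (S := bS (Φ.U (rowS θ) δ n)) hl hx hxl).2 hyK hnK
  have f1 : ω ((Φ.r δ n i).sq k) = (Φ.r δ n i).fr ((Φ.r δ n i).sq k) :=
    hf i _ (H680.T.sq_mem.2 hk)
  have f2 : ω ((Φ.r δ n i).sq k') = (Φ.r δ n i).fr ((Φ.r δ n i).sq k') :=
    hf i _ (H680.T.sq_mem.2 hk')
  rw [hyt, ht, hh, f1, f2] at h1
  unfold H825.Q.Row.fr at h1
  rw [(Φ.r δ n i).τ_sq, (Φ.r δ n i).τ_sq, g1, decide_eq_decide] at h1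
  by_cases c1 : (Φ.r δ n i).k0 ≤ k <;> by_cases c2 : (Φ.r δ n i).k0 ≤ k'
  · exact g4 (by simp [c1, c2])
  · rw [if_pos c1, if_neg c2] at h1
    rcases (GeoN.mg hG i).1.s with h | h <;> rw [h] at h1 <;> norm_num at h1
  · rw [if_neg c1, if_pos c2] at h1
    rcases (GeoN.mg hG i).1.s with h | h <;> rw [h] at h1 <;> norm_num at h1
  · exact g4 (by simp [c1, c2])

/-- **[W2] at one scale.** -/
theorem w2_n (h13 : Real.pi / 3 ≤ θ) (h12 : θ < Real.pi / 2)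
    (hG : Φ.GeoN (rowS θ) (rowF hc) {true} θ β p S₀ g δ n) (hE : Φ.Ends δ n)
    (hS : Scl g δ κ' κ₁ n)
    (hH : ∀ y, HolW θ (Φ.U (rowS θ) δ n) (EEr (Φ.r δ n)) (Φ.ph (rowS θ) δ n 0) (Φ.h δ n y)
      ⌊κ₁ * n⌋ (Φ.b δ n y))
    (hf : Φ.Frz (rowS θ) δ n ω) (hl : IsLoop ω ℓ) (hm : ∃ e ∈ bS (Φ.U (rowS θ) δ n), e ∈ ℓ)
    (hsm : SmL (κ' * n) ℓ)
    (hft : ∀ x ∈ bS (Φ.U (rowS θ) δ n), hdv x ∉ Φ.U (rowS θ) δ n → x ∈ ℓ →
      x ∉ ftK (Φ.r δ n) (Φ.U (rowS θ) δ n) ω) :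
    |fLp θ (Φ.U (rowS θ) δ n) (Φ.ph (rowS θ) δ n 0) ω ℓ| ≤
      ∏ x ∈ (bS (Φ.U (rowS θ) δ n)).filter (fun x => hdv x ∉ Φ.U (rowS θ) δ n ∧ x ∈ ℓ),
        τK θ (Φ.r δ n) (Φ.U (rowS θ) δ n) (κ' * n) ω x := by
  classical
  obtain ⟨b1, b2, b3, b4, b5, b6⟩ := hS.bd
  have hb := hS.big
  have hp := Real.pi_pos
  have h0 : 0 < θ := by linarith
  have hK := mem_UK Φ θ δ n
  have hL := GeoN.one_le hG hS
  have hs := GeoN.rsep hG hS
  have hprod : ∏ x ∈ (bS (Φ.U (rowS θ) δ n)).filter (fun x => hdv x ∉ Φ.U (rowS θ) δ n ∧ x ∈ ℓ),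
        τK θ (Φ.r δ n) (Φ.U (rowS θ) δ n) (κ' * n) ω x = 1 := by
    refine prod_eq_one fun x hx => ?_
    obtain ⟨g1, g2, g3⟩ := mem_filter.1 hx
    exact if_neg fun h => mxe_mono hG hS hf hl hsm g1 g2 g3 h.1
  rw [hprod]
  obtain ⟨e, he, hel, heK⟩ := loopW_exit hl hm
  obtain ⟨y0, hy0, hyt⟩ := loopW_prev hl hel
  have htK : tlv e ∈ Φ.U (rowS θ) δ n := by
    rcases mem_bS.1 he with ⟨h1, -⟩ | ⟨-, h1⟩
    · exact absurd h1 heK
    · exact h1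
  have hcol : ∀ y ∈ ℓ, hdv y ∈ Φ.U (rowS θ) δ n → ω (hdv y) = ω (tlv e) := by
    intro y hy hyK
    rw [← hyt]
    exact mono_n hG hS hf hl hsm hy hy0 hyK (by rw [hyt]; exact htK)
  obtain ⟨i, hi⟩ := (hK _).1 htK
  obtain ⟨k, hk, ht⟩ := H945.Q.exists_sq hi
  have key : ∃ w : WinD, w.Ok θ (Φ.U (rowS θ) δ n) (EEr (Φ.r δ n)) (Φ.ph (rowS θ) δ n 0) ∧
      w.Lv (Φ.U (rowS θ) δ n) ω ℓ ∧ ∀ x ∈ ℓ, x ∈ bS (Φ.U (rowS θ) δ n) →
        hdv x ∈ Φ.U (rowS θ) δ n → w.Bse (Φ.U (rowS θ) δ n) ω x →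
        nxt (bS (Φ.U (rowS θ) δ n)) ω x ∈ FTs (Φ.r δ n) := by
    by_cases hn : ∀ y, 2 * (κ' * n) < nm ((Φ.r δ n i).sq k - Φ.h δ n y)
    · -- far from the holes
      obtain ⟨f1, f2, f3⟩ := far_row hG hE hS hk hn
      have hk0 : (Φ.r δ n i).j ≠ 0 → (Φ.r δ n i).η = 1 → 1 ≤ (Φ.r δ n i).k0 := by
        intro h1 _
        have h2 := (GeoN.mg hG i).2
        rw [Row.mg_not (fun hp => h1 hp.1)] at h2
        by_contra h3
        have h4 : (Φ.r δ n i).k0 = 0 := by omega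
        rw [h4, Nat.zero_min, Nat.cast_zero] at h2
        linarith
      obtain ⟨w, w1, w2, w3⟩ := face_w2 (zz := fun _ => 0) hK hL hs (GeoN.mg hG i).1 h0 f1 f2 f3
        (by omega) hk0 hl he heK ht.symm hel (fun y hy => sm_int hS (hsm y hy e hel))
        (hf i) hcol
      exact ⟨w, w1, w2, fun x hx hxS hxK hxB => ⟨i, Or.inr (w3 x hx hxS hxK hxB)⟩⟩
    · -- at a hole
      push Not at hn
      obtain ⟨y, hy⟩ := hn
      rw [ht] at hy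
      have hxh : (nm (hdv e - Φ.h δ n y) : ℝ) ≤ 2 * (κ' * n) + 1 := by
        have h1 : (nm (hdv e - Φ.h δ n y) : ℝ) ≤ nm (hdv e - tlv e) + nm (tlv e - Φ.h δ n y) := by
          exact_mod_cast nm_sub_le _ _ _
        have h2 : (nm (hdv e - tlv e) : ℝ) ≤ 1 := by exact_mod_cast nm_ht e
        linarith
      obtain ⟨w, w1, w2, w3, w4, w5, w6⟩ := hH y (hdv e) heK (near_Bq hS (by linarith))
      have hall : ∀ z ∈ ℓ, (nm (hdv z - Φ.h δ n y) : ℝ) ≤ 3 * (κ' * n) + 1 := by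
        intro z hz
        have h1 : (nm (hdv z - Φ.h δ n y) : ℝ) ≤ nm (hdv z - hdv e) + nm (hdv e - Φ.h δ n y) := by
          exact_mod_cast nm_sub_le _ _ _
        have h2 := hsm z hz e hel
        linarith
      refine ⟨w, w1, ⟨hl, fun z hz => w3 _ (near_Bq hS (by linarith [hall z hz])),
        fun z hz hzK => ⟨w4 _ hzK (near_Bq hS (by linarith [hall z hz])), ?_⟩, hm, ⟨e, hel, w2⟩⟩,
        fun x _ _ _ hxB => ?_⟩
      · rw [col_hole hG hf hzK (x := y) (by linarith [hall z hz]), w5]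
        cases Φ.b δ n y <;> simp
      · obtain ⟨j, hj, -⟩ := hxB
        exact absurd hj (w6 j)
  obtain ⟨w, w1, w2, w3⟩ := key
  rcases w1.loop_one h0 h12 w2 w3 hft with h | h
  · rw [h, abs_zero]
    exact zero_le_one
  · rw [h, abs_one]

end one

end Vale.Agent.P167.N.ID
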