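import Vale.Agent.P167.N.ID.WinNc

/-!
# P167, `q < 1`, START: the windows of a frame, at one scale: killed strands, factors (W0, W3)
-/

set_option autoImplicit false

namespace Vale.Agent.P167.N.ID

open Finset Filter
open Vale.Agent.P167.A (plane)
open Vale.Agent.P167.BR hiding dv
open Vale.Agent.P167.Top
open Vale.Agent.P167.FK
open Vale.Agent.P167.H871
open Vale.Agent.P167.H871.Q
open Vale.Agent.P167.XDL (bS mem_bS)
open Vale.Agent.P167.H199 (ah at' strand ret Returns)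
open Vale.Agent.P167.Enl (Two two_inj)
open Vale.Agent.P167.H680.T (WallG WCG nm_ht par par_cases mem_uI)
open Vale.Agent.P167.H945.Q (face faces nm_sub_le nm_comm lrs)
open Vale.Agent.P167.H680.S (nxt nxt_mem)
open Vale.Agent.P167.QX (wS fLp InB)
open Vale.Agent.P167.H562.QM (MajA)

section one

variable {Φ : FrS Row} {θ β : ℝ} {hc : 0 ≤ Real.cos θ} {l : ℕ} {p : ZMod l → ℤ × ℤ}
  {S₀ : Finset (ℤ × ℤ)} {g δ κ' κ₁ : ℝ} {n : ℕ} {ω : Cfg} {e x : Ed} {ℓ : Finset Ed} {i : Φ.ι}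
  {k : ℕ} {v c : ℤ × ℤ} {b : Bool} {ρ : ℤ}

theorem nm_of_Bq (h : v ∈ Bq c ρ) : nm (v - c) ≤ ρ := by
  rw [QX.Bq_eq, QX.mem_Bx] at h
  simp only at h
  rw [nm_le_iff]
  simp only [Prod.fst_sub, Prod.snd_sub]
  omega

/-- **A factor which vanishes gives a killed strand.** -/
theorem zero_at (h13 : Real.pi / 3 ≤ θ) (h12 : θ < Real.pi / 2)
    (hG : Φ.GeoN (rowS θ) (rowF hc) {true} θ β p S₀ g δ n) (hS : Scl g δ κ' κ₁ n)
    (hg : Good ω) (hf : Φ.Frz (rowS θ) δ n ω) (hρ : 4 ≤ ρ) (hρ1 : 16 * (ρ : ℝ) ≤ g * n)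
    (hρ2 : 2 * (ρ : ℝ) < 9 * κ' * n)
    (hown : ∀ v ∈ Bq ((Φ.r δ n i).ctr b) ρ, v ∈ Φ.U (rowS θ) δ n → v ∈ (Φ.r δ n i).I)
    (hT : (Φ.r δ n i).T θ (Φ.U (rowS θ) δ n) b ρ ω = 0) :
    ∃ x ∈ bS (Φ.U (rowS θ) δ n), hdv x ∉ Φ.U (rowS θ) δ n ∧
      SmS (bS (Φ.U (rowS θ) δ n)) (9 * κ' * n) ω x ∧
      wS θ (Φ.U (rowS θ) δ n) (Φ.ph (rowS θ) δ n 0) ω x = 0 := by
  obtain ⟨b1, b2, b3, b4, b5, b6⟩ := hS.bd
  have hb := hS.big
  have hK := mem_UK Φ θ δ n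
  have hL := GeoN.one_le hG hS
  have hs := GeoN.rsep hG hS
  obtain ⟨hv, hmg⟩ := GeoN.mg hG i
  have hmg1 : 1 ≤ (Φ.r δ n i).mg := by
    have h3 : (1 : ℝ) ≤ (Φ.r δ n i).mg := by linarith
    exact_mod_cast h3
  have hsub : (Φ.r δ n i).I ⊆ Φ.U (rowS θ) δ n := fun v hv => (hK v).2 ⟨i, hv⟩
  have hT' : (Φ.r δ n i).T θ (Φ.r δ n i).I b ρ ω = 0 := by
    rw [← hT]
    exact ((rowF hc).own (x := Φ.r δ n i) hv hmg1 hsub hown (fun y hy hyU => by
      obtain ⟨j, hj⟩ := (hK _).1 hyU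
      by_contra h
      exact hs.nb hy h (nm_ht y) j hj)).symm
  obtain ⟨x, x1, x2, x3, x4⟩ := zero_strand (z := 0) (hv.ok hmg) h13 h12 hg (hf i) hρ hρ1 b hT'
  have hBK : ∀ v ∈ Bq ((Φ.r δ n i).ctr b) ρ, v ∈ Φ.U (rowS θ) δ n ↔ v ∈ (Φ.r δ n i).I :=
    fun v hv => ⟨hown v hv, fun h => hsub h⟩
  have hxB : hdv x ∈ Bq ((Φ.r δ n i).ctr b) ρ := x3.2.2 0 (Nat.zero_le _)
  have hxK : hdv x ∉ Φ.U (rowS θ) δ n := fun h => x2 (hown _ hxB h)
  refine ⟨x, mem_bS.2 (Or.inr ⟨hxK, hsub x1⟩), hxK, fun j hj => ?_, ?_⟩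
  · rw [own_ret x3 hBK] at hj
    have h1 := nm_of_Bq (x3.2.2 j hj.le)
    have h2 := nm_of_Bq hxB
    rw [nm_comm] at h2
    have h3 := nm_sub_le (hdv ((nx ω)^[j] x)) ((Φ.r δ n i).ctr b) (hdv x)
    have h4 : (nm (hdv ((nx ω)^[j] x) - hdv x) : ℝ) ≤ 2 * ρ := by exact_mod_cast (by omega)
    linarith
  · rw [own_wS (a' := (Row.wall θ (Φ.r δ n i) 0).a) x3 hBK (fun y hy hy' => ?_)]
    · exact x4
    · funext c
      show ∑ j, ((Φ.r δ n j).wall θ 0).a y c + (0 : ℝ) / 2 = _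
      rw [zero_div, add_zero]
      refine sum_eq_single i (fun j _ hj => ?_) (fun h => absurd (mem_univ i) h)
      have h3 : y ∉ ((Φ.r δ n j).wall θ 0).S := by
        intro h4
        change y ∈ bS (Φ.r δ n j).I at h4
        have hdis := Finset.disjoint_left.1 (hs.dis j i hj)
        rcases mem_bS.1 h4 with ⟨h5, -⟩ | ⟨-, h5⟩
        · exact hdis h5 (hown _ hy ((hK _).2 ⟨j, h5⟩))
        · exact hdis h5 (hown _ hy' ((hK _).2 ⟨j, h5⟩))
      rw [((Φ.r δ n j).wall θ 0).off y h3]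
      rfl

/-- **[W0] at one scale.** -/
theorem w0_n (h13 : Real.pi / 3 ≤ θ) (h12 : θ < Real.pi / 2)
    (hG : Φ.GeoN (rowS θ) (rowF hc) {true} θ β p S₀ g δ n) (hS : Scl g δ κ' κ₁ n)
    (hg : Good ω) (hf : Φ.Frz (rowS θ) δ n ω)
    (hz : Φ.Tt (rowS θ) (rowF hc) {true} δ n ⌊δ * n / 16⌋ ω *
      Φ.Tj (rowS θ) (rowF hc) {true} δ n ⌊4 * κ' * n⌋ ω = 0) :
    ∃ x ∈ bS (Φ.U (rowS θ) δ n), hdv x ∉ Φ.U (rowS θ) δ n ∧
      SmS (bS (Φ.U (rowS θ) δ n)) (9 * κ' * n) ω x ∧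
      wS θ (Φ.U (rowS θ) δ n) (Φ.ph (rowS θ) δ n 0) ω x = 0 := by
  obtain ⟨b1, b2, b3, b4, b5, b6⟩ := hS.bd
  have hb := hS.big
  have hK := mem_UK Φ θ δ n
  have hmg1 : ∀ i, 1 ≤ (Φ.r δ n i).mg := fun i => by
    have h2 := (GeoN.mg hG i).2
    have h3 : (1 : ℝ) ≤ (Φ.r δ n i).mg := by linarith
    exact_mod_cast h3
  rcases mul_eq_zero.1 hz with h | h
  · obtain ⟨i, -, hi⟩ := prod_eq_zero_iff.1 h
    rw [prod_singleton] at hi
    have f1 : ((⌊δ * n / 16⌋ : ℤ) : ℝ) ≤ δ * n / 16 := Int.floor_le _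
    refine zero_at (i := i) (b := true) h13 h12 hG hS hg hf ?_ (by linarith) (by linarith) ?_ hi
    · rw [Int.le_floor]
      push_cast
      linarith
    · intro v hv hvU
      obtain ⟨j, hj⟩ := (hK v).1 hvU
      by_cases hij : i = j
      · subst hij
        exact hj
      · exfalso
        obtain ⟨u, hu, hu1⟩ := (rowF hc).near (k := true) (GeoN.mg hG i).1 (hmg1 i) (Or.inl rfl)
        change nm ((Φ.r δ n i).ctr true - u) ≤ 1 at hu1
        have h1 := hG.sepr i j hij u hu v hj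
        have h2 := nm_of_Bq hv
        have h3 := nm_sub_le v ((Φ.r δ n i).ctr true) u
        rw [nm_comm u v] at h1
        have h4 : (nm (v - u) : ℝ) ≤ (⌊δ * n / 16⌋ : ℤ) + 1 := by exact_mod_cast (by omega)
        linarith
  · obtain ⟨i, -, hi⟩ := prod_eq_zero_iff.1 h
    obtain ⟨b, hb', hi⟩ := prod_eq_zero_iff.1 hi
    have hbf : b = false := by
      cases b
      · rfl
      · exact absurd (mem_singleton_self _) (mem_compl.1 hb')
    subst hbf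
    change (Φ.r δ n i).T θ (Φ.U (rowS θ) δ n) false ⌊4 * κ' * n⌋ ω = 0 at hi
    have hP : ¬ (Φ.r δ n i).Plain := fun hP => by
      unfold Row.T at hi
      rw [if_neg Bool.false_ne_true, if_pos hP] at hi
      exact one_ne_zero hi
    have f1 : ((⌊4 * κ' * n⌋ : ℤ) : ℝ) ≤ 4 * κ' * n := Int.floor_le _
    refine zero_at (i := i) (b := false) h13 h12 hG hS hg hf ?_ (by linarith) (by linarith) ?_ hi
    · rw [Int.le_floor]
      push_cast
      linarith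
    · intro v hv hvU
      obtain ⟨j, hj⟩ := (hK v).1 hvU
      by_cases hij : i = j
      · subst hij
        exact hj
      · exfalso
        obtain ⟨u, hu, hu1⟩ := (rowF hc).near (k := false) (GeoN.mg hG i).1 (hmg1 i) (Or.inr hP)
        change nm ((Φ.r δ n i).ctr false - u) ≤ 1 at hu1
        have h2 := nm_of_Bq hv
        have h3 := nm_sub_le v ((Φ.r δ n i).ctr false) u
        rw [nm_comm v u] at h3
        have h4 : (nm (u - v) : ℝ) ≤ (⌊4 * κ' * n⌋ : ℤ) + 1 := by exact_mod_cast (by omega)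
        obtain ⟨y, w, h5, h6, h7, h8, h9⟩ := hG.hull i j hij u hu v hj (by linarith)
        have h10 := nm_hullW h5 h6 h7 h8
        have h11 := nm_sub_le ((Φ.r δ n i).ctr false) u (Φ.h δ n y)
        have h12 := nm_sub_le u w (Φ.h δ n y)
        have h13 : (nm ((Φ.r δ n i).ctr false - Φ.h δ n y) : ℝ) ≤
            1 + (nm (u - v) + nm (w - Φ.h δ n y)) := by exact_mod_cast h11.trans (by omega)
        have h14 := hG.oth i false (by decide) (Or.inr hP) y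
        change g * n ≤ (nm ((Φ.r δ n i).ctr false - Φ.h δ n y) : ℝ) at h14
        linarith

/-- The factors, if they do not vanish. -/
theorem T_prod (hc' : 0 < Real.cos θ)
    (hne : Φ.Tt (rowS θ) (rowF hc) {true} δ n ⌊δ * n / 16⌋ ω *
      Φ.Tj (rowS θ) (rowF hc) {true} δ n ⌊4 * κ' * n⌋ ω ≠ 0) :
    ∃ c : Φ.ι → ℕ, Φ.Tt (rowS θ) (rowF hc) {true} δ n ⌊δ * n / 16⌋ ω *
      Φ.Tj (rowS θ) (rowF hc) {true} δ n ⌊4 * κ' * n⌋ ω = (2 * Real.cos θ) ^ ∑ i, c i ∧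
      ∀ i, c i = 0 ∨ ((Φ.r δ n i).K2 θ ∧ c i =
        (lrs (Φ.U (rowS θ) δ n) (faces (Φ.r δ n i).toRow (Φ.r δ n i).kf 0 (Φ.r δ n i).k0)
          (faces (Φ.r δ n i).toRow (Φ.r δ n i).kf (Φ.r δ n i).k0 (Φ.r δ n i).L)
          (Bq (Φ.r δ n i).zm ⌊4 * κ' * n⌋) ω).card +
        (lrs (Φ.U (rowS θ) δ n) (faces (Φ.r δ n i).toRow (Φ.r δ n i).kf (Φ.r δ n i).k0 (Φ.r δ n i).L)
          (faces (Φ.r δ n i).toRow (Φ.r δ n i).kf 0 (Φ.r δ n i).k0)
          (Bq (Φ.r δ n i).zm ⌊4 * κ' * n⌋) ω).card) := by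
  classical
  obtain ⟨ht, hj⟩ := mul_ne_zero_iff.1 hne
  have hTt : Φ.Tt (rowS θ) (rowF hc) {true} δ n ⌊δ * n / 16⌋ ω = 1 := by
    unfold FrS.Tt at ht ⊢
    rw [prod_ne_zero_iff] at ht
    refine prod_eq_one fun i hi => ?_
    have h1 := ht i hi
    rw [prod_singleton] at h1 ⊢
    change (Φ.r δ n i).T θ (Φ.U (rowS θ) δ n) true _ ω ≠ 0 at h1
    change (Φ.r δ n i).T θ (Φ.U (rowS θ) δ n) true _ ω = 1
    unfold Row.T at h1 ⊢
    rw [if_pos rfl] at h1 ⊢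
    unfold TK at h1 ⊢
    rw [Set.indicator_apply] at h1 ⊢
    split_ifs at h1 ⊢ with h2
    · rfl
    · exact absurd rfl h1
  have key : ∀ i, ∃ c : ℕ, ∏ k ∈ ({true}ᶜ : Finset Bool),
      (rowF hc).T (Φ.U (rowS θ) δ n) (Φ.r δ n i) k ⌊4 * κ' * n⌋ ω = (2 * Real.cos θ) ^ c ∧
      (c = 0 ∨ ((Φ.r δ n i).K2 θ ∧ c =
        (lrs (Φ.U (rowS θ) δ n) (faces (Φ.r δ n i).toRow (Φ.r δ n i).kf 0 (Φ.r δ n i).k0)
          (faces (Φ.r δ n i).toRow (Φ.r δ n i).kf (Φ.r δ n i).k0 (Φ.r δ n i).L)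
          (Bq (Φ.r δ n i).zm ⌊4 * κ' * n⌋) ω).card +
        (lrs (Φ.U (rowS θ) δ n) (faces (Φ.r δ n i).toRow (Φ.r δ n i).kf (Φ.r δ n i).k0 (Φ.r δ n i).L)
          (faces (Φ.r δ n i).toRow (Φ.r δ n i).kf 0 (Φ.r δ n i).k0)
          (Bq (Φ.r δ n i).zm ⌊4 * κ' * n⌋) ω).card)) := by
    intro i
    unfold FrS.Tj at hj
    rw [prod_ne_zero_iff] at hj
    have h1 := hj i (mem_univ i)
    have e : ({true}ᶜ : Finset Bool) = {false} := by decide
    rw [e, prod_singleton] at h1 ⊢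
    change (Φ.r δ n i).T θ (Φ.U (rowS θ) δ n) false _ ω ≠ 0 at h1
    change ∃ c : ℕ, (Φ.r δ n i).T θ (Φ.U (rowS θ) δ n) false _ ω = _ ∧ _
    unfold Row.T at h1 ⊢
    rw [if_neg Bool.false_ne_true] at h1 ⊢
    by_cases hP : (Φ.r δ n i).Plain
    · rw [if_pos hP]
      exact ⟨0, by rw [pow_zero], Or.inl rfl⟩
    · rw [if_neg hP] at h1 ⊢
      by_cases h2 : (Φ.r δ n i).K2 θ
      · rw [if_pos h2]
        exact ⟨_, rfl, Or.inr ⟨h2, rfl⟩⟩
      · rw [if_neg h2] at h1 ⊢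
        refine ⟨0, ?_, Or.inl rfl⟩
        rw [pow_zero]
        unfold TK at h1 ⊢
        rw [Set.indicator_apply] at h1 ⊢
        split_ifs at h1 ⊢ with h3
        · rfl
        · exact absurd rfl h1
  choose c h1 h2 using key
  refine ⟨c, ?_, h2⟩
  rw [hTt, one_mul]
  unfold FrS.Tj
  rw [prod_congr rfl fun i _ => h1 i, prod_pow_eq_pow_sum]

/-- **[W3] at one scale.** -/
theorem w3_n (h13 : Real.pi / 3 ≤ θ) (h12 : θ < Real.pi / 2)
    (hG : Φ.GeoN (rowS θ) (rowF hc) {true} θ β p S₀ g δ n) (hS : Scl g δ κ' κ₁ n)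
    (hg : Good ω) {Z : Finset (ℤ × ℤ)} {N : ℕ} (hZ : ∀ x ∈ bS (Φ.U (rowS θ) δ n), hdv x ∈ Z)
    (hM : MajA Z (κ' * n) ω N)
    (hne : Φ.Tt (rowS θ) (rowF hc) {true} δ n ⌊δ * n / 16⌋ ω *
      Φ.Tj (rowS θ) (rowF hc) {true} δ n ⌊4 * κ' * n⌋ ω ≠ 0) :
    open Classical in
    ∏ x ∈ (bS (Φ.U (rowS θ) δ n)).filter (fun x => hdv x ∉ Φ.U (rowS θ) δ n ∧
        SmS (bS (Φ.U (rowS θ) δ n)) (κ' * n) ω x),
        τK θ (Φ.r δ n) (Φ.U (rowS θ) δ n) (κ' * n) ω x ≤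
      (2 * Real.cos θ)⁻¹ ^ (N + 1) * (Φ.Tt (rowS θ) (rowF hc) {true} δ n ⌊δ * n / 16⌋ ω *
        Φ.Tj (rowS θ) (rowF hc) {true} δ n ⌊4 * κ' * n⌋ ω) := by
  classical
  obtain ⟨hsn, hcs, hc1⟩ := sin_two_le h13 h12
  have hK := mem_UK Φ θ δ n
  have hL := GeoN.one_le hG hS
  have hs := GeoN.rsep hG hS
  obtain ⟨c, hT, hcc⟩ := T_prod hcs hne
  rw [hT]
  set K := Φ.U (rowS θ) δ n with hKd
  set M : Finset Ed := (bS K).filter fun x => hdv x ∉ K ∧ MxE θ (Φ.r δ n) K ω x with hMd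
  set M1 : Finset Ed := M.filter fun x => SmS (bS K) (κ' * n) ω x with hM1
  set M2 : Finset Ed := M.filter fun x => ¬ SmS (bS K) (κ' * n) ω x with hM2
  have hcard : M1.card + M2.card = M.card := card_filter_add_card_filter_not _
  have hM2N : M2.card ≤ N := by
    refine seg_count (S := bS K) hg (fun x hx => ?_) hM (fun x hx => ?_) fun x hx => ?_
    · exact (mem_filter.1 (mem_filter.1 hx).1).1
    · exact hZ _ (mem_filter.1 (mem_filter.1 hx).1).1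
    · exact (mem_filter.1 hx).2
  have hprod : ∏ x ∈ (bS K).filter (fun x => hdv x ∉ K ∧ SmS (bS K) (κ' * n) ω x),
      τK θ (Φ.r δ n) K (κ' * n) ω x = (2 * Real.cos θ) ^ M1.card := by
    have h1 : ∀ x ∈ (bS K).filter (fun x => hdv x ∉ K ∧ SmS (bS K) (κ' * n) ω x),
        τK θ (Φ.r δ n) K (κ' * n) ω x = if MxE θ (Φ.r δ n) K ω x then 2 * Real.cos θ else 1 := by
      intro x hx
      obtain ⟨-, -, h2⟩ := mem_filter.1 hx
      exact if_congr (and_iff_left h2) rfl rfl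
    rw [prod_congr rfl h1, prod_ite, prod_const_one, mul_one, prod_const, filter_filter]
    congr 2
    ext x
    simp only [hM1, hMd, mem_filter]
    tauto
  have hsum : ∑ i, c i ≤ M.card := by
    set Mi : Φ.ι → Finset Ed := fun i => M.filter fun x => tlv x ∈ (Φ.r δ n i).I with hMi
    have h1 : ∀ i, c i ≤ (Mi i).card := by
      intro i
      rcases hcc i with h | ⟨h2, h3⟩
      · omega
      · have hk0 : (Φ.r δ n i).k0 ≤ (Φ.r δ n i).L :=
          (GeoN.mg hG i).1.k0_le fun hp => by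
            have h4 := h2.1
            rw [hp.2] at h4
            norm_num at h4
        rw [h3, ← card_union_of_disjoint]
        · refine card_le_card fun x hx => ?_
          have key : ∃ k k' : ℕ, k < (Φ.r δ n i).L ∧ k' < (Φ.r δ n i).L ∧
              x = face (Φ.r δ n i).toRow (Φ.r δ n i).kf k ∧
              nxt (bS K) ω x = face (Φ.r δ n i).toRow (Φ.r δ n i).kf k' ∧
              ¬ ((Φ.r δ n i).k0 ≤ k ↔ (Φ.r δ n i).k0 ≤ k') ∧ x ∈ bS K ∧ hdv x ∉ K := by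
            rcases mem_union.1 hx with hx | hx
            · unfold lrs at hx
              obtain ⟨g1, g2, g3, -, g4, -⟩ := mem_filter.1 hx
              obtain ⟨k, hk, rfl⟩ := mem_image.1 g1
              obtain ⟨k', hk', hk2⟩ := mem_image.1 g4
              rw [mem_Ico] at hk hk'
              exact ⟨k, k', by omega, by omega, rfl, hk2.symm, by omega, g2, g3⟩
            · unfold lrs at hx
              obtain ⟨g1, g2, g3, -, g4, -⟩ := mem_filter.1 hx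
              obtain ⟨k, hk, rfl⟩ := mem_image.1 g1
              obtain ⟨k', hk', hk2⟩ := mem_image.1 g4
              rw [mem_Ico] at hk hk'
              exact ⟨k, k', by omega, by omega, rfl, hk2.symm, by omega, g2, g3⟩
          obtain ⟨k, k', k1, k2, k3, k4, k5, k6, k7⟩ := key
          refine mem_filter.2 ⟨mem_filter.2 ⟨k6, k7, i, k, k', k1, k2, k3, k4, h2, rfl, k5⟩, ?_⟩
          have ht : tlv x = (Φ.r δ n i).sq k := by
            rw [k3]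
            refine face_tl hK hL k1 ?_
            rw [← k3]
            exact k7
          rw [ht]
          exact H680.T.sq_mem.2 k1
        · rw [Finset.disjoint_left]
          intro x hx hx'
          unfold lrs at hx hx'
          obtain ⟨k, hk, hk'⟩ := mem_image.1 (mem_filter.1 hx).1
          obtain ⟨k2, hk2, hk2'⟩ := mem_image.1 (mem_filter.1 hx').1
          rw [mem_Ico] at hk hk2
          have := (face_inj (hk'.trans hk2'.symm)).2
          omega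
    have h2 : ∑ i, (Mi i).card = (univ.biUnion Mi).card := by
      rw [card_biUnion]
      intro i _ j _ hij
      show Disjoint (Mi i) (Mi j)
      rw [Finset.disjoint_left]
      intro x hx hx'
      exact Finset.disjoint_left.1 (hs.dis i j hij) (mem_filter.1 hx).2 (mem_filter.1 hx').2
    calc ∑ i, c i ≤ ∑ i, (Mi i).card := sum_le_sum fun i _ => h1 i
      _ = (univ.biUnion Mi).card := h2
      _ ≤ M.card := card_le_card (biUnion_subset.2 fun i _ => filter_subset _ _)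
  rw [hprod]
  have h2c : 0 < 2 * Real.cos θ := by linarith
  have h3 : (2 * Real.cos θ) ^ (M1.card + N) ≤ (2 * Real.cos θ) ^ ∑ i, c i :=
    pow_le_pow_of_le_one h2c.le hc1 (by omega)
  have h4 : 1 ≤ (2 * Real.cos θ)⁻¹ := (one_le_inv₀ h2c).2 hc1
  have h5 : (0 : ℝ) < (2 * Real.cos θ)⁻¹ ^ (N + 1) := by positivity
  calc (2 * Real.cos θ) ^ M1.card ≤ (2 * Real.cos θ) ^ M1.card * (2 * Real.cos θ)⁻¹ :=
        le_mul_of_one_le_right (by positivity) h4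
    _ = (2 * Real.cos θ)⁻¹ ^ (N + 1) * (2 * Real.cos θ) ^ (M1.card + N) := by
        have h6 : (2 * Real.cos θ)⁻¹ ^ N * (2 * Real.cos θ) ^ N = 1 := by
          rw [← mul_pow, inv_mul_cancel₀ h2c.ne', one_pow]
        rw [pow_add, pow_succ]
        linear_combination (-((2 * Real.cos θ) ^ M1.card * (2 * Real.cos θ)⁻¹)) * h6
    _ ≤ (2 * Real.cos θ)⁻¹ ^ (N + 1) * (2 * Real.cos θ) ^ ∑ i, c i :=
        mul_le_mul_of_nonneg_left h3 h5.le

end one

end Vale.Agent.P167.N.ID
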