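import Vale.Agent.P167.N.ID.WinTab

/-!
# P167, `q < 1`, START: loops in a window which avoid a set

`WinD.Ok.one`: a loop in a window which avoids a set `B` has the factor one if, off `B`, the phases
of the walls of every component of the window are natural.
-/

set_option autoImplicit false

namespace Vale.Agent.P167.N.ID

open Finset
open Vale.Agent.P167.BR
open Vale.Agent.P167.FK
open Vale.Agent.P167.Top
open Vale.Agent.P167.H871
open Vale.Agent.P167.H871.Q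
open Vale.Agent.P167.A (plane)
open Vale.Agent.P167.XDL (bS mem_bS)
open Vale.Agent.P167.H199 (strand ret Returns ah at')
open Vale.Agent.P167.H680.S (nxt nxt_mem trS)
open Vale.Agent.P167.QX (returns_loop fLp wS out_stays)

variable {θ : ℝ} {w : WinD} {K : Finset (ℤ × ℤ)} {EE : Set Ed} {a : Ed → Bool → ℝ}
  {ω : Cfg} {ℓ : Finset Ed} {e x : Ed}

/-- The two squares of an exit of a loop and of the entry behind it are in the same component. -/
theorem WinD.Ok.side (h : w.Ok θ K EE a) (hv : w.Lv K ω ℓ) {B : Set (ℤ × ℤ)}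
    (hB : ∀ y ∈ ℓ, hdv y ∉ B) {α : Type} (cl : ℤ × ℤ → α)
    (hcl : ∀ g : Ed, tlv g ∈ w.D → hdv g ∈ w.D → tlv g ∉ B → hdv g ∉ B →
      cl (tlv g) = cl (hdv g)) (he : e ∈ exs K ℓ) :
    cl (hdv e) = cl (tlv (nxt (bS K) ω e)) := by
  have hst := h.stay hv
  have hl := hv.loop
  obtain ⟨g1, g2, g3⟩ := mem_exs.1 he
  have hr := returns_loop hl g3 g1
  obtain ⟨hm1, -⟩ := hr.spec
  have key : ∀ k < ret (nx ω) (bS K) e, cl (hdv e) = cl (hdv ((nx ω)^[k] e)) := by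
    intro k
    induction k with
    | zero => intro _; rfl
    | succ k ih =>
      intro hk
      rw [ih (by omega)]
      have e1 : (nx ω)^[k + 1] e = nx ω ((nx ω)^[k] e) := Function.iterate_succ_apply' _ _ _
      have m1 := H199.loop_iter hl g3 k
      have m2 := H199.loop_iter hl g3 (k + 1)
      have s1 := hst _ m1 (out_stays g2 (by omega))
      have s2 := hst _ m2 (out_stays g2 hk)
      have t1 : tlv ((nx ω)^[k + 1] e) = hdv ((nx ω)^[k] e) := by rw [e1, tlv_nx]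
      have := hcl ((nx ω)^[k + 1] e) (by rw [t1]; exact s1) s2 (by rw [t1]; exact hB _ m1)
        (hB _ m2)
      rw [t1] at this
      exact this
  obtain ⟨k, hk⟩ : ∃ k, ret (nx ω) (bS K) e = k + 1 := ⟨ret (nx ω) (bS K) e - 1, by omega⟩
  have e2 : tlv (nxt (bS K) ω e) = hdv ((nx ω)^[k] e) := by
    unfold nxt
    rw [hk, Function.iterate_succ_apply', tlv_nx]
  rw [e2]
  exact key k (by omega)

/-- The squares at the two feet of an outer strand. -/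
theorem WinD.Ok.foot (h : w.Ok θ K EE a) (hv : w.Lv K ω ℓ) (he : e ∈ exs K ℓ) {i j : ℕ}
    (p1 : P4 e = M4 (w.P i) (w.u i)) (p2 : P4 (nxt (bS K) ω e) = M4 (w.P j) (w.u j)) :
    sqL (w.P i) (w.u i) = hdv e ∧ sqL (w.P j) (w.u j) = tlv (nxt (bS K) ω e) := by
  obtain ⟨g1, g2, g3⟩ := mem_exs.1 he
  have hr := returns_loop hv.loop g3 g1
  refine ⟨(cross_in h.bd p1 (h.stay hv e g3 g2)).2.2.2.1.symm, ?_⟩
  exact (cross_out h.bd p2 (h.kd _ (QX.exc_last g2 hr).1)).2.2.2.2.symm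

/-- The squares of a loop which avoids `B`, also behind. -/
theorem tlv_off {B : Set (ℤ × ℤ)} (hl : IsLoop ω ℓ) (hB : ∀ y ∈ ℓ, hdv y ∉ B) :
    ∀ y ∈ ℓ, tlv y ∉ B := fun y hy => by
  have hxi : y ∈ ℓ.image (nx ω) := by rw [hl.image]; exact hy
  obtain ⟨x, hx, rfl⟩ := mem_image.1 hxi
  rw [tlv_nx]
  exact hB x hx

/-- **A loop in a window which avoids `B` has the factor one**, if it has no regular end sides and
off `B` the phases of the walls of every component are natural. -/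
theorem WinD.Ok.one' (h : w.Ok θ K EE a) (h0 : 0 < θ) (h1 : θ < Real.pi / 2) (hv : w.Lv K ω ℓ)
    (hZ : ∀ j, ¬ w.Z j) {B : Set (ℤ × ℤ)} (hB : ∀ y ∈ ℓ, hdv y ∉ B) {α : Type} (cl : ℤ × ℤ → α)
    (hcl : ∀ g : Ed, tlv g ∈ w.D → hdv g ∈ w.D → tlv g ∉ B → hdv g ∉ B →
      cl (tlv g) = cl (hdv g))
    (hEE : ∀ e ∈ exs K ℓ, e ∉ EE ∧ nxt (bS K) ω e ∉ EE)
    (hs : ∀ i j, w.W i → w.W j → i < j → sqL (w.P i) (w.u i) ∉ B → sqL (w.P j) (w.u j) ∉ B →
      cl (sqL (w.P i) (w.u i)) = cl (sqL (w.P j) (w.u j)) → w.s j ≤ w.s i ∧ w.s i ≤ w.s j + 1) :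
    fLp θ K a ω ℓ = 1 := by
  have hl := hv.loop
  have htl := tlv_off hl hB
  rcases h.loop h0 h1 hv with ⟨-, e, he, -, hk | ⟨hk, -⟩⟩ | ⟨r, p, e1, e2, e3⟩
  · exfalso
    obtain ⟨i, j, i1, j1, i3, j3, hk⟩ := hk
    obtain ⟨g1, g2, g3⟩ := mem_exs.1 he
    have n1 := (nxt_mem (S := bS K) hl g1 g3).2
    obtain ⟨q1, q2⟩ := h.foot hv he i3 j3
    have b1 : sqL (w.P i) (w.u i) ∉ B := by rw [q1]; exact hB e g3
    have b2 : sqL (w.P j) (w.u j) ∉ B := by rw [q2]; exact htl _ n1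
    have hc : cl (sqL (w.P i) (w.u i)) = cl (sqL (w.P j) (w.u j)) := by
      rw [q1, q2]
      exact h.side hv hB cl hcl he
    have hτ := h.sg
    rcases lt_trichotomy i j with hij | hij | hij
    · have := hs i j i1 j1 hij b1 b2 hc
      rw [if_pos hij] at hk
      omega
    · subst hij
      rw [if_neg (lt_irrefl _)] at hk
      omega
    · have := hs j i j1 i1 hij b2 b1 hc.symm
      rw [if_neg (by omega)] at hk
      omega
  · exact absurd hk (hEE e he).1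
  · rw [e1, prod_eq_one fun e he => (e3 e he).2.2 (hEE e he).1 (hEE e he).2, mul_one]
    rcases e2 with e2 | ⟨-, x, -, -, -, j, hj, -⟩
    · exact e2
    · exact absurd hj (hZ j)

/-- **A loop in a window which avoids `B` has the factor one**, if off `B` the phases of the walls
of every component are natural. -/
theorem WinD.Ok.one (h : w.Ok θ K EE a) (h0 : 0 < θ) (h1 : θ < Real.pi / 2) (hv : w.Lv K ω ℓ)
    (hZ : ∀ j, ¬ w.Z j) {B : Set (ℤ × ℤ)} (hB : ∀ y ∈ ℓ, hdv y ∉ B) {α : Type} (cl : ℤ × ℤ → α)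
    (hcl : ∀ g : Ed, tlv g ∈ w.D → hdv g ∈ w.D → tlv g ∉ B → hdv g ∉ B →
      cl (tlv g) = cl (hdv g))
    (hE : ∀ i, w.W i → sqL (w.P i) (w.u i) ∉ B → ¬ w.E i)
    (hs : ∀ i j, w.W i → w.W j → i < j → sqL (w.P i) (w.u i) ∉ B → sqL (w.P j) (w.u j) ∉ B →
      cl (sqL (w.P i) (w.u i)) = cl (sqL (w.P j) (w.u j)) → w.s j ≤ w.s i ∧ w.s i ≤ w.s j + 1) :
    fLp θ K a ω ℓ = 1 := by
  have hl := hv.loop
  have htl := tlv_off hl hB
  have hst := h.stay hv
  refine h.one' h0 h1 hv hZ hB cl hcl ?_ hs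
  intro e he
  obtain ⟨g1, g2, g3⟩ := mem_exs.1 he
  have hr := returns_loop hl g3 g1
  obtain ⟨c1, c2⟩ := hv.ends he
  obtain ⟨i, j, i1, j1, k1, i2, j2, i3, j3, k2, k3⟩ := h.exit g1 hr (fun k hk =>
    hst _ (H199.loop_iter hl g3 k) (out_stays g2 hk)) c1 c2
  obtain ⟨q1, q2⟩ := h.foot hv he i3 j3
  have n1 := (nxt_mem (S := bS K) hl g1 g3).2
  refine ⟨fun hE' => hE i i1 ?_ (i2 hE'), fun hE' => hE j j1 ?_ (j2 hE')⟩
  · rw [q1]
    exact hB e g3
  · rw [q2]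
    exact htl _ n1

/-- The loop meets the window, if it is not in `K`. -/
theorem vis_of {V : Set (ℤ × ℤ)} {D : Set (ℤ × ℤ)} (hl : IsLoop ω ℓ) (hV : ∀ y ∈ ℓ, hdv y ∈ V)
    (hD : ∀ v ∈ V, v ∉ K → v ∈ D) (hS : ∃ e ∈ bS K, e ∈ ℓ) : ∃ y ∈ ℓ, hdv y ∈ D := by
  obtain ⟨e, he, hel⟩ := hS
  rcases mem_bS.1 he with ⟨g1, g2⟩ | ⟨g1, g2⟩
  · have hxi : e ∈ ℓ.image (nx ω) := by rw [hl.image]; exact hel
    obtain ⟨y, hy, rfl⟩ := mem_image.1 hxi
    refine ⟨y, hy, ?_⟩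
    rw [tlv_nx] at g2
    exact hD _ (hV y hy) g2
  · exact ⟨e, hel, hD _ (hV e hel) g1⟩

end Vale.Agent.P167.N.ID
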