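import Vale.Agent.P167.N.ID.Thk
import Vale.Agent.P167.N.ID.Par
import Vale.Agent.P167.H871.Q.ValE

/-!
# P167, `q < 1`: the weights of the strands of a row with different phases on its two faces

`Ph r θ J Φ sa`: the phases of a thick wall on the row `r`: `± J / 2` on the two faces, stagger
`(3 θ - π) / 4` on the faces and `(θ - π) / 4` on the two end sides. `rS_idx`: the relative weight of
a strand which stays in a box in terms of the positions of its feet on the contour.
-/

set_option autoImplicit false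

namespace Vale.Agent.P167.N.ID.W

open Finset
open Vale.Agent.P167 Vale.Agent.P167.N.ID
open Vale.Agent.P167.Top
open Vale.Agent.P167.A (plane plane_sg)
open Vale.Agent.P167.E6 (IsPolygon Encloses dir)
open Vale.Agent.P167.BR (be)
open Vale.Agent.P167.XDL (bS mem_bS)
open Vale.Agent.P167.FK
open Vale.Agent.P167.H199 (strand ret Returns mem_strand ret_min ret_le cang ah at' hb)
open Vale.Agent.P167.QX (exc mem_exc exc_last ExtPot out_stays returns_good rS natS ClT lst wS)
open Vale.Agent.P167.H680.T (sgb WallG)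
open Vale.Agent.P167.H825.Q (sq_hb sgb_hb sg_sg)
open Vale.Agent.P167.H945.Q (face faces natw relw)
open Vale.Agent.P167.H871 (IsC)
open Vale.Agent.P167.H871.Q hiding ah_thk at_thk thk_off cang_thk rS_eq

variable {r : H825.Q.Row} {b : Bool} {v : ℤ × ℤ} {k : ℕ} {ω ω' : Cfg} {B : Finset (ℤ × ℤ)} {e x : Ed}
  {I : Finset (ℤ × ℤ)} {i j : ℕ} {θ z J : ℝ} {Φ sa : Ed → ℝ}

/-! ### the phases of a thick wall -/

theorem ah_thk (h1 : hdv e ∉ I) (h2 : tlv e ∈ I) :
    ah plane (thk I Φ sa z).a e = Φ e + sa e := by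
  have h3 : e ∈ bS I := mem_bS.2 (Or.inr ⟨h1, h2⟩)
  obtain ⟨g1, g2⟩ := sq_hb e
  show (if e ∈ bS I then (if H680.T.sq e (hb plane e) ∈ I then 0 else
    sgb (hb plane e) * Φ e + (sg e : ℝ) * sa e) else 0) * plane.sg e = _
  rw [if_pos h3, g1, if_neg h1]
  have g3 := (sgb_hb e).1
  have g4 := sg_sg e
  linear_combination Φ e * g3 + sa e * g4

theorem at_thk (h1 : hdv e ∈ I) (h2 : tlv e ∉ I) :
    at' plane (thk I Φ sa z).a e = -Φ e + sa e := by
  have h3 : e ∈ bS I := mem_bS.2 (Or.inl ⟨h1, h2⟩)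
  obtain ⟨g1, g2⟩ := sq_hb e
  show (if e ∈ bS I then (if H680.T.sq e (!hb plane e) ∈ I then 0 else
    sgb (!hb plane e) * Φ e + (sg e : ℝ) * sa e) else 0) * plane.sg e = _
  rw [if_pos h3, g2, if_neg h2]
  have g3 := (sgb_hb e).2
  have g4 := sg_sg e
  linear_combination Φ e * g3 + sa e * g4

theorem thk_off (h : e ∉ bS I) :
    ah plane (thk I Φ sa z).a e + at' plane (thk I Φ sa z).a e = 0 := by
  have h1 : (thk I Φ sa z).a e = 0 := (thk I Φ sa z).off e h
  unfold ah at'
  rw [h1]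
  simp

/-- The angle of an outer strand of a thick wall. -/
theorem cang_thk (h1 : hdv e ∉ I) (h2 : tlv e ∈ I) (hr : Returns (nx ω) (bS I) e) :
    cang plane θ (thk I Φ sa z).a ω (strand (nx ω) (bS I) e) =
      θ / 4 * (tr I ω e : ℝ) + (Φ e - Φ (lst I ω e)) + (sa e + sa (lst I ω e)) := by
  have h3 := cang_strand (θ := θ) (a := (thk I Φ sa z).a) (mem_bS.2 (Or.inr ⟨h1, h2⟩)) hr
    (fun k k1 k2 => thk_off (ret_min k1 k2))
  obtain ⟨g1, g2⟩ := exc_last h1 hr
  rw [h3, ah_thk h1 h2, at_thk g1 g2]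
  unfold tr lst
  ring

/-- **The relative weight of a strand which stays in a box.** -/
theorem rS_thk (hθ : 0 < Real.sin θ) (hL : 1 ≤ r.L) (hR : Rays r.I (B : Set (ℤ × ℤ)))
    (h0 : w0 r b ∉ B) {τ : ℤ × ℤ → ℝ}
    (hf : ∀ v ∈ r.I, (τ v = 1 ∧ ω v = false) ∨ (τ v = -1 ∧ ω v = true))
    (h1 : hdv e ∉ r.I) (h2 : tlv e ∈ r.I) (hr : Returns (nx ω) (bS r.I) e)
    (hs : Stays r.I (B : Set (ℤ × ℤ)) ω e) :
    rS θ r.I (thk r.I Φ sa z).a ω e =
      |Real.cos (θ / 4 * (tr r.I ω e : ℝ) + (Φ e - Φ (lst r.I ω e)) + (sa e + sa (lst r.I ω e)))| /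
        natw θ (tr r.I ω e) (τ (tlv e)) (τ (hdv (lst r.I ω e))) := by
  classical
  have key : Real.sin θ * natS θ r.I ω e =
      natw θ (tr r.I ω e) (τ (tlv e)) (τ (hdv (lst r.I ω e))) := by
    have hq := rqr_polygon (r := r) (b := b) hL
    have hI := rqr_encloses (r := r) (b := b) hL
    have h0' : w0 r b ∉ (B : Set (ℤ × ℤ)) := fun h => h0 (mem_coe.1 h)
    obtain ⟨i, j, φ, σ, F, hφ, hσ, hv, hoff, hT⟩ := row_pot (b := b) hL hR h0' h1 h2 hr hs
    have hT' : tr r.I ω e = U1 r.L j - U1 r.L i + (if i < j then 2 else -2) := hT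
    have hij := F.ne hq hI
    have hsgn : (0 < tr r.I ω e ↔ σ = 1) ∧ (tr r.I ω e < 0 ↔ σ = -1) := by
      rw [hT', hσ]
      rcases lt_or_gt_of_ne hij with h | h
      · have := U1_mono h.le F.hj
        rw [if_pos h, if_pos h]
        constructor <;> constructor <;> intro <;> omega
      · have := U1_mono h.le F.hi
        rw [if_neg (by omega), if_neg (by omega)]
        constructor <;> constructor <;> intro <;> omega
    have huniq : ∀ {σ' : ℤ} {φ' : ℤ × ℤ → ℤ}, ExtPot r.I (exc r.I ω e) σ' φ' → σ' = σ := by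
      intro σ' φ' hφ'
      rw [hσ]
      exact pot_sgn hq hI F hφ' (pot_off hR hr hs hφ' h0' (isC_w0 hL))
    have hlast := exc_last h1 hr
    have hl : hdv (lst r.I ω e) ∈ r.I := hlast.1
    set τ1 := τ (tlv e) with hτ1
    set τ2 := τ (hdv (lst r.I ω e)) with hτ2
    have hcl : ClT r.I ω e ↔ τ1 = τ2 ∧ 0 < τ1 * (tr r.I ω e : ℝ) := by
      have k1 := hf _ h2
      have k2 := hf _ hl
      rw [← hτ1] at k1
      rw [← hτ2] at k2
      unfold ClT
      rcases k1 with ⟨k1, k1'⟩ | ⟨k1, k1'⟩ <;> rcases k2 with ⟨k2, k2'⟩ | ⟨k2, k2'⟩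
      · rw [k1', k2', k1, k2]
        simp only [true_and, one_mul, Bool.false_eq_true, false_and, or_false]
        rw [Int.cast_pos, hsgn.1]
        constructor
        · rintro ⟨φ', hφ'⟩
          exact (huniq hφ').symm
        · intro h
          rw [← h]
          exact ⟨φ, hφ⟩
      · rw [k1', k2', k1, k2]
        simp
        intro h
        norm_num at h
      · rw [k1', k2', k1, k2]
        simp
        intro h
        norm_num at h
      · rw [k1', k2', k1, k2]
        simp only [Bool.true_eq_false, false_and, false_or, true_and]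
        rw [neg_one_mul, neg_pos, Int.cast_lt_zero, hsgn.2]
        constructor
        · rintro ⟨φ', hφ'⟩
          exact (huniq hφ').symm
        · intro h
          rw [← h]
          exact ⟨φ, hφ⟩
    unfold natw natS
    by_cases h : ClT r.I ω e
    · rw [if_pos h, if_pos (hcl.1 h), Real.sin_two_mul]
      ring
    · rw [if_neg h, if_neg fun h' => h (hcl.2 h'), mul_one]
  unfold rS wS
  rw [cang_thk h1 h2 hr, abs_div, abs_of_pos hθ, div_div, key]

/-! ### the contour of a row -/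

/-- The number of the square at the side `i` of the contour which starts with the face `b`. -/
def sqi (r : H825.Q.Row) (b : Bool) (i : ℕ) : ℕ :=
  if i < r.L then fk r b i else if i = r.L then te r b else fk r (!b) (i - (r.L + 1))

theorem sqi_lt (hL : 1 ≤ r.L) (hi : i < 2 * r.L + 1) : sqi r b i < r.L := by
  unfold sqi te
  split_ifs with h1 h2 h3
  · exact fk_lt h1
  · omega
  · omega
  · exact fk_lt (by omega)

theorem rqr_lo (hL : 1 ≤ r.L) {m : ℕ} (hm : m ≤ r.L) :
    rqr r b (m : ZMod (2 * r.L + 2)) = Ls (fz0 r b) (fd r b) ((m : ℤ), 0) := by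
  rw [rqr_nat hL, P1_eq (by omega)]
  unfold P0
  rw [if_pos hm]

theorem rqr_hi (hL : 1 ≤ r.L) {m : ℕ} (hm : m ≤ r.L) :
    rqr r b ((r.L + 1 + m : ℕ) : ZMod (2 * r.L + 2)) =
      Ls (fz0 r b) (fd r b) ((r.L : ℤ) - m, 1) := by
  rw [rqr_nat hL, P1_eq (by omega)]
  unfold P0
  rw [if_neg (by omega), if_pos (by omega)]
  congr 1
  ext
  · simp only
    push_cast
    ring
  · rfl

/-- The square of the row at two consecutive sites. -/
theorem sq_of_isC (hL : 1 ≤ r.L) (hi : i < 2 * r.L + 1) (hv : v ∈ r.I)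
    (h1 : IsC v (rqr r b (i : ZMod (2 * r.L + 2))))
    (h2 : IsC v (rqr r b ((i + 1 : ℕ) : ZMod (2 * r.L + 2)))) : v = r.sq (sqi r b i) := by
  rw [mem_rI] at hv
  rcases lt_trichotomy i r.L with h | h | h
  · rw [rqr_lo hL h.le] at h1
    rw [rqr_lo hL (show i + 1 ≤ r.L by omega)] at h2
    unfold sqi
    rw [if_pos h]
    unfold IsC Ls fz0 fd at h1 h2
    unfold H825.Q.Row.sq fk
    cases hb : b <;> by_cases ho : r.o = true <;> simp [hb, ho, dx, dy] at h1 h2 hv ⊢ <;>
      (ext <;> (try simp) <;> omega)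
  · subst h
    rw [rqr_lo hL le_rfl] at h1
    have := rqr_hi (r := r) (b := b) hL (Nat.zero_le r.L)
    rw [add_zero] at this
    rw [this] at h2
    unfold sqi
    rw [if_neg (lt_irrefl _), if_pos rfl]
    unfold IsC Ls fz0 fd at h1 h2
    unfold H825.Q.Row.sq te
    cases hb : b <;> by_cases ho : r.o = true <;> simp [hb, ho, dx, dy] at h1 h2 hv ⊢ <;>
      (ext <;> (try simp) <;> omega)
  · obtain ⟨m, rfl⟩ : ∃ m, i = r.L + 1 + m := ⟨i - (r.L + 1), by omega⟩
    rw [rqr_hi hL (show m ≤ r.L by omega)] at h1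
    rw [add_assoc, rqr_hi hL (show m + 1 ≤ r.L by omega)] at h2
    unfold sqi
    rw [if_neg (by omega), if_neg (by omega), Nat.add_sub_cancel_left]
    unfold IsC Ls fz0 fd at h1 h2
    unfold H825.Q.Row.sq fk
    cases hb : b <;> by_cases ho : r.o = true <;> simp [hb, ho, dx, dy] at h1 h2 hv ⊢ <;>
      (ext <;> (try simp) <;> omega)

end Vale.Agent.P167.N.ID.W
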