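import Vale.Agent.P167.N.ID.WtA
import Vale.Agent.P167.QX.Trap

/-!
# P167, `q < 1`: the values of the weights of the strands of a row

`Ph r θ g Φ sa`: the phases of a thick wall on the row `r`: `+ θ / 4` on the face `g`, `- θ / 4` on the
other face, stagger `(3 θ - π) / 4` on the faces and `(θ - π) / 4` on the two end sides.
-/

set_option autoImplicit false

namespace Vale.Agent.P167.N.ID.W

open Finset
open Vale.Agent.P167 Vale.Agent.P167.N.ID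
open Vale.Agent.P167.Top
open Vale.Agent.P167.E6 (IsPolygon Encloses dir)
open Vale.Agent.P167.BR (be be_even be_odd)
open Vale.Agent.P167.XDL (bS mem_bS)
open Vale.Agent.P167.FK
open Vale.Agent.P167.H199 (strand ret Returns mem_strand ret_min ret_le)
open Vale.Agent.P167.QX (exc mem_exc exc_last ExtPot out_stays returns_good rS natS ClT lst wS)
open Vale.Agent.P167.H945.Q (face faces natw relw Plain tj jn)
open Vale.Agent.P167.H871 (IsC)
open Vale.Agent.P167.H871.Q hiding ah_thk at_thk thk_off cang_thk rS_eq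

variable {r : H825.Q.Row} {b b' b'' g : Bool} {v : ℤ × ℤ} {k l : ℕ} {ω ω' : Cfg}
  {B : Finset (ℤ × ℤ)} {e x : Ed} {I : Finset (ℤ × ℤ)} {i j : ℕ} {θ z : ℝ} {Φ sa : Ed → ℝ}

/-- The phase of the face `b` relative to the mean phase. -/
noncomputable def sJ (θ : ℝ) (g b : Bool) : ℝ := if b = g then θ / 4 else -(θ / 4)

/-- **The phases of a row** (`g`: the face with the bigger phase). -/
structure Ph (r : H825.Q.Row) (θ : ℝ) (g : Bool) (Φ sa : Ed → ℝ) : Prop where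
  f : ∀ b k, k < r.L → Φ (face r b k) = r.Φ (r.sq k) + sJ θ g b
  fs : ∀ b k, k < r.L → sa (face r b k) = r.τ (r.sq k) * ((3 * θ - Real.pi) / 4)
  e : ∀ b, Φ (ee r b) = r.Φ (r.sq (te r b))
  es : ∀ b, sa (ee r b) = r.τ (r.sq (te r b)) * ((θ - Real.pi) / 4)

/-- The squares at the feet. -/
theorem foot_isC (hL : 1 ≤ r.L) (F : Foot (rqr r b) r.I ω e i j) :
    (IsC (tlv e) (rqr r b (i : ZMod (2 * r.L + 2))) ∧
      IsC (tlv e) (rqr r b ((i + 1 : ℕ) : ZMod (2 * r.L + 2)))) ∧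
    IsC (hdv (lst r.I ω e)) (rqr r b (j : ZMod (2 * r.L + 2))) ∧
      IsC (hdv (lst r.I ω e)) (rqr r b ((j + 1 : ℕ) : ZMod (2 * r.L + 2))) := by
  have hq := rqr_polygon (r := r) (b := b) hL
  have hI := rqr_encloses (r := r) (b := b) hL
  obtain ⟨g1, g2, -, -⟩ := be_odd hq hI (F.odd hq hI)
  obtain ⟨g3, g4, -, -⟩ := be_even hq hI (F.even hq hI)
  obtain ⟨-, ⟨c1, c2⟩, -, c3, c4⟩ := QX.corners (be (rqr r b) (i : ZMod (2 * r.L + 2)))
  obtain ⟨⟨d1, d2⟩, -, ⟨d3, d4⟩, -⟩ := QX.corners (be (rqr r b) (j : ZMod (2 * r.L + 2)))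
  have e2 : lst r.I ω e = be (rqr r b) (j : ZMod (2 * r.L + 2)) := F.e2
  rw [e2, F.e1, Nat.cast_succ, Nat.cast_succ, ← g1, ← g2, ← g3, ← g4]
  unfold IsC
  refine ⟨⟨⟨?_, ?_⟩, ?_, ?_⟩, ⟨?_, ?_⟩, ?_, ?_⟩ <;> omega

theorem foot_sq (hL : 1 ≤ r.L) (F : Foot (rqr r b) r.I ω e i j) (hi : i < 2 * r.L + 1)
    (hj : j < 2 * r.L + 1) :
    tlv e = r.sq (sqi r b i) ∧ hdv (lst r.I ω e) = r.sq (sqi r b j) := by
  obtain ⟨⟨h1, h2⟩, h3, h4⟩ := foot_isC hL F
  exact ⟨sq_of_isC hL hi F.tl h1 h2, sq_of_isC hL hj (exc_last F.out F.rt).1 h3 h4⟩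

/-- The phase offset at a side of the contour. -/
noncomputable def offi (r : H825.Q.Row) (θ : ℝ) (g b : Bool) (i : ℕ) : ℝ :=
  if i < r.L then sJ θ g b else if i = r.L then 0 else -sJ θ g b

/-- The stagger at a side of the contour. -/
noncomputable def kapi (r : H825.Q.Row) (θ : ℝ) (i : ℕ) : ℝ :=
  if i = r.L then (θ - Real.pi) / 4 else (3 * θ - Real.pi) / 4

theorem sJ_not (θ : ℝ) (g b : Bool) : sJ θ g (!b) = -sJ θ g b := by
  unfold sJ
  cases b <;> cases g <;> simp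

theorem Ph.phi (h : Ph r θ g Φ sa) (hL : 1 ≤ r.L) (hi : i < 2 * r.L + 1) :
    Φ (be (rqr r b) (i : ZMod (2 * r.L + 2))) = r.Φ (r.sq (sqi r b i)) + offi r θ g b i ∧
    sa (be (rqr r b) (i : ZMod (2 * r.L + 2))) = r.τ (r.sq (sqi r b i)) * kapi r θ i := by
  unfold sqi offi kapi
  rcases lt_trichotomy i r.L with h1 | h1 | h1
  · rw [if_pos h1, if_pos h1, if_neg h1.ne, be_face hL h1]
    exact ⟨h.f b _ (fk_lt h1), h.fs b _ (fk_lt h1)⟩
  · subst h1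
    rw [if_neg (lt_irrefl _), if_pos rfl, if_neg (lt_irrefl _), if_pos rfl, if_pos rfl]
    have h2 := h.e b
    have h3 := h.es b
    unfold ee at h2 h3
    exact ⟨by rw [h2, add_zero], h3⟩
  · obtain ⟨m, rfl⟩ : ∃ m, i = r.L + 1 + m := ⟨i - (r.L + 1), by omega⟩
    rw [if_neg (by omega), if_neg (by omega), if_neg (by omega), if_neg (by omega),
      if_neg (by omega), Nat.add_sub_cancel_left, be_face' hL (by omega)]
    exact ⟨by rw [h.f (!b) _ (fk_lt (by omega)), sJ_not], h.fs (!b) _ (fk_lt (by omega))⟩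

/-- **The relative weight in terms of the feet.** -/
theorem rS_idx (hP : Ph r θ g Φ sa) (hθ : 0 < Real.sin θ) (hL : 1 ≤ r.L)
    (hR : Rays r.I (B : Set (ℤ × ℤ))) (h0 : w0 r b ∉ B) (hf : Frz r ω)
    (F : Foot (rqr r b) r.I ω e i j) (hst : Stays r.I (B : Set (ℤ × ℤ)) ω e)
    (hi : i < 2 * r.L + 1) (hj : j < 2 * r.L + 1) :
    rS θ r.I (thk r.I Φ sa z).a ω e =
      |Real.cos (θ / 4 * (tr r.I ω e : ℝ) +
        (r.Φ (r.sq (sqi r b i)) + offi r θ g b i - (r.Φ (r.sq (sqi r b j)) + offi r θ g b j)) +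
        (r.τ (r.sq (sqi r b i)) * kapi r θ i + r.τ (r.sq (sqi r b j)) * kapi r θ j))| /
        natw θ (tr r.I ω e) (r.τ (r.sq (sqi r b i))) (r.τ (r.sq (sqi r b j))) := by
  have h := rS_thk (Φ := Φ) (sa := sa) (z := z) (τ := r.τ) hθ hL hR h0 hf.hf F.out F.tl F.rt hst
  obtain ⟨e1, e2⟩ := foot_sq hL F hi hj
  obtain ⟨p1, p2⟩ := hP.phi (b := b) hL hi
  obtain ⟨p3, p4⟩ := hP.phi (b := b) hL hj
  have e3 : lst r.I ω e = be (rqr r b) (j : ZMod (2 * r.L + 2)) := F.e2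
  rw [e1, e2, e3] at h
  rw [h, ← p1, ← p2, ← p3, ← p4, ← F.e1]

/-- **Strands between two long sides.** -/
theorem rS_ff (hP : Ph r θ g Φ sa) (hθ : 0 < Real.sin θ) (hL : 1 ≤ r.L)
    (hR : Rays r.I (B : Set (ℤ × ℤ))) (h0 : w0 r b ∉ B) (hf : Frz r ω)
    (F : Foot (rqr r b) r.I ω e i j) (hst : Stays r.I (B : Set (ℤ × ℤ)) ω e)
    (hi : i < 2 * r.L + 1) (hj : j < 2 * r.L + 1) (hiL : i ≠ r.L) (hjL : j ≠ r.L) :
    rS θ r.I (thk r.I Φ sa z).a ω e =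
      relw θ (tr r.I ω e) (r.Φ (r.sq (sqi r b i)) - r.Φ (r.sq (sqi r b j)) +
        (offi r θ g b i - offi r θ g b j))
        (r.τ (r.sq (sqi r b i))) (r.τ (r.sq (sqi r b j))) := by
  rw [rS_idx (z := z) hP hθ hL hR h0 hf F hst hi hj]
  unfold relw kapi
  rw [if_neg hiL, if_neg hjL]
  congr 3
  ring

end Vale.Agent.P167.N.ID.W
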