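import Vale.Agent.P167.N.ID.WtB
import Vale.Agent.P167.H871.Q.ValD

/-!
# P167, `q < 1`: strands between two sides of the same face of a row

The phase `± θ / 4` of the face drops out: the values are those of `H871/Q/ValC`. `jn_prod'`: the
product over the strands which stay in a box which contains no end.
-/

set_option autoImplicit false

namespace Vale.Agent.P167.N.ID.W

open Finset
open Vale.Agent.P167 Vale.Agent.P167.N.ID
open Vale.Agent.P167.Top
open Vale.Agent.P167.E6 (IsPolygon Encloses dir)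
open Vale.Agent.P167.BR (be be_even be_odd)
open Vale.Agent.P167.XDL (bS mem_bS)
open Vale.Agent.P167.FK
open Vale.Agent.P167.H199 (strand ret Returns mem_strand ret_min ret_le)
open Vale.Agent.P167.QX (exc mem_exc exc_last ExtPot out_stays returns_good rS natS ClT lst wS)
open Vale.Agent.P167.H945.Q (face faces natw relw Plain tj jn lrs)
open Vale.Agent.P167.H871 (IsC)
open Vale.Agent.P167.H871.Q hiding ah_thk at_thk thk_off cang_thk rS_eq

variable {r : H825.Q.Row} {b b' b'' g : Bool} {v : ℤ × ℤ} {k l : ℕ} {ω ω' : Cfg}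
  {B : Finset (ℤ × ℤ)} {e x : Ed} {I : Finset (ℤ × ℤ)} {i j : ℕ} {θ z : ℝ} {Φ sa : Ed → ℝ}

/-- **The relative weight of a strand with two feet on the faces.** -/
theorem rS_fc (hP : Ph r θ g Φ sa) (hθ : 0 < Real.sin θ) (hL : 1 ≤ r.L)
    (hR : Rays r.I (B : Set (ℤ × ℤ))) (h0 : w0 r b ∉ B) (hf : Frz r ω) (hs : Str r.I ω e)
    (hst : Stays r.I (B : Set (ℤ × ℤ)) ω e) (hk : k < r.L) (hl : l < r.L)
    (h1 : e = face r b' k) (h2 : lst r.I ω e = face r b'' l) :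
    rS θ r.I (thk r.I Φ sa z).a ω e = relw θ (tr r.I ω e)
      (r.Φ (r.sq k) - r.Φ (r.sq l) + (sJ θ g b' - sJ θ g b'')) (r.τ (r.sq k)) (r.τ (r.sq l)) := by
  have h3 := rS_thk (Φ := Φ) (sa := sa) (z := z) (τ := r.τ) hθ hL hR h0 hf.hf hs.out hs.tl hs.rt hst
  have h4 := exc_last hs.out hs.rt
  have e1 : tlv e = r.sq k := face_sq (b := b') (Or.inr (by rw [← h1])) hs.tl
  have e2 : hdv (lst r.I ω e) = r.sq l := face_sq (b := b'') (Or.inl (by rw [← h2])) h4.1
  have p1 := hP.f b' k hk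
  have p2 := hP.fs b' k hk
  have p3 := hP.f b'' l hl
  have p4 := hP.fs b'' l hl
  rw [← h1] at p1 p2
  rw [← h2] at p3 p4
  rw [h3, e1, e2, p1, p2, p3, p4]
  unfold relw
  congr 3
  ring

/-- A strand between two squares of a face on the same side of the junction is natural. -/
theorem val_same' (hP : Ph r θ g Φ sa) (hθ : 0 < Real.sin θ) (hθ2 : 0 < Real.sin (2 * θ))
    (hL : 1 ≤ r.L) (hR : Rays r.I (B : Set (ℤ × ℤ))) (h0 : w0 r b ∉ B) (hf : Frz r ω)
    (hs : Str r.I ω e) (hst : Stays r.I (B : Set (ℤ × ℤ)) ω e) (hk : k < r.L) (hl : l < r.L)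
    (h1 : e = face r b' k) (h2 : lst r.I ω e = face r b' l)
    (ht : tr r.I ω e = if (k < l ↔ r.o = b') then -2 else 2)
    (h : Plain r ∨ (k < r.k0 ↔ l < r.k0)) : rS θ r.I (thk r.I Φ sa z).a ω e = 1 := by
  rw [rS_fc (z := z) hP hθ hL hR h0 hf hs hst hk hl h1 h2]
  obtain ⟨e1, e2⟩ := side_eq (r := r) h
  rw [e1, sub_self, sub_self, add_zero, e2, ht]
  exact relw_nat hθ hθ2 (hf.col _) two_or

/-- **Strands over a junction.** -/
theorem val_jn' (hP : Ph r θ g Φ sa) (hθ : 0 < Real.sin θ) (hL : 1 ≤ r.L)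
    (hR : Rays r.I (B : Set (ℤ × ℤ))) (h0 : w0 r b ∉ B) (hf : Frz r ω) (hs : Str r.I ω e)
    (hst : Stays r.I (B : Set (ℤ × ℤ)) ω e) (hk : k < r.L) (hl : l < r.L)
    (h1 : e = face r b' k) (h2 : lst r.I ω e = face r b' l)
    (ht : tr r.I ω e = if (k < l ↔ r.o = b') then -2 else 2) :
    (k < r.k0 → r.k0 ≤ l → rS θ r.I (thk r.I Φ sa z).a ω e = (jn θ r b').w) ∧
      (r.k0 ≤ k → l < r.k0 → rS θ r.I (thk r.I Φ sa z).a ω e = (jn θ r b').w') := by
  have h3 := rS_fc (z := z) hP hθ hL hR h0 hf hs hst hk hl h1 h2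
  constructor
  · intro g1 g2
    rw [h3, H825.Q.Row.Φ_sq, H825.Q.Row.Φ_sq, H825.Q.Row.τ_sq, H825.Q.Row.τ_sq,
      if_neg (by omega), if_pos g2, if_neg (by omega), if_pos g2, ht]
    show _ = relw θ (tj r b') (-r.j) r.s (r.s * r.η)
    rw [mul_one]
    congr 1
    · unfold tj
      by_cases ho : r.o = b'
      · rw [if_pos ho, if_pos (iff_of_true (by omega) ho)]; norm_num
      · rw [if_neg ho, if_neg (fun h => ho (h.1 (by omega)))]; norm_num
    · ring
  · intro g1 g2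
    rw [h3, H825.Q.Row.Φ_sq, H825.Q.Row.Φ_sq, H825.Q.Row.τ_sq, H825.Q.Row.τ_sq, if_pos g1,
      if_neg (by omega), if_pos g1, if_neg (by omega), ht, relw_symm]
    show _ = relw θ (-tj r b') r.j r.s (r.s * r.η)
    rw [mul_one]
    congr 1
    · unfold tj
      by_cases ho : r.o = b'
      · rw [if_pos ho, if_neg (fun h => by have := h.2 ho; omega)]; norm_num
      · rw [if_neg ho, if_pos (iff_of_false (by omega) ho)]; norm_num
    · ring

/-- The natural weight of a strand over a regular end, and the weight `0` over a killed end. -/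
theorem relw_reg {t s : ℝ} (hθ : 0 < Real.sin θ) (hθ2 : 0 < Real.sin (2 * θ))
    (hs : s = 1 ∨ s = -1) (ht : t = 1 ∨ t = -1) :
    relw θ (4 * t) (-(θ / 2) * t) s s = 1 := by
  have key : ∀ {x y : ℝ}, 0 < y → (Real.cos x = y) → |Real.cos x| / y = 1 := by
    intro x y hy h
    rw [h, abs_of_pos hy, div_self hy.ne']
  unfold relw natw
  rcases hs with rfl | rfl <;> rcases ht with rfl | rfl
  · rw [if_pos ⟨rfl, by norm_num⟩]
    refine key hθ2 ?_
    rw [show θ / 4 * (4 * 1) + -(θ / 2) * 1 + (1 + 1) * ((3 * θ - Real.pi) / 4) =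
      2 * θ - Real.pi / 2 by ring, Real.cos_sub_pi_div_two]
  · rw [if_neg (fun h => by norm_num at h)]
    refine key hθ ?_
    rw [show θ / 4 * (4 * -1) + -(θ / 2) * -1 + (1 + 1) * ((3 * θ - Real.pi) / 4) =
      θ - Real.pi / 2 by ring, Real.cos_sub_pi_div_two]
  · rw [if_neg (fun h => by norm_num at h)]
    refine key hθ ?_
    rw [show θ / 4 * (4 * 1) + -(θ / 2) * 1 + (-1 + -1) * ((3 * θ - Real.pi) / 4) =
      Real.pi / 2 - θ by ring, Real.cos_pi_div_two_sub]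
  · rw [if_pos ⟨rfl, by norm_num⟩]
    refine key hθ2 ?_
    rw [show θ / 4 * (4 * -1) + -(θ / 2) * -1 + (-1 + -1) * ((3 * θ - Real.pi) / 4) =
      Real.pi / 2 - 2 * θ by ring, Real.cos_pi_div_two_sub]

/-- The feet of a strand over an end are on the same side of the junction as the end. -/
theorem tip_side
    (hfar : Plain r ∨ (0 < r.k0 → r.k0 < r.L → ¬ (r.sq r.k0 ∈ B ∧ r.sq (r.k0 - 1) ∈ B)))
    (hk : k < r.L) (hl : l < r.L)
    (hB : ∀ m, 0 < m → m < r.L → ((if r.o = b then m ≤ k else k < m) ∨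
        (if r.o = b then m ≤ l else l < m)) → r.sq m ∈ B ∧ r.sq (m - 1) ∈ B) :
    (Plain r ∨ (k < r.k0 ↔ te r b < r.k0)) ∧ (Plain r ∨ (l < r.k0 ↔ te r b < r.k0)) := by
  rcases hfar with hp | hfar
  · exact ⟨Or.inl hp, Or.inl hp⟩
  suffices h : (k < r.k0 ↔ te r b < r.k0) ∧ (l < r.k0 ↔ te r b < r.k0) from
    ⟨Or.inr h.1, Or.inr h.2⟩
  unfold te
  by_cases hk0 : 0 < r.k0 ∧ r.k0 < r.L
  · have h3 := hB r.k0 hk0.1 hk0.2
    have h4 := hfar hk0.1 hk0.2
    by_cases ho : r.o = b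
    · rw [if_pos ho, if_pos ho] at h3
      rw [if_pos ho]
      have g1 : ¬ r.k0 ≤ k := fun h => h4 (h3 (Or.inl h))
      have g2 : ¬ r.k0 ≤ l := fun h => h4 (h3 (Or.inr h))
      omega
    · rw [if_neg ho, if_neg ho] at h3
      rw [if_neg ho]
      have g1 : ¬ k < r.k0 := fun h => h4 (h3 (Or.inl h))
      have g2 : ¬ l < r.k0 := fun h => h4 (h3 (Or.inr h))
      omega
  · split_ifs <;> omega

/-- **A strand over a regular end is natural.** -/
theorem val_reg (hP : Ph r θ g Φ sa) (hθ : 0 < Real.sin θ) (hθ2 : 0 < Real.sin (2 * θ))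
    (hL : 1 ≤ r.L) (hR : Rays r.I (B : Set (ℤ × ℤ))) (h0 : w0 r b ∉ B) (hf : Frz r ω)
    (hs : Str r.I ω e) (hst : Stays r.I (B : Set (ℤ × ℤ)) ω e) (hg : b ≠ g)
    (hfar : Plain r ∨ (0 < r.k0 → r.k0 < r.L → ¬ (r.sq r.k0 ∈ B ∧ r.sq (r.k0 - 1) ∈ B)))
    (hk : k < r.L) (hl : l < r.L)
    (hB : ∀ m, 0 < m → m < r.L → ((if r.o = b then m ≤ k else k < m) ∨
        (if r.o = b then m ≤ l else l < m)) → r.sq m ∈ B ∧ r.sq (m - 1) ∈ B)
    (h : (e = face r b k ∧ lst r.I ω e = face r (!b) l ∧ tr r.I ω e = 4) ∨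
      (e = face r (!b) k ∧ lst r.I ω e = face r b l ∧ tr r.I ω e = -4)) :
    rS θ r.I (thk r.I Φ sa z).a ω e = 1 := by
  obtain ⟨c1, c2⟩ := tip_side hfar hk hl hB
  obtain ⟨e1, e2⟩ := side_eq (r := r) c1
  obtain ⟨e3, e4⟩ := side_eq (r := r) c2
  have hJ : sJ θ g b = -(θ / 4) := if_neg hg
  have hJ' : sJ θ g (!b) = θ / 4 := by rw [sJ_not, hJ, neg_neg]
  rcases h with ⟨h1, h2, h3⟩ | ⟨h1, h2, h3⟩
  · rw [rS_fc (z := z) hP hθ hL hR h0 hf hs hst hk hl h1 h2, e1, e2, e3, e4, sub_self, hJ, hJ',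
      h3]
    have := relw_reg (t := 1) hθ hθ2 (hf.col (r.sq (te r b))) (Or.inl rfl)
    rw [← this]
    congr 1
    · norm_num
    · ring
  · rw [rS_fc (z := z) hP hθ hL hR h0 hf hs hst hk hl h1 h2, e1, e2, e3, e4, sub_self, hJ, hJ',
      h3]
    have := relw_reg (t := -1) hθ hθ2 (hf.col (r.sq (te r b))) (Or.inr rfl)
    rw [← this]
    congr 1
    · norm_num
    · ring

/-- The outcome for one strand: natural; over the column `k0`; over the killed end; a foot on an end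
side. -/
inductive Out (r : H825.Q.Row) (θ z : ℝ) (g b : Bool) (Φ sa : Ed → ℝ) (B : Finset (ℤ × ℤ))
    (ω : Cfg) (e : Ed) : Prop
  | nat (h : rS θ r.I (thk r.I Φ sa z).a ω e = 1)
  | up (b' : Bool) (h1 : e ∈ faces r b' 0 r.k0) (h2 : lst r.I ω e ∈ faces r b' r.k0 r.L)
      (h : rS θ r.I (thk r.I Φ sa z).a ω e = (jn θ r b').w) (hp : ¬ Plain r) (hB : r.sq r.k0 ∈ B)
  | dn (b' : Bool) (h1 : e ∈ faces r b' r.k0 r.L) (h2 : lst r.I ω e ∈ faces r b' 0 r.k0)
      (h : rS θ r.I (thk r.I Φ sa z).a ω e = (jn θ r b').w') (hp : ¬ Plain r) (hB : r.sq r.k0 ∈ B)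
  | tip (i j : ℕ) (hg : b = g) (F : Foot (rqr r b) r.I ω e i j) (h1 : min i j < r.L)
      (h2 : r.L + 1 ≤ max i j) (hB : w1 r b ∈ B)
  | fin (h : e = ee r b ∨ lst r.I ω e = ee r b)

/-- **The outcomes for the strands which stay in a box which contains at most one special point.** -/
theorem outs (hP : Ph r θ g Φ sa) (hθ : 0 < Real.sin θ) (hθ2 : 0 < Real.sin (2 * θ))
    (hL : 1 ≤ r.L) (hR : Rays r.I (B : Set (ℤ × ℤ))) (h0 : w0 r b ∉ B) (hf : Frz r ω)
    (hs : Str r.I ω e) (hst : Stays r.I (B : Set (ℤ × ℤ)) ω e)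
    (hfar : w1 r b ∈ B → Plain r ∨ (0 < r.k0 → r.k0 < r.L → ¬ (r.sq r.k0 ∈ B ∧ r.sq (r.k0 - 1) ∈ B))) :
    Out r θ z g b Φ sa B ω e := by
  have hb : b ≠ !b := by cases b <;> decide
  rcases cls hL hR h0 hs hst with ⟨b', k, l, hk, hl, g1, g2, ht, hne, hB⟩ |
    ⟨k, l, hk, hl, g1, g2, ht, hw, hB⟩ | ⟨k, l, hk, hl, g1, g2, ht, hw, hB⟩ | ⟨h, hB⟩
  · by_cases hp : Plain r
    · exact .nat (val_same' hP hθ hθ2 hL hR h0 hf hs hst hk hl g1 g2 ht (Or.inl hp))
    obtain ⟨v1, v2⟩ := val_jn' (z := z) hP hθ hL hR h0 hf hs hst hk hl g1 g2 ht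
    by_cases c1 : k < r.k0 ∧ r.k0 ≤ l
    · exact .up b' (by rw [g1]; exact mem_faces (Nat.zero_le _) c1.1)
        (by rw [g2]; exact mem_faces c1.2 hl) (v1 c1.1 c1.2) hp (hB r.k0 (by omega) (by omega)).1
    by_cases c2 : r.k0 ≤ k ∧ l < r.k0
    · exact .dn b' (by rw [g1]; exact mem_faces c2.1 hk)
        (by rw [g2]; exact mem_faces (Nat.zero_le _) c2.2) (v2 c2.1 c2.2) hp
        (hB r.k0 (by omega) (by omega)).1
    exact .nat (val_same' hP hθ hθ2 hL hR h0 hf hs hst hk hl g1 g2 ht (Or.inr (by omega)))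
  · by_cases hg : b = g
    · have h1 := fk_lt (b := b) hk
      have h2 := fk_lt (b := !b) hl
      have e1 := be_face (b := b) hL h1
      rw [fk_fk hk, ← g1] at e1
      have e2 := be_face' (b := b) hL h2
      rw [fk_fk hl, ← g2] at e2
      exact .tip (fk r b k) (r.L + 1 + fk r (!b) l) hg
        ⟨by omega, by omega, hs.out, hs.tl, hs.rt, e1.symm, e2.symm⟩ (by omega) (by omega) hw
    · exact .nat (val_reg hP hθ hθ2 hL hR h0 hf hs hst hg (hfar hw) hk hl hB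
        (Or.inl ⟨g1, g2, ht⟩))
  · by_cases hg : b = g
    · have h1 := fk_lt (b := !b) hk
      have h2 := fk_lt (b := b) hl
      have e1 := be_face' (b := b) hL h1
      rw [fk_fk hk, ← g1] at e1
      have e2 := be_face (b := b) hL h2
      rw [fk_fk hl, ← g2] at e2
      exact .tip (r.L + 1 + fk r (!b) k) (fk r b l) hg
        ⟨by omega, by omega, hs.out, hs.tl, hs.rt, e1.symm, e2.symm⟩ (by omega) (by omega) hw
    · exact .nat (val_reg hP hθ hθ2 hL hR h0 hf hs hst hg (hfar hw) hk hl hB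
        (Or.inr ⟨g1, g2, ht⟩))
  · exact .fin h

end Vale.Agent.P167.N.ID.W
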