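import Vale.Agent.P167.N.ID.WtC

/-!
# P167, `q < 1`: the killed strands of a row

`kill_tip`: the strands over the good corner of the killed end have the weight `0`.
`kill_base`, `kill_jn`: the same over the killed site of a base and over the killed face of a
junction.
-/

set_option autoImplicit false

namespace Vale.Agent.P167.N.ID.W

open Finset
open Vale.Agent.P167 Vale.Agent.P167.N.ID
open Vale.Agent.P167.Top
open Vale.Agent.P167.E6 (IsPolygon Encloses dir)
open Vale.Agent.P167.BR (be be_even be_odd)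
open Vale.Agent.P167.XDL (bS mem_bS)
open Vale.Agent.P167.FK
open Vale.Agent.P167.H199 (strand ret Returns mem_strand ret_min ret_le)
open Vale.Agent.P167.QX (exc mem_exc exc_last ExtPot out_stays returns_good rS natS ClT lst wS)
open Vale.Agent.P167.H945.Q (face faces natw relw Plain tj jn lrs)
open Vale.Agent.P167.H871 (IsC)
open Vale.Agent.P167.H871.Q hiding ah_thk at_thk thk_off cang_thk rS_eq

variable {r : H825.Q.Row} {b b' b'' g : Bool} {v : ℤ × ℤ} {k l : ℕ} {ω ω' : Cfg}
  {B : Finset (ℤ × ℤ)} {e x : Ed} {I : Finset (ℤ × ℤ)} {i j t lo hi : ℕ} {θ z : ℝ}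
  {Φ sa : Ed → ℝ}

/-- The sides of a strand over an end are on the same side of the junction as the end. -/
theorem side_te (hL : 1 ≤ r.L)
    (hfar : Plain r ∨ (0 < r.k0 → r.k0 < r.L → ¬ (r.sq r.k0 ∈ B ∧ r.sq (r.k0 - 1) ∈ B)))
    (hB : ∀ m ≤ 2 * r.L + 2, lo < m → m ≤ hi → ∀ v,
      IsC v (rqr r b (m : ZMod (2 * r.L + 2))) → v ∈ B)
    (hlo : lo ≤ r.L) (hhi : r.L ≤ hi) (h1 : lo ≤ i) (h2 : i ≤ hi) (hi' : i < 2 * r.L + 1) :
    Plain r ∨ (sqi r b i < r.k0 ↔ te r b < r.k0) := by
  rcases hfar with hp | hfar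
  · exact Or.inl hp
  right
  by_cases hk0 : 0 < r.k0 ∧ r.k0 < r.L
  swap
  · have := sqi_lt (b := b) hL hi'
    unfold te
    split_ifs <;> omega
  have hf := hfar hk0.1 hk0.2
  rcases lt_trichotomy i r.L with h | h | h
  · -- on the face `b`
    have key : ∀ m, i < m → m < r.L → (if r.o = b then r.L - m else m) ≠ r.k0 := by
      intro m g1 g2 g3
      have g4 := isC_face (r := r) (b := b) hL (m := m) (by omega) g2
      rw [g3] at g4
      exact hf ⟨hB m (by omega) (by omega) (by omega) _ g4.1,
        hB m (by omega) (by omega) (by omega) _ g4.2⟩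
    unfold sqi te fk
    rw [if_pos h]
    by_cases ho : r.o = b
    · have h3 := key (r.L - r.k0)
      rw [if_pos ho] at h3
      rw [if_pos ho, if_pos ho]
      omega
    · have h3 := key r.k0
      rw [if_neg ho] at h3
      rw [if_neg ho, if_neg ho]
      omega
  · unfold sqi
    rw [if_neg (by omega), if_pos h]
  · obtain ⟨i', rfl⟩ : ∃ i', i = r.L + 1 + i' := ⟨i - (r.L + 1), by omega⟩
    have key : ∀ m, 0 < m → m ≤ i' → (if r.o = !b then r.L - m else m) ≠ r.k0 := by
      intro m g1 g2 g3
      have g4 := isC_face' (r := r) (b := b) hL (m := m) (by omega) (by omega)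
      rw [g3] at g4
      exact hf ⟨hB _ (by omega) (by omega) (by omega) _ g4.1,
        hB _ (by omega) (by omega) (by omega) _ g4.2⟩
    unfold sqi te fk
    rw [if_neg (by omega), if_neg (by omega), Nat.add_sub_cancel_left]
    by_cases ho : r.o = b
    · have ho' : r.o ≠ !b := by rw [ho]; cases b <;> decide
      have h3 := key r.k0
      rw [if_neg ho'] at h3
      rw [if_neg ho', if_pos ho]
      omega
    · have ho' : r.o = !b := by cases h : r.o <;> cases h' : b <;> simp_all
      have h3 := key (r.L - r.k0)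
      rw [if_pos ho'] at h3
      rw [if_pos ho', if_neg ho]
      omega

/-- **The killed end**: the strands over the good corner `t` (`L` or `L + 1`) of the end behind the
face `g` have the weight `0`. -/
theorem kill_tip (hP : Ph r θ g Φ sa) (hθ : 0 < Real.sin θ)
    (hL : 1 ≤ r.L) (hR : Rays r.I (B : Set (ℤ × ℤ))) (h0 : w0 r g ∉ B) (hf : Frz r ω)
    (hfar : Plain r ∨ (0 < r.k0 → r.k0 < r.L → ¬ (r.sq r.k0 ∈ B ∧ r.sq (r.k0 - 1) ∈ B)))
    (F : Foot (rqr r g) r.I ω e i j) (hst : Stays r.I (B : Set (ℤ × ℤ)) ω e)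
    (ht : t = r.L ∨ t = r.L + 1)
    (h : (r.τ (r.sq (te r g)) = 1 ∧ j < t ∧ t ≤ i) ∨ (r.τ (r.sq (te r g)) = -1 ∧ i < t ∧ t ≤ j)) :
    rS θ r.I (thk r.I Φ sa z).a ω e = 0 := by
  obtain ⟨i0, j0, F0, hi0, hj0, htr, hB⟩ := row_cls (b := g) hL hR h0 F.out F.tl F.rt hst
  have ei : i0 = i := by
    by_contra hne
    exact XDL.be_ne (rqr_polygon (r := r) (b := g) hL) F0.hi F.hi hne (F0.e1.symm.trans F.e1)
  have ej : j0 = j := by
    by_contra hne
    exact XDL.be_ne (rqr_polygon (r := r) (b := g) hL) F0.hj F.hj hne (F0.e2.symm.trans F.e2)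
  subst ei ej
  have hlo : min i0 j0 ≤ r.L := by rcases h with h | h <;> omega
  have hhi : r.L ≤ max i0 j0 := by rcases h with h | h <;> omega
  have s1 := side_te hL hfar hB hlo hhi (min_le_left _ _) (le_max_left _ _) hi0
  have s2 := side_te hL hfar hB hlo hhi (min_le_right _ _) (le_max_right _ _) hj0
  obtain ⟨e1, e2⟩ := side_eq (r := r) s1
  obtain ⟨e3, e4⟩ := side_eq (r := r) s2
  rw [rS_idx (z := z) hP hθ hL hR h0 hf F0 hst hi0 hj0, e1, e2, e3, e4, htr]
  have hz : ∀ x : ℝ, Real.cos x = 0 → ∀ y : ℝ, |Real.cos x| / y = 0 := fun x hx y => by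
    rw [hx, abs_zero, zero_div]
  have hJ : sJ θ g g = θ / 4 := if_pos rfl
  refine hz _ ?_ _
  have c1 : Real.cos (-(Real.pi / 2)) = 0 := by rw [Real.cos_neg, Real.cos_pi_div_two]
  unfold offi kapi
  rw [hJ]
  rcases h with ⟨h1, h2, h3⟩ | ⟨h1, h2, h3⟩
  · rw [h1]
    rcases lt_trichotomy j0 r.L with g1 | g1 | g1
    · rcases lt_trichotomy i0 r.L with g2 | g2 | g2
      · omega
      · refine (congrArg Real.cos ?_).trans c1
        rw [g2, U1_lt g1, if_pos g1, if_neg g1.ne, if_neg (lt_irrefl _), if_pos rfl, if_pos rfl,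
          if_neg (by omega), U1_eq (by omega), U0, if_neg (lt_irrefl _), if_pos rfl]
        push_cast
        ring
      · refine (congrArg Real.cos ?_).trans c1
        rw [U1_lt g1, U1_gt (by omega) hi0, if_pos g1, if_neg g1.ne, if_neg (by omega),
          if_neg (by omega), if_neg (by omega), if_neg (by omega)]
        push_cast
        ring
    · refine (congrArg Real.cos ?_).trans c1
      rw [g1, U1_gt (i := i0) (by omega) hi0, if_neg (lt_irrefl _), if_pos rfl, if_pos rfl,
        if_neg (by omega), if_neg (by omega), if_neg (by omega), if_neg (by omega),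
        U1_eq (by omega), U0, if_neg (lt_irrefl _), if_pos rfl]
      push_cast
      ring
    · omega
  · rw [h1]
    rcases lt_trichotomy i0 r.L with g1 | g1 | g1
    · rcases lt_trichotomy j0 r.L with g2 | g2 | g2
      · omega
      · refine (congrArg Real.cos ?_).trans Real.cos_pi_div_two
        rw [g2, U1_lt g1, if_pos g1, if_pos g1, if_neg g1.ne, if_neg (lt_irrefl _), if_pos rfl,
          if_pos rfl, U1_eq (by omega), U0, if_neg (lt_irrefl _), if_pos rfl]
        push_cast
        ring
      · refine (congrArg Real.cos ?_).trans Real.cos_pi_div_two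
        rw [U1_lt g1, U1_gt (by omega) hj0, if_pos g1, if_pos (by omega), if_neg g1.ne,
          if_neg (by omega), if_neg (by omega), if_neg (by omega)]
        push_cast
        ring
    · refine (congrArg Real.cos ?_).trans Real.cos_pi_div_two
      rw [g1, U1_gt (i := j0) (by omega) hj0, if_neg (lt_irrefl _), if_pos rfl, if_pos rfl,
        if_pos (by omega), if_neg (by omega), if_neg (by omega), if_neg (by omega),
        U1_eq (by omega), U0, if_neg (lt_irrefl _), if_pos rfl]
      push_cast
      ring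
    · omega

end Vale.Agent.P167.N.ID.W
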