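import Vale.Agent.P167.N.ID.WtD
import Vale.Agent.P167.H871.Q.ValF

/-!
# P167, `q < 1`: the product of the relative weights of one row

`GG`: the small strands of the row and the strands which stay in the boxes around the special sites.
`GG_prod`: the product over `GG` if no strand goes over the killed corner.
-/

set_option autoImplicit false

namespace Vale.Agent.P167.N.ID.W

open Finset
open Vale.Agent.P167 Vale.Agent.P167.N.ID
open Vale.Agent.P167.Top
open Vale.Agent.P167.E6 (IsPolygon Encloses dir)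
open Vale.Agent.P167.BR (be be_even be_odd)
open Vale.Agent.P167.XDL (bS mem_bS)
open Vale.Agent.P167.FK
open Vale.Agent.P167.H199 (strand ret Returns mem_strand ret_min ret_le)
open Vale.Agent.P167.QX (exc mem_exc exc_last ExtPot out_stays returns_good rS natS ClT lst wS InB
  rS_nonneg)
open Vale.Agent.P167.H945.Q (face faces natw relw Plain tj jn lrs)
open Vale.Agent.P167.H871 (IsC)
open Vale.Agent.P167.H871.Q hiding ah_thk at_thk thk_off cang_thk rS_eq

variable {r : H825.Q.Row} {b b' b'' g : Bool} {v zt zm : ℤ × ℤ} {k l : ℕ} {ω ω' : Cfg}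
  {B : Finset (ℤ × ℤ)} {e e' x : Ed} {I : Finset (ℤ × ℤ)} {i j t lo hi : ℕ} {θ z : ℝ}
  {Φ sa : Ed → ℝ} {d ρ : ℤ}

open Classical in
/-- The small strands and the strands which stay in the boxes around the special sites. -/
noncomputable def GG (r : H825.Q.Row) (zt zm : ℤ × ℤ) (d ρ : ℤ) (ω : Cfg) : Finset Ed :=
  (bS r.I).filter fun e => hdv e ∉ r.I ∧ (InB (Bq (tlv e) d) r.I ω e ∨ InB (Bq zt ρ) r.I ω e ∨
    (¬ Plain r ∧ InB (Bq zm ρ) r.I ω e))

theorem mem_GG : e ∈ GG r zt zm d ρ ω ↔ Str r.I ω e ∧ (InB (Bq (tlv e) d) r.I ω e ∨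
    InB (Bq zt ρ) r.I ω e ∨ (¬ Plain r ∧ InB (Bq zm ρ) r.I ω e)) := by
  classical
  unfold GG
  rw [mem_filter]
  constructor
  · rintro ⟨h1, h2, h3⟩
    refine ⟨⟨h2, (mem_bS.1 h1).resolve_left (fun h => h2 h.1) |>.2, ?_⟩, h3⟩
    rcases h3 with h3 | h3 | ⟨-, h3⟩ <;> exact h3.1
  · rintro ⟨h1, h3⟩
    exact ⟨h1.mem, h1.out, h3⟩

/-- No strand which stays in `B` goes over the site `t`. -/
def NoOv (r : H825.Q.Row) (b : Bool) (B : Finset (ℤ × ℤ)) (ω : Cfg) (t : ℕ) : Prop :=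
  ∀ e i j, Foot (rqr r b) r.I ω e i j → Stays r.I (B : Set (ℤ × ℤ)) ω e →
    ¬ (min i j < t ∧ t ≤ max i j)

/-- The site `c` is a corner of the square `v`. -/
theorem alm_of (h : IsC v zt) : Alm v ρ (Bq zt ρ) := by
  obtain ⟨h1, h2⟩ := h
  refine ⟨_, _, _, _, rfl, ?_, ?_, ?_, ?_⟩ <;> omega

theorem nm_isC (h : IsC v zt) : nm (v - zt) ≤ 1 := by
  obtain ⟨h1, h2⟩ := h
  unfold nm
  simp only [Prod.fst_sub, Prod.snd_sub]
  rw [max_le_iff, abs_le, abs_le]
  omega

/-- The outer square at the end. -/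
theorem w1_eq : w1 r b = w0 r (!b) := by
  unfold w0 w1
  cases h : r.o <;> cases h' : b <;> simp

/-- The relative weights are bounded. -/
theorem rS_le' (hθ : 0 < Real.sin θ) (hc : 0 < Real.cos θ) (hc1 : 2 * Real.cos θ ≤ 1)
    (a : Ed → Bool → ℝ) : rS θ I a ω e ≤ (Real.sin (2 * θ))⁻¹ := by
  classical
  unfold rS wS
  rw [abs_div, abs_of_pos hθ, div_div, Real.sin_two_mul, inv_eq_one_div]
  have h1 : 2 * Real.sin θ * Real.cos θ ≤ Real.sin θ * natS θ I ω e := by
    unfold natS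
    split_ifs
    · linarith
    · nlinarith
  have h2 : 0 < 2 * Real.sin θ * Real.cos θ := by positivity
  exact div_le_div₀ zero_le_one (Real.abs_cos_le_one _) h2 h1

/-- **The value of a strand from one side of `k0` to the other.** -/
theorem val_up (hP : Ph r θ g Φ sa) (hθ : 0 < Real.sin θ) (hL : 1 ≤ r.L)
    (hR : Rays r.I (B : Set (ℤ × ℤ))) (h0 : w0 r b ∉ B) (hf : Frz r ω) (hk0 : r.k0 ≤ r.L)
    (he : e ∈ lrs r.I (faces r b 0 r.k0) (faces r b r.k0 r.L) B ω) :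
    rS θ r.I (thk r.I Φ sa z).a ω e = (jn θ r b).w := by
  obtain ⟨h1, hs, h2, hst⟩ := mem_lrs'.1 he
  obtain ⟨k, hk, h3⟩ := mem_image.1 h1
  obtain ⟨l, hl, h4⟩ := mem_image.1 h2
  rw [mem_Ico] at hk hl
  obtain ⟨-, ht⟩ := tr_same (r := r) (b := b) hL hR h0 subset_rfl (fun v _ h => h)
    (show k < r.L by omega) hl.2 (mem_lrs'.2 ⟨by rw [h3]; exact mem_singleton_self _, hs, by
      rw [h4]; exact mem_singleton_self _, hst⟩)
  exact (val_jn' hP hθ hL hR h0 hf hs hst (by omega) hl.2 h3.symm h4.symm ht).1 hk.2 hl.1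

theorem val_dn (hP : Ph r θ g Φ sa) (hθ : 0 < Real.sin θ) (hL : 1 ≤ r.L)
    (hR : Rays r.I (B : Set (ℤ × ℤ))) (h0 : w0 r b ∉ B) (hf : Frz r ω)
    (he : e ∈ lrs r.I (faces r b r.k0 r.L) (faces r b 0 r.k0) B ω) :
    rS θ r.I (thk r.I Φ sa z).a ω e = (jn θ r b).w' := by
  obtain ⟨h1, hs, h2, hst⟩ := mem_lrs'.1 he
  obtain ⟨k, hk, h3⟩ := mem_image.1 h1
  obtain ⟨l, hl, h4⟩ := mem_image.1 h2
  rw [mem_Ico] at hk hl
  obtain ⟨-, ht⟩ := tr_same (r := r) (b := b) hL hR h0 subset_rfl (fun v _ h => h)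
    hk.2 (show l < r.L by omega) (mem_lrs'.2 ⟨by rw [h3]; exact mem_singleton_self _, hs, by
      rw [h4]; exact mem_singleton_self _, hst⟩)
  exact (val_jn' hP hθ hL hR h0 hf hs hst hk.2 (by omega) h3.symm h4.symm ht).2 hk.1 hl.2

/-- The geometric data of a row with two special sites. -/
structure Geo (r : H825.Q.Row) (g : Bool) (zt zm : ℤ × ℤ) (d ρ : ℤ) : Prop where
  d1 : 1 ≤ d
  d2 : 2 * d + 2 ≤ ρ
  L : 16 * ρ ≤ r.L
  k0 : ¬ Plain r → 16 * ρ ≤ r.k0 ∧ r.k0 + 16 * ρ ≤ r.L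
  ct : IsC (r.sq (te r g)) zt
  cw : IsC (w1 r g) zt
  cm : ¬ Plain r → IsC (r.sq r.k0) zm

theorem Geo.L1 (h : Geo r g zt zm d ρ) : 1 ≤ r.L := by
  have h1 := h.d1
  have h2 := h.d2
  have h3 := h.L
  omega

/-- The boxes of the strands of `GG`. -/
theorem GG_box (h : Geo r g zt zm d ρ) (he : e ∈ GG r zt zm d ρ ω) :
    ∃ B : Finset (ℤ × ℤ), Stays r.I (B : Set (ℤ × ℤ)) ω e ∧ Rays r.I (B : Set (ℤ × ℤ)) ∧
      (∀ u ∈ B, ∀ v ∈ B, nm (v - u) ≤ 2 * ρ) ∧
      (w1 r g ∈ B → Stays r.I (Bq zt ρ : Set (ℤ × ℤ)) ω e) ∧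
      (¬ Plain r → r.sq r.k0 ∈ B → Stays r.I (Bq zm ρ : Set (ℤ × ℤ)) ω e) := by
  have hd1 := h.d1
  have hd2 := h.d2
  have hLL := h.L
  obtain ⟨hs, h3⟩ := mem_GG.1 he
  have hte : te r g = 0 ∨ te r g = r.L - 1 := by unfold te; split_ifs <;> simp
  have farw : ¬ Plain r → 4 * ρ < nm (w1 r g - r.sq r.k0) := by
    intro hp
    have := h.k0 hp
    unfold w1
    rw [sq_sqm, nm_sqm, lt_abs]
    split_ifs <;> omega
  have fart : ¬ Plain r → 4 * ρ < nm (r.sq (te r g) - r.sq r.k0) := by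
    intro hp
    have := h.k0 hp
    rw [sq_sqm, sq_sqm, nm_sqm, lt_abs]
    rcases hte with h5 | h5 <;> rw [h5] <;> omega
  rcases h3 with h3 | h3 | ⟨hp, h3⟩
  · -- a small strand
    refine ⟨Bq (tlv e) d, inB_stays h3, ?_, fun u hu v hv => (nm_Bq hu hv).trans (by omega),
      fun hw k hk => ?_, fun hp hw k hk => ?_⟩
    · have hline : if r.o then (tlv e).2 = r.x.2 else (tlv e).1 = r.x.1 := by
        have := hs.tl
        rw [mem_rI] at this
        by_cases ho : r.o = true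
        · rw [if_pos ho] at this ⊢; exact this.1
        · rw [if_neg ho] at this ⊢; exact this.1
      apply rays_row
      by_cases ho : r.o = true
      · rw [if_pos ho] at hline ⊢; omega
      · rw [if_neg ho] at hline ⊢; omega
    · have h5 := nm_tri (nm_Bq hw (inB_stays h3 k hk)) (nm_isC h.cw)
      exact mem_Bq_nm (by omega)
    · have h5 := nm_tri (nm_Bq hw (inB_stays h3 k hk)) (nm_isC (h.cm hp))
      exact mem_Bq_nm (by omega)
  · refine ⟨Bq zt ρ, inB_stays h3, (alm_of h.ct).rays (by omega) (sq_line _),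
      fun u hu v hv => nm_Bq hu hv, fun _ => inB_stays h3, fun hp hw => ?_⟩
    exfalso
    have h5 := (alm_of (ρ := ρ) h.ct).nm hw
    have h6 := fart hp
    rw [nm_swap] at h5
    omega
  · refine ⟨Bq zm ρ, inB_stays h3, (alm_of (h.cm hp)).rays (by omega) (sq_line _),
      fun u hu v hv => nm_Bq hu hv, fun hw => ?_, fun _ _ => inB_stays h3⟩
    exfalso
    have h5 := (alm_of (ρ := ρ) (h.cm hp)).nm hw
    have h6 := farw hp
    omega

/-- **The strands of `GG`**: natural, over the column `k0`, or with a foot on an end side. -/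
theorem GG_case (h : Geo r g zt zm d ρ) (hP : Ph r θ g Φ sa) (hθ : 0 < Real.sin θ)
    (hθ2 : 0 < Real.sin (2 * θ)) (hf : Frz r ω) (ht : t = r.L ∨ t = r.L + 1)
    (hT : NoOv r g (Bq zt ρ) ω t) (he : e ∈ GG r zt zm d ρ ω) :
    rS θ r.I (thk r.I Φ sa z).a ω e = 1 ∨
    (¬ Plain r ∧ ∃ b', e ∈ lrs r.I (faces r b' 0 r.k0) (faces r b' r.k0 r.L) (Bq zm ρ) ω ∨
      e ∈ lrs r.I (faces r b' r.k0 r.L) (faces r b' 0 r.k0) (Bq zm ρ) ω) ∨
    (e = ee r g ∨ lst r.I ω e = ee r g) ∨ (e = ee r (!g) ∨ lst r.I ω e = ee r (!g)) := by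
  have hL := h.L1
  have hd1 := h.d1
  have hd2 := h.d2
  have hLL := h.L
  obtain ⟨B, hst, hR, hD, hw, hk⟩ := GG_box h he
  have hs := (mem_GG.1 he).1
  have key : ∀ b, w0 r b ∉ B → _ := fun b h0 =>
    outs (z := z) hP hθ hθ2 hL hR h0 hf hs hst (fun hB => by
      by_cases hp : Plain r
      · exact Or.inl hp
      refine Or.inr fun _ _ h5 => ?_
      have h6 := hD _ hB _ h5.1
      have h7 := h.k0 hp
      unfold w1 at h6
      rw [sq_sqm, nm_sqm, abs_le] at h6
      split_ifs at h6 <;> omega)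
  have fin : ∀ b, w0 r b ∉ B →
      rS θ r.I (thk r.I Φ sa z).a ω e = 1 ∨
      (¬ Plain r ∧ ∃ b', e ∈ lrs r.I (faces r b' 0 r.k0) (faces r b' r.k0 r.L) (Bq zm ρ) ω ∨
        e ∈ lrs r.I (faces r b' r.k0 r.L) (faces r b' 0 r.k0) (Bq zm ρ) ω) ∨
      (e = ee r b ∨ lst r.I ω e = ee r b) := by
    intro b h0
    rcases key b h0 with h1 | ⟨b', h1, h2, -, hp, hB⟩ | ⟨b', h1, h2, -, hp, hB⟩ |
      ⟨i, j, hg, F, h1, h2, hB⟩ | h1
    · exact Or.inl h1
    · exact Or.inr (Or.inl ⟨hp, b', Or.inl (mem_lrs'.2 ⟨h1, hs, h2, hk hp hB⟩)⟩)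
    · exact Or.inr (Or.inl ⟨hp, b', Or.inr (mem_lrs'.2 ⟨h1, hs, h2, hk hp hB⟩)⟩)
    · exfalso
      subst hg
      exact hT e i j F (hw hB) (by omega)
    · exact Or.inr (Or.inr h1)
  by_cases c1 : w0 r g ∈ B
  · have c2 : w1 r g ∉ B := by
      intro h5
      have h6 := hD _ c1 _ h5
      unfold w0 w1 at h6
      rw [nm_sqm, abs_le] at h6
      split_ifs at h6 <;> omega
    rcases fin (!g) (by rw [← w1_eq]; exact c2) with h1 | h1 | h1
    · exact Or.inl h1
    · exact Or.inr (Or.inl h1)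
    · exact Or.inr (Or.inr (Or.inr h1))
  · rcases fin g c1 with h1 | h1 | h1
    · exact Or.inl h1
    · exact Or.inr (Or.inl h1)
    · exact Or.inr (Or.inr (Or.inl h1))

/-- The factor of the strands over the column `k0` on the face `b` in the box `B`. -/
noncomputable def Tj (θ : ℝ) (r : H825.Q.Row) (b : Bool) (B : Finset (ℤ × ℤ)) (ω : Cfg) : ℝ :=
  (jn θ r b).w ^ (lrs r.I (faces r b 0 r.k0) (faces r b r.k0 r.L) B ω).card *
    (jn θ r b).w' ^ (lrs r.I (faces r b r.k0 r.L) (faces r b 0 r.k0) B ω).card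

/-- A product with at most two exceptional factors. -/
theorem prod_ends {s : Finset Ed} {f : Ed → ℝ} {p p' : Ed → Prop} {C : ℝ} (hC : 1 ≤ C)
    (h0 : ∀ e ∈ s, 0 ≤ f e) (h1 : ∀ e ∈ s, f e = 1 ∨ p e ∨ p' e) (h2 : ∀ e ∈ s, f e ≤ C)
    (hu : ∀ e ∈ s, ∀ e' ∈ s, p e → p e' → e = e')
    (hu' : ∀ e ∈ s, ∀ e' ∈ s, p' e → p' e' → e = e') : ∏ e ∈ s, f e ≤ C ^ 2 := by
  classical
  rw [← prod_filter_mul_prod_filter_not s p, pow_two]
  refine mul_le_mul ?_ ?_ (prod_nonneg fun e he => h0 e (mem_filter.1 he).1) (by linarith)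
  · refine prod_one (p := p) hC (fun e he h => absurd (mem_filter.1 he).2 h)
      (fun e he => h2 e (mem_filter.1 he).1) fun e he e' he' => hu e (mem_filter.1 he).1 e'
        (mem_filter.1 he').1
  · refine prod_one (p := p') hC (fun e he h => ?_)
      (fun e he => h2 e (mem_filter.1 he).1) fun e he e' he' => hu' e (mem_filter.1 he).1 e'
        (mem_filter.1 he').1
    rcases h1 e (mem_filter.1 he).1 with h3 | h3 | h3
    · exact h3
    · exact absurd h3 (mem_filter.1 he).2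
    · exact absurd h3 h

theorem one_le_inv2 (hθ2 : 0 < Real.sin (2 * θ)) : 1 ≤ (Real.sin (2 * θ))⁻¹ :=
  (one_le_inv₀ hθ2).2 (Real.sin_le_one _)

/-- **The product of the relative weights of one row**, if no strand goes over the killed corner. -/
theorem GG_prod (h : Geo r g zt zm d ρ) (hP : Ph r θ g Φ sa) (hθ : 0 < Real.sin θ)
    (hc : 0 < Real.cos θ) (hc1 : 2 * Real.cos θ ≤ 1) (hf : Frz r ω)
    (ht : t = r.L ∨ t = r.L + 1) (hT : NoOv r g (Bq zt ρ) ω t) :
    (Plain r → ∏ e ∈ GG r zt zm d ρ ω, rS θ r.I (thk r.I Φ sa z).a ω e ≤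
      (Real.sin (2 * θ))⁻¹ ^ 2) ∧
    (¬ Plain r → ∏ e ∈ GG r zt zm d ρ ω, rS θ r.I (thk r.I Φ sa z).a ω e ≤
      (Real.sin (2 * θ))⁻¹ ^ 2 * (Tj θ r true (Bq zm ρ) ω * Tj θ r false (Bq zm ρ) ω)) := by
  classical
  have hθ2 : 0 < Real.sin (2 * θ) := by rw [Real.sin_two_mul]; positivity
  have hL := h.L1
  have hd1 := h.d1
  have hd2 := h.d2
  have hLL := h.L
  have hcase : ∀ e ∈ GG r zt zm d ρ ω, _ := fun e he =>
    GG_case (z := z) h hP hθ hθ2 hf ht hT he
  have hstr : ∀ e ∈ GG r zt zm d ρ ω, Str r.I ω e := fun e he => (mem_GG.1 he).1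
  constructor
  · intro hp
    refine prod_ends (p := fun e => e = ee r g ∨ lst r.I ω e = ee r g)
      (p' := fun e => e = ee r (!g) ∨ lst r.I ω e = ee r (!g)) (one_le_inv2 hθ2)
      (fun e _ => rS_nonneg hc _ _ _ _) (fun e he => ?_) (fun e _ => rS_le' hθ hc hc1 _)
      (fun e he e' he' => end_unique (hstr e he) (hstr e' he'))
      fun e he e' he' => end_unique (hstr e he) (hstr e' he')
    rcases hcase e he with h1 | h1 | h1 | h1
    · exact Or.inl h1
    · exact absurd hp h1.1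
    · exact Or.inr (Or.inl h1)
    · exact Or.inr (Or.inr h1)
  · intro hp
    have hk := h.k0 hp
    set TJ := Bq zm ρ with hTJ
    have aJ : Alm (r.sq r.k0) ρ TJ := alm_of (h.cm hp)
    have rJ : Rays r.I (TJ : Set (ℤ × ℤ)) := aJ.rays (by omega) (sq_line _)
    have w0J : ∀ b, w0 r b ∉ TJ := by
      intro b hw
      have h5 := aJ.nm hw
      unfold w0 at h5
      rw [sq_sqm, nm_sqm, abs_le] at h5
      split_ifs at h5 <;> omega
    have sub : ∀ b', ∀ e, e ∈ faces r b' 0 r.k0 → e ∈ faces r b' 0 r.L := by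
      intro b' e he
      unfold faces at he ⊢
      exact image_subset_image (Ico_subset_Ico_right (by omega)) he
    have sub' : ∀ b', ∀ e, e ∈ faces r b' r.k0 r.L → e ∈ faces r b' 0 r.L := by
      intro b' e he
      unfold faces at he ⊢
      exact image_subset_image (Ico_subset_Ico_left (Nat.zero_le _)) he
    have hmem : ∀ {e : Ed} {b' b'' : Bool}, Str r.I ω e → Stays r.I (TJ : Set (ℤ × ℤ)) ω e →
        e ∈ faces r b' 0 r.L → lst r.I ω e ∈ faces r b'' 0 r.L → e ∈ GG r zt zm d ρ ω :=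
      fun g1 g2 g3 g4 => mem_GG.2 ⟨g1, Or.inr (Or.inr ⟨hp,
        inB_of g1 g2 aJ (by omega) (sq_line _) g3 g4⟩)⟩
    have hPs : ∀ b', lrs r.I (faces r b' 0 r.k0) (faces r b' r.k0 r.L) TJ ω ⊆
        GG r zt zm d ρ ω := by
      intro b' e he
      obtain ⟨g1, g2, g3, g4⟩ := mem_lrs'.1 he
      exact hmem g2 g4 (sub _ _ g1) (sub' _ _ g3)
    have hDs : ∀ b', lrs r.I (faces r b' r.k0 r.L) (faces r b' 0 r.k0) TJ ω ⊆
        GG r zt zm d ρ ω := by
      intro b' e he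
      obtain ⟨g1, g2, g3, g4⟩ := mem_lrs'.1 he
      exact hmem g2 g4 (sub' _ _ g1) (sub _ _ g3)
    have dPD : ∀ b', Disjoint (lrs r.I (faces r b' 0 r.k0) (faces r b' r.k0 r.L) TJ ω)
        (lrs r.I (faces r b' r.k0 r.L) (faces r b' 0 r.k0) TJ ω) := fun b' =>
      disjoint_left.2 fun e he he' => faces_disj (Or.inr (Or.inl le_rfl)) (mem_lrs'.1 he).1
        (mem_lrs'.1 he').1
    have vP : ∀ b', ∀ e ∈ lrs r.I (faces r b' 0 r.k0) (faces r b' r.k0 r.L) TJ ω,
        rS θ r.I (thk r.I Φ sa z).a ω e = (jn θ r b').w := fun b' e he =>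
      val_up hP hθ hL rJ (w0J b') hf (by omega) he
    have vD : ∀ b', ∀ e ∈ lrs r.I (faces r b' r.k0 r.L) (faces r b' 0 r.k0) TJ ω,
        rS θ r.I (thk r.I Φ sa z).a ω e = (jn θ r b').w' := fun b' e he =>
      val_dn hP hθ hL rJ (w0J b') hf he
    have tf : ∀ e, e ∈ faces r false 0 r.L → e ∉ lrs r.I (faces r true 0 r.k0)
        (faces r true r.k0 r.L) TJ ω ∪ lrs r.I (faces r true r.k0 r.L) (faces r true 0 r.k0)
          TJ ω := by
      intro e he h
      rcases mem_union.1 h with h | h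
      · exact faces_disj (Or.inl (by decide)) he (sub _ _ (mem_lrs'.1 h).1)
      · exact faces_disj (Or.inl (by decide)) he (sub' _ _ (mem_lrs'.1 h).1)
    rw [prod_two (hPs true) (hDs true) (dPD true) (vP true) (vD true),
      prod_two (s := _ \ _) (P := lrs r.I (faces r false 0 r.k0) (faces r false r.k0 r.L) TJ ω)
        (D := lrs r.I (faces r false r.k0 r.L) (faces r false 0 r.k0) TJ ω) ?_ ?_ (dPD false)
        (vP false) (vD false)]
    · have hw : ∀ b', 0 ≤ (jn θ r b').w ∧ 0 ≤ (jn θ r b').w' := by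
        have nn : ∀ t d s s', 0 ≤ relw θ t d s s' := by
          intro t d s s'
          unfold relw natw
          refine div_nonneg (abs_nonneg _) ?_
          split_ifs
          · exact hθ2.le
          · exact hθ.le
        exact fun b' => ⟨nn _ _ _ _, nn _ _ _ _⟩
      have hT0 : ∀ b', 0 ≤ Tj θ r b' TJ ω := fun b' =>
        mul_nonneg (pow_nonneg (hw b').1 _) (pow_nonneg (hw b').2 _)
      have hrest : ∏ e ∈ ((GG r zt zm d ρ ω) \
          (lrs r.I (faces r true 0 r.k0) (faces r true r.k0 r.L) TJ ω ∪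
            lrs r.I (faces r true r.k0 r.L) (faces r true 0 r.k0) TJ ω)) \
          (lrs r.I (faces r false 0 r.k0) (faces r false r.k0 r.L) TJ ω ∪
            lrs r.I (faces r false r.k0 r.L) (faces r false 0 r.k0) TJ ω),
          rS θ r.I (thk r.I Φ sa z).a ω e ≤ (Real.sin (2 * θ))⁻¹ ^ 2 := by
        refine prod_ends (p := fun e => e = ee r g ∨ lst r.I ω e = ee r g)
          (p' := fun e => e = ee r (!g) ∨ lst r.I ω e = ee r (!g)) (one_le_inv2 hθ2)
          (fun e _ => rS_nonneg hc _ _ _ _) (fun e he => ?_) (fun e _ => rS_le' hθ hc hc1 _)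
          (fun e he e' he' => end_unique (hstr e (mem_sdiff.1 (mem_sdiff.1 he).1).1)
            (hstr e' (mem_sdiff.1 (mem_sdiff.1 he').1).1))
          fun e he e' he' => end_unique (hstr e (mem_sdiff.1 (mem_sdiff.1 he).1).1)
            (hstr e' (mem_sdiff.1 (mem_sdiff.1 he').1).1)
        obtain ⟨h2, h3⟩ := mem_sdiff.1 he
        obtain ⟨h4, h5⟩ := mem_sdiff.1 h2
        rw [mem_union, not_or] at h3 h5
        rcases hcase e h4 with h1 | ⟨-, b', h1⟩ | h1 | h1
        · exact Or.inl h1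
        · exfalso
          cases b'
          · rcases h1 with h1 | h1
            · exact h3.1 h1
            · exact h3.2 h1
          · rcases h1 with h1 | h1
            · exact h5.1 h1
            · exact h5.2 h1
        · exact Or.inr (Or.inl h1)
        · exact Or.inr (Or.inr h1)
      have h6 := mul_le_mul_of_nonneg_left hrest (mul_nonneg (hT0 true) (hT0 false))
      refine le_trans (le_of_eq ?_) (h6.trans (le_of_eq ?_))
      · unfold Tj
        ring
      · ring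
    · intro e he
      exact mem_sdiff.2 ⟨hPs false he, tf e (sub _ _ (mem_lrs'.1 he).1)⟩
    · intro e he
      exact mem_sdiff.2 ⟨hDs false he, tf e (sub' _ _ (mem_lrs'.1 he).1)⟩

end Vale.Agent.P167.N.ID.W
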