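import Vale.Agent.P167.N.ID.WtK
import Vale.Agent.P167.N.ID.RowF
import Vale.Agent.P167.N.ID.RowC
import Vale.Agent.P167.N.ID.RowAZr
import Vale.Agent.P167.N.ID.L1Fin

/-!
# P167, `q < 1`: **`RowG` for the rows**

The product of the relative weights of the small strands of one row is at most a constant times the
factors of its special points.
-/

set_option autoImplicit false

namespace Vale.Agent.P167.N.ID

open Finset
open Vale.Agent.P167
open Vale.Agent.P167.Top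
open Vale.Agent.P167.BR (be be_even be_odd)
open Vale.Agent.P167.XDL (bS mem_bS)
open Vale.Agent.P167.FK
open Vale.Agent.P167.H199 (strand ret Returns mem_strand ret_min ret_le)
open Vale.Agent.P167.QX (rS InB rS_nonneg Bx)
open Vale.Agent.P167.H632 (pr)
open Vale.Agent.P167.H945.Q (face faces natw relw tj jn lrs)
open Vale.Agent.P167.H871 (IsC)
open Vale.Agent.P167.H871.Q (Foot rqr w0 w1 Stays Rays Frz te ee nm_sqm sq_sqm sq_line sqm alt_jn
  isC_w1 Alm fz0 fd Ls)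
open Vale.Agent.P167.N.ID.W
open Vale.Agent.P167.H680.T (par)

variable {r : Row} {b : Bool} {ω : Cfg} {θ z κ : ℝ} {n : ℕ} {d ρ : ℤ} {t : ℕ}

/-- The phases of the rows are of the form `Ph`. -/
theorem ph_rowW (hL : 1 ≤ r.L) (hk : r.Plain ∨ (0 < r.k0 ∧ r.k0 < r.L)) :
    Ph r.toRow θ r.g (r.Φ θ) (r.σ θ) where
  f b k _ := by
    rw [Φ_face, H825.Q.Row.Φ_sq]
    unfold Row.cf sJ
    ring
  fs b k _ := σ_face θ r b k
  e b := by
    show r.Φ θ (be (rqr r.toRow b) (r.L : ZMod (2 * r.L + 2))) = _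
    rw [be_es hL, Φ_es θ hL, H825.Q.Row.Φ_sq]
    unfold Row.me te
    rcases hk with ⟨h1, -⟩ | ⟨h1, h2⟩
    · rw [h1]
      simp
    · cases ho : r.o <;> cases hb : b <;> simp <;> omega
  es b := by
    show r.σ θ (be (rqr r.toRow b) (r.L : ZMod (2 * r.L + 2))) = _
    rw [be_es hL, σ_es θ hL, H825.Q.Row.τ_sq]
    unfold Row.se te
    rcases hk with ⟨-, h1⟩ | ⟨h1, h2⟩
    · rw [h1]
      simp
    · cases ho : r.o <;> cases hb : b <;> simp <;> omega

/-- The corners of the end. -/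
theorem isC_end {r : H825.Q.Row} (hL : 1 ≤ r.L) (ht : t = r.L ∨ t = r.L + 1) :
    IsC (r.sq (te r b)) (rqr r b (t : ZMod (2 * r.L + 2))) ∧
      IsC (w1 r b) (rqr r b (t : ZMod (2 * r.L + 2))) := by
  have key : rqr r b (t : ZMod (2 * r.L + 2)) = Ls (fz0 r b) (fd r b) ((r.L : ℤ), 0) ∨
      rqr r b (t : ZMod (2 * r.L + 2)) = Ls (fz0 r b) (fd r b) ((r.L : ℤ), 1) := by
    rcases ht with rfl | rfl
    · exact Or.inl (rqr_lo hL le_rfl)
    · right
      have h := rqr_hi (r := r) (b := b) hL (Nat.zero_le _)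
      rw [add_zero] at h
      rw [h]
      simp
  rcases key with key | key <;> rw [key] <;> unfold IsC w1 sqm Ls fz0 fd H825.Q.Row.sq te <;>
    cases hb : b <;> by_cases ho : r.o = true <;> simp [ho, dx, dy] <;> omega

/-- The geometry of a row. -/
theorem geo_row (h : r.Ok θ κ n) (hd : 1 ≤ d) (h2 : 2 * d + 2 ≤ ρ) (h3 : 16 * (ρ : ℝ) ≤ κ * n) :
    Geo r.toRow r.g r.zt r.zm d ρ := by
  have hLR : 16 * ρ ≤ (r.L : ℤ) := by
    have := h3.trans h.len
    exact_mod_cast this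
  have hL : 1 ≤ r.L := by omega
  obtain ⟨t, ht, hz⟩ := Row.zt_rqr (r := r) hL
  have hc := isC_end (r := r.toRow) (b := r.g) hL ht
  rw [← hz] at hc
  refine ⟨hd, h2, hLR, fun hp => ?_, hc.1, hc.2, fun _ => ?_⟩
  · rcases h.kind with h4 | ⟨-, h4, h5⟩
    · exact absurd h4 hp
    · constructor
      · exact_mod_cast h3.trans h4
      · have : (r.k0 : ℝ) + 16 * ρ ≤ r.L := by linarith
        exact_mod_cast this
  · show IsC (r.sq r.k0) (r.st r.kf r.k0)
    unfold IsC Row.st H825.Q.Row.sq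
    cases r.o <;> cases r.kf <;> simp

/-- The killed face of the row in terms of the charges. -/
theorem ch_kf (r : Row) : ch r.toRow r.kf = |r.j| ∧ ch r.toRow (!r.kf) = -|r.j| := by
  unfold ch Row.kf
  by_cases h : 0 < r.j
  · rw [if_pos h, if_pos rfl, if_neg (by cases r.o <;> decide), abs_of_pos h]
    exact ⟨rfl, rfl⟩
  · rw [if_neg h, if_neg (by cases r.o <;> decide), if_pos (by rw [Bool.not_not]),
      abs_of_nonpos (not_lt.1 h), neg_neg]
    exact ⟨rfl, rfl⟩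

theorem pow_alt {c : ℝ} (h0 : 0 < c) (h1 : c ≤ 1) {m k : ℕ} (h : |(m : ℤ) - k| ≤ 3) :
    c ^ m * (c⁻¹) ^ k ≤ (c⁻¹) ^ 3 := by
  have hi : 1 ≤ c⁻¹ := (one_le_inv₀ h0).2 h1
  rw [abs_le] at h
  rcases le_total k m with h2 | h2
  · obtain ⟨l, rfl⟩ := Nat.exists_eq_add_of_le h2
    rw [pow_add, mul_comm (c ^ k), mul_assoc, ← mul_pow, mul_inv_cancel₀ h0.ne', one_pow, mul_one]
    exact (pow_le_one₀ h0.le h1).trans (one_le_pow₀ hi)
  · obtain ⟨l, rfl⟩ := Nat.exists_eq_add_of_le h2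
    rw [pow_add, ← mul_assoc, ← mul_pow, mul_inv_cancel₀ h0.ne', one_pow, one_mul]
    exact pow_le_pow_right₀ hi (by omega)

theorem cz_pr (v : ℤ × ℤ) : (v.1 + v.2) % 2 = pr (cz v) := by
  unfold cz pr
  by_cases h : Even (v.1 + v.2)
  · rw [decide_eq_true h, if_pos rfl]
    exact Int.even_iff.1 h
  · rw [decide_eq_false h, if_neg (by decide)]
    rw [Int.even_iff] at h
    omega

/-- The two cases of a killed site on the contour. -/
theorem kill_cases (hg : Good ω) (hρ : 1 ≤ ρ) {b : Bool} {v : ℤ × ℤ}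
    (hv : v = rqr r.toRow b (t : ZMod (2 * r.L + 2))) (ht : t ≤ r.L + 1) (h1 : ρ < t)
    (h2 : ρ < r.L) :
    (TK r.I v ρ ω = 1 ∧ NoOv r.toRow b (Bq v ρ) ω t) ∨
    (TK r.I v ρ ω = 0 ∧ ∃ e i j, Foot (rqr r.toRow b) r.I ω e i j ∧
      Stays r.I (Bq v ρ : Set (ℤ × ℤ)) ω e ∧ InB (Bq v ρ) r.I ω e ∧
      (if cz v then i < t ∧ t ≤ j else j < t ∧ t ≤ i) ∧ i < 2 * r.L + 1 ∧ j < 2 * r.L + 1) := by
  have hc := cz_pr v
  by_cases h : ω ∈ AZ (cz v) r.I v ρ
  · left
    refine ⟨Set.indicator_of_mem h _, fun e i j F hs => ?_⟩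
    rw [hv] at h hs hc
    exact not_over_row hρ ht h1 h2 hc h F hs
  · right
    refine ⟨Set.indicator_of_notMem h _, ?_⟩
    subst hv
    exact foot_of_not_AZ hg hρ ht h1 h2 hc h

/-- The product over `GG` vanishes if one strand has the weight `0`. -/
theorem GG_zero {e : Ed} (he : e ∈ GG r.toRow r.zt r.zm d ρ ω)
    (h : rS θ r.I (r.wall θ z).a ω e = 0) :
    ∏ e ∈ GG r.toRow r.zt r.zm d ρ ω, rS θ r.I (r.wall θ z).a ω e = 0 := prod_eq_zero he h

theorem par_cz {v : ℤ × ℤ} : (par v = -1 → cz v = false) ∧ (par v = 1 → cz v = true) := by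
  unfold par cz
  by_cases h : Even (v.1 + v.2)
  · rw [if_pos h, decide_eq_true h]
    exact ⟨fun h => by norm_num at h, fun _ => rfl⟩
  · rw [if_neg h, decide_eq_false h]
    exact ⟨fun _ => rfl, fun h => by norm_num at h⟩

/-- The colour of the killed end. -/
theorem se_te (hL : 1 ≤ r.L) (hk : r.Plain ∨ (0 < r.k0 ∧ r.k0 < r.L)) :
    r.τ (r.sq (te r.toRow r.g)) = r.se r.p := by
  rw [H825.Q.Row.τ_sq]
  unfold Row.se Row.p te
  rcases hk with ⟨-, h1⟩ | ⟨h1, h2⟩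
  · rw [h1]
    simp
  · cases ho : r.o <;> cases hb : r.g <;> simp <;> omega

/-- **The product of the relative weights of one row.** -/
theorem row_core (h : r.Ok θ κ n) (h13 : Real.pi / 3 ≤ θ) (h12 : θ < Real.pi / 2) (hg : Good ω)
    (hfr : ∀ v ∈ r.I, ω v = r.toRow.fr v) (hd : 1 ≤ d) (h2 : 2 * d + 2 ≤ ρ)
    (h3 : 16 * (ρ : ℝ) ≤ κ * n) :
    ∏ e ∈ GG r.toRow r.zt r.zm d ρ ω, rS θ r.I (r.wall θ z).a ω e ≤
      ((Real.sin (2 * θ))⁻¹ ^ 2 * (2 * Real.cos θ)⁻¹ ^ 3) *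
        (r.T θ r.I true ρ ω * r.T θ r.I false ρ ω) := by
  classical
  have hpi := Real.pi_pos
  have hs : 0 < Real.sin θ := Real.sin_pos_of_pos_of_lt_pi (by linarith) (by linarith)
  have hc : 0 < Real.cos θ := Real.cos_pos_of_mem_Ioo ⟨by linarith, h12⟩
  have hc1 : 2 * Real.cos θ ≤ 1 := by
    have := Real.cos_le_cos_of_nonneg_of_le_pi (by linarith) (by linarith) h13
    rw [Real.cos_pi_div_three] at this
    linarith
  have hs2 : 0 < Real.sin (2 * θ) := by rw [Real.sin_two_mul]; positivity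
  have hG := geo_row h hd h2 h3
  have hL : 1 ≤ r.L := hG.L1
  have hLL := hG.L
  have hk0 : ¬ r.Plain → 16 * ρ ≤ (r.k0 : ℤ) ∧ (r.k0 : ℤ) + 16 * ρ ≤ r.L := hG.k0
  have hk : r.Plain ∨ (0 < r.k0 ∧ r.k0 < r.L) := by
    by_cases hp : r.Plain
    · exact Or.inl hp
    · have := hk0 hp
      right
      omega
  have hP : Ph r.toRow θ r.g (r.Φ θ) (r.σ θ) := ph_rowW hL hk
  have hη : r.η = 1 ∨ r.η = -1 := by
    rcases h.kind with ⟨-, h4⟩ | ⟨⟨-, h4⟩ | ⟨-, h4⟩, -⟩
    · exact Or.inl h4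
    · exact Or.inr h4
    · exact Or.inl h4
  have hf : Frz r.toRow ω := ⟨h.s, hη, hfr⟩
  have hρ1 : 1 ≤ ρ := by omega
  obtain ⟨C1, hC1⟩ : ∃ C1, C1 = (Real.sin (2 * θ))⁻¹ := ⟨_, rfl⟩
  have hC1' : 1 ≤ C1 := hC1 ▸ one_le_inv2 hs2
  have hC2' : 1 ≤ (2 * Real.cos θ)⁻¹ := (one_le_inv₀ (by linarith)).2 hc1
  have hC3 : 1 ≤ (2 * Real.cos θ)⁻¹ ^ 3 := one_le_pow₀ hC2'
  rw [← hC1]
  have hC12 : 1 ≤ C1 ^ 2 := one_le_pow₀ hC1'
  have hCC : 0 ≤ C1 ^ 2 * (2 * Real.cos θ)⁻¹ ^ 3 := by positivity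
  -- the tip
  obtain ⟨t, ht, hz⟩ := Row.zt_rqr (r := r) hL
  have hTt : r.T θ r.I true ρ ω = TK r.I r.zt ρ ω := by
    unfold Row.T
    rw [if_pos rfl]
  have hTf0 : 0 ≤ r.T θ r.I false ρ ω := (rowF hc.le).nonneg r.I r false ρ ω
  rcases kill_cases (b := r.g) hg hρ1 hz (by omega) (by omega) (by omega) with ⟨T1, hN⟩ |
    ⟨T0, e, i, j, F, hst, hin, hdir, hi, hj⟩
  swap
  · -- killed
    have hw0 := (far_start (r := r.toRow) (b := r.g) (t := t) (ρ := ρ) hL (by omega) (by omega)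
      (by omega)).1
    have hR := rays_rqr (r := r.toRow) (b := r.g) (t := t) (ρ := ρ) hL (by omega) hρ1
    rw [← hz] at hw0 hR
    have hfar : H945.Q.Plain r.toRow ∨ (0 < r.k0 → r.k0 < r.L →
        ¬ (r.sq r.k0 ∈ Bq r.zt ρ ∧ r.sq (r.k0 - 1) ∈ Bq r.zt ρ)) := by
      by_cases hp : r.Plain
      · exact Or.inl hp
      refine Or.inr fun _ _ h5 => ?_
      have h6 := (alm_of (ρ := ρ) hG.ct).nm h5.1
      have h7 := hk0 hp
      rw [sq_sqm, sq_sqm, nm_sqm, abs_le] at h6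
      unfold te at h6
      split_ifs at h6 <;> omega
    have hτ := se_te hL hk
    have hpar := Row.par_zt (r := r) h.s hη
    have h0 : rS θ r.I (r.wall θ z).a ω e = 0 := by
      refine kill_tip (z := z) hP hs hL hR hw0 hf hfar F hst ht ?_
      show (r.τ (r.sq (te r.toRow r.g)) = 1 ∧ _) ∨ (r.τ (r.sq (te r.toRow r.g)) = -1 ∧ _)
      rw [hτ]
      rcases hf.col (r.sq (te r.toRow r.g)) with h5 | h5
      · have h5' : r.se r.p = 1 := by rw [← hτ]; exact h5
        left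
        refine ⟨h5', ?_⟩
        rw [h5', mul_one] at hpar
        rw [par_cz.1 hpar, if_neg (by decide)] at hdir
        exact hdir
      · have h5' : r.se r.p = -1 := by rw [← hτ]; exact h5
        right
        refine ⟨h5', ?_⟩
        rw [h5', mul_neg, mul_one, neg_inj] at hpar
        rw [par_cz.2 hpar, if_pos rfl] at hdir
        exact hdir
    rw [GG_zero (mem_GG.2 ⟨⟨F.out, F.tl, F.rt⟩, Or.inr (Or.inl hin)⟩) h0, hTt, T0, zero_mul,
      mul_zero]
  obtain ⟨gP, gN⟩ := GG_prod (z := z) hG hP hs hc hc1 hf ht hN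
  rw [hTt, T1, one_mul]
  by_cases hp : r.Plain
  · have h4 : r.T θ r.I false ρ ω = 1 := by
      unfold Row.T
      rw [if_neg (by decide), if_pos hp]
    rw [h4, mul_one, ← hC1] at *
    exact (gP hp).trans (le_mul_of_one_le_right (by positivity) hC3)
  have gN := gN hp
  rw [← hC1] at gN
  have hk1 := hk0 hp
  have hTT : Tj θ r.toRow true (Bq r.zm ρ) ω * Tj θ r.toRow false (Bq r.zm ρ) ω =
      Tj θ r.toRow r.kf (Bq r.zm ρ) ω * Tj θ r.toRow (!r.kf) (Bq r.zm ρ) ω := by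
    cases r.kf
    · exact mul_comm _ _
    · rfl
  rw [hTT] at gN
  obtain ⟨c1, c2⟩ := ch_kf r
  have hkf : r.kf ≠ !r.kf := by cases r.kf <;> decide
  -- the values on a face
  have hone : ∀ b : Bool, vP θ r.toRow b = 1 ∧ vM θ r.toRow b = 1 →
      Tj θ r.toRow b (Bq r.zm ρ) ω = 1 := by
    intro b hb
    unfold Tj
    rw [jn_w, jn_w', hb.1, hb.2, ite_self, one_pow, one_pow, mul_one]
  by_cases hK2 : r.K2 θ
  · -- the power junction
    have hj : |r.j| = (3 * θ - Real.pi) / 2 := by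
      rcases h.kind with h4 | ⟨⟨h4 | h4, -⟩ | ⟨-, h4⟩, -⟩
      · exact absurd h4 hp
      · exact absurd h4 hK2.2
      · rw [h4, abs_sub_comm, abs_of_nonneg (by linarith)]
      · rw [hK2.1] at h4
        norm_num at h4
    have v1 := (v_K2 (b := r.kf) hs hc h.s hK2.1).1 (c1.trans hj)
    have v2 := (v_K2 (b := !r.kf) hs hc h.s hK2.1).2 (by rw [c2, hj])
    have e1 : Tj θ r.toRow r.kf (Bq r.zm ρ) ω = r.T2 θ r.I ρ ω := by
      unfold Tj Row.T2
      rw [jn_w, jn_w', v1.1, v1.2, ite_self, ← pow_add]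
    have e2 : r.T θ r.I false ρ ω = r.T2 θ r.I ρ ω := by
      unfold Row.T
      rw [if_neg (by decide), if_neg hp, if_pos hK2]
    rw [e1, hone _ v2, mul_one] at gN
    rw [e2]
    refine gN.trans ?_
    have h5 : 0 ≤ r.T2 θ r.I ρ ω := Row.T2_nonneg hc.le _ _ _ _
    exact mul_le_mul_of_nonneg_right (le_mul_of_one_le_right (by positivity) hC3) h5
  -- a killed site in the middle
  have hTm : r.T θ r.I false ρ ω = TK r.I r.zm ρ ω := by
    unfold Row.T
    rw [if_neg (by decide), if_neg hp, if_neg hK2]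
  have hzm : r.zm = rqr r.toRow r.kf ((m0 r.toRow r.kf : ℕ) : ZMod (2 * r.L + 2)) :=
    zb_eq hL (by omega)
  have hm1 : ρ < m0 r.toRow r.kf ∧ (m0 r.toRow r.kf : ℤ) + ρ < r.L := by
    unfold m0
    split_ifs <;> omega
  have hkind : (r.η = -1 ∧ |r.j| = (Real.pi - θ) / 2) ∨ (r.η = 1 ∧ |r.j| = θ) := by
    rcases h.kind with h4 | ⟨⟨-, h4⟩ | ⟨h5, h4⟩, -⟩
    · exact absurd h4 hp
    · left
      refine ⟨h4, ?_⟩
      by_contra h5
      exact hK2 ⟨h4, h5⟩
    · exact Or.inr ⟨h4, h5⟩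
  rcases kill_cases (b := r.kf) hg hρ1 hzm (by omega) (by omega) (by omega) with ⟨M1, hNm⟩ |
    ⟨M0, e, i, j, F, hst, hin, hdir, hi, hj⟩
  · rw [hTm, M1, mul_one]
    rw [Tj_one hL (by show r.k0 ≤ r.L; omega) hNm, one_mul] at gN
    refine gN.trans (mul_le_mul_of_nonneg_left ?_ (by positivity))
    rcases hkind with ⟨k1, k2⟩ | ⟨k1, k2⟩
    · rw [hone _ ((v_K1 (b := !r.kf) hs h.s k1).2 (by rw [c2, k2]))]
      exact hC3
    · have hv := v_K3' (b := !r.kf) hs hc h.s k1 (by rw [c2, k2])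
      have aJ : Alm (r.sq r.k0) ρ (Bq r.zm ρ) := alm_of (hG.cm hp)
      have rJ : Rays r.I (Bq r.zm ρ : Set (ℤ × ℤ)) := aJ.rays (by omega) (sq_line _)
      have hw : w0 r.toRow (!r.kf) ∉ Bq r.zm ρ ∧ w1 r.toRow (!r.kf) ∉ Bq r.zm ρ := by
        constructor <;> intro hw <;> have h5 := aJ.nm hw
        · unfold w0 at h5
          rw [sq_sqm, nm_sqm, abs_le] at h5
          split_ifs at h5 <;> omega
        · unfold w1 at h5
          rw [sq_sqm, nm_sqm, abs_le] at h5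
          split_ifs at h5 <;> omega
      have halt := alt_jn (r := r.toRow) (b := !r.kf) (I := r.I) hL hg rJ hw.1 hw.2
        (m := r.k0) (by show r.k0 ≤ r.L; omega) subset_rfl (fun v _ h => h)
      have h0' : 0 < 2 * Real.cos θ := by linarith
      have key : ∀ {x y : ℝ}, (x = (2 * Real.cos θ)⁻¹ ∧ y = 2 * Real.cos θ) ∨
          (x = 2 * Real.cos θ ∧ y = (2 * Real.cos θ)⁻¹) → ∀ {m k : ℕ}, |(m : ℤ) - k| ≤ 3 →
          x ^ m * y ^ k ≤ (2 * Real.cos θ)⁻¹ ^ 3 := by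
        rintro x y (⟨rfl, rfl⟩ | ⟨rfl, rfl⟩) m k hmk
        · rw [mul_comm]
          exact pow_alt h0' hc1 (by rwa [abs_sub_comm])
        · exact pow_alt h0' hc1 hmk
      unfold Tj
      rw [jn_w, jn_w']
      refine key ?_ halt
      split_ifs
      · rcases hv with hv | hv
        · exact Or.inr ⟨hv.2, hv.1⟩
        · exact Or.inl ⟨hv.2, hv.1⟩
      · exact hv
  · -- killed
    have hw0 := (far_start (r := r.toRow) (b := r.kf) (t := m0 r.toRow r.kf) (ρ := ρ) hL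
      (by show _ ≤ r.L + 1; omega) hm1.1 (by show ρ < r.L; omega)).1
    have hR := rays_rqr (r := r.toRow) (b := r.kf) (t := m0 r.toRow r.kf) (ρ := ρ) hL
      (by show _ ≤ r.L + 1; omega) hρ1
    have hw0' : w0 r.toRow r.kf ∉ Bq r.zm ρ := by rw [hzm]; exact hw0
    have hR' : Rays r.I (Bq r.zm ρ : Set (ℤ × ℤ)) := by rw [hzm]; exact hR
    have hov : min i j < m0 r.toRow r.kf ∧ m0 r.toRow r.kf ≤ max i j := by
      split_ifs at hdir <;> omega
    have hij : i < r.L ∧ j < r.L := by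
      obtain ⟨i0, j0, F0, -, -, -, hB⟩ := H871.Q.row_cls (b := r.kf) hL hR' hw0' F.out F.tl F.rt
        hst
      have ei : i0 = i := by
        by_contra hne
        exact XDL.be_ne (H871.Q.rqr_polygon (r := r.toRow) (b := r.kf) hL) F0.hi F.hi hne
          (F0.e1.symm.trans F.e1)
      have ej : j0 = j := by
        by_contra hne
        exact XDL.be_ne (H871.Q.rqr_polygon (r := r.toRow) (b := r.kf) hL) F0.hj F.hj hne
          (F0.e2.symm.trans F.e2)
      subst ei ej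
      by_contra hcon
      have h6 := hB r.L (by show r.L ≤ 2 * r.L + 2; omega) (by omega) (by omega) _ (isC_w1 hL)
      have aJ : Alm (r.sq r.k0) ρ (Bq r.zm ρ) := alm_of (hG.cm hp)
      have h5 := aJ.nm h6
      unfold w1 at h5
      rw [sq_sqm, nm_sqm, abs_le] at h5
      split_ifs at h5 <;> omega
    have hval := val_mid (z := z) hP hs hL hR' hw0' hf F hst hij.1 hij.2
      (by show r.k0 ≤ r.L; omega) hov.1 hov.2
    have h0 : rS θ r.I (r.wall θ z).a ω e = 0 := by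
      rcases hkind with ⟨k1, k2⟩ | ⟨k1, k2⟩
      · have hv := (v_K1 (b := r.kf) hs h.s k1).1 (c1.trans k2)
        split_ifs at hdir
        · exact (hval.1 (by omega)).trans hv.1
        · exact (hval.2 (by omega)).trans hv.2
      · have hv := v_K3 (b := r.kf) k1 (c1.trans k2)
        have hj0 : r.j ≠ 0 := by
          intro h5
          rw [h5, abs_zero] at k2
          linarith
        have hpar := h.gd k1 hj0
        rcases h.s with h5 | h5
        · rw [h5, mul_one] at hpar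
          have := par_cz.1 hpar
          rw [show cz r.zm = false from this, if_neg (by decide)] at hdir
          exact (hval.2 (by omega)).trans (hv.1 h5)
        · rw [h5, mul_neg, mul_one, neg_inj] at hpar
          have := par_cz.2 hpar
          rw [show cz r.zm = true from this, if_pos rfl] at hdir
          exact (hval.1 (by omega)).trans (hv.2 h5)
    rw [GG_zero (mem_GG.2 ⟨⟨F.out, F.tl, F.rt⟩, Or.inr (Or.inr ⟨hp, hin⟩)⟩) h0, hTm, M0,
      mul_zero]

end Vale.Agent.P167.N.ID
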