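import Vale.Agent.P167.N.ID.WtE

/-!
# P167, `q < 1`: the values of the strands over the column `k0`

`ch r b`: the charge of the column `k0` on the face `b` (`+ |j|` on the killed face, `- |j|` on the
other face). `vP`, `vM`: the relative weights of the strands over the column, in the two directions.
-/

set_option autoImplicit false

namespace Vale.Agent.P167.N.ID.W

open Finset
open Vale.Agent.P167 Vale.Agent.P167.N.ID
open Vale.Agent.P167.Top
open Vale.Agent.P167.E6 (IsPolygon Encloses dir)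
open Vale.Agent.P167.BR (be be_even be_odd)
open Vale.Agent.P167.XDL (bS mem_bS)
open Vale.Agent.P167.FK
open Vale.Agent.P167.H199 (strand ret Returns mem_strand ret_min ret_le)
open Vale.Agent.P167.QX (exc mem_exc exc_last ExtPot out_stays returns_good rS natS ClT lst wS InB
  rS_nonneg)
open Vale.Agent.P167.H945.Q (face faces natw relw Plain tj jn lrs)
open Vale.Agent.P167.H871 (IsC)
open Vale.Agent.P167.H871.Q hiding ah_thk at_thk thk_off cang_thk rS_eq

variable {r : H825.Q.Row} {b b' b'' g : Bool} {v zt zm : ℤ × ℤ} {k l : ℕ} {ω ω' : Cfg}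
  {B : Finset (ℤ × ℤ)} {e e' x : Ed} {I : Finset (ℤ × ℤ)} {i j t lo hi : ℕ} {θ z : ℝ}
  {Φ sa : Ed → ℝ} {d ρ : ℤ}

/-- The charge of the column `k0` on the face `b`. -/
noncomputable def ch (r : H825.Q.Row) (b : Bool) : ℝ := if r.o = b then r.j else -r.j

/-- The position of the column `k0` of the face `b` on the contour. -/
def m0 (r : H825.Q.Row) (b : Bool) : ℕ := if r.o = b then r.L - r.k0 else r.k0

/-- The relative weight of the strands `i < j` over the column. -/
noncomputable def vP (θ : ℝ) (r : H825.Q.Row) (b : Bool) : ℝ := relw θ 2 (ch r b) r.s (r.s * r.η)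

/-- The relative weight of the strands `j < i` over the column. -/
noncomputable def vM (θ : ℝ) (r : H825.Q.Row) (b : Bool) : ℝ :=
  relw θ (-2) (-ch r b) r.s (r.s * r.η)

theorem jn_w : (jn θ r b).w = if r.o = b then vM θ r b else vP θ r b := by
  unfold vM vP ch jn tj
  by_cases h : r.o = b
  · rw [if_pos h, if_pos h, if_pos h]
  · simp only [if_neg h]

theorem jn_w' : (jn θ r b).w' = if r.o = b then vP θ r b else vM θ r b := by
  unfold vM vP ch jn tj
  by_cases h : r.o = b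
  · simp only [if_pos h, neg_neg]
  · simp only [if_neg h, neg_neg]

/-- **The value of a strand over the column `k0`**, in terms of the contour. -/
theorem val_mid (hP : Ph r θ g Φ sa) (hθ : 0 < Real.sin θ) (hL : 1 ≤ r.L)
    (hR : Rays r.I (B : Set (ℤ × ℤ))) (h0 : w0 r b ∉ B) (hf : Frz r ω)
    (F : Foot (rqr r b) r.I ω e i j) (hst : Stays r.I (B : Set (ℤ × ℤ)) ω e)
    (hi : i < r.L) (hj : j < r.L) (hk0 : r.k0 ≤ r.L) (h1 : min i j < m0 r b)
    (h2 : m0 r b ≤ max i j) :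
    (i < j → rS θ r.I (thk r.I Φ sa z).a ω e = vP θ r b) ∧
    (j < i → rS θ r.I (thk r.I Φ sa z).a ω e = vM θ r b) := by
  have hs : Str r.I ω e := ⟨F.out, F.tl, F.rt⟩
  have e1 : e = face r b (fk r b i) := F.e1.trans (be_face hL hi)
  have e2 : lst r.I ω e = face r b (fk r b j) := F.e2.trans (be_face hL hj)
  have f1 := fk_lt (b := b) hi
  have f2 := fk_lt (b := b) hj
  have up : fk r b i < r.k0 → r.k0 ≤ fk r b j →
      rS θ r.I (thk r.I Φ sa z).a ω e = (jn θ r b).w := fun g1 g2 =>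
    val_up hP hθ hL hR h0 hf hk0 (mem_lrs'.2 ⟨by rw [e1]; exact mem_faces (Nat.zero_le _) g1, hs,
      by rw [e2]; exact mem_faces g2 f2, hst⟩)
  have dn : r.k0 ≤ fk r b i → fk r b j < r.k0 →
      rS θ r.I (thk r.I Φ sa z).a ω e = (jn θ r b).w' := fun g1 g2 =>
    val_dn hP hθ hL hR h0 hf (mem_lrs'.2 ⟨by rw [e1]; exact mem_faces g1 f1, hs,
      by rw [e2]; exact mem_faces (Nat.zero_le _) g2, hst⟩)
  rw [jn_w] at up
  rw [jn_w'] at dn
  unfold m0 at h1 h2
  unfold fk at up dn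
  by_cases ho : r.o = b
  · simp only [if_pos ho] at h1 h2 up dn
    exact ⟨fun h => dn (by omega) (by omega), fun h => up (by omega) (by omega)⟩
  · simp only [if_neg ho] at h1 h2 up dn
    exact ⟨fun h => up (by omega) (by omega), fun h => dn (by omega) (by omega)⟩

/-- The strands over the column which stay in a box without the ends, in terms of the contour. -/
theorem lrs_foot (hL : 1 ≤ r.L) (hk0 : r.k0 ≤ r.L)
    (he : e ∈ lrs r.I (faces r b 0 r.k0) (faces r b r.k0 r.L) B ω ∨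
      e ∈ lrs r.I (faces r b r.k0 r.L) (faces r b 0 r.k0) B ω) :
    ∃ i j, Foot (rqr r b) r.I ω e i j ∧ Stays r.I (B : Set (ℤ × ℤ)) ω e ∧ min i j < m0 r b ∧
      m0 r b ≤ max i j := by
  have key : ∀ {k l : ℕ}, k < r.L → l < r.L → e = face r b k → lst r.I ω e = face r b l →
      Str r.I ω e → Foot (rqr r b) r.I ω e (fk r b k) (fk r b l) := by
    intro k l hk hl g1 g2 hs
    have h1 := fk_lt (b := b) hk
    have h2 := fk_lt (b := b) hl
    have e1 := be_face (b := b) hL h1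
    rw [fk_fk hk, ← g1] at e1
    have e2 := be_face (b := b) hL h2
    rw [fk_fk hl, ← g2] at e2
    exact ⟨by omega, by omega, hs.out, hs.tl, hs.rt, e1.symm, e2.symm⟩
  rcases he with he | he
  · obtain ⟨h1, hs, h2, hst⟩ := mem_lrs'.1 he
    obtain ⟨k, hk, h3⟩ := mem_image.1 h1
    obtain ⟨l, hl, h4⟩ := mem_image.1 h2
    rw [mem_Ico] at hk hl
    refine ⟨_, _, key (by omega) hl.2 h3.symm h4.symm hs, hst, ?_⟩
    unfold m0 fk
    split_ifs <;> omega
  · obtain ⟨h1, hs, h2, hst⟩ := mem_lrs'.1 he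
    obtain ⟨k, hk, h3⟩ := mem_image.1 h1
    obtain ⟨l, hl, h4⟩ := mem_image.1 h2
    rw [mem_Ico] at hk hl
    refine ⟨_, _, key hk.2 (by omega) h3.symm h4.symm hs, hst, ?_⟩
    unfold m0 fk
    split_ifs <;> omega

/-- No strand over the column: the factor is `1`. -/
theorem Tj_one (hL : 1 ≤ r.L) (hk0 : r.k0 ≤ r.L) (hN : NoOv r b B ω (m0 r b)) :
    Tj θ r b B ω = 1 := by
  have h1 : lrs r.I (faces r b 0 r.k0) (faces r b r.k0 r.L) B ω = ∅ := by
    rw [eq_empty_iff_forall_notMem]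
    intro e he
    obtain ⟨i, j, F, hst, h1, h2⟩ := lrs_foot hL hk0 (Or.inl he)
    exact hN e i j F hst ⟨h1, h2⟩
  have h2 : lrs r.I (faces r b r.k0 r.L) (faces r b 0 r.k0) B ω = ∅ := by
    rw [eq_empty_iff_forall_notMem]
    intro e he
    obtain ⟨i, j, F, hst, h1, h2⟩ := lrs_foot hL hk0 (Or.inr he)
    exact hN e i j F hst ⟨h1, h2⟩
  unfold Tj
  rw [h1, h2, card_empty, pow_zero, pow_zero, mul_one]

/-! ### the kinds -/

theorem relw_mix {t d s : ℝ} (hs : s = 1 ∨ s = -1) :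
    relw θ t d s (s * -1) = |Real.cos (θ / 4 * t + d)| / Real.sin θ := by
  unfold relw natw
  rw [if_neg, show θ / 4 * t + d + (s + s * -1) * ((3 * θ - Real.pi) / 4) = θ / 4 * t + d by ring]
  rintro ⟨h, -⟩
  rcases hs with rfl | rfl <;> norm_num at h

theorem v_mix (hs : r.s = 1 ∨ r.s = -1) (hη : r.η = -1) :
    vP θ r b = |Real.cos (θ / 2 + ch r b)| / Real.sin θ ∧
    vM θ r b = |Real.cos (θ / 2 + ch r b)| / Real.sin θ := by
  unfold vP vM
  rw [hη, relw_mix hs, relw_mix hs]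
  refine ⟨?_, ?_⟩
  · congr 2
    ring_nf
  · rw [← Real.cos_neg]
    congr 2
    ring_nf

/-- The other face of a junction of the first kind is natural, the killed face has the weight `0`. -/
theorem v_K1 (hθ : 0 < Real.sin θ) (hs : r.s = 1 ∨ r.s = -1) (hη : r.η = -1) :
    (ch r b = (Real.pi - θ) / 2 → vP θ r b = 0 ∧ vM θ r b = 0) ∧
    (ch r b = -((Real.pi - θ) / 2) → vP θ r b = 1 ∧ vM θ r b = 1) := by
  obtain ⟨h1, h2⟩ := v_mix (θ := θ) (b := b) hs hη
  rw [h1, h2]
  constructor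
  · intro h
    rw [h, show θ / 2 + (Real.pi - θ) / 2 = Real.pi / 2 by ring, Real.cos_pi_div_two]
    simp
  · intro h
    rw [h, show θ / 2 + -((Real.pi - θ) / 2) = θ - Real.pi / 2 by ring, Real.cos_sub_pi_div_two,
      abs_of_pos hθ, div_self hθ.ne']
    exact ⟨rfl, rfl⟩

theorem v_K2 (hθ : 0 < Real.sin θ) (hc : 0 < Real.cos θ) (hs : r.s = 1 ∨ r.s = -1)
    (hη : r.η = -1) :
    (ch r b = (3 * θ - Real.pi) / 2 → vP θ r b = 2 * Real.cos θ ∧ vM θ r b = 2 * Real.cos θ) ∧
    (ch r b = -((3 * θ - Real.pi) / 2) → vP θ r b = 1 ∧ vM θ r b = 1) := by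
  obtain ⟨h1, h2⟩ := v_mix (θ := θ) (b := b) hs hη
  rw [h1, h2]
  constructor
  · intro h
    rw [h, show θ / 2 + (3 * θ - Real.pi) / 2 = 2 * θ - Real.pi / 2 by ring,
      Real.cos_sub_pi_div_two, Real.sin_two_mul, abs_of_pos (by positivity)]
    have : 2 * Real.sin θ * Real.cos θ / Real.sin θ = 2 * Real.cos θ := by
      field_simp
    exact ⟨this, this⟩
  · intro h
    rw [h, show θ / 2 + -((3 * θ - Real.pi) / 2) = Real.pi / 2 - θ by ring,
      Real.cos_pi_div_two_sub, abs_of_pos hθ, div_self hθ.ne']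
    exact ⟨rfl, rfl⟩

/-- The killed face of a base: the strands of the zero type have the weight `0`. -/
theorem v_K3 (hη : r.η = 1) (h : ch r b = θ) :
    (r.s = 1 → vM θ r b = 0) ∧ (r.s = -1 → vP θ r b = 0) := by
  unfold vP vM relw
  rw [h, hη, mul_one]
  constructor
  · intro hs
    rw [hs, show θ / 4 * -2 + -θ + (1 + 1) * ((3 * θ - Real.pi) / 4) = -(Real.pi / 2) by ring,
      Real.cos_neg, Real.cos_pi_div_two, abs_zero, zero_div]
  · intro hs
    rw [hs, show θ / 4 * 2 + θ + (-1 + -1) * ((3 * θ - Real.pi) / 4) = Real.pi / 2 by ring,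
      Real.cos_pi_div_two, abs_zero, zero_div]

/-- The invisible face of a base. -/
theorem v_K3' (hθ : 0 < Real.sin θ) (hc : 0 < Real.cos θ) (hs : r.s = 1 ∨ r.s = -1) (hη : r.η = 1)
    (h : ch r b = -θ) :
    (vP θ r b = (2 * Real.cos θ)⁻¹ ∧ vM θ r b = 2 * Real.cos θ) ∨
    (vP θ r b = 2 * Real.cos θ ∧ vM θ r b = (2 * Real.cos θ)⁻¹) := by
  have hθ2 : 0 < Real.sin (2 * θ) := by rw [Real.sin_two_mul]; positivity
  have c1 : |Real.sin θ| / Real.sin (2 * θ) = (2 * Real.cos θ)⁻¹ := by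
    rw [abs_of_pos hθ, Real.sin_two_mul]
    field_simp
  have c2 : |Real.sin (2 * θ)| / Real.sin θ = 2 * Real.cos θ := by
    rw [abs_of_pos hθ2, Real.sin_two_mul]
    field_simp
  unfold vP vM relw natw
  rw [h, hη, mul_one, neg_neg]
  rcases hs with hs | hs
  · left
    rw [hs, if_pos ⟨rfl, by norm_num⟩, if_neg (fun h => by norm_num at h),
      show θ / 4 * 2 + -θ + (1 + 1) * ((3 * θ - Real.pi) / 4) = θ - Real.pi / 2 by ring,
      show θ / 4 * -2 + θ + (1 + 1) * ((3 * θ - Real.pi) / 4) = 2 * θ - Real.pi / 2 by ring,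
      Real.cos_sub_pi_div_two, Real.cos_sub_pi_div_two]
    exact ⟨c1, c2⟩
  · right
    rw [hs, if_neg (fun h => by norm_num at h), if_pos ⟨rfl, by norm_num⟩,
      show θ / 4 * 2 + -θ + (-1 + -1) * ((3 * θ - Real.pi) / 4) = Real.pi / 2 - 2 * θ by ring,
      show θ / 4 * -2 + θ + (-1 + -1) * ((3 * θ - Real.pi) / 4) = Real.pi / 2 - θ by ring,
      Real.cos_pi_div_two_sub, Real.cos_pi_div_two_sub]
    exact ⟨c2, c1⟩

end Vale.Agent.P167.N.ID.W
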